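import Crest.Agent.R059.NumBind_469

set_option autoImplicit false

/-!
# Row 59, leaf NUM: `ABNum → ABOut` (helper217; thin wrapper of `NumBind_469.abOut_of_abNum`)

The independent proof that stood here used `Num469.zform` / `Num469.tw`, which were renamed in
`NumCount_469`; the statement is kept for references.
-/

namespace Crest.Agent.R059.ABFin217

/-- **the numeric output of Theorems A + B gives `ABOut`**. -/
theorem abOut_of_num (h : ABNum) : ABOut := Num469.abOut_of_abNum h

end Crest.Agent.R059.ABFin217
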