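import Crest.Agent.R059.Clo_987
import Crest.Agent.R059.Fac_150
import Crest.Agent.R059.Dilog_344

set_option autoImplicit false

/-!
Row 59 (S0081), the JOINT block: definitions (owner helper853).

Conventions: GRND_883 (`T = twK β`, `T.v = v` the Laurent variable, `X_a X_b = v^{β(a,b)} X_{a+b}`),
factors `dil T c p a` of Dilog_344 (`p = true` odd, `E_p(v^a X_c)`), parity of a class `Q : M → ZMod 2`
with `Q (a+b) = Q a + Q b + β a b`.
-/

namespace Crest.Agent.R059

open Finset HasAntidiagonal PowerSeries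

namespace TPS

section defs

variable {M : Type*} [AddCommMonoid M] {R : Type*} [CommRing R]

/-- the series `∑ₙ e n • X_{n c}` on the ray of `c ≠ 0`. -/
noncomputable def ray (T : Tw M R) (c : M) (e : ℕ → R) : TPS T :=
  ⟨Function.extend (fun k : ℕ => k • c) e 0⟩

/-- parity as a Boolean: `true` = odd. -/
def par (Q : M → ZMod 2) (c : M) : Bool := decide (Q c = 1)

/-- the factor of type `(c, a)`: `E_{Q c}(v^a X_c)`. -/
noncomputable def QDil (T : Tw M R) (Q : M → ZMod 2) (c : M) (a : ℤ) : TPS T :=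
  dil T c (par Q c) a

/-- factors of the classes `c ∈ L`, `c ≠ 0`, `s k c = 0`. -/
def RayGen (T : Tw M R) (Q : M → ZMod 2) (L : AddSubmonoid M) (s : M →+ M →+ ℤ) (k : M) :
    Set (TPS T) :=
  {f | ∃ (c : M) (a : ℤ), c ∈ L ∧ c ≠ 0 ∧ s k c = 0 ∧ f = QDil T Q c a}

/-- limits of finite products of such factors. -/
def DT [HasAntidiagonal M] [TopologicalSpace R] (T : Tw M R) (Q : M → ZMod 2)
    (L : AddSubmonoid M) (s : M →+ M →+ ℤ) (k : M) : Set (TPS T) :=
  closure (Submonoid.closure (RayGen T Q L s k) : Set (TPS T))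

end defs

section eco

variable {K : Type*} [Field K]

/-- `∏_{i=1..n} (1 - τ^{2i})`. -/
def qpo (τ : Kˣ) (n : ℕ) : K := ∏ i ∈ range n, (1 - (τ : K) ^ (2 * (i + 1)))

/-- coefficients of `E_par(τ^a X)`, `q = τ^2`: odd (`par = 1`) `τ^{an} τ^{n(n-1)} / ∏ (1-τ^{2i})`,
even (`par = 0`) `τ^{an} / ∏ (1-τ^{2i})`. -/
def eco (τ : Kˣ) (par : ZMod 2) (a : ℤ) (n : ℕ) : K :=
  ((τ ^ (a * (n : ℤ)) : Kˣ) : K) * (if par = 0 then 1 else (τ : K) ^ (n * (n - 1))) / qpo τ n

/-- `eco` = coefficients of 344's `EE`. -/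
theorem coeff_EE_eq_eco (τ : Kˣ) (P : ZMod 2) (a : ℤ) (n : ℕ) :
    coeff n (Dilog344.EE τ (decide (P = 1)) a) = eco τ P a n := by
  have hqp : Dilog344.qp1 ((τ : K) ^ 2) n = qpo τ n := by
    rw [Dilog344.qp1, qpo]
    exact Finset.prod_congr rfl fun i _ => by rw [← pow_mul]
  have hz : (((τ ^ a : Kˣ) : K)) ^ n = ((τ ^ (a * (n : ℤ)) : Kˣ) : K) := by
    rw [zpow_mul, zpow_natCast, Units.val_pow_eq_pow_val]
  have h2 : n * (n - 1) / 2 * 2 = n * (n - 1) :=
    Nat.div_mul_cancel (Nat.even_mul_pred_self n).two_dvd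
  have hP : P = 0 ∨ P = 1 := by
    revert P; decide
  rw [Dilog344.EE, coeff_rescale, hz, eco]
  rcases hP with h | h
  · subst h
    simp only [zero_ne_one, decide_false, cond_false, if_true]
    rw [Dilog344.coeff_Ee, Dilog344.ec, hqp, Ring.inverse_eq_inv', mul_one, div_eq_mul_inv]
  · subst h
    simp only [decide_true, cond_true, one_ne_zero, if_false]
    rw [Dilog344.coeff_Eo, Dilog344.ec, hqp, Ring.inverse_eq_inv', ← pow_mul, mul_comm 2, h2,
      div_eq_mul_inv, mul_assoc]

end eco

section jmain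

variable {M : Type*} [AddCommMonoid M] [HasAntidiagonal M] {R : Type*} [CommRing R]

/-- **JMAIN** (abstract in the family `Dil c a` of factors and in the positive sets `D k`).
`l` = finite list of factors `(c, a)`, `c ∈ L \ {0}`, in incoming order `s(c_i, c_j) ≤ 0`, `i < j`;
`p z n` = factorisation of the product by the sign of `x = -s(k, ·)`; then `z ∈ D k`. -/
def JMAIN (T : Tw M R) (L : AddSubmonoid M) (s : M →+ M →+ ℤ) (Dil : M → ℤ → TPS T)
    (D : M → Set (TPS T)) : Prop :=
  ∀ (l : List (M × ℤ)), (∀ u ∈ l, u.1 ∈ L ∧ u.1 ≠ 0) →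
    l.Pairwise (fun u w => s u.1 w.1 ≤ 0) →
    ∀ k ∈ L, k ≠ 0 → ∀ p z n : TPS T, In1 (fun m => s k m < 0) p → In1 (fun m => s k m = 0) z →
      In1 (fun m => 0 < s k m) n → p * z * n = (l.map fun u => Dil u.1 u.2).prod → z ∈ D k

end jmain

section quad

variable {I : Type*} [Fintype I] [LinearOrder I]

/-- the upper triangular half of a form. -/
noncomputable def upHalf (β : (I →₀ ℕ) →+ (I →₀ ℕ) →+ ℤ) (a b : I →₀ ℕ) : ℤ :=
  ∑ i, ∑ j, if i < j then (a i : ℤ) * (b j : ℤ) * β (Finsupp.single i 1) (Finsupp.single j 1) else 0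

omit [LinearOrder I] in
theorem form_eq_sum (β : (I →₀ ℕ) →+ (I →₀ ℕ) →+ ℤ) (a b : I →₀ ℕ) :
    β a b = ∑ i, ∑ j, (a i : ℤ) * (b j : ℤ) * β (Finsupp.single i 1) (Finsupp.single j 1) := by
  have ha : a = ∑ i, a i • Finsupp.single i 1 := by
    ext j
    simp
  have hb : b = ∑ i, b i • Finsupp.single i 1 := by
    ext j
    simp
  conv_lhs => rw [ha, hb]
  rw [map_sum β, AddMonoidHom.finsetSum_apply]
  refine Finset.sum_congr rfl fun i _ => ?_
  rw [map_sum]
  refine Finset.sum_congr rfl fun j _ => ?_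
  rw [map_nsmul, map_nsmul, AddMonoidHom.nsmul_apply]
  simp only [nsmul_eq_mul]
  ring

/-- a parity function with given values on the basis exists. -/
theorem exists_parity (β : (I →₀ ℕ) →+ (I →₀ ℕ) →+ ℤ) (hβ : ∀ a b, β a b = - β b a)
    (q0 : I → ZMod 2) :
    ∃ Q : (I →₀ ℕ) → ZMod 2, (∀ a b, Q (a + b) = Q a + Q b + (β a b : ZMod 2)) ∧
      ∀ i, Q (Finsupp.single i 1) = q0 i := by
  classical
  refine ⟨fun m => (∑ i, (m i : ZMod 2) * q0 i) + (upHalf β m m : ZMod 2), ?_, ?_⟩
  · intro a b
    have h1 : upHalf β (a + b) (a + b) =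
        upHalf β a a + upHalf β b b + (upHalf β a b + upHalf β b a) := by
      simp only [upHalf, ← Finset.sum_add_distrib]
      refine Finset.sum_congr rfl fun i _ => Finset.sum_congr rfl fun j _ => ?_
      split_ifs
      · simp only [Finsupp.add_apply]; push_cast; ring
      · ring
    have h2 : upHalf β a b + upHalf β b a = β a b + 2 * upHalf β b a := by
      have h3 : β a b = upHalf β a b - upHalf β b a := by
        rw [form_eq_sum β a b]
        have h4 : upHalf β b a = ∑ i, ∑ j, if j < i then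
            (b j : ℤ) * (a i : ℤ) * β (Finsupp.single j 1) (Finsupp.single i 1) else 0 := by
          rw [upHalf, Finset.sum_comm]
        rw [h4, upHalf, ← Finset.sum_sub_distrib]
        refine Finset.sum_congr rfl fun i _ => ?_
        rw [← Finset.sum_sub_distrib]
        refine Finset.sum_congr rfl fun j _ => ?_
        rcases lt_trichotomy i j with h | h | h
        · rw [if_pos h, if_neg (not_lt.2 h.le)]; ring
        · subst h
          rw [if_neg (lt_irrefl _), if_neg (lt_irrefl _)]
          have := hβ (Finsupp.single i 1) (Finsupp.single i 1)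
          have h0 : β (Finsupp.single i 1) (Finsupp.single i 1) = 0 := by omega
          rw [h0]; ring
        · rw [if_neg (not_lt.2 h.le), if_pos h, hβ (Finsupp.single j 1) (Finsupp.single i 1)]
          ring
      rw [h3]; ring
    simp only [h1, h2, Finsupp.add_apply]
    push_cast
    have h5 : (2 : ZMod 2) = 0 := rfl
    rw [h5]
    simp only [add_mul, Finset.sum_add_distrib]
    ring
  · intro i
    have h1 : upHalf β (Finsupp.single i 1) (Finsupp.single i 1) = 0 := by
      refine Finset.sum_eq_zero fun j _ => Finset.sum_eq_zero fun k _ => ?_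
      split_ifs with h
      · by_cases hj : i = j
        · subst hj
          have : Finsupp.single i (1 : ℕ) k = 0 := Finsupp.single_eq_of_ne (ne_of_gt h)
          rw [this]; simp
        · have : Finsupp.single i (1 : ℕ) j = 0 := Finsupp.single_eq_of_ne (Ne.symm hj)
          rw [this]; simp
      · rfl
    simp only [h1]
    rw [Finset.sum_eq_single i]
    · simp
    · intro j _ hj
      have : Finsupp.single i (1 : ℕ) j = 0 := Finsupp.single_eq_of_ne hj
      rw [this]; simp
    · simp

end quad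

end TPS

end Crest.Agent.R059
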