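import Crest.Agent.R059.Grnd_883
import Crest.Agent.R059.JDefs_853

set_option autoImplicit false

/-!
Row 59 (S0081).  FROZEN OUTPUT of Theorems A + B (consumed by NUM / JOINT, 853 + 269 + 469).

`I` finite, `k : I → I → ℕ`, `θ : I → ℤ`; exponents `I →₀ ℕ`, `kk d e = ∑ k i j d_i e_j`,
ring `y^d y^e = q^{kk d e} y^{d+e}`, `q = vv^2` (`vv = T` the variable of `KK`);
`gser = ∑_d ∏_i (q^{d_i(d_i-1)/2} / ∏_{r ≤ d_i} (1-q^r)) y^d`.
If `kk` is symmetric on `θ = 0` then `zer θ gser` is a limit of finite products of the series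
`E_{par c}(q^p y^c)`, `c ≠ 0`, `θ c = 0`, `p : ℕ`, `par c = |c| + kk c c mod 2`.
-/

namespace Crest.Agent.R059

open Finset

namespace ABOut

variable {I : Type} [Fintype I]

/-- the bilinear form `∑ k i j d_i e_j`. -/
noncomputable def kk (k : I → I → ℕ) : (I →₀ ℕ) →+ (I →₀ ℕ) →+ ℤ where
  toFun d :=
    { toFun := fun e => ∑ i, ∑ j, (k i j : ℤ) * (d i : ℤ) * (e j : ℤ)
      map_zero' := by simp
      map_add' := fun e f => by
        simp only [Finsupp.add_apply, Nat.cast_add, mul_add, sum_add_distrib] }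
  map_zero' := by ext e; simp
  map_add' d e := by
    apply AddMonoidHom.ext
    intro f
    simp only [AddMonoidHom.coe_mk, ZeroHom.coe_mk, AddMonoidHom.add_apply, Finsupp.add_apply,
      Nat.cast_add, mul_add, add_mul, sum_add_distrib]

@[simp] theorem kk_apply (k : I → I → ℕ) (d e : I →₀ ℕ) :
    kk k d e = ∑ i, ∑ j, (k i j : ℤ) * (d i : ℤ) * (e j : ℤ) := rfl

/-- the functional `∑ θ_i d_i`. -/
noncomputable def th (θ : I → ℤ) : (I →₀ ℕ) →+ ℤ where
  toFun d := ∑ i, θ i * (d i : ℤ)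
  map_zero' := by simp
  map_add' d e := by simp only [Finsupp.add_apply, Nat.cast_add, mul_add, sum_add_distrib]

@[simp] theorem th_apply (θ : I → ℤ) (d : I →₀ ℕ) : th θ d = ∑ i, θ i * (d i : ℤ) := rfl

/-- the ring `y^d y^e = q^{kk d e} y^{d+e}`, `q = vv^2`. -/
noncomputable def TW (k : I → I → ℕ) : Tw (I →₀ ℕ) KK := ⟨vv ^ 2, kk k⟩

/-- the quiver series. -/
noncomputable def gser (k : I → I → ℕ) : TPS (TW k) :=
  ⟨fun d => ∏ i, TPS.eco vv 1 0 (d i)⟩

/-- parity of a class. -/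
noncomputable def par (k : I → I → ℕ) (c : I →₀ ℕ) : ZMod 2 := ((∑ i, c i : ℕ) : ZMod 2) + ((kk k c c : ℤ) : ZMod 2)

/-- the series `E_{par c}(q^p y^c)`: coefficient of `y^{m c} ` is
`e_par(m) q^{p m} q^{kk c c m(m-1)/2}`. -/
noncomputable def letter (k : I → I → ℕ) (c : I →₀ ℕ) (p : ℕ) : TPS (TW k) :=
  TPS.ray (TW k) c (fun m => TPS.eco vv (par k c) (2 * p) m *
    ((vv ^ (kk k c c * (m * (m - 1) : ℕ)) : KKˣ) : KK))

/-- the letters of slope zero. -/
def Letters (k : I → I → ℕ) (θ : I → ℤ) : Set (TPS (TW k)) :=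
  {f | ∃ (c : I →₀ ℕ) (p : ℕ), c ≠ 0 ∧ th θ c = 0 ∧ f = letter k c p}

end ABOut

open ABOut in
/-- **THE OUTPUT OF THEOREMS A + B** (frozen). -/
def ABOut : Prop :=
  ∀ (I : Type) [Fintype I] [DecidableEq I] (k : I → I → ℕ) (θ : I → ℤ),
    (∀ d e : I →₀ ℕ, th θ d = 0 → th θ e = 0 → kk k d e = kk k e d) →
    TPS.zer (th θ) (gser k) ∈ closure (Submonoid.closure (Letters k θ) : Set (TPS (TW k)))

end Crest.Agent.R059
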