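import Mathlib

set_option autoImplicit false

/-!
# Row 59, leaf NUM: multiset form and finsupp form of the supermonomials (helper217)
-/

namespace Crest.Agent.R059.NumForm217

open Finset

variable {A M : Type*} [AddCommMonoid M]

/-- supermonomials, multiset form. -/
def SMm [DecidableEq A] (od : A → Prop) (cl : A → M) (kc w : A → ℕ) (kd : ℕ) (d : M) (n : ℕ) :
    Set (Multiset A) :=
  {s | (∀ x ∈ s, od x → s.count x ≤ 1) ∧ (s.map cl).sum = d ∧
    2 * n + (s.map kc).sum = 2 * (s.map w).sum + kd}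

/-- supermonomials, finsupp form. -/
def SMf (od : A → Prop) (cl : A → M) (kc w : A → ℕ) (kd : ℕ) (d : M) (n : ℕ) :
    Set (A →₀ ℕ) :=
  {φ | (∀ x, od x → φ x ≤ 1) ∧ (φ.sum fun x k => k • cl x) = d ∧
    2 * n + (φ.sum fun x k => k * kc x) = 2 * (φ.sum fun x k => k * w x) + kd}

theorem sum_map_eq (φ : A →₀ ℕ) (f : A → M) :
    ((Finsupp.toMultiset φ).map f).sum = φ.sum fun x k => k • f x := by
  induction φ using Finsupp.induction_linear with
  | zero => simp
  | add f g hf hg =>
    rw [map_add, Multiset.map_add, Multiset.sum_add, hf, hg, Finsupp.sum_add_index']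
    · intro x; exact zero_nsmul _
    · intro x a b; exact add_nsmul _ _ _
  | single a b => simp [Finsupp.toMultiset_single, Multiset.map_nsmul, Multiset.sum_nsmul]

theorem mem_iff [DecidableEq A] (od : A → Prop) (cl : A → M) (kc w : A → ℕ) (kd : ℕ) (d : M)
    (n : ℕ) (φ : A →₀ ℕ) :
    Finsupp.toMultiset φ ∈ SMm od cl kc w kd d n ↔ φ ∈ SMf od cl kc w kd d n := by
  simp only [SMm, SMf, Set.mem_ofPred_eq, sum_map_eq, smul_eq_mul, Finsupp.count_toMultiset]
  refine and_congr_left fun _ => ⟨fun h x ho => ?_, fun h x _ ho => h x ho⟩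
  by_cases hx : x ∈ Finsupp.toMultiset φ
  · exact h x hx ho
  · rw [← Finsupp.count_toMultiset, Multiset.count_eq_zero_of_notMem hx]; exact Nat.zero_le _

/-- the two forms are in bijection. -/
noncomputable def smEquiv [DecidableEq A] (od : A → Prop) (cl : A → M) (kc w : A → ℕ) (kd : ℕ)
    (d : M) (n : ℕ) : SMf od cl kc w kd d n ≃ SMm od cl kc w kd d n :=
  (Multiset.toFinsupp.symm.toEquiv.subtypeEquiv fun φ => (mem_iff od cl kc w kd d n φ).symm)

theorem card_eq [DecidableEq A] (od : A → Prop) (cl : A → M) (kc w : A → ℕ) (kd : ℕ) (d : M)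
    (n : ℕ) : Nat.card (SMm od cl kc w kd d n) = Nat.card (SMf od cl kc w kd d n) :=
  (Nat.card_congr (smEquiv od cl kc w kd d n)).symm

theorem ncard_eq [DecidableEq A] (od : A → Prop) (cl : A → M) (kc w : A → ℕ) (kd : ℕ) (d : M)
    (n : ℕ) : (SMm od cl kc w kd d n).ncard = (SMf od cl kc w kd d n).ncard := by
  rw [← Nat.card_coe_set_eq, ← Nat.card_coe_set_eq, card_eq]

end Crest.Agent.R059.NumForm217
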