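import Crest.Agent.R059.NumA_217
import Crest.Agent.R059.NumForm_217
import Crest.Agent.R059.ABOut_883

set_option autoImplicit false

/-!
# Row 59: the NUMERIC OUTPUT of Theorems A + B (naturals only), consumed by NUM (helper217)
-/

namespace Crest.Agent.R059

open PowerSeries Finset HasAntidiagonal

namespace ABNum

variable {I : Type} [Fintype I] [DecidableEq I]

/-- numeric output of Theorems A + B for one quiver `k` and one `θ`. -/
structure NumData (k : I → I → ℕ) (θ : I → ℤ) where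
  /-- dimensions of the alternating polynomials. -/
  h : (I →₀ ℕ) → ℕ → ℕ
  /-- dimensions of `H / I^>`. -/
  hg : (I →₀ ℕ) → ℕ → ℕ
  /-- dimensions of `H / I^≤`. -/
  hl : (I →₀ ℕ) → ℕ → ℕ
  /-- letter types `(c, p, i)`. -/
  Lam : Type
  /-- class of a letter type. -/
  cL : Lam → (I →₀ ℕ)
  /-- degree of a letter type. -/
  pL : Lam → ℕ
  hilb : ∀ d : I →₀ ℕ, (PowerSeries.mk fun n => ((h d n : ℕ) : ℤ)) *
    ∏ i, ∏ r ∈ range (d i), (1 - X ^ (r + 1)) = X ^ (∑ i, (d i).choose 2)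
  thA : ∀ (d : I →₀ ℕ) (n : ℕ), h d n = ∑ ab ∈ antidiagonal d,
    if NumA217.kkN k ab.1 ab.2 ≤ n then
      ∑ pr ∈ antidiagonal (n - NumA217.kkN k ab.1 ab.2), hg ab.1 pr.1 * hl ab.2 pr.2 else 0
  hg_zero : ∀ n, hg 0 n = if n = 0 then 1 else 0
  hl_zero : ∀ n, hl 0 n = if n = 0 then 1 else 0
  hg_supp : ∀ a, a ≠ 0 → ABOut.th θ a ≤ 0 → ∀ n, hg a n = 0
  hl_supp : ∀ b, 0 < ABOut.th θ b → ∀ n, hl b n = 0
  cL_ne : ∀ b, cL b ≠ 0
  cL_th : ∀ b, ABOut.th θ (cL b) = 0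
  fin : ∀ (c : I →₀ ℕ) (p : ℕ), {b | cL b = c ∧ pL b = p}.Finite
  thB : ∀ (inst : DecidableEq (Lam × ℕ)) (d : I →₀ ℕ), ABOut.th θ d = 0 → ∀ n, hl d n =
    (NumForm217.SMm (A := Lam × ℕ)
      (fun x => Odd ((∑ i, cL x.1 i) + NumA217.kkN k (cL x.1) (cL x.1)))
      (fun x => cL x.1)
      (fun x => NumA217.kkN k (cL x.1) (cL x.1))
      (fun x => pL x.1 + x.2)
      (NumA217.kkN k d d) d n).ncard

end ABNum

open ABNum in
/-- **numeric output of Theorems A + B**. -/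
def ABNum : Prop :=
  ∀ (I : Type) [Fintype I] [DecidableEq I] (k : I → I → ℕ) (θ : I → ℤ),
    (∀ d e : I →₀ ℕ, ABOut.th θ d = 0 → ABOut.th θ e = 0 → ABOut.kk k d e = ABOut.kk k e d) →
    Nonempty (NumData k θ)

end Crest.Agent.R059
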