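/-
Row 59 (S0081), helper157: the END of the argument.  If, in one number `N ≥ n` of variables, some
multiple `u · φ(X_G)` of the image of the chromatic quasisymmetric function in a coefficient ring `K`
is a polynomial in the elementary symmetric polynomials with coefficients in a subsemiring `P`, and
`u · φ p ∈ P` forces the integer polynomial `p` to have nonnegative coefficients, then `EPos h`.
-/
import Crest.Agent.R059.Stab
import Crest.Agent.R059.Theta

set_option autoImplicit false

open Crest.CombinatoricsR.UnitInterval MvPolynomial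

namespace Crest.Agent.R059.End157

open Crest.Agent.R059

variable {K : Type*} [CommRing K]

/-- polynomials in the elementary symmetric polynomials with coefficients in `P`. -/
noncomputable def PE (N : ℕ) (P : Subsemiring K) : Subsemiring (MvPolynomial (Fin N) K) :=
  Subsemiring.closure ({f | ∃ a ∈ P, f = C a} ∪ {f | ∃ k, f = esymm (Fin N) K k})

theorem C_mem_PE {N : ℕ} {P : Subsemiring K} {a : K} (ha : a ∈ P) :
    (C a : MvPolynomial (Fin N) K) ∈ PE N P :=
  Subsemiring.subset_closure (Or.inl ⟨a, ha, rfl⟩)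

theorem esymm_mem_PE (N : ℕ) (P : Subsemiring K) (k : ℕ) : esymm (Fin N) K k ∈ PE N P :=
  Subsemiring.subset_closure (Or.inr ⟨k, rfl⟩)

theorem C_mul_mem_PE {N : ℕ} {P : Subsemiring K} {a : K} (ha : a ∈ P)
    {f : MvPolynomial (Fin N) K} (hf : f ∈ PE N P) : C a * f ∈ PE N P :=
  (PE N P).mul_mem (C_mem_PE ha) hf

theorem prod_esymm_mem_PE {ι : Type*} (N : ℕ) (P : Subsemiring K) (s : Finset ι) (g : ι → ℕ) :
    ∏ i ∈ s, esymm (Fin N) K (g i) ∈ PE N P :=
  (PE N P).prod_mem (fun i _ => esymm_mem_PE N P (g i))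

/-- elements of the multiplicative closure of the generators. -/
theorem gen_form {N : ℕ} {P : Subsemiring K} {f : MvPolynomial (Fin N) K}
    (hf : f ∈ Submonoid.closure ({f : MvPolynomial (Fin N) K | ∃ a ∈ P, f = C a} ∪
      {f | ∃ k, f = esymm (Fin N) K k})) :
    ∃ a ∈ P, ∃ s : Multiset ℕ, f = C a * (s.map (fun k => esymm (Fin N) K k)).prod := by
  induction hf using Submonoid.closure_induction with
  | mem x hx =>
    rcases hx with ⟨a, ha, rfl⟩ | ⟨k, rfl⟩
    · exact ⟨a, ha, 0, by simp⟩
    · exact ⟨1, P.one_mem, {k}, by simp⟩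
  | one => exact ⟨1, P.one_mem, 0, by simp⟩
  | mul x y _ _ hx hy =>
    obtain ⟨a, ha, s, rfl⟩ := hx
    obtain ⟨b, hb, t, rfl⟩ := hy
    refine ⟨a * b, P.mul_mem ha hb, s + t, ?_⟩
    rw [Multiset.map_add, Multiset.prod_add, C_mul]
    ring

theorem homog_prod_esymm (N : ℕ) (s : Multiset ℕ) :
    ((s.map (fun k => esymm (Fin N) K k)).prod).IsHomogeneous s.sum := by
  have h1 : ∀ k, (esymm (Fin N) K k).IsHomogeneous k := by
    intro k
    unfold esymm
    apply IsHomogeneous.sum
    intro t ht
    rw [Finset.mem_powersetCard] at ht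
    have := IsHomogeneous.prod t (fun i => (X i : MvPolynomial (Fin N) K)) (fun _ => 1)
      (fun i _ => isHomogeneous_X K i)
    simpa [ht.2] using this
  induction s using Multiset.induction_on with
  | empty => simpa using isHomogeneous_one (Fin N) K
  | cons a s ih =>
    rw [Multiset.map_cons, Multiset.prod_cons, Multiset.sum_cons]
    exact (h1 a).mul ih

theorem prod_esymm_eq (N : ℕ) {n : ℕ} (s : Multiset ℕ) (hs : s.sum = n) :
    (s.map (fun k => esymm (Fin N) K k)).prod = esymmPart (Fin N) K (Nat.Partition.ofSums n s hs) := by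
  unfold esymmPart
  have h1 : (Nat.Partition.ofSums n s hs).parts = s.filter (· ≠ 0) := rfl
  rw [h1]
  clear h1 hs
  induction s using Multiset.induction_on with
  | empty => simp
  | cons a s ih =>
    by_cases ha : a = 0
    · subst ha
      rw [Multiset.map_cons, Multiset.prod_cons, ih, esymm_zero, one_mul,
        Multiset.filter_cons_of_neg s (p := fun x => x ≠ 0) (by simp)]
    · rw [Multiset.map_cons, Multiset.prod_cons, ih, Multiset.filter_cons_of_pos s (p := fun x => x ≠ 0) ha,
        Multiset.map_cons, Multiset.prod_cons]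

/-- the degree `n` part of an element of `PE` is a `P`-combination of the `e_μ`, `μ ⊢ n`. -/
theorem comp_of_mem {N : ℕ} {P : Subsemiring K} (n : ℕ) {f : MvPolynomial (Fin N) K}
    (hf : f ∈ PE N P) : ∃ c : Nat.Partition n → K, (∀ μ, c μ ∈ P) ∧
      homogeneousComponent n f = ∑ μ, C (c μ) * esymmPart (Fin N) K μ := by
  classical
  unfold PE at hf
  rw [Subsemiring.mem_closure_iff] at hf
  induction hf using AddSubmonoid.closure_induction with
  | mem x hx =>
    obtain ⟨a, ha, s, rfl⟩ := gen_form hx
    by_cases hs : s.sum = n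
    · refine ⟨fun μ => if μ = Nat.Partition.ofSums n s hs then a else 0, ?_, ?_⟩
      · intro μ
        beta_reduce
        split_ifs
        · exact ha
        · exact P.zero_mem
      · rw [homogeneousComponent_of_mem ((homog_prod_esymm N s).C_mul a), if_pos hs.symm,
          prod_esymm_eq N s hs, Finset.sum_eq_single (Nat.Partition.ofSums n s hs)]
        · simp only [if_true]
        · intro ν _ hν
          beta_reduce
          rw [if_neg hν, C_0, zero_mul]
        · intro h; exact absurd (Finset.mem_univ _) h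
    · refine ⟨fun _ => 0, fun _ => P.zero_mem, ?_⟩
      rw [homogeneousComponent_of_mem ((homog_prod_esymm N s).C_mul a), if_neg (Ne.symm hs)]
      simp
  | zero => exact ⟨fun _ => 0, fun _ => P.zero_mem, by simp⟩
  | add x y _ _ hx hy =>
    obtain ⟨c, hc, hc'⟩ := hx
    obtain ⟨d, hd, hd'⟩ := hy
    refine ⟨fun μ => c μ + d μ, fun μ => P.add_mem (hc μ) (hd μ), ?_⟩
    rw [map_add, hc', hd', ← Finset.sum_add_distrib]
    apply Finset.sum_congr rfl
    intro μ _
    rw [C_add, add_mul]

theorem map_esymmPart {R S : Type*} [CommRing R] [CommRing S] (φ : R →+* S) {n N : ℕ}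
    (μ : Nat.Partition n) :
    MvPolynomial.map φ (esymmPart (Fin N) R μ) = esymmPart (Fin N) S μ := by
  unfold esymmPart
  rw [map_multiset_prod, Multiset.map_map]
  congr 1
  apply Multiset.map_congr rfl
  intro p _
  exact map_esymm (Fin N) R p φ

/-- **END**: `e`-positivity from one positive expression of a multiple of the image of `X_G`. -/
theorem EPos_of_mem {n N : ℕ} (hN : n ≤ N) (h : Fin n → ℕ) (hh : IsHessenberg h)
    (P : Subsemiring K) (φ : Polynomial ℤ →+* K) (u : K)
    (hP : ∀ p : Polynomial ℤ, u * φ p ∈ P → ∀ k, 0 ≤ p.coeff k)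
    (hF : C u * MvPolynomial.map φ (chromaticQSym h N) ∈ PE N P) : EPos h := by
  classical
  obtain ⟨c, hc⟩ := Stab.exists_expansion h hh
  obtain ⟨d, hd, hd'⟩ := comp_of_mem n hF
  have h1 : C u * MvPolynomial.map φ (chromaticQSym h N) =
      ∑ μ, C (u * φ (c μ)) * esymmPart (Fin N) K μ := by
    rw [hc N, map_sum, Finset.mul_sum]
    apply Finset.sum_congr rfl
    intro μ _
    rw [map_mul, map_C, map_esymmPart, C_mul, mul_assoc]
  have hhom : (C u * MvPolynomial.map φ (chromaticQSym h N)).IsHomogeneous n := by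
    rw [h1]
    apply IsHomogeneous.sum
    intro μ _
    exact (Stab.homog_esymmPart μ).C_mul _
  rw [homogeneousComponent_of_mem hhom, if_pos rfl, h1] at hd'
  have h2 : ∑ μ, C (u * φ (c μ) - d μ) * esymmPart (Fin N) K μ = 0 := by
    simp only [C_sub, sub_mul, Finset.sum_sub_distrib]
    rw [hd', sub_self]
  have h3 := Palin.esymmPart_indep hN _ h2
  have h4 : ∀ μ, ∃ r : Polynomial ℕ, cast r = c μ := fun μ =>
    Stab.exists_cast (c μ) (hP (c μ) (by rw [sub_eq_zero.1 (h3 μ)]; exact hd μ))
  choose r hr using h4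
  refine ⟨r, fun M => ?_⟩
  rw [hc M]
  apply Finset.sum_congr rfl
  intro μ _
  rw [← hr μ]

end Crest.Agent.R059.End157
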