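/-
Row 59 (S0081), helper157: the END for `K = LaurentSeries ℚ` with the cone of series with
nonnegative coefficients.
-/
import Crest.Agent.R059.End_157

set_option autoImplicit false

open Crest.CombinatoricsR.UnitInterval MvPolynomial

namespace Crest.Agent.R059.End157

open Crest.Agent.R059

/-- Laurent series over `ℚ` with nonnegative coefficients. -/
def LSpos : Subsemiring (LaurentSeries ℚ) where
  carrier := {f | ∀ k : ℤ, 0 ≤ f.coeff k}
  mul_mem' := by
    intro a b ha hb k
    rw [HahnSeries.coeff_mul]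
    apply Finset.sum_nonneg
    intro p _
    exact mul_nonneg (ha p.1) (hb p.2)
  one_mem' := by
    intro k
    rw [HahnSeries.coeff_one]
    split_ifs <;> norm_num
  add_mem' := by
    intro a b ha hb k
    rw [HahnSeries.coeff_add]
    exact add_nonneg (ha k) (hb k)
  zero_mem' := by
    intro k
    rw [HahnSeries.coeff_zero]

theorem mem_LSpos {f : LaurentSeries ℚ} : f ∈ LSpos ↔ ∀ k : ℤ, 0 ≤ f.coeff k := Iff.rfl

/-- `hP` of `EPos_of_mem` for `u = τ^c`, `q ↦ τ^e`, `e ≠ 0`. -/
theorem LS_hP (φ : Polynomial ℤ →+* LaurentSeries ℚ) (c e : ℤ) (he : e ≠ 0)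
    (hφ : φ Polynomial.X = HahnSeries.single e 1) (p : Polynomial ℤ)
    (hp : (HahnSeries.single c 1 : LaurentSeries ℚ) * φ p ∈ LSpos) (k : ℕ) : 0 ≤ p.coeff k := by
  have h1 : ∀ j : ℕ, (HahnSeries.single e (1 : ℚ) : LaurentSeries ℚ) ^ j =
      HahnSeries.single (e * j) 1 := by
    intro j
    rw [HahnSeries.single_pow, one_pow]
    congr 2
    simp [mul_comm]
  have h2 : (HahnSeries.single c 1 : LaurentSeries ℚ) * φ p =
      ∑ j ∈ Finset.range (p.natDegree + 1),
        HahnSeries.single (c + e * j) ((p.coeff j : ℤ) : ℚ) := by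
    conv_lhs => rw [p.as_sum_range]
    rw [map_sum, Finset.mul_sum]
    apply Finset.sum_congr rfl
    intro j _
    rw [← Polynomial.C_mul_X_pow_eq_monomial, map_mul, map_pow, hφ, h1]
    have h3 : φ (Polynomial.C (p.coeff j)) = HahnSeries.single 0 ((p.coeff j : ℤ) : ℚ) := by
      have : (Polynomial.C (p.coeff j) : Polynomial ℤ) = ((p.coeff j : ℤ) : Polynomial ℤ) := by
        simp
      rw [this, map_intCast]
      rfl
    rw [h3, HahnSeries.single_mul_single, HahnSeries.single_mul_single]
    congr 1
    · ring_nf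
    · ring
  have h4 := hp (c + e * k)
  rw [h2] at h4
  have h5 : (∑ j ∈ Finset.range (p.natDegree + 1),
      (HahnSeries.single (c + e * j) ((p.coeff j : ℤ) : ℚ) : LaurentSeries ℚ)).coeff (c + e * k) =
      ((p.coeff k : ℤ) : ℚ) := by
    rw [HahnSeries.coeff_sum]
    by_cases hk : k ∈ Finset.range (p.natDegree + 1)
    · rw [Finset.sum_eq_single k]
      · rw [HahnSeries.coeff_single_same]
      · intro j _ hj
        rw [HahnSeries.coeff_single_of_ne]
        intro h6
        apply hj
        have h7 : e * (k : ℤ) = e * j := by linarith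
        have h8 := mul_left_cancel₀ he h7
        exact_mod_cast h8.symm
      · intro h6; exact absurd hk h6
    · rw [Finset.sum_eq_zero]
      · have : p.coeff k = 0 := by
          apply Polynomial.coeff_eq_zero_of_natDegree_lt
          rw [Finset.mem_range, not_lt] at hk
          omega
        rw [this]; simp
      · intro j hj
        rw [HahnSeries.coeff_single_of_ne]
        intro h6
        have h7 : e * (k : ℤ) = e * j := by linarith
        have h8 := mul_left_cancel₀ he h7
        have h9 : k = j := by exact_mod_cast h8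
        exact hk (h9 ▸ hj)
  rw [h5] at h4
  exact_mod_cast h4

/-- **END** over `LaurentSeries ℚ`. -/
theorem EPos_of_LS {n N : ℕ} (hN : n ≤ N) (h : Fin n → ℕ) (hh : IsHessenberg h)
    (φ : Polynomial ℤ →+* LaurentSeries ℚ) (c e : ℤ) (he : e ≠ 0)
    (hφ : φ Polynomial.X = HahnSeries.single e 1)
    (hF : C (HahnSeries.single c 1 : LaurentSeries ℚ) * MvPolynomial.map φ (chromaticQSym h N) ∈
      PE N LSpos) : EPos h :=
  EPos_of_mem hN h hh LSpos φ (HahnSeries.single c 1) (LS_hP φ c e he hφ) hF

end Crest.Agent.R059.End157
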