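import Crest.Agent.R059.TPS_883
import Crest.Agent.H695_Kill59

set_option autoImplicit false

/-!
Row 59 (S0081).  GROUND FILE: frozen definitions.

* `KK = LaurentSeries ℚ`, `vv = T` (unit), `tau = vv⁻¹`, `qq = tau ^ 2`,
  `Kpos` = series with all coefficients `≥ 0`;
* `X`-basis: `X_a X_b = vv ^ s(a,b) X_{a+b} = tau ^ (-s(a,b)) X_{a+b}`: twist datum `tw R β`,
  `R` a `KK`-algebra;
* row 59: exponents `Fin n →₀ ℕ` in the basis `b_0 = u_0`, `b_i = W_i = u_i - u_{i-1}` (tails);
  `uco` = `u`-coordinates, `form h` = the skew form, `ux i` = exponent of `u_i`,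
  `ex m` = exponent of `m ∈ ℕ^n`, `thin = ex 1`;
* `EE h z = ∑_{S independent} z^{|S|} x_S`, `FF h N = ∏_{j < N} EE h (X j)`.
-/

namespace Crest.Agent.R059

open Finset

/-! ### coefficients -/

/-- the coefficient field. -/
abbrev KK : Type := LaurentSeries ℚ

/-- `vv = T`, the Laurent series variable, as a unit. -/
noncomputable def vv : KKˣ :=
  Units.mk0 (HahnSeries.single (1 : ℤ) (1 : ℚ)) (by
    rw [Ne, HahnSeries.single_eq_zero_iff]; exact one_ne_zero)

/-- `τ = q^{1/2} := T⁻¹` as a unit. -/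
noncomputable def tau : KKˣ := vv⁻¹

theorem vv_val : (vv : KK) = HahnSeries.single (1 : ℤ) (1 : ℚ) := rfl

theorem tau_inv : tau⁻¹ = vv := inv_inv vv

/-- `q = τ²`. -/
noncomputable def qq : KK := (tau : KK) ^ 2

theorem vv_pow (n : ℕ) : (vv : KK) ^ n = HahnSeries.single (n : ℤ) (1 : ℚ) := by
  rw [vv_val, HahnSeries.single_pow, one_pow, nsmul_eq_mul, mul_one]

theorem vv_zpow (n : ℤ) : ((vv ^ n : KKˣ) : KK) = HahnSeries.single n (1 : ℚ) := by
  cases n with
  | ofNat k =>
    rw [Int.ofNat_eq_natCast, zpow_natCast, Units.val_pow_eq_pow_val, vv_pow]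
  | negSucc k =>
    rw [zpow_negSucc, Units.val_inv_eq_inv_val, Units.val_pow_eq_pow_val, vv_pow]
    apply inv_eq_of_mul_eq_one_right
    rw [HahnSeries.single_mul_single, mul_one]
    have : ((k + 1 : ℕ) : ℤ) + Int.negSucc k = 0 := by
      rw [Int.negSucc_eq]; push_cast; ring
    rw [this]; rfl

theorem tau_zpow (n : ℤ) : ((tau ^ n : KKˣ) : KK) = HahnSeries.single (-n) (1 : ℚ) := by
  rw [tau, inv_zpow', vv_zpow]

theorem tau_val : (tau : KK) = HahnSeries.single (-1 : ℤ) (1 : ℚ) := by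
  have := tau_zpow 1
  rwa [zpow_one] at this

theorem tau_pow (n : ℕ) : (tau : KK) ^ n = HahnSeries.single (-(n : ℤ)) (1 : ℚ) := by
  rw [← Units.val_pow_eq_pow_val, ← zpow_natCast, tau_zpow]

theorem qq_pow (n : ℕ) : qq ^ n = HahnSeries.single (-(2 * n) : ℤ) (1 : ℚ) := by
  rw [qq, ← pow_mul, tau_pow]; push_cast; rfl

theorem qq_pow_sub_one_ne (n : ℕ) (hn : n ≠ 0) : qq ^ n - 1 ≠ 0 := by
  rw [qq_pow, sub_ne_zero]
  intro h
  have h1 := congrArg (fun f : KK => HahnSeries.coeff f 0) h
  rw [HahnSeries.coeff_single_of_ne, HahnSeries.coeff_one, if_pos rfl] at h1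
  · exact zero_ne_one h1
  · intro h0
    apply hn
    omega

/-- the cone of series with non-negative coefficients. -/
noncomputable def Kpos : Subsemiring KK where
  carrier := {f | ∀ n, 0 ≤ HahnSeries.coeff f n}
  zero_mem' := fun n => by simp
  one_mem' := fun n => by
    rw [HahnSeries.coeff_one]; split_ifs <;> simp
  add_mem' := fun {f g} hf hg n => by
    rw [HahnSeries.coeff_add]; exact add_nonneg (hf n) (hg n)
  mul_mem' := fun {f g} hf hg n => by
    rw [HahnSeries.coeff_mul]
    exact Finset.sum_nonneg fun p _ => mul_nonneg (hf _) (hg _)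

theorem mem_Kpos {f : KK} : f ∈ Kpos ↔ ∀ n, 0 ≤ HahnSeries.coeff f n := Iff.rfl

theorem single_mem_Kpos (n : ℤ) {r : ℚ} (hr : 0 ≤ r) :
    (HahnSeries.single n r : KK) ∈ Kpos := fun m => by
  by_cases h : m = n
  · subst h; simpa using hr
  · rw [HahnSeries.coeff_single_of_ne h]

theorem tau_zpow_mem (n : ℤ) : ((tau ^ n : KKˣ) : KK) ∈ Kpos := by
  rw [tau_zpow]; exact single_mem_Kpos _ zero_le_one

theorem vv_zpow_mem (n : ℤ) : ((vv ^ n : KKˣ) : KK) ∈ Kpos := by
  rw [vv_zpow]; exact single_mem_Kpos _ zero_le_one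

/-! ### twist data -/

/-- change of coefficients of a twist datum. -/
def Tw.map {M : Type*} [AddCommMonoid M] {R S : Type*} [CommRing R] [CommRing S]
    (T : Tw M R) (φ : R →+* S) : Tw M S := ⟨Units.map φ.toMonoidHom T.v, T.β⟩

/-- the twist datum over `KK`: `X_a X_b = v^{β(a,b)} X_{a+b} = τ^{-β(a,b)} X_{a+b}`. -/
noncomputable def twK {M : Type*} [AddCommMonoid M] (β : M →+ M →+ ℤ) : Tw M KK := ⟨vv, β⟩

/-- the twist datum over a `KK`-algebra `R`. -/
noncomputable def tw {M : Type*} [AddCommMonoid M] (R : Type*) [CommRing R] [Algebra KK R]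
    (β : M →+ M →+ ℤ) : Tw M R := (twK β).map (algebraMap KK R)

namespace TPS

variable {M : Type*} [AddCommMonoid M] {R S : Type*} [CommRing R] [CommRing S]
  [HasAntidiagonal M]

omit [HasAntidiagonal M] in
theorem wt_map (T : Tw M R) (φ : R →+* S) (a b : M) : wt (T.map φ) a b = φ (wt T a b) := by
  unfold wt Tw.map
  simp only [← map_zpow, Units.coe_map]
  rfl

/-- change of coefficients. -/
noncomputable def map (T : Tw M R) (φ : R →+* S) : TPS T →+* TPS (T.map φ) where
  toFun f := ⟨fun d => φ (f.co d)⟩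
  map_one' := by
    classical
    ext d; simp only [co_one]; split_ifs <;> simp
  map_mul' f g := by
    ext d; simp only [co_mul, map_sum, map_mul, wt_map]
  map_zero' := by ext d; simp
  map_add' f g := by ext d; simp

@[simp] theorem co_map (T : Tw M R) (φ : R →+* S) (f : TPS T) (d : M) :
    (map T φ f).co d = φ (f.co d) := rfl

end TPS

theorem wt_twK {M : Type*} [AddCommMonoid M] (β : M →+ M →+ ℤ) (a b : M) :
    TPS.wt (twK β) a b = ((tau ^ (-(β a b)) : KKˣ) : KK) := by
  unfold TPS.wt twK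
  rw [tau, inv_zpow', neg_neg]

theorem wt_twK' {M : Type*} [AddCommMonoid M] (β : M →+ M →+ ℤ) (a b : M) :
    TPS.wt (twK β) a b = ((vv ^ (β a b) : KKˣ) : KK) := rfl

theorem wt_twK_mem {M : Type*} [AddCommMonoid M] (β : M →+ M →+ ℤ) (a b : M) :
    TPS.wt (twK β) a b ∈ Kpos := by
  rw [wt_twK]; exact tau_zpow_mem _

/-! ### the lattice of row 59 -/

variable {n : ℕ}

/-- `u`-coordinates of an exponent (tails ↦ differences). -/
def uco (t : Fin n →₀ ℕ) : Fin n → ℤ := fun i =>
  (t i : ℤ) - (if hi : (i : ℕ) + 1 < n then (t ⟨i + 1, hi⟩ : ℤ) else 0)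

theorem uco_add (a b : Fin n →₀ ℕ) : uco (a + b) = uco a + uco b := by
  funext i
  simp only [uco, Finsupp.add_apply, Pi.add_apply]
  split_ifs <;> push_cast <;> ring

theorem uco_zero : uco (0 : Fin n →₀ ℕ) = 0 := by
  funext i
  simp [uco]

theorem uco_injective : Function.Injective (uco : (Fin n →₀ ℕ) → Fin n → ℤ) := by
  intro a b hab
  have key : ∀ k : ℕ, ∀ i : Fin n, (i : ℕ) + k + 1 = n → a i = b i := by
    intro k
    induction k with
    | zero =>
      intro i hi
      have := congrFun hab i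
      simp only [uco] at this
      rw [dif_neg (by omega), dif_neg (by omega)] at this
      omega
    | succ k ih =>
      intro i hi
      have h1 := congrFun hab i
      have h2 := ih ⟨i + 1, by omega⟩ (by simp only; omega)
      simp only [uco] at h1
      rw [dif_pos (by omega), dif_pos (by omega), h2] at h1
      omega
  ext i
  exact key (n - 1 - i) i (by omega)

/-- `s` as a bi-additive form on exponents. -/
def form (h : Fin n → ℕ) : (Fin n →₀ ℕ) →+ (Fin n →₀ ℕ) →+ ℤ where
  toFun a :=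
    { toFun := fun b => Kill59.s h (uco a) (uco b)
      map_zero' := by
        rw [uco_zero]; simp [Kill59.s]
      map_add' := fun b c => by
        rw [uco_add, Kill59.s_skew, Kill59.s_add_left, Kill59.s_skew h (uco a) (uco b),
          Kill59.s_skew h (uco a) (uco c)]
        ring }
  map_zero' := by
    ext b
    simp [Kill59.s, uco_zero]
  map_add' a b := by
    apply AddMonoidHom.ext
    intro c
    simp only [AddMonoidHom.coe_mk, ZeroHom.coe_mk, AddMonoidHom.add_apply]
    rw [uco_add, Kill59.s_add_left]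

@[simp] theorem form_apply (h : Fin n → ℕ) (a b : Fin n →₀ ℕ) :
    form h a b = Kill59.s h (uco a) (uco b) := rfl

theorem form_skew (h : Fin n → ℕ) (a b : Fin n →₀ ℕ) : form h a b = - form h b a := by
  rw [form_apply, form_apply, Kill59.s_skew]

/-- the exponent of `u_i`: `b_0 + ... + b_i`. -/
noncomputable def ux (i : Fin n) : Fin n →₀ ℕ :=
  Finsupp.equivFunOnFinite.symm (fun k => if k ≤ i then 1 else 0)

theorem ux_apply (i k : Fin n) : ux i k = if k ≤ i then 1 else 0 := rfl

theorem uco_ux (i : Fin n) : uco (ux i) = Kill59.u i := by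
  funext k
  simp only [uco, ux_apply, Kill59.u, Pi.single_apply, Fin.le_def, Fin.ext_iff]
  split_ifs <;> first | rfl | omega

/-- the exponent of `W_{j+1} = u_{j+1} - u_j` is the basis vector `b_{j+1}`. -/
theorem uco_single (j : ℕ) (hj : j + 1 < n) :
    uco (Finsupp.single (⟨j + 1, hj⟩ : Fin n) 1) = Kill59.W j hj := by
  funext k
  simp only [uco, Kill59.W, Kill59.u, Finsupp.single_apply, Pi.sub_apply, Pi.single_apply,
    Fin.ext_iff]
  split_ifs <;> first | rfl | omega

theorem uco_single_zero (hn : 0 < n) :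
    uco (Finsupp.single (⟨0, hn⟩ : Fin n) 1) = Kill59.u ⟨0, hn⟩ := by
  funext k
  simp only [uco, Kill59.u, Finsupp.single_apply, Pi.single_apply, Fin.ext_iff]
  by_cases h0 : (k : ℕ) = 0
  · simp [h0]
  · simp [h0, Ne.symm h0]

/-- the exponent of `m ∈ ℕ^n`. -/
noncomputable def ex (m : Fin n → ℕ) : Fin n →₀ ℕ := ∑ i, m i • ux i

theorem ex_apply (m : Fin n → ℕ) (k : Fin n) : ex m k = ∑ i, if k ≤ i then m i else 0 := by
  rw [ex, Finsupp.finsetSum_apply]
  refine Finset.sum_congr rfl fun i _ => ?_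
  rw [Finsupp.smul_apply, ux_apply]
  split_ifs <;> simp

theorem uco_sum {ι : Type*} (s : Finset ι) (f : ι → Fin n →₀ ℕ) :
    uco (∑ i ∈ s, f i) = ∑ i ∈ s, uco (f i) := by
  classical
  induction s using Finset.induction_on with
  | empty => simp [uco_zero]
  | insert a s ha ih => rw [Finset.sum_insert ha, Finset.sum_insert ha, uco_add, ih]

theorem uco_nsmul (k : ℕ) (a : Fin n →₀ ℕ) : uco (k • a) = (k : ℤ) • uco a := by
  induction k with
  | zero => simp [uco_zero]
  | succ k ih => rw [succ_nsmul, uco_add, ih]; push_cast; rw [add_smul, one_smul]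

theorem uco_ex (m : Fin n → ℕ) : uco (ex m) = fun i => (m i : ℤ) := by
  rw [ex, uco_sum]
  funext i
  simp only [Finset.sum_apply, uco_nsmul, uco_ux, Kill59.u, Pi.smul_apply, smul_eq_mul]
  rw [Finset.sum_eq_single i]
  · simp
  · intro b _ hb
    simp [Pi.single_eq_of_ne (Ne.symm hb)]
  · simp

/-- the thin class `(1, ..., 1)`. -/
noncomputable def thin : Fin n →₀ ℕ := ex (fun _ => 1)

/-- the independent sets of the graph. -/
def indep (h : Fin n → ℕ) : Finset (Finset (Fin n)) :=
  (Finset.univ : Finset (Fin n)).powerset.filter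
    (fun S => ∀ a ∈ S, ∀ b ∈ S, a < b → ¬ ((b : ℕ) + 1 ≤ h a))

/-- `E(z) = ∑_{S independent} z^{|S|} x_S`, `x_S = τ^{|S|} X_{u_S}`. -/
noncomputable def EE (R : Type*) [CommRing R] [Algebra KK R] (h : Fin n → ℕ) (z : R) :
    TPS (tw R (form h)) :=
  ∑ S ∈ indep h, TPS.mono _ (∑ i ∈ S, ux i) ((algebraMap KK R tau * z) ^ S.card)

/-- `F = ∏_{j < N} E(z_j)`, over `MvPolynomial (Fin N) KK`. -/
noncomputable def FF (h : Fin n → ℕ) (N : ℕ) :
    TPS (tw (MvPolynomial (Fin N) KK) (form h)) :=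
  (List.ofFn fun j : Fin N => EE (MvPolynomial (Fin N) KK) h (MvPolynomial.X j)).prod

/-- the cone `K₊[e_1, e_2, ...]`. -/
noncomputable def PE (N : ℕ) : Subsemiring (MvPolynomial (Fin N) KK) :=
  Subsemiring.closure ({p | ∃ a ∈ Kpos, p = MvPolynomial.C a} ∪
    {p | ∃ k, p = MvPolynomial.esymm (Fin N) KK k})

/-- the cone `K₊[z_1, ..., z_N]` (monomial positivity). -/
noncomputable def PM (N : ℕ) : Subsemiring (MvPolynomial (Fin N) KK) where
  carrier := {p | ∀ m, p.coeff m ∈ Kpos}
  zero_mem' := fun m => by rw [MvPolynomial.coeff_zero]; exact Kpos.zero_mem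
  one_mem' := fun m => by
    classical
    rw [MvPolynomial.coeff_one]; split_ifs
    · exact Kpos.one_mem
    · exact Kpos.zero_mem
  add_mem' := fun {f g} hf hg m => by
    rw [MvPolynomial.coeff_add]; exact Kpos.add_mem (hf m) (hg m)
  mul_mem' := fun {f g} hf hg m => by
    classical
    rw [MvPolynomial.coeff_mul]
    exact Kpos.sum_mem fun p _ => Kpos.mul_mem (hf _) (hg _)

end Crest.Agent.R059
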