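/-
Row 59 (S0081), helper157: LINK and END in the frozen language of `Grnd_883`.
* `FF_thin`: the thin coefficient of `FF h N` is a monomial in `τ` times the image of `X_G`;
* `FF_ex`: the coefficient of a class with independent support is `τ^{|g|} ∏ e_{g i}`;
* `EPos_of_thin`: if the thin coefficient of `FF h N`, `N ≥ n`, lies in `PE N`, then `EPos h`;
* `main_of_thin`: the frozen statement S0081 from that for all connected graphs.
-/
import Crest.Agent.R059.Grnd_883
import Crest.Agent.R059.Link_157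
import Crest.Agent.R059.End2_157
import Crest.Agent.R059.MutConn

set_option autoImplicit false

open Crest.CombinatoricsR.UnitInterval

namespace Crest.Agent.R059.Final157

open Crest.Agent.R059 TPS

variable {n : ℕ}

theorem e_eq_sgE (h : Fin n → ℕ) (i j : Fin n) : Kill59.e h i j = Link157.sgE h i j := by
  unfold Kill59.e Link157.sgE IsEdge
  rcases lt_trichotomy i j with hl | hl | hl
  · have h1 := hl.not_gt
    by_cases h2 : (j : ℕ) + 1 ≤ h i <;> simp [hl, h1, h2]
  · subst hl; simp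
  · have h1 := hl.not_gt
    by_cases h2 : (i : ℕ) + 1 ≤ h j <;> simp [hl, h1, h2]

theorem ux_inj : Function.Injective (fun g : Fin n → ℕ => ∑ i, g i • ux i) := by
  intro g g' hg
  have h1 : uco (ex g) = uco (ex g') := congrArg uco hg
  rw [uco_ex, uco_ex] at h1
  funext i
  exact_mod_cast congrFun h1 i

theorem EE_eq (R : Type*) [CommRing R] [Algebra KK R] (h : Fin n → ℕ) (z : R) :
    EE R h z = Link157.Ez (tw R (form h)) (IsEdge h) ux (algebraMap KK R tau * z) := by
  classical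
  unfold EE Link157.Ez
  apply Finset.sum_congr
  · ext S
    simp only [indep, Finset.mem_filter, Finset.mem_powerset, Finset.subset_univ, true_and,
      Finset.mem_univ, Link157.Indep]
    constructor
    · intro hS a ha b hb hab
      rcases hab with hab | hab
      · exact hS a ha b hb hab.1 hab.2
      · exact hS b hb a ha hab.1 hab.2
    · intro hS a ha b hb hab hab'
      exact hS a ha b hb (Or.inl ⟨hab, hab'⟩)
  · intro S _
    rfl

theorem FF_eq (h : Fin n → ℕ) (N : ℕ) :
    FF h N = Link157.Fz (tw (MvPolynomial (Fin N) KK) (form h)) (IsEdge h) ux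
      (fun c => MvPolynomial.C (tau : KK) * MvPolynomial.X c) := by
  unfold FF Link157.Fz
  congr 2
  funext j
  rw [EE_eq]
  rfl

theorem form_ux (h : Fin n → ℕ) (i j : Fin n) :
    form h (ux i) (ux j) = 1 * Link157.sgE h i j := by
  rw [form_apply, uco_ux, uco_ux, Kill59.s_u_u, e_eq_sgE, one_mul]

theorem thin_eq_sum : (thin : Fin n →₀ ℕ) = ∑ i, ux i := by
  unfold thin ex
  simp

/-- the thin coefficient of `F`. -/
theorem FF_thin (h : Fin n → ℕ) (N : ℕ) :
    (FF h N).co thin =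
      MvPolynomial.C ((tau : KK) ^ n * (((tau⁻¹) ^ (-(1 * Palin.ne h : ℤ)) : KKˣ) : KK)) *
        MvPolynomial.map (Link157.phi tau⁻¹ 1) (chromaticQSym h N) := by
  rw [FF_eq, thin_eq_sum]
  exact Link157.thin_eq h (tw (MvPolynomial (Fin N) KK) (form h)) tau⁻¹ rfl 1 ux ux_inj
    (form_ux h) _

/-- the coefficient of a class with independent support. -/
theorem FF_ex (h : Fin n → ℕ) (N : ℕ) (g : Fin n → ℕ)
    (hg : ∀ a b, 0 < g a → 0 < g b → ¬ IsEdge h a b) :
    (FF h N).co (ex g) =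
      MvPolynomial.C ((tau : KK) ^ (∑ i, g i)) * ∏ i, MvPolynomial.esymm (Fin N) KK (g i) := by
  rw [FF_eq]
  exact Link157.good_eq h (tw (MvPolynomial (Fin N) KK) (form h)) 1 ux ux_inj
    (form_ux h) _ g hg

theorem FF_ex_mem (h : Fin n → ℕ) (N : ℕ) (g : Fin n → ℕ)
    (hg : ∀ a b, 0 < g a → 0 < g b → ¬ IsEdge h a b) : (FF h N).co (ex g) ∈ PE N := by
  rw [FF_ex h N g hg]
  apply (PE N).mul_mem
  · apply Subsemiring.subset_closure
    refine Or.inl ⟨_, ?_, rfl⟩
    have := tau_zpow_mem ((∑ i, g i : ℕ) : ℤ)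
    rwa [zpow_natCast, Units.val_pow_eq_pow_val] at this
  · exact (PE N).prod_mem (fun i _ => Subsemiring.subset_closure (Or.inr ⟨_, rfl⟩))

/-- **END** in the frozen language. -/
theorem EPos_of_thin {N : ℕ} (hN : n ≤ N) (h : Fin n → ℕ) (hh : IsHessenberg h)
    (hF : (FF h N).co thin ∈ PE N) : EPos h := by
  rw [FF_thin] at hF
  obtain ⟨c, hc⟩ : ∃ c : ℤ, ((tau : KK) ^ n * (((tau⁻¹) ^ (-(1 * Palin.ne h : ℤ)) : KKˣ) : KK)) =
      HahnSeries.single c (1 : ℚ) := by
    exact ⟨_, by rw [← Units.val_pow_eq_pow_val, ← Units.val_mul, ← zpow_natCast, inv_zpow',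
      neg_neg, ← zpow_add, one_mul, tau_zpow]⟩
  obtain ⟨e, h2, he⟩ : ∃ e : ℤ, Link157.phi (tau⁻¹ : KKˣ) 1 Polynomial.X =
      HahnSeries.single e (1 : ℚ) ∧ e ≠ 0 := by
    refine ⟨_, by rw [Link157.phi_X, inv_zpow', tau_zpow], by norm_num⟩
  rw [hc] at hF
  exact End157.EPos_of_LS hN h hh _ c e he h2 hF

/-- **S0081** from the thin coefficients of the connected graphs. -/
theorem main_of_thin
    (H : ∀ (n : ℕ) (h : Fin n → ℕ), IsHessenberg h →
      (∀ i : Fin n, (i : ℕ) + 1 < n → (i : ℕ) + 2 ≤ h i) → ∃ N, n ≤ N ∧ (FF h N).co thin ∈ PE N) :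
    ∀ (n : ℕ) (h : Fin n → ℕ), IsHessenberg h →
      ∃ θ : {σ : Equiv.Perm (Fin n) // σ ∈ descentSet h} → Nat.Partition n,
        ∀ N : ℕ, chromaticQSym h N =
          ∑ σ : {σ : Equiv.Perm (Fin n) // σ ∈ descentSet h},
            MvPolynomial.C (Polynomial.X ^ ginv h σ.1) *
              MvPolynomial.esymmPart (Fin N) (Polynomial ℤ) (θ σ) :=
  main_of_EPos (MutConn.EPos_of_conn (fun n h hh hc => by
    obtain ⟨N, hN, hG⟩ := H n h hh hc
    exact EPos_of_thin hN h hh hG))

end Crest.Agent.R059.Final157
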