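import Crest.Agent.R059.MutConn

/-!
# The killing lemma (row 59, track T)

For `g : Fin n → ℤ` put `phi h g c = s(g, u_c) = g(N⁻(c)) - g(N⁺(c))`.
* `indep_of_good`: if `g ≥ 0` and `phi h g ≥ 0` then `g` is supported on an independent set and
  `phi h g` vanishes on the support of `g`.
* `kill`: if `g ≥ 0` and some `phi h g c < 0`, then the full moves
  `m ↦ m + s(m, W_j) W_j` for `j = i, i+1, …, n-2` (0-based, distinct, all with
  `s(m, W_j) > 0`) lead to a vector with a negative coordinate.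
-/

set_option autoImplicit false

open Crest.CombinatoricsR.UnitInterval Crest.Agent.R059.MutConn

namespace Crest.Agent.R059.Kill

variable {n : ℕ}

/-- the sign form on basis vectors: `1` if `a < b` adjacent, `-1` if `b < a` adjacent. -/
def sg (h : Fin n → ℕ) (a b : Fin n) : ℤ :=
  if a < b ∧ b.val + 1 ≤ h a then 1 else if b < a ∧ a.val + 1 ≤ h b then -1 else 0

theorem sg_anti (h : Fin n → ℕ) (a b : Fin n) : sg h a b = - sg h b a := by
  unfold sg
  by_cases h1 : a < b ∧ b.val + 1 ≤ h a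
  · have h2 : ¬ (b < a ∧ a.val + 1 ≤ h b) := fun h3 => absurd h3.1 (not_lt.2 h1.1.le)
    rw [if_pos h1, if_neg h2, if_pos h1]; norm_num
  · by_cases h2 : b < a ∧ a.val + 1 ≤ h b
    · rw [if_neg h1, if_pos h2, if_pos h2]
    · rw [if_neg h1, if_neg h2, if_neg h2, if_neg h1]; norm_num

theorem sg_self (h : Fin n → ℕ) (a : Fin n) : sg h a a = 0 := by simp [sg]

/-- `s(g, u_c)`. -/
def phi (h : Fin n → ℕ) (g : Fin n → ℤ) (c : Fin n) : ℤ := ∑ a, g a * sg h a c

theorem phi_add (h : Fin n → ℕ) (g k : Fin n → ℤ) (c : Fin n) :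
    phi h (g + k) c = phi h g c + phi h k c := by
  simp [phi, add_mul, Finset.sum_add_distrib]

theorem phi_smul (h : Fin n → ℕ) (t : ℤ) (g : Fin n → ℤ) (c : Fin n) :
    phi h (t • g) c = t * phi h g c := by
  simp [phi, Finset.mul_sum, mul_assoc]

theorem phi_single (h : Fin n → ℕ) (a c : Fin n) (t : ℤ) :
    phi h (Pi.single a t) c = t * sg h a c := by
  unfold phi
  rw [Finset.sum_eq_single a]
  · simp
  · intro b _ hb; simp [hb]
  · intro h; exact absurd (Finset.mem_univ _) h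

/-- `s(g, g) = 0`. -/
theorem sum_phi_self (h : Fin n → ℕ) (g : Fin n → ℤ) : ∑ c, g c * phi h g c = 0 := by
  have h1 : ∑ c, g c * phi h g c = ∑ c, ∑ a, g c * (g a * sg h a c) := by
    simp [phi, Finset.mul_sum]
  have h2 : ∑ c, ∑ a, g c * (g a * sg h a c) = - ∑ c, ∑ a, g c * (g a * sg h a c) := by
    conv_lhs => rw [Finset.sum_comm]
    rw [← Finset.sum_neg_distrib]
    refine Finset.sum_congr rfl fun a _ => ?_
    rw [← Finset.sum_neg_distrib]
    refine Finset.sum_congr rfl fun c _ => ?_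
    rw [sg_anti h a c]; ring
  rw [h1]; linarith

/-- the good (greedy dominant) vectors have independent support, `phi` vanishes there. -/
theorem phi_eq_zero_of_good {h : Fin n → ℕ} {g : Fin n → ℤ} (hg : ∀ c, 0 ≤ g c)
    (hphi : ∀ c, 0 ≤ phi h g c) {c : Fin n} (hc : g c ≠ 0) : phi h g c = 0 := by
  have h0 := (Finset.sum_eq_zero_iff_of_nonneg
    (s := Finset.univ) (f := fun c => g c * phi h g c)
    (fun c _ => mul_nonneg (hg c) (hphi c))).1 (sum_phi_self h g) c (Finset.mem_univ c)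
  exact (mul_eq_zero.1 h0).resolve_left hc

theorem indep_of_good {h : Fin n → ℕ} {g : Fin n → ℤ} (hg : ∀ c, 0 ≤ g c)
    (hphi : ∀ c, 0 ≤ phi h g c) : ∀ a b : Fin n, a < b → b.val + 1 ≤ h a → g a = 0 ∨ g b = 0 := by
  -- strong induction on `a`: no neighbour to the right of `a` in the support
  have key : ∀ k : ℕ, ∀ a : Fin n, a.val = k → g a ≠ 0 →
      ∀ b : Fin n, a < b → b.val + 1 ≤ h a → g b = 0 := by
    intro k
    induction k using Nat.strong_induction_on with
    | _ k ih =>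
      intro a hak ha b hab hb
      have h0 : phi h g a = 0 := phi_eq_zero_of_good hg hphi ha
      -- every term of `phi h g a` is `≤ 0`
      have hterm : ∀ c : Fin n, 0 ≤ -(g c * sg h c a) := by
        intro c
        unfold sg
        by_cases h1 : c < a ∧ a.val + 1 ≤ h c
        · have hgc : g c = 0 := by
            by_contra hgc
            exact ha (ih c.val (hak ▸ h1.1) c rfl hgc a h1.1 h1.2)
          rw [hgc]; simp
        · by_cases h2 : a < c ∧ c.val + 1 ≤ h a
          · rw [if_neg h1, if_pos h2]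
            have := hg c
            linarith
          · rw [if_neg h1, if_neg h2]; simp
      have hsum : ∑ c, -(g c * sg h c a) = 0 := by
        rw [Finset.sum_neg_distrib]; simpa [phi] using h0
      have h3 := (Finset.sum_eq_zero_iff_of_nonneg (fun c _ => hterm c)).1 hsum b (Finset.mem_univ b)
      have h4 : sg h b a = -1 := by
        unfold sg
        have h5 : ¬ (b < a ∧ a.val + 1 ≤ h b) := fun h6 => absurd h6.1 (not_lt.2 hab.le)
        rw [if_neg h5, if_pos ⟨hab, hb⟩]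
      rw [h4] at h3
      linarith
  intro a b hab hb
  by_cases ha : g a = 0
  · exact Or.inl ha
  · exact Or.inr (key a.val a rfl ha b hab hb)

/-- `W_j = u_{j+1} - u_j` (0-based). -/
def W (j : ℕ) (hj : j + 1 < n) : Fin n → ℤ :=
  Pi.single ⟨j + 1, hj⟩ 1 - Pi.single ⟨j, by omega⟩ 1

theorem phi_W (h : Fin n → ℕ) (j : ℕ) (hj : j + 1 < n) (c : Fin n) :
    phi h (W j hj) c = sg h ⟨j + 1, hj⟩ c - sg h ⟨j, by omega⟩ c := by
  unfold W
  rw [sub_eq_add_neg, phi_add, phi_single, ← neg_one_zsmul, phi_smul, phi_single]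
  ring

/-- `s(m, W_j)`. -/
def K (h : Fin n → ℕ) (m : Fin n → ℤ) (j : ℕ) (hj : j + 1 < n) : ℤ :=
  phi h m ⟨j + 1, hj⟩ - phi h m ⟨j, by omega⟩

/-- full move at `j`. -/
def mvF (h : Fin n → ℕ) (m : Fin n → ℤ) (j : ℕ) : Fin n → ℤ :=
  if hj : j + 1 < n then m + K h m j hj • W j hj else m

/-- the sequence of full moves started at `i`. -/
def seq (h : Fin n → ℕ) (g : Fin n → ℤ) (i : ℕ) : ℕ → Fin n → ℤ
  | 0 => g
  | t + 1 => mvF h (seq h g i t) (i + t)

theorem seq_inv {h : Fin n → ℕ} (hh : IsHessenberg h) (hc : Conn h) {g : Fin n → ℤ} {i : ℕ}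
    (hi : i < n) (hneg : phi h g ⟨i, hi⟩ < 0)
    (hpos : ∀ c : Fin n, i < c.val → 0 ≤ phi h g c) (t : ℕ) (ht : i + t < n) :
    phi h (seq h g i t) ⟨i + t, ht⟩ = phi h g ⟨i, hi⟩ ∧
      ∀ c : Fin n, i + t < c.val → phi h g c ≤ phi h (seq h g i t) c := by
  induction t with
  | zero => exact ⟨rfl, fun c _ => le_rfl⟩
  | succ t ih =>
    obtain ⟨ih1, ih2⟩ := ih (by omega)
    have hj : i + t + 1 < n := by omega
    set m := seq h g i t with hm
    have hseq : seq h g i (t + 1) = m + K h m (i + t) hj • W (i + t) hj := by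
      show mvF h (seq h g i t) (i + t) = _
      rw [mvF, dif_pos hj]
    have hK : 0 < K h m (i + t) hj := by
      unfold K
      have h1 : phi h m ⟨i + t, by omega⟩ = phi h g ⟨i, hi⟩ := ih1
      have h2 := ih2 ⟨i + t + 1, hj⟩ (by simp)
      have h3 := hpos ⟨i + t + 1, hj⟩ (show i < i + t + 1 by omega)
      linarith
    have hadj : (⟨i + t, by omega⟩ : Fin n).val + 2 ≤ h ⟨i + t, by omega⟩ :=
      hc ⟨i + t, by omega⟩ hj
    constructor
    · have e1 : (⟨i + (t + 1), ht⟩ : Fin n) = ⟨i + t + 1, hj⟩ := rfl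
      rw [e1, hseq, phi_add, phi_smul, phi_W, sg_self]
      have h4 : sg h ⟨i + t, by omega⟩ ⟨i + t + 1, hj⟩ = 1 := by
        unfold sg
        rw [if_pos]
        refine ⟨by simp [Fin.lt_def], ?_⟩
        have hadj' : i + t + 2 ≤ h ⟨i + t, by omega⟩ := hadj
        show i + t + 1 + 1 ≤ _
        omega
      rw [h4]
      have : K h m (i + t) hj = phi h m ⟨i + t + 1, hj⟩ - phi h m ⟨i + t, by omega⟩ := rfl
      rw [this]
      have h1 : phi h m ⟨i + t, by omega⟩ = phi h g ⟨i, hi⟩ := ih1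
      rw [h1]; ring
    · intro c hcl
      rw [hseq, phi_add, phi_smul, phi_W]
      have h5 : 0 ≤ sg h ⟨i + t + 1, hj⟩ c - sg h ⟨i + t, by omega⟩ c := by
        have hm1 : h ⟨i + t, by omega⟩ ≤ h ⟨i + t + 1, hj⟩ := hh.1 (by simp [Fin.le_def])
        have h6 : sg h ⟨i + t, by omega⟩ c = if c.val + 1 ≤ h ⟨i + t, by omega⟩ then 1 else 0 := by
          unfold sg
          have h7 : (⟨i + t, by omega⟩ : Fin n) < c := by simp [Fin.lt_def]; omega
          have h8 : ¬ (c < (⟨i + t, by omega⟩ : Fin n) ∧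
              (⟨i + t, by omega⟩ : Fin n).val + 1 ≤ h c) := fun h9 => absurd h9.1 (not_lt.2 h7.le)
          by_cases h10 : c.val + 1 ≤ h ⟨i + t, by omega⟩
          · rw [if_pos ⟨h7, h10⟩, if_pos h10]
          · rw [if_neg (fun h9 => h10 h9.2), if_neg h8, if_neg h10]
        have h6' : sg h ⟨i + t + 1, hj⟩ c = if c.val + 1 ≤ h ⟨i + t + 1, hj⟩ then 1 else 0 := by
          unfold sg
          have h7 : (⟨i + t + 1, hj⟩ : Fin n) < c := by simp [Fin.lt_def]; omega
          have h8 : ¬ (c < (⟨i + t + 1, hj⟩ : Fin n) ∧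
              (⟨i + t + 1, hj⟩ : Fin n).val + 1 ≤ h c) := fun h9 => absurd h9.1 (not_lt.2 h7.le)
          by_cases h10 : c.val + 1 ≤ h ⟨i + t + 1, hj⟩
          · rw [if_pos ⟨h7, h10⟩, if_pos h10]
          · rw [if_neg (fun h9 => h10 h9.2), if_neg h8, if_neg h10]
        rw [h6, h6']
        split_ifs <;> simp <;> omega
      have h9 := mul_nonneg hK.le h5
      have h10 := ih2 c (by omega)
      linarith

theorem seq_K_pos {h : Fin n → ℕ} (hh : IsHessenberg h) (hc : Conn h) {g : Fin n → ℤ} {i : ℕ}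
    (hi : i < n) (hneg : phi h g ⟨i, hi⟩ < 0)
    (hpos : ∀ c : Fin n, i < c.val → 0 ≤ phi h g c) (t : ℕ) (ht : i + t + 1 < n) :
    0 < K h (seq h g i t) (i + t) ht := by
  obtain ⟨h1, h2⟩ := seq_inv hh hc hi hneg hpos t (by omega)
  have h3 := h2 ⟨i + t + 1, ht⟩ (by simp)
  have h4 := hpos ⟨i + t + 1, ht⟩ (show i < i + t + 1 by omega)
  unfold K
  linarith

theorem phi_last_nonneg {h : Fin n → ℕ} {m : Fin n → ℤ} (hm : ∀ c, 0 ≤ m c) (hn : 0 < n) :
    0 ≤ phi h m ⟨n - 1, by omega⟩ := by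
  refine Finset.sum_nonneg fun a _ => mul_nonneg (hm a) ?_
  unfold sg
  split_ifs with h1 h2
  · simp
  · exfalso
    have := h2.1
    simp only [Fin.lt_def] at this
    have := a.isLt
    omega
  · simp

/-- **KILL LEMMA.** -/
theorem kill {h : Fin n → ℕ} (hh : IsHessenberg h) (hc : Conn h) {g : Fin n → ℤ}
    (hg : ∀ c, 0 ≤ g c) (hbad : ∃ c, phi h g c < 0) :
    ∃ (i : ℕ) (m : ℕ → Fin n → ℤ), i + 1 < n ∧ m i = g ∧
      (∀ j, i ≤ j → ∀ hj : j + 1 < n, 0 < K h (m j) j hj ∧
        m (j + 1) = m j + K h (m j) j hj • W j hj) ∧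
      ∃ c, m (n - 1) c < 0 := by
  classical
  obtain ⟨c0, hc0⟩ := hbad
  have hn : 0 < n := lt_of_le_of_lt (Nat.zero_le _) c0.isLt
  -- last negative index
  let S : Finset (Fin n) := Finset.univ.filter (fun c => phi h g c < 0)
  have hS : S.Nonempty := ⟨c0, by simp [S, hc0]⟩
  obtain ⟨i, hiS, himax⟩ := S.exists_max_image (fun c => c.val) hS
  have hineg : phi h g i < 0 := by simpa [S] using hiS
  have hpos : ∀ c : Fin n, i.val < c.val → 0 ≤ phi h g c := by
    intro c hic
    by_contra hlt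
    have := himax c (by simp [S]; exact not_le.1 hlt)
    omega
  have hin : i.val + 1 < n := by
    by_contra hlt
    have h1 : i = ⟨n - 1, by omega⟩ := by
      ext; simp; have := i.isLt; omega
    have h2 := phi_last_nonneg (h := h) hg hn
    rw [← h1] at h2
    linarith
  refine ⟨i.val, fun j => seq h g i.val (j - i.val), hin, by simp [seq], ?_, ?_⟩
  · intro j hij hj
    obtain ⟨t, rfl⟩ := Nat.exists_eq_add_of_le hij
    have e1 : i.val + t - i.val = t := by omega
    have e2 : i.val + t + 1 - i.val = t + 1 := by omega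
    simp only [e1, e2]
    refine ⟨seq_K_pos hh hc i.isLt hineg hpos t hj, ?_⟩
    show mvF h (seq h g i.val t) (i.val + t) = _
    rw [mvF, dif_pos hj]
  · by_contra hcon
    have hnn : ∀ c, 0 ≤ seq h g i.val (n - 1 - i.val) c := fun c => by
      by_contra hlt
      exact hcon ⟨c, not_le.1 hlt⟩
    have h1 := (seq_inv hh hc i.isLt hineg hpos (n - 1 - i.val) (by omega)).1
    have h2 := phi_last_nonneg (h := h) hnn hn
    have e : (⟨i.val + (n - 1 - i.val), by omega⟩ : Fin n) = ⟨n - 1, by omega⟩ := by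
      ext; simp; omega
    rw [e] at h1
    have h3 : phi h g ⟨i.val, i.isLt⟩ = phi h g i := rfl
    linarith

end Crest.Agent.R059.Kill
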