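import Crest.Agent.R059.TPS_883
import Crest.Agent.R059.Kill_153

set_option autoImplicit false

/-!
Row 59 (S0081), helper153: leaf GOOD.

* `co_conj`: conjugation by series supported in `ζ > 0` does not change a coefficient of weight
  `ζ g = 0` of a series supported in `ζ ≥ 0`.
* `co_prod_E`: the coefficients of `∏_j E(z_j)` at exponents supported on an independent set.
-/

namespace Crest.Agent.R059.Good

open Finset Crest.Agent.R059 TPS

section conj

variable {M : Type*} [AddCommMonoid M] [HasAntidiagonal M] {R : Type*} [CommRing R] {T : Tw M R}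
variable {V : Type*} [AddCommGroup V] [LinearOrder V] [IsOrderedAddMonoid V]

/-- multiplication on the right by `1 + (ζ > 0)`. -/
theorem co_mul_right (ζ : M →+ V) (F p : TPS T) (hp0 : p.co 0 = 1)
    (hp : ∀ d, d ≠ 0 → p.co d ≠ 0 → 0 < ζ d) (hF : ∀ m, F.co m ≠ 0 → 0 ≤ ζ m)
    {g : M} (hg : ζ g ≤ 0) : (F * p).co g = F.co g := by
  classical
  rw [co_mul, Finset.sum_eq_single (g, 0)]
  · rw [wt_zero_right, hp0]; simp
  · rintro ⟨a, b⟩ hab hne
    rw [HasAntidiagonal.mem_antidiagonal] at hab
    by_contra hcon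
    have h1 : F.co a ≠ 0 := fun h => hcon (by simp [h])
    have h2 : p.co b ≠ 0 := fun h => hcon (by simp [h])
    have hb : b ≠ 0 := by
      rintro rfl
      apply hne
      simp only [add_zero] at hab
      rw [hab]
    have h3 := hp b hb h2
    have h4 := hF a h1
    have h5 : ζ a + ζ b = ζ g := by rw [← map_add]; exact congrArg ζ hab
    have h6 : 0 < ζ a + ζ b := add_pos_of_nonneg_of_pos h4 h3
    exact absurd hg (not_le.2 (h5 ▸ h6))
  · intro h; exact absurd (by simp [HasAntidiagonal.mem_antidiagonal]) h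

theorem co_mul_left (ζ : M →+ V) (F p : TPS T) (hp0 : p.co 0 = 1)
    (hp : ∀ d, d ≠ 0 → p.co d ≠ 0 → 0 < ζ d) (hF : ∀ m, F.co m ≠ 0 → 0 ≤ ζ m)
    {g : M} (hg : ζ g ≤ 0) : (p * F).co g = F.co g := by
  classical
  rw [co_mul, Finset.sum_eq_single (0, g)]
  · rw [wt_zero_left, hp0]; simp
  · rintro ⟨a, b⟩ hab hne
    rw [HasAntidiagonal.mem_antidiagonal] at hab
    by_contra hcon
    have h1 : F.co b ≠ 0 := fun h => hcon (by simp [h])
    have h2 : p.co a ≠ 0 := fun h => hcon (by simp [h])
    have ha : a ≠ 0 := by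
      rintro rfl
      apply hne
      simp only [zero_add] at hab
      rw [hab]
    have h3 := hp a ha h2
    have h4 := hF b h1
    have h5 : ζ a + ζ b = ζ g := by rw [← map_add]; exact congrArg ζ hab
    have h6 : 0 < ζ a + ζ b := add_pos_of_pos_of_nonneg h3 h4
    exact absurd hg (not_le.2 (h5 ▸ h6))
  · intro h; exact absurd (by simp [HasAntidiagonal.mem_antidiagonal]) h

theorem supp_mul (ζ : M →+ V) (F p : TPS T) (hp : ∀ d, p.co d ≠ 0 → 0 ≤ ζ d)
    (hF : ∀ m, F.co m ≠ 0 → 0 ≤ ζ m) : ∀ m, (F * p).co m ≠ 0 → 0 ≤ ζ m := by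
  classical
  intro m hm
  rw [co_mul] at hm
  obtain ⟨⟨a, b⟩, hab, hne⟩ := Finset.exists_ne_zero_of_sum_ne_zero hm
  rw [HasAntidiagonal.mem_antidiagonal] at hab
  have h1 : F.co a ≠ 0 := fun h => hne (by simp [h])
  have h2 : p.co b ≠ 0 := fun h => hne (by simp [h])
  have h5 : ζ a + ζ b = ζ m := by rw [← map_add]; exact congrArg ζ hab
  rw [← h5]
  exact add_nonneg (hF a h1) (hp b h2)

/-- **(G1)** -/
theorem co_conj (ζ : M →+ V) (F p p' : TPS T) (hp0 : p.co 0 = 1) (hp0' : p'.co 0 = 1)
    (hp : ∀ d, d ≠ 0 → p.co d ≠ 0 → 0 < ζ d) (hp' : ∀ d, d ≠ 0 → p'.co d ≠ 0 → 0 < ζ d)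
    (hF : ∀ m, F.co m ≠ 0 → 0 ≤ ζ m) {g : M} (hg : ζ g ≤ 0) :
    (p' * F * p).co g = F.co g := by
  have h1 : ∀ m, (p' * F).co m ≠ 0 → 0 ≤ ζ m := by
    refine supp_mul ζ p' F hF (fun d hd => ?_)
    by_cases h0 : d = 0
    · subst h0; simp
    · exact (hp' d h0 hd).le
  rw [co_mul_right ζ (p' * F) p hp0 hp h1 hg, co_mul_left ζ F p' hp0' hp' hF hg]

end conj

section prodE

variable {M : Type*} [AddCommMonoid M] [HasAntidiagonal M] {R : Type*} [CommRing R] {T : Tw M R}
variable {ι : Type*} [DecidableEq ι]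

/-- indicator vector. -/
def ind (I : Finset ι) : ι → ℕ := fun i => if i ∈ I then 1 else 0

/-- `e_k` of a list, with `e_{k}` written for `k : ℕ`; recursion `e_{k+1}(z :: L)`. -/
theorem esymm_cons_succ (z : R) (L : Multiset R) (k : ℕ) :
    (z ::ₘ L).esymm (k + 1) = L.esymm (k + 1) + z * L.esymm k := by
  unfold Multiset.esymm
  rw [Multiset.powersetCard_cons, Multiset.map_add, Multiset.sum_add, Multiset.map_map]
  congr 1
  simp only [Function.comp_def, Multiset.prod_cons]
  rw [Multiset.sum_map_mul_left]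

theorem esymm_cons_zero (z : R) (L : Multiset R) : (z ::ₘ L).esymm 0 = L.esymm 0 := by
  simp [Multiset.esymm]

theorem esymm_zero' (L : Multiset R) : L.esymm 0 = 1 := by
  simp [Multiset.esymm]

/-- expansion of `∏_{c ∈ S} e_{m c}(z :: L)`. -/
theorem prod_esymm_cons (z : R) (L : Multiset R) (S : Finset ι) (m : ι → ℕ) :
    ∏ c ∈ S, (z ::ₘ L).esymm (m c) =
      ∑ I ∈ (S.filter (fun c => m c ≠ 0)).powerset,
        z ^ I.card * ∏ c ∈ S, L.esymm (m c - ind I c) := by
  classical
  have h1 : ∀ c, (z ::ₘ L).esymm (m c) =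
      (if m c ≠ 0 then z * L.esymm (m c - 1) else 0) + L.esymm (m c) := by
    intro c
    rcases Nat.eq_zero_or_pos (m c) with h | h
    · simp [h, esymm_cons_zero]
    · obtain ⟨k, hk⟩ := Nat.exists_eq_succ_of_ne_zero h.ne'
      rw [hk]
      simp only [Nat.succ_eq_add_one, ne_eq, Nat.add_eq_zero_iff, one_ne_zero, and_false,
        not_false_eq_true, if_true, Nat.add_sub_cancel, esymm_cons_succ]
      ring
  rw [Finset.prod_congr rfl (fun c _ => h1 c), Finset.prod_add]
  -- sum over subsets of `S`; those not contained in the filter vanish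
  have h2 : (S.filter (fun c => m c ≠ 0)).powerset ⊆ S.powerset :=
    Finset.powerset_mono.2 (Finset.filter_subset _ _)
  rw [← Finset.sum_subset h2]
  · refine Finset.sum_congr rfl fun I hI => ?_
    rw [Finset.mem_powerset] at hI
    have hIS : I ⊆ S := hI.trans (Finset.filter_subset _ _)
    have h3 : ∏ c ∈ I, (if m c ≠ 0 then z * L.esymm (m c - 1) else 0) =
        z ^ I.card * ∏ c ∈ I, L.esymm (m c - ind I c) := by
      rw [← Finset.prod_const, ← Finset.prod_mul_distrib]
      refine Finset.prod_congr rfl fun c hc => ?_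
      have h4 := (Finset.mem_filter.1 (hI hc)).2
      rw [if_pos h4]
      simp [ind, hc]
    have h5 : ∏ c ∈ S \ I, L.esymm (m c) = ∏ c ∈ S \ I, L.esymm (m c - ind I c) := by
      refine Finset.prod_congr rfl fun c hc => ?_
      have : c ∉ I := (Finset.mem_sdiff.1 hc).2
      simp [ind, this]
    rw [h3, h5, mul_assoc, mul_comm (∏ c ∈ I, _) _, Finset.prod_sdiff hIS]
  · intro I hI hI2
    rw [Finset.mem_powerset] at hI
    have : ∃ c ∈ I, ¬ (m c ≠ 0) := by
      by_contra hcon
      push Not at hcon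
      exact hI2 (Finset.mem_powerset.2 (fun c hc => Finset.mem_filter.2 ⟨hI hc, hcon c hc⟩))
    obtain ⟨c, hc, hmc⟩ := this
    rw [Finset.prod_eq_zero hc (by rw [if_neg hmc]), zero_mul]

/-- abstract independent set generating series. -/
structure EData (T : Tw M R) (ι : Type*) [DecidableEq ι] where
  /-- the exponents. -/
  U : (ι → ℕ) →+ M
  U_inj : Function.Injective U
  /-- independent sets. -/
  indep : Finset ι → Prop
  indep_mono : ∀ I J, I ⊆ J → indep J → indep I
  /-- the unit. -/
  t : R
  /-- the generating series. -/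
  E : R → TPS T
  E_supp : ∀ z d, (E z).co d ≠ 0 → ∃ I, indep I ∧ d = U (ind I)
  E_co : ∀ z I, indep I → (E z).co (U (ind I)) = t ^ I.card * z ^ I.card
  β_indep : ∀ (S : Finset ι), indep S → ∀ a b : ι → ℕ, (∀ c, c ∉ S → a c = 0) →
    (∀ c, c ∉ S → b c = 0) → T.β (U a) (U b) = 0

variable (D : EData T ι)

theorem EData.supp_prod (L : List R) : ∀ d, ((L.map D.E).prod).co d ≠ 0 → ∃ a, d = D.U a := by
  classical
  induction L with
  | nil =>
    intro d hd
    simp only [List.map_nil, List.prod_nil] at hd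
    by_cases h : d = 0
    · exact ⟨0, by rw [h, map_zero]⟩
    · exact absurd (co_one_ne h) hd
  | cons z L ih =>
    intro d hd
    rw [List.map_cons, List.prod_cons, co_mul] at hd
    obtain ⟨⟨a, b⟩, hab, hne⟩ := Finset.exists_ne_zero_of_sum_ne_zero hd
    rw [HasAntidiagonal.mem_antidiagonal] at hab
    have h1 : (D.E z).co a ≠ 0 := fun h => hne (by simp [h])
    have h2 : ((L.map D.E).prod).co b ≠ 0 := fun h => hne (by simp [h])
    obtain ⟨I, _, hI⟩ := D.E_supp z a h1
    obtain ⟨b', hb'⟩ := ih b h2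
    exact ⟨ind I + b', by rw [map_add, ← hI, ← hb']; exact hab.symm⟩

/-- **(G2)** coefficients of `∏_j E(z_j)` on an independent set. -/
theorem EData.co_prod (S : Finset ι) (hS : D.indep S) (L : List R) : ∀ m : ι → ℕ,
    (∀ c, c ∉ S → m c = 0) →
    ((L.map D.E).prod).co (D.U m) =
      D.t ^ (∑ c ∈ S, m c) * ∏ c ∈ S, (L : Multiset R).esymm (m c) := by
  classical
  induction L with
  | nil =>
    intro m hm
    simp only [List.map_nil, List.prod_nil, Multiset.coe_nil]
    by_cases h0 : m = 0
    · subst h0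
      rw [map_zero, co_one_zero]
      simp [esymm_zero']
    · have hU : D.U m ≠ 0 := fun h => h0 (D.U_inj (by rw [h, map_zero]))
      rw [co_one_ne hU]
      obtain ⟨c, hc⟩ := Function.ne_iff.1 h0
      have hcS : c ∈ S := by
        by_contra hcS
        exact hc (hm c hcS)
      have : (0 : Multiset R).esymm (m c) = 0 := by
        obtain ⟨k, hk⟩ := Nat.exists_eq_succ_of_ne_zero (show m c ≠ 0 from hc)
        rw [hk]
        simp [Multiset.esymm, Multiset.powersetCard_zero_right]
      rw [Finset.prod_eq_zero hcS this, mul_zero]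
  | cons z L ih =>
    intro m hm
    rw [List.map_cons, List.prod_cons, co_mul, ← Multiset.cons_coe, prod_esymm_cons,
      Finset.mul_sum]
    -- the map `I ↦ (U (ind I), U (m - ind I))`
    set A := (S.filter (fun c => m c ≠ 0)).powerset with hA
    have hle : ∀ I ∈ A, ind I ≤ m := by
      intro I hI c
      unfold ind
      split_ifs with h
      · exact Nat.one_le_iff_ne_zero.2 (Finset.mem_filter.1 (Finset.mem_powerset.1 hI h)).2
      · exact Nat.zero_le _
    have hIS : ∀ I ∈ A, I ⊆ S := fun I hI =>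
      (Finset.mem_powerset.1 hI).trans (Finset.filter_subset _ _)
    have hsub : ∀ I ∈ A, ind I + (m - ind I) = m := fun I hI => by
      funext c; exact Nat.add_sub_cancel' (hle I hI c)
    have hinj : ∀ I ∈ A, ∀ J ∈ A, (D.U (ind I), D.U (m - ind I)) = (D.U (ind J), D.U (m - ind J)) →
        I = J := by
      intro I _ J _ h
      have h1 := D.U_inj (Prod.ext_iff.1 h).1
      ext c
      have h2 := congrFun h1 c
      unfold ind at h2
      by_cases hI : c ∈ I <;> by_cases hJ : c ∈ J <;> simp_all
    have himg : A.image (fun I => (D.U (ind I), D.U (m - ind I))) ⊆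
        HasAntidiagonal.antidiagonal (D.U m) := by
      intro p hp
      obtain ⟨I, hI, rfl⟩ := Finset.mem_image.1 hp
      rw [HasAntidiagonal.mem_antidiagonal]
      simp only
      rw [← map_add, hsub I hI]
    rw [← Finset.sum_subset himg, Finset.sum_image hinj]
    · refine Finset.sum_congr rfl fun I hI => ?_
      have hm' : ∀ c, c ∉ S → (m - ind I) c = 0 := fun c hc => by
        simp [hm c hc]
      have hind : ∀ c, c ∉ S → ind I c = 0 := fun c hc => by
        have : c ∉ I := fun h => hc (hIS I hI h)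
        simp [ind, this]
      simp only
      rw [ih (m - ind I) hm', D.E_co z I (D.indep_mono I S (hIS I hI) hS), wt,
        D.β_indep S hS _ _ hind hm']
      have hsum : I.card + ∑ c ∈ S, (m - ind I) c = ∑ c ∈ S, m c := by
        have h1 : I.card = ∑ c ∈ S, ind I c := by
          unfold ind
          rw [Finset.sum_ite_mem, Finset.inter_eq_right.2 (hIS I hI)]
          simp
        rw [h1, ← Finset.sum_add_distrib]
        exact Finset.sum_congr rfl fun c _ => congrFun (hsub I hI) c
      rw [← hsum, pow_add]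
      simp only [zpow_zero, Units.val_one, one_mul, Pi.sub_apply]
      ring
    · rintro ⟨a, b⟩ hab hnot
      rw [HasAntidiagonal.mem_antidiagonal] at hab
      simp only at hab
      by_contra hcon
      have h1 : (D.E z).co a ≠ 0 := fun h => hcon (by simp [h])
      have h2 : ((L.map D.E).prod).co b ≠ 0 := fun h => hcon (by simp [h])
      obtain ⟨I, _, hI⟩ := D.E_supp z a h1
      obtain ⟨b', hb'⟩ := D.supp_prod L b h2
      have h3 : ind I + b' = m := D.U_inj (by rw [map_add, ← hI, ← hb']; exact hab)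
      have hIA : I ∈ A := by
        rw [hA, Finset.mem_powerset]
        intro c hc
        have h4 : m c ≠ 0 := by
          rw [← h3]
          simp [ind, hc]
        refine Finset.mem_filter.2 ⟨?_, h4⟩
        by_contra hcS
        exact h4 (hm c hcS)
      apply hnot
      refine Finset.mem_image.2 ⟨I, hIA, ?_⟩
      have h5 : m - ind I = b' := by
        rw [← h3]; funext c; simp
      rw [h5, ← hI, ← hb']

end prodE

end Crest.Agent.R059.Good
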