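import Crest.Agent.R059.TPS_883

set_option autoImplicit false

/-!
Row 59 (S0081).  Base change of twisted power series along a ring homomorphism.

`TPS.mapW φ hw : TPS T →+* TPS T'` for `φ : R →+* S` with `φ (wt T a b) = wt T' a b`.
-/

namespace Crest.Agent.R059

namespace TPS

open Finset

variable {M : Type*} [AddCommMonoid M] {R S : Type*} [CommRing R] [CommRing S]
  {T : Tw M R} {T' : Tw M S}

/-- compatibility of the weights. -/
def WtCompat (φ : R →+* S) (T : Tw M R) (T' : Tw M S) : Prop :=
  ∀ a b : M, φ (wt T a b) = wt T' a b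

theorem WtCompat.of_eq {φ : R →+* S} {T : Tw M R} {T' : Tw M S}
    (hv : φ (T.v : R) = (T'.v : S)) (hβ : T.β = T'.β) : WtCompat φ T T' := by
  intro a b
  have h1 : Units.map (φ : R →* S) T.v = T'.v := Units.ext hv
  unfold wt
  rw [← hβ, ← h1, ← map_zpow]
  rfl

variable [HasAntidiagonal M]

/-- base change. -/
def mapW {φ : R →+* S} (hw : WtCompat φ T T') : TPS T →+* TPS T' where
  toFun f := ⟨fun d => φ (f.co d)⟩
  map_zero' := by ext d; simp
  map_one' := by
    classical
    ext d
    simp only [co_one]
    split_ifs <;> simp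
  map_add' f g := by ext d; simp
  map_mul' f g := by
    ext d
    simp only [co_mul, map_sum, map_mul]
    exact Finset.sum_congr rfl (fun p _ => by rw [hw])

@[simp] theorem mapW_co {φ : R →+* S} (hw : WtCompat φ T T') (f : TPS T) (d : M) :
    (mapW hw f).co d = φ (f.co d) := rfl

theorem mapW_mono {φ : R →+* S} (hw : WtCompat φ T T') (m : M) (r : R) :
    mapW hw (mono T m r) = mono T' m (φ r) := by
  classical
  ext d
  rw [mapW_co, co_mono, co_mono]
  split_ifs <;> simp

theorem mapW_Y {φ : R →+* S} (hw : WtCompat φ T T') (m : M) :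
    mapW hw (Y T m) = Y T' m := by
  rw [Y, mapW_mono, map_one]; rfl

theorem mapW_smul {φ : R →+* S} (hw : WtCompat φ T T') (r : R) (f : TPS T) :
    mapW hw (r • f) = φ r • mapW hw f := by
  ext d
  simp

theorem mapW_injective {φ : R →+* S} (hw : WtCompat φ T T') (hφ : Function.Injective φ) :
    Function.Injective (mapW hw : TPS T → TPS T') := by
  intro f g hfg
  ext d
  exact hφ (by rw [← mapW_co hw f d, ← mapW_co hw g d, hfg])

end TPS

end Crest.Agent.R059
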