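import Crest.Agent.R059.Kill_153

/-!
Row 59 (S0081), helper227.  Step 4 (b) of the proof of (T2'), against an abstract interface.

`x : Fin n → ℝ` is a functional on `ℤ^n` (`x i` is its value at the basis vector `u_i`), `Nz m x`
stands for "the coefficient `F_m(x)` is not zero".  The four hypotheses are
* `N1`: `F_g(x) ≠ 0` for every generic `x`;
* `N2`: monotonicity along the flow `x + t s(m, ·)`;
* `N3`: crossing of the plain wall `W_j`;
* `N4`: in the increasing chamber only exponents in `ℕ^n` occur.
The conclusion is that `s(g, u_c) ≥ 0` for all `c`.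
-/

set_option autoImplicit false

open Crest.CombinatoricsR.UnitInterval Crest.Agent.R059.MutConn

namespace Crest.Agent.R059.Step4

open Crest.Agent.R059.Kill

variable {n : ℕ}

/-- value of a real functional on an integral class. -/
def val (x : Fin n → ℝ) (w : Fin n → ℤ) : ℝ := ∑ i, x i * (w i : ℝ)

theorem val_add_left (x y : Fin n → ℝ) (w : Fin n → ℤ) : val (x + y) w = val x w + val y w := by
  simp [val, add_mul, Finset.sum_add_distrib]

theorem val_sub_left (x y : Fin n → ℝ) (w : Fin n → ℤ) : val (x - y) w = val x w - val y w := by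
  simp [val, sub_mul, Finset.sum_sub_distrib]

theorem val_smul_left (r : ℝ) (x : Fin n → ℝ) (w : Fin n → ℤ) :
    val (r • x) w = r * val x w := by
  simp [val, Finset.mul_sum, mul_assoc]

theorem val_sub (x : Fin n → ℝ) (v w : Fin n → ℤ) : val x (v - w) = val x v - val x w := by
  simp [val, mul_sub, Finset.sum_sub_distrib]

theorem val_zsmul (x : Fin n → ℝ) (a : ℤ) (w : Fin n → ℤ) : val x (a • w) = a * val x w := by
  simp only [val, Pi.smul_apply, smul_eq_mul, Finset.mul_sum]
  push_cast
  exact Finset.sum_congr rfl fun i _ => by ring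

theorem val_single (x : Fin n → ℝ) (c : Fin n) : val x (Pi.single c 1) = x c := by
  unfold val
  rw [Finset.sum_eq_single c]
  · simp
  · intro b _ hb; simp [hb]
  · intro h; exact absurd (Finset.mem_univ _) h

theorem val_W (x : Fin n → ℝ) (j : ℕ) (hj : j + 1 < n) :
    val x (W j hj) = x ⟨j + 1, hj⟩ - x ⟨j, by omega⟩ := by
  unfold W
  rw [val_sub, val_single, val_single]

/-- the functional `s(m, ·)`. -/
def phR (h : Fin n → ℕ) (m : Fin n → ℤ) : Fin n → ℝ := fun c => (phi h m c : ℝ)

theorem val_phR (h : Fin n → ℕ) (m w : Fin n → ℤ) :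
    val (phR h m) w = ((∑ c, phi h m c * w c : ℤ) : ℝ) := by
  unfold val phR
  push_cast
  rfl

theorem val_phR_W (h : Fin n → ℕ) (m : Fin n → ℤ) (j : ℕ) (hj : j + 1 < n) :
    val (phR h m) (W j hj) = (K h m j hj : ℝ) := by
  rw [val_W]
  unfold phR K
  push_cast
  rfl

theorem K_add_W (h : Fin n → ℕ) (m : Fin n → ℤ) (j : ℕ) (hj : j + 1 < n) (t : ℤ) :
    K h (m + t • W j hj) j hj = K h m j hj := by
  unfold K
  rw [phi_add, phi_add, phi_smul, phi_smul, phi_W, phi_W, sg_self, sg_self,
    sg_anti h ⟨j + 1, hj⟩ ⟨j, by omega⟩]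
  ring

/-- generic functional. -/
def Gen (x : Fin n → ℝ) : Prop := ∀ w : Fin n → ℤ, val x w = 0 → w = 0

/-- generic point of the wall `W_j`. -/
def WGen (j : ℕ) (hj : j + 1 < n) (x : Fin n → ℝ) : Prop :=
  val x (W j hj) = 0 ∧ ∀ w : Fin n → ℤ, val x w = 0 → ∃ a b : ℤ, a ≠ 0 ∧ a • w = b • W j hj

theorem wGen_of_gen {h : Fin n → ℕ} {m : Fin n → ℤ} {j : ℕ} {hj : j + 1 < n} {x : Fin n → ℝ}
    (hx : Gen x) (hK : 0 < K h m j hj) :
    WGen j hj (x + (- val x (W j hj) / (K h m j hj : ℝ)) • phR h m) := by
  have hK' : (K h m j hj : ℝ) ≠ 0 := by exact_mod_cast hK.ne'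
  refine ⟨?_, fun w h0 => ?_⟩
  · rw [val_add_left, val_smul_left, val_phR_W]
    field_simp
    ring
  · refine ⟨K h m j hj, ∑ c, phi h m c * w c, hK.ne', ?_⟩
    rw [val_add_left, val_smul_left, val_phR] at h0
    have h1 : K h m j hj • w - (∑ c, phi h m c * w c) • W j hj = 0 := by
      refine hx _ ?_
      rw [val_sub, val_zsmul, val_zsmul]
      have h2 : val x w = - (- val x (W j hj) / (K h m j hj : ℝ)) *
          ((∑ c, phi h m c * w c : ℤ) : ℝ) := by linarith
      rw [h2]
      field_simp
      ring
    exact sub_eq_zero.1 h1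

/-- the non generic points on a line through a generic point are countable. -/
theorem countable_bad {x : Fin n → ℝ} (hx : Gen x) (y : Fin n → ℝ) :
    {r : ℝ | ¬ Gen (x + r • y)}.Countable := by
  have hB : (⋃ w : Fin n → ℤ, {r : ℝ | r = - val x w / val y w}).Countable := by
    refine Set.countable_iUnion fun w => ?_
    have : {r : ℝ | r = - val x w / val y w} = {- val x w / val y w} := by
      ext; simp
    rw [this]
    exact Set.countable_singleton _
  refine hB.mono fun r hr => ?_
  simp only [Set.mem_ofPred_eq, Gen, not_forall] at hr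
  obtain ⟨w, h0, hne⟩ := hr
  refine Set.mem_iUnion.2 ⟨w, ?_⟩
  rw [val_add_left, val_smul_left] at h0
  have hy : val y w ≠ 0 := by
    intro hy
    rw [hy, mul_zero, add_zero] at h0
    exact hne (hx w h0)
  change r = - val x w / val y w
  rw [eq_div_iff hy]
  linarith

theorem exists_eps {x : Fin n → ℝ} (hx : Gen x) (y : Fin n → ℝ) (t : ℝ) {d : ℝ} (hd : 0 < d) :
    ∃ e, 0 < e ∧ e < d ∧ Gen (x + (t - e) • y) ∧ Gen (x + (t + e) • y) := by
  have h1 := countable_bad hx y
  have h2 : {e : ℝ | ¬ Gen (x + (t - e) • y)}.Countable :=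
    h1.preimage (f := fun e => t - e) (fun a b hab => by simpa using hab)
  have h3 : {e : ℝ | ¬ Gen (x + (t + e) • y)}.Countable :=
    h1.preimage (f := fun e => t + e) (fun a b hab => by simpa using hab)
  obtain ⟨e, he, h4, h5⟩ := ((h2.union h3).dense_compl ℝ).exists_between hd
  refine ⟨e, h4, h5, ?_, ?_⟩
  · by_contra hcon; exact he (Or.inl hcon)
  · by_contra hcon; exact he (Or.inr hcon)

/-- the value at `W_j`, as a function of `j : ℕ`. -/
def wv (x : Fin n → ℝ) (j : ℕ) : ℝ := if hj : j + 1 < n then val x (W j hj) else 0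

theorem wv_eq {x : Fin n → ℝ} {j : ℕ} (hj : j + 1 < n) : wv x j = val x (W j hj) := dif_pos hj

theorem wv_add (x y : Fin n → ℝ) (r : ℝ) (j : ℕ) : wv (x + r • y) j = wv x j + r * wv y j := by
  unfold wv
  split_ifs with hj
  · rw [val_add_left, val_smul_left]
  · simp

theorem exists_bound (y : Fin n → ℝ) : ∃ B : ℝ, 1 ≤ B ∧ ∀ j, |wv y j| ≤ B := by
  refine ⟨1 + ∑ j ∈ Finset.range n, |wv y j|, ?_, fun j => ?_⟩
  · have : 0 ≤ ∑ j ∈ Finset.range n, |wv y j| := Finset.sum_nonneg fun _ _ => abs_nonneg _
    linarith
  · by_cases hj : j < n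
    · have := Finset.single_le_sum (f := fun j => |wv y j|) (fun _ _ => abs_nonneg _)
        (Finset.mem_range.2 hj)
      linarith
    · have h0 : wv y j = 0 := by
        unfold wv
        rw [dif_neg (by omega)]
      rw [h0, abs_zero]
      have : 0 ≤ ∑ j ∈ Finset.range n, |wv y j| := Finset.sum_nonneg fun _ _ => abs_nonneg _
      linarith

/-- a generic functional in the increasing chamber with very different values. -/
theorem exists_gen (M : ℝ) : ∃ x : Fin n → ℝ, Gen x ∧ (∀ j, j + 1 < n → wv x j < 0) ∧
    ∀ j, M * |wv x (j + 1)| ≤ |wv x j| := by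
  have hc : {a : ℝ | IsAlgebraic ℤ a}.Countable := Algebraic.countable ℤ ℝ
  obtain ⟨a, ha, h1, -⟩ := (hc.dense_compl ℝ).exists_between
    (show max 1 M < max 1 M + 1 by linarith)
  have ha1 : 1 < a := lt_of_le_of_lt (le_max_left _ _) h1
  have haM : M < a := lt_of_le_of_lt (le_max_right _ _) h1
  have htr : Transcendental ℤ a := ha
  let x : Fin n → ℝ := fun i => a ^ (n - i.val)
  have hwv : ∀ j, j + 1 < n → wv x j = - (a ^ (n - (j + 1)) * (a - 1)) := by
    intro j hj
    rw [wv_eq hj, val_W]
    simp only [x]
    have : n - j = (n - (j + 1)) + 1 := by omega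
    rw [this, pow_succ]
    ring
  have hneg : ∀ j, j + 1 < n → wv x j < 0 := by
    intro j hj
    rw [hwv j hj]
    have : 0 < a ^ (n - (j + 1)) * (a - 1) := mul_pos (pow_pos (by linarith) _) (by linarith)
    linarith
  refine ⟨x, ?_, hneg, ?_⟩
  · intro w h0
    -- the polynomial with coefficients `w`
    let p : Polynomial ℤ := ∑ i : Fin n, Polynomial.monomial (n - i.val) (w i)
    have hp : Polynomial.aeval a p = 0 := by
      rw [← h0]
      simp only [p, map_sum, Polynomial.aeval_monomial, val, x]
      refine Finset.sum_congr rfl fun i _ => ?_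
      simp [mul_comm]
    have hp0 : p = 0 := by
      by_contra hne
      exact htr ⟨p, hne, hp⟩
    funext i
    have h2 : p.coeff (n - i.val) = w i := by
      simp only [p, Polynomial.finsetSum_coeff, Polynomial.coeff_monomial]
      rw [Finset.sum_eq_single i]
      · simp
      · intro b _ hb
        rw [if_neg]
        intro hbi
        apply hb
        ext
        have := b.isLt; have := i.isLt
        omega
      · intro h; exact absurd (Finset.mem_univ _) h
    rw [← h2, hp0]
    simp
  · intro j
    by_cases hj : j + 1 + 1 < n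
    · rw [hwv (j + 1) hj, hwv j (by omega), abs_neg, abs_neg]
      have e : n - (j + 1) = (n - (j + 1 + 1)) + 1 := by omega
      have h2 : 0 < a ^ (n - (j + 1 + 1)) * (a - 1) :=
        mul_pos (pow_pos (by linarith) _) (by linarith)
      have h3 : a ^ (n - (j + 1)) * (a - 1) = a * (a ^ (n - (j + 1 + 1)) * (a - 1)) := by
        rw [e, pow_succ]; ring
      rw [h3, abs_mul a, abs_of_pos h2, abs_of_pos (by linarith : (0:ℝ) < a)]
      nlinarith
    · have h0 : wv x (j + 1) = 0 := by
        unfold wv
        rw [dif_neg hj]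
      rw [h0, abs_zero, mul_zero]
      exact abs_nonneg _

/-- **Step 4 (b)**. -/
theorem step4 {h : Fin n → ℕ} (hh : IsHessenberg h) (hc : Conn h) {g : Fin n → ℤ}
    (hg : ∀ c, 0 ≤ g c) (Nz : (Fin n → ℤ) → (Fin n → ℝ) → Prop)
    (N1 : ∀ x, Gen x → Nz g x)
    (N2 : ∀ (m : Fin n → ℤ) (x : Fin n → ℝ) (t : ℝ), Gen x → 0 < t → Gen (x + t • phR h m) →
      Nz m (x + t • phR h m) → Nz m x)
    (N3 : ∀ (m : Fin n → ℤ) (j : ℕ) (hj : j + 1 < n) (x y : Fin n → ℝ), WGen j hj x →
      0 < val y (W j hj) → 0 < K h m j hj →
      ∃ d : ℝ, 0 < d ∧ ∀ e, 0 < e → e < d → Nz m (x + e • y) →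
        Nz (m + K h m j hj • W j hj) (x - e • y))
    (N4 : ∀ (m : Fin n → ℤ) (x : Fin n → ℝ), Gen x → (∀ j (hj : j + 1 < n), val x (W j hj) < 0) →
      Nz m x → ∀ c, 0 ≤ m c) :
    ∀ c, 0 ≤ phi h g c := by
  by_contra hcon
  push Not at hcon
  obtain ⟨i, m, hi, hm0, hstep, c, hneg⟩ := kill hh hc hg hcon
  have main : ∀ t : ℕ, i + t < n → ∃ M : ℝ, 1 ≤ M ∧ ∀ x : Fin n → ℝ, Gen x →
      (∀ s, s < t → wv x (i + s) < 0) →
      (∀ s, s + 1 < t → M * |wv x (i + s + 1)| ≤ |wv x (i + s)|) → Nz (m (i + t)) x := by
    intro t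
    induction t with
    | zero =>
      intro _
      refine ⟨1, le_rfl, fun x hx _ _ => ?_⟩
      rw [add_zero, hm0]
      exact N1 x hx
    | succ t ih =>
      intro ht
      obtain ⟨M, hM1, hM⟩ := ih (by omega)
      have hj : i + t + 1 < n := ht
      obtain ⟨hK, hmt⟩ := hstep (i + t) (by omega) hj
      set kk := K h (m (i + t)) (i + t) hj with hkk
      obtain ⟨B, hB1, hB⟩ := exists_bound (phR h (m (i + t + 1)))
      refine ⟨3 * M + 4 * B, by linarith, fun x hx hxn hxr => ?_⟩
      -- sizes
      set a : ℕ → ℝ := fun s => |wv x (i + s)| with ha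
      have hapos : ∀ s, s < t + 1 → 0 < a s := fun s hs => abs_pos.2 (hxn s hs).ne
      have hratio : ∀ s, s < t → (3 * M + 4 * B) * a (s + 1) ≤ a s := by
        intro s hs
        have := hxr s (by omega)
        exact this
      have hmono : ∀ r s, s + r = t → a t ≤ a s := by
        intro r
        induction r with
        | zero => intro s hs; rw [← hs, add_zero]
        | succ r ihr =>
          intro s hs
          have h1 := ihr (s + 1) (by omega)
          have h2 := hratio s (by omega)
          have h3 := hapos (s + 1) (by omega)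
          nlinarith
      have hbig : ∀ s, s < t → (3 * M + 4 * B) * a t ≤ a s := by
        intro s hs
        have h1 := hmono (t - (s + 1)) (s + 1) (by omega)
        have h2 := hratio s hs
        have h3 : (3 * M + 4 * B) * a t ≤ (3 * M + 4 * B) * a (s + 1) :=
          mul_le_mul_of_nonneg_left h1 (by linarith)
        linarith
      -- pairing
      have hKeq : K h (m (i + t + 1)) (i + t) hj = kk := by
        rw [hmt, K_add_W]
      have hKm : 0 < K h (m (i + t + 1)) (i + t) hj := by rw [hKeq]; exact hK
      have hkR : (1 : ℝ) ≤ (kk : ℝ) := by exact_mod_cast hK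
      have hphW : val (phR h (m (i + t + 1))) (W (i + t) hj) = (kk : ℝ) := by
        rw [val_phR_W, hKeq]
      set τ : ℝ := - val x (W (i + t) hj) / (kk : ℝ) with hτ
      have hxt : wv x (i + t) = val x (W (i + t) hj) := wv_eq hj
      have hat : a t = - val x (W (i + t) hj) := by
        simp only [ha]
        rw [hxt]
        have := hxn t (by omega)
        rw [hxt] at this
        exact abs_of_neg this
      have hτpos : 0 < τ := by
        rw [hτ, ← hat]
        exact div_pos (hapos t (by omega)) (by linarith)
      have hτle : τ ≤ a t := by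
        rw [hτ, ← hat]
        exact div_le_self (hapos t (by omega)).le hkR
      -- the wall point
      have hW := wGen_of_gen (h := h) (m := m (i + t + 1)) hx hKm
      rw [hKeq] at hW
      obtain ⟨d, hd, hN3⟩ := N3 (m (i + t)) (i + t) hj _ (phR h (m (i + t + 1))) hW
        (by rw [hphW]; linarith) hK
      have hdd : 0 < min (min d τ) (a t / (4 * B)) :=
        lt_min (lt_min hd hτpos) (div_pos (hapos t (by omega)) (by linarith))
      obtain ⟨e, he0, he1, hg1, hg2⟩ := exists_eps hx (phR h (m (i + t + 1))) τ hdd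
      have hed : e < d := lt_of_lt_of_le he1 ((min_le_left _ _).trans (min_le_left _ _))
      have heτ : e < τ := lt_of_lt_of_le he1 ((min_le_left _ _).trans (min_le_right _ _))
      have hea : e < a t / (4 * B) := lt_of_lt_of_le he1 (min_le_right _ _)
      have heB : e * B ≤ a t / 4 := by
        rw [lt_div_iff₀ (by linarith)] at hea
        linarith
      have e1 : x + τ • phR h (m (i + t + 1)) + e • phR h (m (i + t + 1)) =
          x + (τ + e) • phR h (m (i + t + 1)) := by
        rw [add_smul, add_assoc]
      have e2 : x + τ • phR h (m (i + t + 1)) - e • phR h (m (i + t + 1)) =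
          x + (τ - e) • phR h (m (i + t + 1)) := by
        rw [sub_smul, add_sub_assoc]
      -- values after the wall
      have hval : ∀ s, s < t → |(τ + e) * wv (phR h (m (i + t + 1))) (i + s)| ≤ a s / 2 := by
        intro s hs
        have h1 := hB (i + s)
        have h2 := hbig s hs
        have h3 : 0 < a t := hapos t (by omega)
        rw [abs_mul, abs_of_pos (by linarith : 0 < τ + e)]
        have h4 : (τ + e) * |wv (phR h (m (i + t + 1))) (i + s)| ≤ (τ + e) * B :=
          mul_le_mul_of_nonneg_left h1 (by linarith)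
        have h5 : (τ + e) * B ≤ a t * B + a t / 4 := by nlinarith
        have h6 : 4 * (a t * B) ≤ a s := by nlinarith
        have h7 : a t ≤ a s := by nlinarith
        linarith
      have hplus : Nz (m (i + t)) (x + (τ + e) • phR h (m (i + t + 1))) := by
        refine hM _ hg2 ?_ ?_
        · intro s hs
          rw [wv_add]
          have h1 := hval s hs
          have h2 : wv x (i + s) = - a s := by
            simp only [ha]
            rw [abs_of_neg (hxn s (by omega))]
            ring
          have h3 := abs_le.1 h1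
          have h4 := hapos s (by omega)
          rw [h2]
          linarith [h3.2]
        · intro s hs
          rw [wv_add, wv_add]
          have h1 := hval s (by omega)
          have h1' := hval (s + 1) hs
          have h2 : wv x (i + s) = - a s := by
            simp only [ha]
            rw [abs_of_neg (hxn s (by omega))]
            ring
          have h2' : wv x (i + s + 1) = - a (s + 1) := by
            have hn' : wv x (i + s + 1) < 0 := hxn (s + 1) (by omega)
            have ha' : a (s + 1) = |wv x (i + s + 1)| := rfl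
            rw [ha', abs_of_neg hn']
            ring
          have h3 := abs_le.1 h1
          have h3' := abs_le.1 h1'
          rw [← add_assoc] at h3'
          have h4 := hapos s (by omega)
          have h4' := hapos (s + 1) (by omega)
          have h5 := hratio s (by omega)
          rw [h2, h2']
          have h6 : |(-a (s + 1) + (τ + e) * wv (phR h (m (i + t + 1))) (i + s + 1))| ≤
              3 / 2 * a (s + 1) := by
            rw [abs_le]
            constructor <;> linarith [h3'.1, h3'.2]
          have h7 : a s / 2 ≤ |(-a s + (τ + e) * wv (phR h (m (i + t + 1))) (i + s))| := by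
            rw [le_abs]
            right
            linarith [h3.2]
          have h8 : M * |(-a (s + 1) + (τ + e) * wv (phR h (m (i + t + 1))) (i + s + 1))| ≤
              M * (3 / 2 * a (s + 1)) := mul_le_mul_of_nonneg_left h6 (by linarith)
          have h9 : 0 ≤ B * a (s + 1) := mul_nonneg (by linarith) h4'.le
          nlinarith
      have hminus : Nz (m (i + t + 1)) (x + (τ - e) • phR h (m (i + t + 1))) := by
        have h1 := hN3 e he0 hed
        rw [e1, e2, ← hmt] at h1
        exact h1 hplus
      exact N2 (m (i + t + 1)) x (τ - e) hx (by linarith) hg1 hminus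
  obtain ⟨M, hM1, hM⟩ := main (n - 1 - i) (by omega)
  obtain ⟨x, hx, hxn, hxr⟩ := exists_gen (n := n) M
  have e3 : i + (n - 1 - i) = n - 1 := by omega
  rw [e3] at hM
  have hNz := hM x hx (fun s hs => hxn _ (by omega)) (fun s _ => hxr _)
  have := N4 _ x hx (fun j hj => by rw [← wv_eq hj]; exact hxn j hj) hNz c
  omega

end Crest.Agent.R059.Step4
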