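import Crest.Agent.R059.TransA_569
import Crest.Agent.R059.Grnd_883
import Crest.Agent.R059.Step4_227

/-!
Row 59 (S0081), helper227.  Block PATH: from the abstract transport data of `TransA_569` (over the
lattice of `Grnd_883`) and the full bend at the plain walls `W_j` to
`T_g = 0` unless `g ≥ 0` and `s(g, u_c) ≥ 0` for all `c`.
-/

set_option autoImplicit false

open Crest.CombinatoricsR.UnitInterval Crest.Agent.R059.MutConn

namespace Crest.Agent.R059.Path227

open Crest.Agent.R059 Trans569 Step4 Kill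

variable {n : ℕ}

theorem val_add (x : Fin n → ℝ) (v w : Fin n → ℤ) : val x (v + w) = val x v + val x w := by
  simp [val, mul_add, Finset.sum_add_distrib]

theorem val_zero (x : Fin n → ℝ) : val x (0 : Fin n → ℤ) = 0 := by simp [val]

/-- the functional on exponents given by its values at the `u_i`. -/
noncomputable def xM (x : Fin n → ℝ) : (Fin n →₀ ℕ) →+ ℝ where
  toFun e := val x (uco e)
  map_zero' := by rw [uco_zero, val_zero]
  map_add' a b := by rw [uco_add, val_add]

@[simp] theorem xM_apply (x : Fin n → ℝ) (e : Fin n →₀ ℕ) : xM x e = val x (uco e) := rfl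

theorem e_eq_sg (h : Fin n → ℕ) (a b : Fin n) : Kill59.e h a b = sg h a b := rfl

theorem s_eq (h : Fin n → ℕ) (m w : Fin n → ℤ) :
    Kill59.s h m w = ∑ c, phi h m c * w c := by
  unfold Kill59.s phi
  rw [Finset.sum_comm]
  refine Finset.sum_congr rfl fun c _ => ?_
  rw [Finset.sum_mul]
  refine Finset.sum_congr rfl fun a _ => ?_
  rw [e_eq_sg]; ring

theorem val_phR' (h : Fin n → ℕ) (m w : Fin n → ℤ) :
    val (phR h m) w = (Kill59.s h m w : ℝ) := by
  rw [val_phR, s_eq]

theorem W_eq (j : ℕ) (hj : j + 1 < n) : (Kill59.W j hj : Fin n → ℤ) = Kill.W j hj := rfl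

theorem form_single (h : Fin n → ℕ) (m : Fin n →₀ ℕ) (j : ℕ) (hj : j + 1 < n) :
    form h m (Finsupp.single ⟨j + 1, hj⟩ 1) = K h (uco m) j hj := by
  rw [form_apply, uco_single, W_eq]
  have h1 := val_phR' h (uco m) (Kill.W j hj)
  rw [val_phR_W] at h1
  exact_mod_cast h1.symm

theorem gen_inj {x : Fin n → ℝ} (hx : Gen x) : Function.Injective (xM x) := by
  intro a b hab
  apply uco_injective
  have h1 : val x (uco a - uco b) = 0 := by
    rw [val_sub]
    exact sub_eq_zero.2 hab
  exact sub_eq_zero.1 (hx _ h1)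

theorem uco_nsmul' (k : ℕ) (a : Fin n →₀ ℕ) : uco (k • a) = (k : ℤ) • uco a := uco_nsmul k a

theorem wgen_ker {x : Fin n → ℝ} {j : ℕ} {hj : j + 1 < n} (hx : WGen j hj x) :
    KerRay (xM x) (Finsupp.single (⟨j + 1, hj⟩ : Fin n) 1) := by
  refine ⟨by simp, ?_, fun a b hab => ?_⟩
  · rw [xM_apply, uco_single, W_eq]; exact hx.1
  · have h1 : val x (uco a - uco b) = 0 := by
      rw [val_sub]; exact sub_eq_zero.2 hab
    obtain ⟨k, i, hk, hki⟩ := hx.2 _ h1
    -- `k (a - b) = i W`
    rcases lt_or_gt_of_ne hk with hk' | hk'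
    · refine ⟨(-k).toNat, i.toNat, (-i).toNat, by omega, uco_injective ?_⟩
      rw [uco_add, uco_add, uco_nsmul', uco_nsmul', uco_nsmul', uco_nsmul', uco_single, W_eq]
      funext c
      have h2 := congrFun hki c
      simp only [Pi.smul_apply, Pi.sub_apply, Pi.add_apply, smul_eq_mul] at h2 ⊢
      have e1 : (((-k).toNat : ℕ) : ℤ) = -k := by omega
      have e2 : ((i.toNat : ℕ) : ℤ) - (((-i).toNat : ℕ) : ℤ) = i := by omega
      rw [e1]
      have e3 : ((i.toNat : ℕ) : ℤ) = i + (((-i).toNat : ℕ) : ℤ) := by omega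
      rw [e3]
      linarith
    · refine ⟨k.toNat, (-i).toNat, i.toNat, by omega, uco_injective ?_⟩
      rw [uco_add, uco_add, uco_nsmul', uco_nsmul', uco_nsmul', uco_nsmul', uco_single, W_eq]
      funext c
      have h2 := congrFun hki c
      simp only [Pi.smul_apply, Pi.sub_apply, Pi.add_apply, smul_eq_mul] at h2 ⊢
      have e1 : ((k.toNat : ℕ) : ℤ) = k := by omega
      rw [e1]
      have e3 : ((i.toNat : ℕ) : ℤ) = i + (((-i).toNat : ℕ) : ℤ) := by omega
      rw [e3]
      linarith

theorem lex_inj {M V : Type} [AddCommMonoid M] [IsCancelAdd M] [AddCommGroup V] [LinearOrder V]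
    [IsOrderedAddMonoid V] (hM : ∀ (k : ℕ) (a b : M), 0 < k → k • a = k • b → a = b)
    {p : M →+ V} {g : M} (hp : KerRay p g) {s : M →+ ℤ} (hs : s g ≠ 0) :
    Function.Injective (lexF p s) := by
  intro a b hab
  rw [lexF_inj] at hab
  obtain ⟨k, i, j, hk, hkij⟩ := hp.2.2 a b hab.1
  have h1 := congrArg s hkij
  simp only [map_add, map_nsmul] at h1
  rw [hab.2, add_right_inj] at h1
  have h2 : ((i : ℤ) - j) * s g = 0 := by
    simp only [nsmul_eq_mul] at h1
    linarith
  have h3 : (i : ℤ) = j := by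
    rcases mul_eq_zero.1 h2 with h | h
    · linarith
    · exact absurd h hs
  have h4 : i = j := by exact_mod_cast h3
  subst h4
  exact hM k a b hk (add_right_cancel hkij)

theorem nsmul_inj' (k : ℕ) (a b : Fin n →₀ ℕ) (hk : 0 < k) (h : k • a = k • b) : a = b := by
  ext i
  have := DFunLike.congr_fun h i
  simp only [Finsupp.smul_apply, smul_eq_mul] at this
  exact Nat.eq_of_mul_eq_mul_left hk this

/-- signs for small perturbations. -/
theorem exists_same (x y : Fin n → ℝ) (m : Fin n →₀ ℕ) :
    ∃ d : ℝ, 0 < d ∧ ∀ e, 0 < e → e < d → ∀ c ≤ m,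
      SameSign (xM (x + e • y)) (lexF (xM x) (xM y)) c := by
  classical
  have hfin : (Set.Iic m).Finite := Set.finite_Iic m
  have h1 : ∀ c : Fin n →₀ ℕ, ∃ d : ℝ, 0 < d ∧ ∀ e : ℝ, 0 < e → e < d →
      SameSign (xM (x + e • y)) (lexF (xM x) (xM y)) c := by
    intro c
    have hv : ∀ e : ℝ, xM (x + e • y) c = xM x c + e * xM y c := by
      intro e; simp [val_add_left, val_smul_left]
    rcases lt_trichotomy (xM x c) 0 with h | h | h
    · refine ⟨-(xM x c) / (|xM y c| + 1), div_pos (by linarith) (by positivity), ?_⟩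
      intro e he he'
      rw [lt_div_iff₀ (by positivity)] at he'
      have h2 : xM (x + e • y) c < 0 := by
        rw [hv]
        nlinarith [le_abs_self (xM y c), abs_nonneg (xM y c)]
      have h3 : lexF (xM x) (xM y) c < 0 := lexF_neg.2 (Or.inl h)
      exact ⟨⟨fun h' => absurd h' (not_lt.2 h2.le), fun h' => absurd h' (not_lt.2 h3.le)⟩,
        ⟨fun _ => h3, fun _ => h2⟩⟩
    · refine ⟨1, one_pos, fun e he _ => ?_⟩
      refine ⟨?_, ?_⟩
      · rw [lexF_pos, hv, h, zero_add]
        constructor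
        · intro h'; exact Or.inr ⟨rfl, (mul_pos_iff_of_pos_left he).1 h'⟩
        · rintro (h' | h')
          · exact absurd h' (lt_irrefl _)
          · exact mul_pos he h'.2
      · rw [lexF_neg, hv, h, zero_add]
        constructor
        · intro h'; exact Or.inr ⟨rfl, by nlinarith⟩
        · rintro (h' | h')
          · exact absurd h' (lt_irrefl _)
          · nlinarith [h'.2]
    · refine ⟨(xM x c) / (|xM y c| + 1), div_pos h (by positivity), ?_⟩
      intro e he he'
      rw [lt_div_iff₀ (by positivity)] at he'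
      have h2 : 0 < xM (x + e • y) c := by
        rw [hv]
        nlinarith [neg_abs_le (xM y c), abs_nonneg (xM y c)]
      have h3 : 0 < lexF (xM x) (xM y) c := lexF_pos.2 (Or.inl h)
      exact ⟨⟨fun _ => h3, fun _ => h2⟩,
        ⟨fun h' => absurd h' (not_lt.2 h2.le), fun h' => absurd h' (not_lt.2 h3.le)⟩⟩
  choose d hd hd' using h1
  obtain ⟨c0, hc0, hmin⟩ := Set.exists_min_image (Set.Iic m) d hfin ⟨m, Set.mem_Iic.2 le_rfl⟩
  exact ⟨d c0, hd c0, fun e h0 h1 c hc => hd' c e h0 (lt_of_lt_of_le h1 (hmin c hc))⟩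

/-- lexicographic refinements with the same signs on the ray. -/
theorem lex_same {M V W W' : Type} [AddCommMonoid M] [AddCommGroup V] [LinearOrder V]
    [IsOrderedAddMonoid V] [AddCommGroup W] [LinearOrder W] [IsOrderedAddMonoid W]
    [AddCommGroup W'] [LinearOrder W'] [IsOrderedAddMonoid W']
    {p : M →+ V} {g : M} (hp : KerRay p g) {y : M →+ W} {y' : M →+ W'}
    (hy : 0 < y g) (hy' : 0 < y' g) (c : M) : SameSign (lexF p y) (lexF p y') c := by
  by_cases hpc : p c = 0
  · -- `c` is on the ray of `g`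
    obtain ⟨k, i, j, hk, hkij⟩ := hp.2.2 c 0 (by rw [hpc, map_zero])
    rw [smul_zero, zero_add] at hkij
    -- k y(c) = (j - i) y(g)
    have h1 : k • y c = ((j : ℤ) - i) • y g := by
      have := congrArg y hkij
      simp only [map_add, map_nsmul] at this
      rw [sub_zsmul, natCast_zsmul, natCast_zsmul, ← this]
      abel
    have h2 : k • y' c = ((j : ℤ) - i) • y' g := by
      have := congrArg y' hkij
      simp only [map_add, map_nsmul] at this
      rw [sub_zsmul, natCast_zsmul, natCast_zsmul, ← this]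
      abel
    have key : ∀ {U : Type} [AddCommGroup U] [LinearOrder U] [IsOrderedAddMonoid U] (z : M →+ U),
        0 < z g → k • z c = ((j : ℤ) - i) • z g →
        (0 < z c ↔ 0 < (j : ℤ) - i) ∧ (z c < 0 ↔ (j : ℤ) - i < 0) := by
      intro U _ _ _ z hz h
      rcases lt_trichotomy ((j : ℤ) - i) 0 with hji | hji | hji
      · have h3 : ((j : ℤ) - i) • z g < 0 := by
          rw [← neg_pos, ← neg_zsmul]
          exact zsmul_pos hz (by omega)
        have h4 : z c < 0 := by
          rw [← h] at h3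
          by_contra hcon
          exact absurd h3 (not_lt.2 (nsmul_nonneg (not_lt.1 hcon) k))
        exact ⟨⟨fun h' => absurd h' (not_lt.2 h4.le), fun h' => absurd h' (not_lt.2 hji.le)⟩,
          ⟨fun _ => hji, fun _ => h4⟩⟩
      · rw [hji, zero_smul] at h
        have h4 : z c = 0 := by
          rcases lt_trichotomy (z c) 0 with h5 | h5 | h5
          · have := nsmul_pos (neg_pos.2 h5) (Nat.pos_iff_ne_zero.1 hk)
            rw [smul_neg, h, neg_zero] at this
            exact absurd this (lt_irrefl _)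
          · exact h5
          · have := nsmul_pos h5 (Nat.pos_iff_ne_zero.1 hk)
            rw [h] at this
            exact absurd this (lt_irrefl _)
        rw [h4, hji]
        simp
      · have h3 : 0 < ((j : ℤ) - i) • z g := zsmul_pos hz hji
        have h4 : 0 < z c := by
          rw [← h] at h3
          by_contra hcon
          have := nsmul_nonneg (neg_nonneg.2 (not_lt.1 hcon)) k
          rw [smul_neg] at this
          exact absurd h3 (not_lt.2 (neg_nonneg.1 this))
        exact ⟨⟨fun _ => hji, fun _ => h4⟩,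
          ⟨fun h' => absurd h' (not_lt.2 h4.le), fun h' => absurd h' (not_lt.2 hji.le)⟩⟩
    have k1 := key y hy h1
    have k2 := key y' hy' h2
    refine ⟨?_, ?_⟩
    · rw [lexF_pos, lexF_pos, hpc, k1.1, k2.1]
    · rw [lexF_neg, lexF_neg, hpc, k1.2, k2.2]
  · refine ⟨?_, ?_⟩
    · rw [lexF_pos, lexF_pos]
      simp [hpc]
    · rw [lexF_neg, lexF_neg]
      simp [hpc]

section main

variable {R : Type*} [CommRing R] {P : Subsemiring R} {h : Fin n → ℕ}

/-- the full bend at the plain wall `W_j` has an invertible coefficient. -/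
def FullBend (D : TData (form h) P) : Prop :=
  ∀ {V : Type} [AddCommGroup V] [LinearOrder V] [IsOrderedAddMonoid V]
    (p : (Fin n →₀ ℕ) →+ V) (j : ℕ) (hj : j + 1 < n),
    KerRay p (Finsupp.single (⟨j + 1, hj⟩ : Fin n) 1) →
    ∀ (a : Fin n →₀ ℕ) (k : ℕ), 0 < k → form h a (Finsupp.single (⟨j + 1, hj⟩ : Fin n) 1) = k →
    ∃ κ : (Fin n →₀ ℕ) → R, (∀ e, κ e ∈ P) ∧ IsUnit (κ a) ∧
      D.c (lexF p (-(form h (a + k • Finsupp.single (⟨j + 1, hj⟩ : Fin n) 1))))
          (a + k • Finsupp.single (⟨j + 1, hj⟩ : Fin n) 1) =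
        ∑ e ∈ Finset.Iic (a + k • Finsupp.single (⟨j + 1, hj⟩ : Fin n) 1), κ e *
          D.c (lexF p (form h (a + k • Finsupp.single (⟨j + 1, hj⟩ : Fin n) 1))) e

/-- **PATH**. -/
theorem path (hh : IsHessenberg h) (hc : Conn h) (D : TData (form h) P) (C : AddSubmonoid R)
    (hPC : ∀ p ∈ P, ∀ a ∈ C, p * a ∈ C) (hsal : ∀ a ∈ C, -a ∈ C → a = 0)
    (hfull : FullBend D)
    (T : (Fin n →₀ ℕ) → R)
    (hT : ∀ g, ∀ {V : Type} [AddCommGroup V] [LinearOrder V] [IsOrderedAddMonoid V]
      (x : (Fin n →₀ ℕ) →+ V), D.c (lexF (form h g) x) g = T g)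
    (hTC : ∀ g, T g ∈ C)
    (hinc : ∀ (x : (Fin n →₀ ℕ) →+ ℝ),
      (∀ (j : ℕ) (hj : j + 1 < n), x (Finsupp.single (⟨j + 1, hj⟩ : Fin n) 1) < 0) →
      ∀ m, D.c x m ≠ 0 → ∀ c, 0 ≤ uco m c)
    (g : Fin n →₀ ℕ) (hg : T g ≠ 0) : (∀ c, 0 ≤ uco g c) ∧ ∀ c, 0 ≤ phi h (uco g) c := by
  classical
  have hposall : ∀ m : Fin n →₀ ℕ, ∀ {V : Type} [AddCommGroup V] [LinearOrder V]
      [IsOrderedAddMonoid V] (x : (Fin n →₀ ℕ) →+ V), Function.Injective x →
      D.c x m ∈ C ∧ D.c x m - T m ∈ C := by
    intro m V _ _ _ x hx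
    exact D.pos_of_terminal C hPC T hT m (fun g _ => hTC g) x hx
  -- F_g(x) ≠ 0 for every injective x
  have hg1 : ∀ x : (Fin n →₀ ℕ) →+ ℝ, Function.Injective x → D.c x g ≠ 0 := by
    intro x hx h0
    have h1 := (hposall g x hx).2
    rw [h0, zero_sub] at h1
    exact hg (hsal _ (hTC g) h1)
  have hgpos : ∀ c, 0 ≤ uco g c := by
    obtain ⟨x, hx, hxn, -⟩ := exists_gen (n := n) 1
    refine hinc (xM x) (fun j hj => ?_) g (hg1 _ (gen_inj hx))
    have := hxn j hj
    rw [wv_eq hj] at this
    rw [xM_apply, uco_single, W_eq]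
    exact this
  refine ⟨hgpos, ?_⟩
  let Nz : (Fin n → ℤ) → (Fin n → ℝ) → Prop := fun m x =>
    ∃ e : Fin n →₀ ℕ, uco e = m ∧ D.c (xM x) e ≠ 0
  refine step4 hh hc hgpos Nz ?_ ?_ ?_ ?_
  · -- N1
    intro x hx
    exact ⟨g, rfl, hg1 _ (gen_inj hx)⟩
  · -- N2
    rintro m x t hx ht hxt ⟨e, rfl, hne⟩
    refine ⟨e, rfl, fun h0 => hne ?_⟩
    have hval : ∀ c : Fin n →₀ ℕ, xM (x + t • phR h (uco e)) c =
        xM x c + t * (form h e c : ℝ) := by
      intro c
      rw [xM_apply, val_add_left, val_smul_left, val_phR', form_apply, xM_apply]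
    have hxi := gen_inj hx
    have hyi := gen_inj hxt
    have h1 : D.c (xM x) e - D.c (xM (x + t • phR h (uco e))) e ∈ C := by
      refine D.mono C hPC e (fun e' _ V _ _ _ x' hx' => (hposall e' x' hx').1)
        (xM (x + t • phR h (uco e))) _ (xM x)
        ((Finset.Iic e).filter (fun c => Opp (xM x) (form h e) c ∧
          |xM x c| < t * |(form h e c : ℝ)|)) rfl hxi ?_ ?_ ?_ ?_
      · intro c hc
        rw [Finset.mem_filter, Finset.mem_Iic] at hc
        exact ⟨hc.1, hc.2.1⟩
      · intro a ha b hb hbo hble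
        rw [Finset.mem_filter, Finset.mem_Iic] at ha ⊢
        refine ⟨hb, hbo, ?_⟩
        have h2 := ha.2.2
        unfold Le at hble
        rw [nsmul_eq_mul, nsmul_eq_mul, Nat.cast_natAbs, Nat.cast_natAbs] at hble
        have h3 : (0 : ℝ) < |(form h e a : ℝ)| := abs_pos.2 (by exact_mod_cast ha.2.1.ne_zero)
        have h4 : (0 : ℝ) < |(form h e b : ℝ)| := abs_pos.2 (by exact_mod_cast hbo.ne_zero)
        push_cast at hble
        have h5 : |(form h e a : ℝ)| * |xM x b| < |(form h e a : ℝ)| * (t * |(form h e b : ℝ)|) := by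
          calc |(form h e a : ℝ)| * |xM x b| ≤ |(form h e b : ℝ)| * |xM x a| := hble
            _ < |(form h e b : ℝ)| * (t * |(form h e a : ℝ)|) := mul_lt_mul_of_pos_left h2 h4
            _ = _ := by ring
        exact lt_of_mul_lt_mul_left h5 h3.le
      · intro c hc hcF
        by_cases hc0 : c = 0
        · subst hc0
          rw [SameSign, map_zero, map_zero]
          exact ⟨Iff.rfl, Iff.rfl⟩
        have hxc : xM x c ≠ 0 := fun h' => hc0 (hxi (by rw [h', map_zero]))
        have hyc : xM (x + t • phR h (uco e)) c ≠ 0 :=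
          fun h' => hc0 (hyi (by rw [h', map_zero]))
        have hv := hval c
        by_cases ho : Opp (xM x) (form h e) c
        · have h2 : t * |(form h e c : ℝ)| ≤ |xM x c| := by
            by_contra h2
            exact hcF (Finset.mem_filter.2 ⟨Finset.mem_Iic.2 hc, ho, not_le.1 h2⟩)
          rcases ho with ⟨h3, h4⟩ | ⟨h3, h4⟩
          · have h4' : (form h e c : ℝ) < 0 := by exact_mod_cast h4
            rw [abs_of_neg h4', abs_of_pos h3] at h2
            have h5 : 0 < xM (x + t • phR h (uco e)) c :=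
              lt_of_le_of_ne (by rw [hv]; linarith) (Ne.symm hyc)
            exact ⟨⟨fun _ => h5, fun _ => h3⟩,
              ⟨fun h' => absurd h' (not_lt.2 h3.le), fun h' => absurd h' (not_lt.2 h5.le)⟩⟩
          · have h4' : 0 < (form h e c : ℝ) := by exact_mod_cast h4
            rw [abs_of_pos h4', abs_of_neg h3] at h2
            have h5 : xM (x + t • phR h (uco e)) c < 0 :=
              lt_of_le_of_ne (by rw [hv]; linarith) hyc
            exact ⟨⟨fun h' => absurd h' (not_lt.2 h3.le), fun h' => absurd h' (not_lt.2 h5.le)⟩,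
              ⟨fun _ => h5, fun _ => h3⟩⟩
        · rcases lt_or_gt_of_ne hxc with h3 | h3
          · have h4 : form h e c ≤ 0 := by
              by_contra h4; exact ho (Or.inr ⟨h3, not_le.1 h4⟩)
            have h4' : (form h e c : ℝ) ≤ 0 := by exact_mod_cast h4
            have h5 : xM (x + t • phR h (uco e)) c < 0 := by rw [hv]; nlinarith
            exact ⟨⟨fun h' => absurd h' (not_lt.2 h3.le), fun h' => absurd h' (not_lt.2 h5.le)⟩,
              ⟨fun _ => h5, fun _ => h3⟩⟩
          · have h4 : 0 ≤ form h e c := by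
              by_contra h4; exact ho (Or.inl ⟨h3, not_le.1 h4⟩)
            have h4' : (0 : ℝ) ≤ (form h e c : ℝ) := by exact_mod_cast h4
            have h5 : 0 < xM (x + t • phR h (uco e)) c := by rw [hv]; nlinarith
            exact ⟨⟨fun _ => h5, fun _ => h3⟩,
              ⟨fun h' => absurd h' (not_lt.2 h3.le), fun h' => absurd h' (not_lt.2 h5.le)⟩⟩
      · intro c hc
        rw [Finset.mem_filter] at hc
        have hv := hval c
        obtain ⟨-, ho, h2⟩ := hc
        rcases ho with ⟨h3, h4⟩ | ⟨h3, h4⟩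
        · have h4' : (form h e c : ℝ) < 0 := by exact_mod_cast h4
          rw [abs_of_neg h4', abs_of_pos h3] at h2
          have h5 : xM (x + t • phR h (uco e)) c < 0 := by rw [hv]; linarith
          exact ⟨⟨fun h' => absurd h' (not_lt.2 h5.le), fun h' => absurd h' (not_lt.2 h3.le)⟩,
            ⟨fun _ => h3, fun _ => h5⟩⟩
        · have h4' : 0 < (form h e c : ℝ) := by exact_mod_cast h4
          rw [abs_of_pos h4', abs_of_neg h3] at h2
          have h5 : 0 < xM (x + t • phR h (uco e)) c := by rw [hv]; linarith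
          exact ⟨⟨fun _ => h3, fun _ => h5⟩,
            ⟨fun h' => absurd h' (not_lt.2 h5.le), fun h' => absurd h' (not_lt.2 h3.le)⟩⟩
    rw [h0, zero_sub] at h1
    exact hsal _ ((hposall e _ hyi).1) h1
  · -- N3
    intro m j hj x y hW hy hK
    by_cases hm : ∃ a : Fin n →₀ ℕ, uco a = m
    · obtain ⟨a, rfl⟩ := hm
      obtain ⟨k, hk⟩ : ∃ k : ℕ, (k : ℤ) = K h (uco a) j hj := ⟨(K h (uco a) j hj).toNat, by omega⟩
      have hk0 : 0 < k := by omega
      set gj : Fin n →₀ ℕ := Finsupp.single (⟨j + 1, hj⟩ : Fin n) 1 with hgj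
      set b : Fin n →₀ ℕ := a + k • gj with hb
      have hub : uco b = uco a + K h (uco a) j hj • W j hj := by
        rw [hb, uco_add, uco_nsmul', hgj, uco_single, W_eq, hk]
      have hker := wgen_ker hW
      have hsa : form h a gj = k := by rw [hgj, form_single, hk]
      have hsb : form h b gj = k := by
        rw [hgj, form_single, hub, K_add_W, hk]
      have hsb' : (0 : ℤ) < form h b gj := by rw [hsb]; exact_mod_cast hk0
      obtain ⟨κ, hκP, hκu, hκ⟩ := hfull (xM x) j hj hker a k hk0 hsa
      obtain ⟨d1, hd1, hs1⟩ := exists_same x y a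
      obtain ⟨d2, hd2, hs2⟩ := exists_same x (-y) b
      have hyg : 0 < xM y gj := by
        rw [xM_apply, hgj, uco_single, W_eq]; exact hy
      refine ⟨min d1 d2, lt_min hd1 hd2, ?_⟩
      rintro e he0 he1 ⟨a', ha', hne⟩
      have haa : a' = a := uco_injective ha'
      subst haa
      refine ⟨b, hub, ?_⟩
      have he2 : x - e • y = x + e • (-y) := by rw [smul_neg, sub_eq_add_neg]
      have h1 : D.c (xM (x - e • y)) b = D.c (lexF (xM x) (-(form h b))) b := by
        rw [he2]
        refine D.loc _ _ b (fun c hc => ?_)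
        refine SameSign.trans (hs2 e he0 (lt_of_lt_of_le he1 (min_le_right _ _)) c hc) ?_
        -- signs of `lex (x, -y)` and `lex (x, -s)`
        have h3 := lex_same hker hyg hsb' c
        have h4 : ∀ c : Fin n →₀ ℕ, xM (-y) c = - xM y c := by
          intro c; simp [val]
        refine ⟨?_, ?_⟩
        · rw [lexF_pos, lexF_pos]
          have h5 := h3.2
          rw [lexF_neg, lexF_neg] at h5
          rw [h4]
          simp only [AddMonoidHom.neg_apply, Left.neg_pos_iff]
          constructor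
          · rintro (h6 | ⟨h6, h7⟩)
            · exact Or.inl h6
            · rcases h5.1 (Or.inr ⟨h6, h7⟩) with h8 | h8
              · rw [h6] at h8; exact absurd h8 (lt_irrefl _)
              · exact Or.inr h8
          · rintro (h6 | ⟨h6, h7⟩)
            · exact Or.inl h6
            · rcases h5.2 (Or.inr ⟨h6, h7⟩) with h8 | h8
              · rw [h6] at h8; exact absurd h8 (lt_irrefl _)
              · exact Or.inr h8
        · rw [lexF_neg, lexF_neg]
          have h5 := h3.1
          rw [lexF_pos, lexF_pos] at h5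
          rw [h4]
          simp only [AddMonoidHom.neg_apply, Left.neg_neg_iff]
          constructor
          · rintro (h6 | ⟨h6, h7⟩)
            · exact Or.inl h6
            · rcases h5.1 (Or.inr ⟨h6, h7⟩) with h8 | h8
              · rw [h6] at h8; exact absurd h8 (lt_irrefl _)
              · exact Or.inr h8
          · rintro (h6 | ⟨h6, h7⟩)
            · exact Or.inl h6
            · rcases h5.2 (Or.inr ⟨h6, h7⟩) with h8 | h8
              · rw [h6] at h8; exact absurd h8 (lt_irrefl _)
              · exact Or.inr h8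
      have h2 : D.c (xM (x + e • y)) a' = D.c (lexF (xM x) (form h b)) a' := by
        refine D.loc _ _ a' (fun c hc => ?_)
        exact SameSign.trans (hs1 e he0 (lt_of_lt_of_le he1 (min_le_left _ _)) c hc)
          (lex_same hker hyg hsb' c)
      rw [h1, hκ]
      intro h0
      -- all terms are in the cone
      have hinj : Function.Injective (lexF (xM x) (form h b)) :=
        lex_inj nsmul_inj' hker hsb'.ne'
      have hterm : ∀ c, κ c * D.c (lexF (xM x) (form h b)) c ∈ C :=
        fun c => hPC _ (hκP c) _ (hposall c _ hinj).1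
      have hmem : a' ∈ Finset.Iic b := by
        rw [Finset.mem_Iic, hb]
        exact le_self_add
      rw [← Finset.add_sum_erase _ _ hmem] at h0
      have h3 : κ a' * D.c (lexF (xM x) (form h b)) a' = 0 := by
        refine hsal _ (hterm a') ?_
        have h4 : -(κ a' * D.c (lexF (xM x) (form h b)) a') =
            ∑ c ∈ (Finset.Iic b).erase a', κ c * D.c (lexF (xM x) (form h b)) c := by
          linear_combination -h0
        rw [h4]
        exact C.sum_mem (fun c _ => hterm c)
      rw [h2] at hne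
      exact hne ((hκu.mul_right_eq_zero).1 h3)
    · refine ⟨1, one_pos, ?_⟩
      rintro e _ _ ⟨a, ha, _⟩
      exact absurd ⟨a, ha⟩ hm
  · -- N4
    rintro m x hx hneg ⟨e, rfl, hne⟩
    refine hinc (xM x) (fun j hj => ?_) e hne
    rw [xM_apply, uco_single, W_eq]
    exact hneg j hj

end main

end Crest.Agent.R059.Path227
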