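import Crest.Agent.R059.Trans_569
import Crest.Agent.R059.Final_157
import Crest.Agent.R059.Map_510
import Crest.Agent.R059.Good_153
import Crest.Agent.R059.Path_227

set_option autoImplicit false
set_option linter.unusedSectionVars false

/-!
Row 59 (S0081), helper870 (second of 227 on MainT2).  Reductions for `A_W := zer dg A'`:

* (W1) `zer_zer`, `pos_lexF`: parts of `zer δ A` from parts of `A` at `lexF δ x`;
* (W2) `crossPos_zer`: `CrossPos s P A → CrossPos s P (zer δ A)`;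
* (W3) `parts_mapW`, `inv_mapW`, `conj_mapW`, `crossPos_mapW`: base change;
* (W4) `dg`, `pos_AW`, `conj_AW`, `hinc`: the chambers where all `W_j` are negative;
* (W5) `conj_good`, `conj_good_mem`: the terminal value of a good class.
-/

open Crest.CombinatoricsR.UnitInterval

namespace Crest.Agent.R059.AWRed870

open Finset TPS Trans569

section lex

variable {ι : Type} [DecidableEq ι] {R : Type*} [CommRing R] {T : Tw (ι →₀ ℕ) R}
variable {V0 V : Type} [AddCommGroup V0] [LinearOrder V0] [IsOrderedAddMonoid V0]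
  [AddCommGroup V] [LinearOrder V] [IsOrderedAddMonoid V]

theorem lexF_eq (x : (ι →₀ ℕ) →+ V0) (y : (ι →₀ ℕ) →+ V) : lexF x y = lexHom x y := rfl

/-- **(W1)** -/
theorem zer_zer (δ : (ι →₀ ℕ) →+ V0) (x : (ι →₀ ℕ) →+ V) {A : TPS T} (hA : A.co 0 = 1) :
    zer x (zer δ A) = zer (lexF δ x) A := (parts_lex δ x hA).2.1.symm

theorem pos_lexF (δ : (ι →₀ ℕ) →+ V0) (x : (ι →₀ ℕ) →+ V) {A : TPS T} (hA : A.co 0 = 1) :
    pos (lexF δ x) A = pos δ A * pos x (zer δ A) := (parts_lex δ x hA).1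

theorem neg_lexF (δ : (ι →₀ ℕ) →+ V0) (x : (ι →₀ ℕ) →+ V) {A : TPS T} (hA : A.co 0 = 1) :
    neg (lexF δ x) A = neg x (zer δ A) * neg δ A := (parts_lex δ x hA).2.2

/-- support of an iterated zero part. -/
theorem zer_zer_supp (δ : (ι →₀ ℕ) →+ V0) (x : (ι →₀ ℕ) →+ V) (A : TPS T) {d : ι →₀ ℕ}
    (hd : d ≠ 0) (hne : (zer x (zer δ A)).co d ≠ 0) : x d = 0 ∧ δ d = 0 := by
  have h2 := ((in1_zer δ A).zer (closed_zero δ) x).eq_zero_or hne
  rcases h2 with h | h
  · exact absurd h hd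
  · exact h

theorem zer_zer_eq_one {δ : (ι →₀ ℕ) →+ V0} {p : (ι →₀ ℕ) →+ V} {c : ι →₀ ℕ}
    (hp : KerRay p c) (hc : δ c ≠ 0) (A : TPS T) : zer p (zer δ A) = 1 := by
  ext d
  by_cases hd : d = 0
  · subst hd; rw [zer_co_zero, co_one_zero]
  · rw [co_one_ne hd]
    by_contra hne
    obtain ⟨e1, e2⟩ := zer_zer_supp δ p A hd hne
    obtain ⟨k, j, hk, hj, hkj⟩ := hp.sgn e1 hd
    have h1 := congrArg δ hkj
    rw [map_nsmul, map_nsmul, e2, smul_zero] at h1
    apply hc
    have h2 : j • δ c = j • (0 : V0) := by rw [smul_zero]; exact h1.symm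
    exact nsmul_right_injective hj.ne' h2

theorem nonnegOn_Y (P : Subsemiring R) (m : ι →₀ ℕ) : NonnegOn P (Y T m) := by
  intro d
  by_cases h : d = m
  · subst h; rw [Y, co_mono_self]; exact P.one_mem
  · rw [Y, co_mono_ne h]; exact P.zero_mem

/-- **(W2)** -/
theorem crossPos_zer {s : (ι →₀ ℕ) →+ (ι →₀ ℕ) →+ ℤ} {P : Subsemiring R} {A : TPS T}
    (hA : A.co 0 = 1) (h : CrossPos s P A) (δ : (ι →₀ ℕ) →+ V0) :
    CrossPos s P (zer δ A) := by
  intro V _ _ _ p c hp m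
  by_cases hc : δ c = 0
  · rw [zer_zer δ p hA]
    refine h (lexF δ p) c ⟨hp.1, ?_, ?_⟩ m
    · rw [lexF_apply, hc, hp.2.1]; rfl
    · intro a b hab
      rw [lexF_inj] at hab
      exact hp.2.2 a b hab.2
  · rw [zer_zer_eq_one hp hc]
    exact ⟨fun _ => ⟨Y T m, nonnegOn_Y P m, by rw [one_mul, mul_one]⟩,
      fun _ => ⟨Y T m, nonnegOn_Y P m, by rw [one_mul, mul_one]⟩⟩

end lex

/-! ### base change -/

section basechange

variable {M : Type*} [AddCommMonoid M] [PartialOrder M] [IsOrderedCancelAddMonoid M]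
  [CanonicallyOrderedAdd M] [WellFoundedLT M] [HasAntidiagonal M]
variable {R S : Type*} [CommRing R] [CommRing S] {T : Tw M R} {T' : Tw M S}
variable {φ : R →+* S} (hw : WtCompat φ T T')
variable {V : Type*} [AddCommGroup V] [LinearOrder V] [IsOrderedAddMonoid V]

theorem in1_mapW {P : M → Prop} {f : TPS T} (h : In1 P f) : In1 P (mapW hw f) :=
  ⟨by rw [mapW_co, h.one, map_one], fun d hd hP => by rw [mapW_co, h.supp d hd hP, map_zero]⟩

theorem parts_mapW (x : M →+ V) {a : TPS T} (ha : a.co 0 = 1) :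
    pos x (mapW hw a) = mapW hw (pos x a) ∧ zer x (mapW hw a) = mapW hw (zer x a) ∧
      neg x (mapW hw a) = mapW hw (neg x a) := by
  refine pzn_unique' x (in1_mapW hw (in1_pos x a)) (in1_mapW hw (in1_zer x a))
    (in1_mapW hw (in1_neg x a)) ?_
  rw [← map_mul, ← map_mul, pos_mul_zer_mul_neg x ha]

theorem pos_mapW (x : M →+ V) {a : TPS T} (ha : a.co 0 = 1) :
    pos x (mapW hw a) = mapW hw (pos x a) := (parts_mapW hw x ha).1

theorem zer_mapW (x : M →+ V) {a : TPS T} (ha : a.co 0 = 1) :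
    zer x (mapW hw a) = mapW hw (zer x a) := (parts_mapW hw x ha).2.1

theorem neg_mapW (x : M →+ V) {a : TPS T} (ha : a.co 0 = 1) :
    neg x (mapW hw a) = mapW hw (neg x a) := (parts_mapW hw x ha).2.2

theorem mapW_co_zero {a : TPS T} (ha : a.co 0 = 1) : (mapW hw a).co 0 = 1 := by
  rw [mapW_co, ha, map_one]

theorem inv_mapW {a : TPS T} (ha : a.co 0 = 1) : inv (mapW hw a) = mapW hw (inv a) :=
  inv_eq_of_mul (mapW_co_zero hw ha) (by rw [← map_mul, mul_inv ha, map_one])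

theorem cj_mapW {a : TPS T} (ha : a.co 0 = 1) (F : TPS T) :
    cj (mapW hw a) (mapW hw F) = mapW hw (cj a F) := by
  rw [cj, cj, inv_mapW hw ha, map_mul, map_mul]

theorem conj_mapW (x : M →+ V) {a : TPS T} (ha : a.co 0 = 1) (F : TPS T) :
    conj x (mapW hw a) (mapW hw F) = mapW hw (conj x a F) := by
  rw [conj, conj, pos_mapW hw x ha, cj_mapW hw (pos_co_zero x a)]

end basechange

section crossbase

variable {ι : Type} [DecidableEq ι] {R S : Type*} [CommRing R] [CommRing S]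
  {T : Tw (ι →₀ ℕ) R} {T' : Tw (ι →₀ ℕ) S} {φ : R →+* S} (hw : WtCompat φ T T')

/-- **(W3)** -/
theorem crossPos_mapW {s : (ι →₀ ℕ) →+ (ι →₀ ℕ) →+ ℤ} {P : Subsemiring R} {P' : Subsemiring S}
    (hP : ∀ r ∈ P, φ r ∈ P') {a : TPS T} (ha : a.co 0 = 1) (h : CrossPos s P a) :
    CrossPos s P' (mapW hw a) := by
  intro V _ _ _ p c hp m
  rw [zer_mapW hw p ha]
  obtain ⟨h1, h2⟩ := h p c hp m
  constructor
  · intro hm
    obtain ⟨U, hU, hUe⟩ := h1 hm
    refine ⟨mapW hw U, fun d => hP _ (hU d), ?_⟩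
    rw [← mapW_Y hw, ← map_mul, ← map_mul, hUe]
  · intro hm
    obtain ⟨U, hU, hUe⟩ := h2 hm
    refine ⟨mapW hw U, fun d => hP _ (hU d), ?_⟩
    rw [← mapW_Y hw, ← map_mul, ← map_mul, hUe]

end crossbase

/-! ### the lattice of row 59 -/

section grnd

variable {n : ℕ}

/-- the `u`-degree `∑ uco`. -/
noncomputable def dg (n : ℕ) : (Fin n →₀ ℕ) →+ ℤ where
  toFun t := ∑ i, uco t i
  map_zero' := by rw [uco_zero]; simp
  map_add' a b := by rw [uco_add]; simp [Finset.sum_add_distrib]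

theorem dg_apply (t : Fin n →₀ ℕ) : dg n t = ∑ i, uco t i := rfl

theorem dg_ux (i : Fin n) : dg n (ux i) = 1 := by
  rw [dg_apply, uco_ux]
  simp [Kill59.u]

theorem dg_single_succ (j : ℕ) (hj : j + 1 < n) :
    dg n (Finsupp.single (⟨j + 1, hj⟩ : Fin n) 1) = 0 := by
  rw [dg_apply, uco_single]
  simp [Kill59.W, Kill59.u]

theorem dg_single_zero (hn : 0 < n) :
    dg n (Finsupp.single (⟨0, hn⟩ : Fin n) 1) = 1 := by
  rw [dg_apply, uco_single_zero]
  simp [Kill59.u]

theorem dg_eq (hn : 0 < n) (t : Fin n →₀ ℕ) : dg n t = t ⟨0, hn⟩ := by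
  have h : dg n = (Nat.castAddMonoidHom ℤ).comp (Finsupp.applyAddHom (⟨0, hn⟩ : Fin n)) := by
    apply Finsupp.addHom_ext
    intro i m
    have hs : Finsupp.single i m = m • Finsupp.single i 1 := by
      rw [Finsupp.smul_single, smul_eq_mul, mul_one]
    rw [hs, map_nsmul, map_nsmul]
    congr 1
    obtain ⟨i, hi⟩ := i
    cases i with
    | zero => rw [dg_single_zero]; simp
    | succ j => rw [dg_single_succ]; simp
  rw [h]
  rfl

/-- `dg t ≥ 0`. -/
theorem dg_nonneg (t : Fin n →₀ ℕ) : 0 ≤ dg n t := by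
  rcases Nat.eq_zero_or_pos n with hn | hn
  · subst hn; rw [dg_apply]; simp
  · rw [dg_eq hn]; positivity

variable {V : Type} [AddCommGroup V] [LinearOrder V] [IsOrderedAddMonoid V]

/-- a functional with all `x (W_j) ≤ 0` is `≤ 0` on the classes of degree `0`. -/
theorem nonpos_of_dg {x : (Fin n →₀ ℕ) →+ V}
    (hx : ∀ (j : ℕ) (hj : j + 1 < n), x (Finsupp.single (⟨j + 1, hj⟩ : Fin n) 1) ≤ 0)
    {d : Fin n →₀ ℕ} (hd : dg n d = 0) : x d ≤ 0 := by
  have h1 : x d = d.sum fun i m => m • x (Finsupp.single i 1) := by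
    conv_lhs => rw [← Finsupp.sum_single d]
    rw [Finsupp.sum, map_sum, Finsupp.sum]
    refine Finset.sum_congr rfl fun i _ => ?_
    have hs : Finsupp.single i (d i) = (d i) • Finsupp.single i 1 := by
      rw [Finsupp.smul_single, smul_eq_mul, mul_one]
    rw [hs, map_nsmul]
  rw [h1, Finsupp.sum]
  apply Finset.sum_nonpos
  rintro ⟨i, hi⟩ _
  cases i with
  | zero =>
    rw [dg_eq hi] at hd
    have h0 : d ⟨0, hi⟩ = 0 := by exact_mod_cast hd
    rw [h0, zero_smul]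
  | succ j => exact nsmul_nonpos (hx j hi) _

variable {R : Type*} [CommRing R] {T : Tw (Fin n →₀ ℕ) R}

/-- **(W4)** -/
theorem pos_of_dg {x : (Fin n →₀ ℕ) →+ V}
    (hx : ∀ (j : ℕ) (hj : j + 1 < n), x (Finsupp.single (⟨j + 1, hj⟩ : Fin n) 1) ≤ 0)
    {a : TPS T} (ha : In1 (fun d => dg n d = 0) a) : pos x a = 1 :=
  pos_of_nonpos x (ha.mono fun _ _ hd => nonpos_of_dg hx hd)

theorem pos_AW {x : (Fin n →₀ ℕ) →+ V}
    (hx : ∀ (j : ℕ) (hj : j + 1 < n), x (Finsupp.single (⟨j + 1, hj⟩ : Fin n) 1) ≤ 0)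
    (A : TPS T) : pos x (zer (dg n) A) = 1 := pos_of_dg hx (in1_zer _ _)

theorem conj_of_dg {x : (Fin n →₀ ℕ) →+ V}
    (hx : ∀ (j : ℕ) (hj : j + 1 < n), x (Finsupp.single (⟨j + 1, hj⟩ : Fin n) 1) ≤ 0)
    {a : TPS T} (ha : In1 (fun d => dg n d = 0) a) (F : TPS T) : conj x a F = F := by
  rw [conj, pos_of_dg hx ha, cj_one]

/-- support of `EE`, `FF`: exponents of `ℕ^n`. -/
theorem EE_supp (R : Type*) [CommRing R] [Algebra KK R] (h : Fin n → ℕ) (z : R) :
    Supp (fun d => ∃ g : Fin n → ℕ, d = ex g) (EE R h z) := by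
  intro d hd
  have h1 : ∀ (s : Finset (Finset (Fin n))) (f : Finset (Fin n) → TPS (tw R (form h))),
      (∑ S ∈ s, f S).co d = ∑ S ∈ s, (f S).co d := by
    intro s f
    classical
    induction s using Finset.induction_on with
    | empty => simp
    | insert a s ha ih => rw [Finset.sum_insert ha, Finset.sum_insert ha, co_add, ih]
  rw [EE, h1]
  apply Finset.sum_eq_zero
  intro S _
  apply co_mono_ne
  rintro rfl
  apply hd
  classical
  refine ⟨fun i => if i ∈ S then 1 else 0, ?_⟩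
  rw [ex]
  simp only [ite_smul, one_smul, zero_smul]
  rw [Finset.sum_ite_mem, Finset.univ_inter]

theorem ex_add (g g' : Fin n → ℕ) : ex g + ex g' = ex (g + g') := by
  simp [ex, add_smul, Finset.sum_add_distrib]

theorem FF_supp (h : Fin n → ℕ) (N : ℕ) :
    Supp (fun d => ∃ g : Fin n → ℕ, d = ex g) (FF h N) := by
  have key : ∀ L : List (TPS (tw (MvPolynomial (Fin N) KK) (form h))),
      (∀ f ∈ L, Supp (fun d => ∃ g : Fin n → ℕ, d = ex g) f) →
      Supp (fun d => ∃ g : Fin n → ℕ, d = ex g) L.prod := by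
    intro L
    induction L with
    | nil =>
      intro _ d hd
      rw [List.prod_nil]
      apply co_one_ne
      rintro rfl
      exact hd ⟨0, by simp [ex]⟩
    | cons f L ih =>
      intro hL
      rw [List.prod_cons]
      refine Supp.mul (hL f (List.mem_cons_self)) (ih fun f hf => hL f (List.mem_cons_of_mem _ hf)) ?_
      rintro a b ⟨g, rfl⟩ ⟨g', rfl⟩
      exact ⟨g + g', ex_add g g'⟩
  apply key
  intro f hf
  rw [List.mem_ofFn] at hf
  obtain ⟨j, rfl⟩ := hf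
  exact EE_supp _ h _

theorem FF_nonneg (h : Fin n → ℕ) (N : ℕ) {m : Fin n →₀ ℕ} (hm : (FF h N).co m ≠ 0) (c : Fin n) :
    0 ≤ uco m c := by
  by_contra hc
  apply hm
  apply FF_supp h N m
  rintro ⟨g, rfl⟩
  apply hc
  rw [uco_ex]
  exact Int.natCast_nonneg _

/-- **(W4)**, 227's `hinc`. -/
theorem hinc (h : Fin n → ℕ) (N : ℕ)
    {a : TPS (tw (MvPolynomial (Fin N) KK) (form h))} (ha : In1 (fun d => dg n d = 0) a)
    (x : (Fin n →₀ ℕ) →+ V)
    (hx : ∀ (j : ℕ) (hj : j + 1 < n), x (Finsupp.single (⟨j + 1, hj⟩ : Fin n) 1) < 0)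
    (m : Fin n →₀ ℕ) (hm : (conj x a (FF h N)).co m ≠ 0) : ∀ c, 0 ≤ uco m c := by
  rw [conj_of_dg (fun j hj => (hx j hj).le) ha] at hm
  exact FF_nonneg h N hm

theorem form_ex (h : Fin n → ℕ) (g : Fin n →₀ ℕ) (m : Fin n → ℕ) :
    form h g (ex m) = ∑ c, Kill.phi h (uco g) c * (m c : ℤ) := by
  rw [form_apply, uco_ex, Path227.s_eq]

/-- **(W5)** the terminal value of a good class. -/
theorem conj_good (h : Fin n → ℕ) (N : ℕ)
    (a : TPS (tw (MvPolynomial (Fin N) KK) (form h)))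
    {g : Fin n →₀ ℕ} (hphi : ∀ c, 0 ≤ Kill.phi h (uco g) c) :
    (conj (form h g) a (FF h N)).co g = (FF h N).co g := by
  have hp := in1_pos (form h g) a
  have hp' : In1 (fun d => 0 < form h g d) (inv (pos (form h g) a)) := hp.inv (closed_pos _)
  rw [conj, cj]
  refine Good.co_conj (form h g) (FF h N) (pos (form h g) a) (inv (pos (form h g) a))
    hp.one hp'.one ?_ ?_ ?_ ?_
  · intro d hd hne
    rcases hp.eq_zero_or hne with h1 | h1
    · exact absurd h1 hd
    · exact h1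
  · intro d hd hne
    rcases hp'.eq_zero_or hne with h1 | h1
    · exact absurd h1 hd
    · exact h1
  · intro m hm
    by_contra hcon
    apply hm
    apply FF_supp h N m
    rintro ⟨g', rfl⟩
    apply hcon
    rw [form_ex]
    exact Finset.sum_nonneg fun c _ => mul_nonneg (hphi c) (Int.natCast_nonneg _)
  · have := form_skew h g g
    omega

theorem eq_ex_of_nonneg {g : Fin n →₀ ℕ} (hg : ∀ c, 0 ≤ uco g c) :
    g = ex (fun c => (uco g c).toNat) := by
  apply uco_injective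
  rw [uco_ex]
  funext c
  exact (Int.toNat_of_nonneg (hg c)).symm

/-- **(W5)** good classes: the value lies in `PE N`. -/
theorem conj_good_mem (h : Fin n → ℕ) (N : ℕ)
    (a : TPS (tw (MvPolynomial (Fin N) KK) (form h)))
    {g : Fin n →₀ ℕ} (hg : ∀ c, 0 ≤ uco g c) (hphi : ∀ c, 0 ≤ Kill.phi h (uco g) c) :
    (conj (form h g) a (FF h N)).co g ∈ PE N := by
  rw [conj_good h N a hphi, eq_ex_of_nonneg hg]
  apply Final157.FF_ex_mem
  intro b c hb hc hE
  have hb' : uco g b ≠ 0 := by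
    intro h0; rw [h0] at hb; simp at hb
  have hc' : uco g c ≠ 0 := by
    intro h0; rw [h0] at hc; simp at hc
  rcases hE with ⟨h1, h2⟩ | ⟨h1, h2⟩
  · rcases Kill.indep_of_good hg hphi b c h1 h2 with h3 | h3
    · exact hb' h3
    · exact hc' h3
  · rcases Kill.indep_of_good hg hphi c b h1 h2 with h3 | h3
    · exact hc' h3
    · exact hb' h3

end grnd

end Crest.Agent.R059.AWRed870
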