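import Crest.Agent.R059.AltInd_599

/-!
# Gradings, graded complements, dimension counts
-/

set_option autoImplicit false

open MvPolynomial

namespace Crest.Agent.R059.Alt599

variable {V I : Type*} [Fintype V] [DecidableEq V] [DecidableEq I]

/-- a homogeneous submodule -/
def Graded (W : Submodule ℚ (MvPolynomial V ℚ)) : Prop :=
  ∀ f ∈ W, ∀ n, homogeneousComponent n f ∈ W

omit [Fintype V] [DecidableEq V] in
theorem graded_iSup {ι : Sort*} {W : ι → Submodule ℚ (MvPolynomial V ℚ)}
    (h : ∀ i, Graded (W i)) : Graded (⨆ i, W i) := by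
  intro f hf n
  have hle : (⨆ i, W i) ≤ (⨆ i, W i).comap (homogeneousComponent n) := by
    refine iSup_le fun i g hg => ?_
    exact Submodule.mem_iSup_of_mem i (h i g hg n)
  exact hle hf

omit [Fintype V] in
theorem graded_RA (A : Finset V) : Graded (RA A) := by
  intro f hf n
  rw [homogeneousComponent_apply]
  refine Submodule.sum_mem _ fun m hm => ?_
  exact monomial_mem_RA (support_subset_of_mem_RA hf (Finset.mem_filter.1 hm).1) _

theorem Alt_homogeneousComponent (c : V → I) (A : Finset V) (n : ℕ) (f : MvPolynomial V ℚ) :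
    homogeneousComponent n (Alt c A f) = Alt c A (homogeneousComponent n f) := by
  rw [Alt_apply, Alt_apply, map_sum]
  refine Finset.sum_congr rfl fun w _ => ?_
  rw [map_smul, rename_homogeneousComponent]

/-- degree of the kernel -/
def kd (k : I → I → ℕ) (c : V → I) (A B : Finset V) : ℕ := ∑ a ∈ A, ∑ b ∈ B, k (c a) (c b)

omit [Fintype V] [DecidableEq V] [DecidableEq I] in
theorem K_homogeneous (k : I → I → ℕ) (c : V → I) (A B : Finset V) :
    (K k c A B).IsHomogeneous (kd k c A B) := by
  unfold K kd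
  refine IsHomogeneous.prod _ _ _ fun a _ => IsHomogeneous.prod _ _ _ fun b _ => ?_
  have := ((isHomogeneous_X ℚ b).sub (isHomogeneous_X ℚ a)).pow (k (c a) (c b))
  rwa [one_mul] at this

omit [Fintype V] [DecidableEq V] in
theorem homogeneousComponent_mul_left {s : MvPolynomial V ℚ} {p : ℕ} (hs : s.IsHomogeneous p)
    (f : MvPolynomial V ℚ) (n : ℕ) :
    homogeneousComponent n (s * f) = if p ≤ n then s * homogeneousComponent (n - p) f else 0 := by
  conv_lhs => rw [← sum_homogeneousComponent f, Finset.mul_sum, map_sum]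
  have h1 : ∀ i ∈ Finset.range (f.totalDegree + 1),
      homogeneousComponent n (s * homogeneousComponent i f)
        = if p + i = n then s * homogeneousComponent i f else 0 := by
    intro i _
    have := hs.mul (homogeneousComponent_isHomogeneous i f)
    rw [homogeneousComponent_of_mem ((mem_homogeneousSubmodule _ _).2 this)]
    by_cases h : n = p + i
    · rw [if_pos h, if_pos h.symm]
    · rw [if_neg h, if_neg (fun h' => h h'.symm)]
  rw [Finset.sum_congr rfl h1]
  split_ifs with h
  · by_cases h2 : n - p ∈ Finset.range (f.totalDegree + 1)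
    · rw [Finset.sum_eq_single_of_mem (n - p) h2, if_pos (by omega)]
      intro i _ hi
      rw [if_neg (by omega)]
    · rw [Finset.sum_eq_zero, homogeneousComponent_eq_zero, mul_zero]
      · rw [Finset.mem_range] at h2; omega
      · intro i hi
        rw [if_neg]
        rintro rfl
        apply h2
        rwa [Nat.add_sub_cancel_left]
  · exact Finset.sum_eq_zero fun i _ => if_neg (by omega)

theorem graded_J (k : I → I → ℕ) (c : V → I) (A₁ A₂ : Finset V) : Graded (J k c A₁ A₂) := by
  rintro _ ⟨r, hr, rfl⟩ n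
  rw [LinearMap.comp_apply, LinearMap.mulLeft_apply, Alt_homogeneousComponent,
    homogeneousComponent_mul_left (K_homogeneous k c A₁ A₂)]
  split_ifs with h
  · exact ⟨_, graded_RA _ _ hr _, rfl⟩
  · rw [map_zero]; exact zero_mem _

theorem graded_H (c : V → I) (A : Finset V) : Graded (H c A) := by
  rintro _ ⟨r, hr, rfl⟩ n
  rw [Alt_homogeneousComponent]
  exact ⟨_, graded_RA _ _ hr _, rfl⟩

theorem graded_Igt (k : I → I → ℕ) (c : V → I) (θ : I → ℤ) (A : Finset V) :
    Graded (Igt k c θ A) :=
  graded_iSup fun _ => graded_iSup fun _ => graded_J _ _ _ _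

theorem graded_Ile (k : I → I → ℕ) (c : V → I) (θ : I → ℤ) (A : Finset V) :
    Graded (Ile k c θ A) :=
  graded_iSup fun _ => graded_iSup fun _ => graded_J _ _ _ _

theorem fin_hom (n : ℕ) : Module.Finite ℚ ↥(homogeneousSubmodule V ℚ n) :=
  Module.Finite.iff_fg.2 (homogeneousSubmodule_fg V ℚ n)

theorem fin_inf (W : Submodule ℚ (MvPolynomial V ℚ)) (n : ℕ) :
    Module.Finite ℚ ↥(W ⊓ homogeneousSubmodule V ℚ n) :=
  haveI := fin_hom (V := V) n
  Submodule.finiteDimensional_of_le (S₂ := homogeneousSubmodule V ℚ n) inf_le_right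

/-- linear algebra: a basis of a complement -/
theorem exists_compl_gen {E : Type*} [AddCommGroup E] [Module ℚ E] (W W' : Submodule ℚ E)
    [FiniteDimensional ℚ W] (hle : W' ≤ W) :
    ∃ b : Fin (Module.finrank ℚ W - Module.finrank ℚ W') → E,
      (∀ i, b i ∈ W) ∧ (W ≤ Submodule.span ℚ (Set.range b) ⊔ W') ∧
      (∀ l : Fin (Module.finrank ℚ W - Module.finrank ℚ W') → ℚ, ∑ i, l i • b i ∈ W' → l = 0) := by
  obtain ⟨C, hC⟩ := (Submodule.comap W.subtype W').exists_isCompl
  have hrankU : Module.finrank ℚ (Submodule.comap W.subtype W') = Module.finrank ℚ W' :=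
    (Submodule.comapSubtypeEquivOfLe hle).finrank_eq
  have hrank : Module.finrank ℚ C = Module.finrank ℚ W - Module.finrank ℚ W' := by
    have h1 := Submodule.finrank_add_eq_of_isCompl hC
    omega
  let bC := Module.finBasisOfFinrankEq ℚ C hrank
  refine ⟨fun i => ((bC i : C) : W), fun i => ((bC i : C) : W).2, ?_, ?_⟩
  · intro x hx
    have hx' : (⟨x, hx⟩ : W) ∈ (Submodule.comap W.subtype W') ⊔ C := by
      rw [hC.sup_eq_top]; trivial
    obtain ⟨u, hu, z, hz, huz⟩ := Submodule.mem_sup.1 hx'
    have hx2 : x = (z : E) + (u : E) := by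
      have := congrArg (fun y : W => (y : E)) huz
      simp only [Submodule.coe_add] at this
      rw [← this, add_comm]
    rw [hx2]
    refine Submodule.add_mem_sup ?_ hu
    have hz' : (⟨z, hz⟩ : C) ∈ Submodule.span ℚ (Set.range bC) := by
      rw [bC.span_eq]; trivial
    have hmap : ((Submodule.span ℚ (Set.range bC)).map (W.subtype.comp C.subtype))
        = Submodule.span ℚ (Set.range fun i => (((bC i : C) : W) : E)) := by
      rw [Submodule.map_span, ← Set.range_comp]
      rfl
    rw [← hmap]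
    exact ⟨⟨z, hz⟩, hz', rfl⟩
  · intro l hl
    have h1 : (∑ i, l i • bC i : C) = 0 := by
      have h2 : ((∑ i, l i • bC i : C) : W) ∈ (Submodule.comap W.subtype W') ⊓ C := by
        refine ⟨?_, (∑ i, l i • bC i : C).2⟩
        have h3 : W.subtype ((∑ i, l i • bC i : C) : W)
            = ∑ i, l i • (((bC i : C) : W) : E) := by
          simp
        change W.subtype _ ∈ W'
        rw [h3]
        exact hl
      rw [hC.inf_eq_bot, Submodule.mem_bot] at h2
      exact Subtype.ext h2
    have h2 := (Fintype.linearIndependent_iff.1 bC.linearIndependent) l h1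
    funext i
    exact h2 i

/-- a complement in degree `n` -/
theorem exists_compl_degree {W W' : Submodule ℚ (MvPolynomial V ℚ)} (hle : W' ≤ W) (n : ℕ) :
    ∃ b : Fin (hd W n - hd W' n) → MvPolynomial V ℚ,
      (∀ i, b i ∈ W ⊓ homogeneousSubmodule V ℚ n) ∧
      (W ⊓ homogeneousSubmodule V ℚ n ≤
        Submodule.span ℚ (Set.range b) ⊔ (W' ⊓ homogeneousSubmodule V ℚ n)) ∧
      (∀ l : Fin (hd W n - hd W' n) → ℚ, ∑ i, l i • b i ∈ W' → l = 0) := by
  haveI := fin_inf W n
  obtain ⟨b, h1, h2, h3⟩ := exists_compl_gen (W ⊓ homogeneousSubmodule V ℚ n)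
    (W' ⊓ homogeneousSubmodule V ℚ n) (inf_le_inf_right _ hle)
  exact ⟨b, h1, h2, fun l hl => h3 l ⟨hl, Submodule.sum_mem _ fun i _ =>
    Submodule.smul_mem _ _ (h1 i).2⟩⟩

/-- a graded complement -/
theorem exists_compl {W W' : Submodule ℚ (MvPolynomial V ℚ)} (hle : W' ≤ W)
    (hW : Graded W) (hW' : Graded W') :
    ∃ b : (Σ n : ℕ, Fin (hd W n - hd W' n)) → MvPolynomial V ℚ,
      (∀ i, b i ∈ W) ∧ (∀ i, (b i).IsHomogeneous i.1) ∧
      W ≤ Submodule.span ℚ (Set.range b) ⊔ W' ∧ IndMod W' b := by
  have hex := fun n => exists_compl_degree hle n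
  choose b hb1 hb2 hb3 using hex
  refine ⟨fun i => b i.1 i.2, fun i => (hb1 i.1 i.2).1, fun i => (hb1 i.1 i.2).2, ?_, ?_⟩
  · intro f hf
    rw [← sum_homogeneousComponent f]
    refine Submodule.sum_mem _ fun n _ => ?_
    have h1 : homogeneousComponent n f ∈ W ⊓ homogeneousSubmodule V ℚ n :=
      ⟨hW f hf n, homogeneousComponent_mem n f⟩
    have h2 := hb2 n h1
    have h3 : Submodule.span ℚ (Set.range (b n)) ≤ Submodule.span ℚ (Set.range
        (fun i : (Σ n : ℕ, Fin (hd W n - hd W' n)) => b i.1 i.2)) := by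
      refine Submodule.span_mono ?_
      rintro _ ⟨i, rfl⟩
      exact ⟨⟨n, i⟩, rfl⟩
    exact (sup_le_sup h3 (inf_le_left (a := W') (b := homogeneousSubmodule V ℚ n))) h2
  · intro l hl
    ext ⟨n, i⟩
    have h1 := hW' _ hl n
    have h2 : homogeneousComponent n (Finsupp.linearCombination ℚ (fun i : (Σ n : ℕ,
        Fin (hd W n - hd W' n)) => b i.1 i.2) l) = ∑ i, l ⟨n, i⟩ • b n i := by
      rw [Finsupp.linearCombination_apply, Finsupp.sum, map_sum]
      have h3 : ∀ x ∈ l.support, homogeneousComponent n (l x • b x.1 x.2)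
          = if x.1 = n then l x • b x.1 x.2 else 0 := by
        intro x _
        rw [map_smul, homogeneousComponent_of_mem (hb1 x.1 x.2).2]
        by_cases h : n = x.1
        · rw [if_pos h, if_pos h.symm]
        · rw [if_neg h, if_neg (fun h' => h h'.symm), smul_zero]
      rw [Finset.sum_congr rfl h3, ← Finset.sum_filter]
      symm
      refine Finset.sum_bij_ne_zero (fun i _ _ => (⟨n, i⟩ : Σ n : ℕ, Fin (hd W n - hd W' n)))
        ?_ ?_ ?_ ?_
      · intro i _ hi
        rw [Finset.mem_filter, Finsupp.mem_support_iff]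
        refine ⟨fun h => hi ?_, rfl⟩
        rw [h, zero_smul]
      · intro i _ _ j _ _ hij
        simpa using hij
      · rintro ⟨m, j⟩ hj _
        rw [Finset.mem_filter] at hj
        obtain ⟨hj1, rfl⟩ := hj
        exact ⟨j, Finset.mem_univ _, by assumption, rfl⟩
      · intro i _ _
        rfl
    rw [h2] at h1
    have := hb3 n _ h1
    exact congrFun this i

end Crest.Agent.R059.Alt599
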