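import Mathlib

/-!
# Shuffle algebra of a quiver in alternating form (row 59, Theorem A / B of helper232 #18344)

One fixed finite set `V` of particles with colours `c : V → I`.
-/

set_option autoImplicit false

open MvPolynomial

namespace Crest.Agent.R059.Alt599

variable {V I : Type*} [Fintype V] [DecidableEq V] [DecidableEq I]

/-- colour preserving permutations of `V` which fix every `v ∉ A` -/
def G (c : V → I) (A : Finset V) : Subgroup (Equiv.Perm V) where
  carrier := {w | (∀ v, c (w v) = c v) ∧ ∀ v, v ∉ A → w v = v}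
  mul_mem' := by
    rintro a b ⟨ha, ha'⟩ ⟨hb, hb'⟩
    refine ⟨fun v => ?_, fun v hv => ?_⟩
    · rw [Equiv.Perm.mul_apply, ha, hb]
    · rw [Equiv.Perm.mul_apply, hb' v hv, ha' v hv]
  one_mem' := ⟨fun _ => rfl, fun _ _ => rfl⟩
  inv_mem' := by
    rintro a ⟨ha, ha'⟩
    refine ⟨fun v => ?_, fun v hv => ?_⟩
    · have := ha (a⁻¹ v)
      rw [← Equiv.Perm.mul_apply, mul_inv_cancel, Equiv.Perm.one_apply] at this
      exact this.symm
    · rw [Equiv.Perm.inv_eq_iff_eq]
      exact (ha' v hv).symm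

instance (c : V → I) (A : Finset V) : DecidablePred (· ∈ G c A) := fun w =>
  inferInstanceAs (Decidable ((∀ v, c (w v) = c v) ∧ ∀ v, v ∉ A → w v = v))

omit [Fintype V] [DecidableEq V] [DecidableEq I] in
theorem mem_G {c : V → I} {A : Finset V} {w : Equiv.Perm V} :
    w ∈ G c A ↔ (∀ v, c (w v) = c v) ∧ ∀ v, v ∉ A → w v = v := Iff.rfl

/-- the sign as a rational number -/
def sg (w : Equiv.Perm V) : ℚ := ((Equiv.Perm.sign w : ℤ) : ℚ)

/-- antisymmetriser over `G c A`, acting on the whole polynomial ring -/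
noncomputable def Alt (c : V → I) (A : Finset V) : MvPolynomial V ℚ →ₗ[ℚ] MvPolynomial V ℚ :=
  ∑ w : G c A, sg (w : Equiv.Perm V) • (rename (w : Equiv.Perm V)).toLinearMap

/-- the kernel `∏_{a ∈ A, b ∈ B} (x_b - x_a)^{k (c a) (c b)}` -/
noncomputable def K (k : I → I → ℕ) (c : V → I) (A B : Finset V) : MvPolynomial V ℚ :=
  ∏ a ∈ A, ∏ b ∈ B, (X b - X a) ^ k (c a) (c b)

/-- polynomials in the variables of `A` -/
noncomputable def RA (A : Finset V) : Submodule ℚ (MvPolynomial V ℚ) :=
  Subalgebra.toSubmodule (supported ℚ (A : Set V))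

/-- alternating polynomials in the variables of `A` (= Vandermonde times symmetric) -/
noncomputable def H (c : V → I) (A : Finset V) : Submodule ℚ (MvPolynomial V ℚ) :=
  (RA A).map (Alt c A)

/-- the image of the product `H_{A₁} * H_{A₂}` -/
noncomputable def J (k : I → I → ℕ) (c : V → I) (A₁ A₂ : Finset V) :
    Submodule ℚ (MvPolynomial V ℚ) :=
  (RA (A₁ ∪ A₂)).map ((Alt c (A₁ ∪ A₂)).comp (LinearMap.mulLeft ℚ (K k c A₁ A₂)))

/-- weight of a set of particles -/
def wt (θ : I → ℤ) (c : V → I) (A : Finset V) : ℤ := ∑ a ∈ A, θ (c a)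

/-- `I^>_A`: generated by the products with a nonempty right factor of weight `≤ 0` -/
noncomputable def Igt (k : I → I → ℕ) (c : V → I) (θ : I → ℤ) (A : Finset V) :
    Submodule ℚ (MvPolynomial V ℚ) :=
  ⨆ A₂ ∈ A.powerset.filter (fun A₂ => A₂.Nonempty ∧ wt θ c A₂ ≤ 0), J k c (A \ A₂) A₂

/-- `I^≤_A`: generated by the products with a left factor of weight `> 0` -/
noncomputable def Ile (k : I → I → ℕ) (c : V → I) (θ : I → ℤ) (A : Finset V) :
    Submodule ℚ (MvPolynomial V ℚ) :=
  ⨆ A₁ ∈ A.powerset.filter (fun A₁ => A₁.Nonempty ∧ 0 < wt θ c A₁), J k c A₁ (A \ A₁)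

/-- `N_β`: the part of the `β`-blockwise alternating polynomials in the variables of `A` which dies in
`⨂_i H_{A_i} / I^≤_{A_i}` (the blocks are `A_i = A.filter (β · = i)`; blockwise alternating =
alternating for the colouring `(c, β)`). -/
noncomputable def N {S : Type*} [Fintype S] [DecidableEq S] (k : I → I → ℕ) (c : V → I)
    (θ : I → ℤ) (β : V → S) (A : Finset V) : Submodule ℚ (MvPolynomial V ℚ) :=
  ⨆ i : S, ⨆ A₁ ∈ (A.filter (fun v => β v = i)).powerset.filter
      (fun A₁ => A₁.Nonempty ∧ 0 < wt θ c A₁),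
    (RA A).map ((Alt (fun v => (c v, β v)) A).comp
      (LinearMap.mulLeft ℚ (K k c A₁ ((A.filter (fun v => β v = i)) \ A₁))))

/-- the shift `x_v ↦ x_v + u_{β v}` -/
noncomputable def T {S : Type*} (β : V → S) :
    MvPolynomial V ℚ →ₐ[ℚ] MvPolynomial S (MvPolynomial V ℚ) :=
  aeval (fun v => C (X v) + X (β v))

/-- dimension of the homogeneous part of degree `n` -/
noncomputable def hd (W : Submodule ℚ (MvPolynomial V ℚ)) (n : ℕ) : ℕ :=
  Module.finrank ℚ ↥(W ⊓ homogeneousSubmodule V ℚ n)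

end Crest.Agent.R059.Alt599
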