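import Crest.Agent.R059.Hilb_568
import Crest.Agent.R059.AltDefs_599

/-!
# Row 59, leaf HILB, second file: the Hilbert series of 599's alternating polynomials `H c A`
(owner helper568)
-/

set_option autoImplicit false

namespace Crest.Agent.R059.Hilb568

open MvPolynomial

/-! ## sign of a block permutation -/

section sign

variable {V : Type*} [Fintype V] [DecidableEq V] {d : V → ℕ}

/-- one block as a subtype -/
def fib (d : V → ℕ) (i : V) : Fin (d i) ≃ {x : Vars d // x.1 = i} where
  toFun k := ⟨⟨i, k⟩, rfl⟩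
  invFun x := Fin.cast (congrArg d x.2) x.1.2
  left_inv k := rfl
  right_inv x := by
    obtain ⟨⟨j, k⟩, hj⟩ := x
    change j = i at hj
    subst hj
    rfl

theorem sign_single (i : V) (w : Equiv.Perm (Fin (d i))) :
    Equiv.Perm.sign (Equiv.Perm.sigmaCongrRight (Pi.mulSingle i w : Grp d)) =
      Equiv.Perm.sign w := by
  rw [← Equiv.Perm.sign_extendDomain w (fib d i)]
  congr 1
  ext1 x
  obtain ⟨j, k⟩ := x
  by_cases hj : j = i
  · subst hj
    have h1 := Equiv.Perm.extendDomain_apply_image w (fib d j) k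
    change w.extendDomain (fib d j) ⟨j, k⟩ = ⟨j, w k⟩ at h1
    rw [h1]
    change (⟨j, (Pi.mulSingle j w : Grp d) j k⟩ : Vars d) = ⟨j, w k⟩
    rw [Pi.mulSingle_eq_same]
  · rw [Equiv.Perm.extendDomain_apply_not_subtype w (fib d i) (b := ⟨j, k⟩) hj]
    change (⟨j, (Pi.mulSingle i w : Grp d) j k⟩ : Vars d) = ⟨j, k⟩
    rw [Pi.mulSingle_eq_of_ne hj]
    rfl

theorem sign_sigmaCongrRight (w : Grp d) :
    Equiv.Perm.sign (Equiv.Perm.sigmaCongrRight w) = sg d w := by
  have h : (Equiv.Perm.sign (α := Vars d)).comp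
      (Equiv.Perm.sigmaCongrRightHom fun i => Fin (d i)) = sg d := by
    refine MonoidHom.pi_ext fun i w => ?_
    rw [sg_mulSingle]
    exact sign_single i w
  exact DFunLike.congr_fun h w

end sign

/-! ## `H c A` -/

open Alt599

variable {V I : Type*} [Fintype V] [DecidableEq V] [DecidableEq I] (c : V → I) (A : Finset V)

/-- number of particles of colour `i` in `A` -/
def dA (i : I) : ℕ := (A.filter (fun v => c v = i)).card

variable {c A}

omit [Fintype V] [DecidableEq V] [DecidableEq I] in
theorem G_mem {w : Equiv.Perm V} (hw : w ∈ G c A) {v : V} : w v ∈ A ↔ v ∈ A := by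
  constructor
  · intro h
    by_contra h'
    rw [hw.2 v h'] at h
    exact h' h
  · intro h
    by_contra h'
    have := hw.2 _ h'
    have := w.injective this
    rw [this] at h'
    exact h' h

omit [Fintype V] [DecidableEq I] in
theorem sgG_mul (w w' : Equiv.Perm V) [Fintype V] : Alt599.sg (w * w') = Alt599.sg w * Alt599.sg w' := by
  simp [Alt599.sg]

theorem sgG_sq (w : Equiv.Perm V) : Alt599.sg w * Alt599.sg w = 1 := by
  unfold Alt599.sg
  rcases Int.units_eq_one_or (Equiv.Perm.sign w) with h | h <;> rw [h] <;> norm_num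

omit [Fintype V] [DecidableEq I] in
theorem rename_mem_RA {w : Equiv.Perm V} (hw : w ∈ G c A) {F : MvPolynomial V ℚ}
    (hF : F ∈ RA A) : rename w F ∈ RA A := by
  have hF' : F ∈ supported ℚ (A : Set V) := hF
  change rename w F ∈ supported ℚ (A : Set V)
  rw [mem_supported] at hF' ⊢
  intro v hv
  have h1 := vars_rename w F (Finset.mem_coe.1 hv)
  rw [Finset.mem_image] at h1
  obtain ⟨u, hu, rfl⟩ := h1
  exact (G_mem hw).2 (hF' hu)

theorem Alt_apply (F : MvPolynomial V ℚ) :
    Alt c A F = ∑ w : G c A, Alt599.sg (w : Equiv.Perm V) • rename (w : Equiv.Perm V) F := by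
  rw [Alt, LinearMap.sum_apply]
  rfl

theorem rename_Alt (F : MvPolynomial V ℚ) {w : Equiv.Perm V} (hw : w ∈ G c A) :
    rename w (Alt c A F) = Alt599.sg w • Alt c A F := by
  rw [Alt_apply, map_sum, Finset.smul_sum]
  refine Fintype.sum_equiv (Equiv.mulLeft (⟨w, hw⟩ : G c A)) _ _ fun u => ?_
  rw [map_smul, rename_rename, smul_smul]
  have h1 : ((Equiv.mulLeft (⟨w, hw⟩ : G c A) u : G c A) : Equiv.Perm V) = w * u := rfl
  rw [h1, sgG_mul, ← mul_assoc, sgG_sq, one_mul]
  rfl

theorem mem_H_iff {F : MvPolynomial V ℚ} :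
    F ∈ H c A ↔ F ∈ RA A ∧ ∀ w ∈ G c A, rename w F = Alt599.sg w • F := by
  constructor
  · rintro ⟨r, hr, rfl⟩
    refine ⟨?_, fun w hw => rename_Alt r hw⟩
    rw [Alt_apply]
    exact Submodule.sum_mem _ fun w _ => Submodule.smul_mem _ _ (rename_mem_RA w.2 hr)
  · rintro ⟨h1, h2⟩
    have h3 : Alt c A F = (Fintype.card (G c A) : ℚ) • F := by
      rw [Alt_apply]
      have : ∀ w : G c A, Alt599.sg (w : Equiv.Perm V) • rename (w : Equiv.Perm V) F = F := by
        intro w
        rw [h2 _ w.2, smul_smul, sgG_sq, one_smul]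
      rw [Finset.sum_congr rfl fun w _ => this w, Finset.sum_const, Finset.card_univ,
        Nat.cast_smul_eq_nsmul]
    have h4 : (Fintype.card (G c A) : ℚ) ≠ 0 := by
      exact_mod_cast Fintype.card_ne_zero
    refine ⟨(Fintype.card (G c A) : ℚ)⁻¹ • F, Submodule.smul_mem _ _ h1, ?_⟩
    rw [map_smul, h3, smul_smul, inv_mul_cancel₀ h4, one_smul]

/-! ### transport to blocks -/

variable (c A)

/-- the enumeration of the particles of colour `i` in `A` -/
noncomputable def enA (i : I) : {v // v ∈ A.filter (fun v => c v = i)} ≃ Fin (dA c A i) :=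
  (A.filter (fun v => c v = i)).equivFin

/-- the enumeration of the particles in `A` -/
noncomputable def embA (x : Vars (dA c A)) : V := ((enA c A x.1).symm x.2).1

omit [Fintype V] [DecidableEq V] in
theorem embA_mem' (x : Vars (dA c A)) : embA c A x ∈ A.filter (fun v => c v = x.1) :=
  ((enA c A x.1).symm x.2).2

omit [Fintype V] [DecidableEq V] in
theorem embA_mem (x : Vars (dA c A)) : embA c A x ∈ A := (Finset.mem_filter.1 (embA_mem' c A x)).1

omit [Fintype V] [DecidableEq V] in
theorem c_embA (x : Vars (dA c A)) : c (embA c A x) = x.1 :=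
  (Finset.mem_filter.1 (embA_mem' c A x)).2

theorem embA_injective : Function.Injective (embA c A) := by
  rintro ⟨i, k⟩ ⟨j, l⟩ h
  have hij : i = j := by
    have h1 := c_embA c A ⟨i, k⟩
    have h2 := c_embA c A ⟨j, l⟩
    rw [h] at h1
    exact h1.symm.trans h2
  subst hij
  have : k = l := (enA c A i).symm.injective (Subtype.ext h)
  rw [this]

omit [Fintype V] [DecidableEq V] in
theorem embA_surj {v : V} (hv : v ∈ A) : ∃ x, embA c A x = v := by
  refine ⟨⟨c v, enA c A (c v) ⟨v, Finset.mem_filter.2 ⟨hv, rfl⟩⟩⟩, ?_⟩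
  rw [embA]
  simp only [Equiv.symm_apply_apply]

/-- the enumeration of the particles in `A` -/
noncomputable def eA : Vars (dA c A) ≃ {v // v ∈ A} :=
  Equiv.ofBijective (fun x => ⟨embA c A x, embA_mem c A x⟩)
    ⟨fun _ _ h => embA_injective c A (congrArg Subtype.val h),
      fun v => by
        obtain ⟨x, hx⟩ := embA_surj c A v.2
        exact ⟨x, Subtype.ext hx⟩⟩

theorem eA_coe (x : Vars (dA c A)) : (eA c A x : V) = embA c A x := rfl

/-- extension of a block permutation by the identity -/
noncomputable def extA (w : Grp (dA c A)) : Equiv.Perm V :=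
  (Equiv.Perm.sigmaCongrRight w).extendDomain (eA c A)

theorem extA_embA (w : Grp (dA c A)) (x : Vars (dA c A)) :
    extA c A w (embA c A x) = embA c A (Equiv.Perm.sigmaCongrRight w x) :=
  Equiv.Perm.extendDomain_apply_image (Equiv.Perm.sigmaCongrRight w) (eA c A) x

theorem extA_of_notMem (w : Grp (dA c A)) {v : V} (hv : v ∉ A) : extA c A w v = v :=
  Equiv.Perm.extendDomain_apply_not_subtype _ _ hv

theorem extA_mem (w : Grp (dA c A)) : extA c A w ∈ G c A := by
  refine ⟨fun v => ?_, fun v hv => extA_of_notMem c A w hv⟩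
  by_cases hv : v ∈ A
  · obtain ⟨x, rfl⟩ := embA_surj c A hv
    rw [extA_embA, c_embA c A, c_embA c A]
    rfl
  · rw [extA_of_notMem c A w hv]

theorem extA_surj {w : Equiv.Perm V} (hw : w ∈ G c A) : ∃ w', extA c A w' = w := by
  have hs : ∀ i v, w v ∈ A.filter (fun v => c v = i) ↔ v ∈ A.filter (fun v => c v = i) := by
    intro i v
    rw [Finset.mem_filter, Finset.mem_filter, G_mem hw, hw.1]
  refine ⟨fun i => (enA c A i).permCongr
    (w.subtypePerm (p := (· ∈ A.filter (fun v => c v = i))) (hs i)), ?_⟩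
  ext1 v
  by_cases hv : v ∈ A
  · obtain ⟨⟨i, k⟩, rfl⟩ := embA_surj c A hv
    rw [extA_embA]
    change ((enA c A i).symm ((enA c A i) _)).1 = _
    rw [Equiv.symm_apply_apply]
    rfl
  · rw [extA_of_notMem c A _ hv, hw.2 v hv]

variable [Fintype I]

theorem sg_extA (w : Grp (dA c A)) : Alt599.sg (extA c A w) = (sgK ℚ (dA c A) w : ℚ) := by
  rw [sgK_coe, Alt599.sg, extA, Equiv.Perm.sign_extendDomain, sign_sigmaCongrRight]

theorem map_iso (n : ℕ) : (iso (sgK ℚ (dA c A)) n).map (rename (embA c A)).toLinearMap =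
    H c A ⊓ homogeneousSubmodule V ℚ n := by
  ext F
  constructor
  · rintro ⟨F₀, hF₀, rfl⟩
    refine ⟨?_, hF₀.1.rename_isHomogeneous⟩
    rw [SetLike.mem_coe, mem_H_iff]
    constructor
    · change rename (embA c A) F₀ ∈ supported ℚ (A : Set V)
      rw [mem_supported]
      intro v hv
      have h1 := vars_rename _ _ (Finset.mem_coe.1 hv)
      rw [Finset.mem_image] at h1
      obtain ⟨u, hu, rfl⟩ := h1
      exact embA_mem c A u
    · intro w hw
      obtain ⟨w', rfl⟩ := extA_surj c A hw
      change rename (extA c A w') (rename (embA c A) F₀) =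
        Alt599.sg (extA c A w') • rename (embA c A) F₀
      rw [rename_rename, sg_extA, ← map_smul, ← hF₀.2 w', rename_rename]
      congr 2
      funext x
      exact extA_embA c A w' x
  · rintro ⟨h1, h2⟩
    rw [SetLike.mem_coe, mem_H_iff] at h1
    obtain ⟨h1, h3⟩ := h1
    have h1' : F ∈ supported ℚ (A : Set V) := h1
    rw [supported_eq_range_rename] at h1'
    obtain ⟨F₁, rfl⟩ := h1'
    have h4 : rename (Subtype.val : {v // v ∈ (A : Set V)} → V) F₁ =
        rename (embA c A) (rename (eA c A).symm F₁) := by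
      rw [rename_rename]
      congr 2
      funext v
      change (v : V) = ((eA c A) ((eA c A).symm v) : {v // v ∈ A}).1
      rw [Equiv.apply_symm_apply]
    change (rename (Subtype.val : {v // v ∈ (A : Set V)} → V) F₁).IsHomogeneous n at h2
    change ∀ w ∈ G c A, rename w (rename (Subtype.val : {v // v ∈ (A : Set V)} → V) F₁) =
      Alt599.sg w • rename (Subtype.val : {v // v ∈ (A : Set V)} → V) F₁ at h3
    rw [h4] at h2 h3
    refine ⟨rename (eA c A).symm F₁, ⟨(IsHomogeneous.rename_isHomogeneous_iff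
      (embA_injective c A)).1 h2, fun w => ?_⟩, h4.symm⟩
    apply rename_injective _ (embA_injective c A)
    have h5 := h3 _ (extA_mem c A w)
    rw [map_smul, ← sg_extA, ← h5, rename_rename, rename_rename _ (extA c A w)]
    congr 2
    funext x
    exact (extA_embA c A w x).symm

/-- the dimensions of `H c A` -/
theorem hd_H (n : ℕ) : hd (H c A) n = Module.finrank ℚ (iso (sgK ℚ (dA c A)) n) := by
  rw [hd, ← map_iso]
  exact ((Submodule.equivMapOfInjective _ (rename_injective _ (embA_injective c A)) _).finrank_eq).symm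

/-- **HILB** for `H c A` -/
theorem hilb_H (R : Type*) [CommRing R] :
    (PowerSeries.mk fun n => (hd (H c A) n : R)) *
      ∏ i, ∏ k ∈ Finset.range (dA c A i), (1 - PowerSeries.X ^ (k + 1)) =
        PowerSeries.X ^ (∑ i, (dA c A i).choose 2) := by
  rw [← hilb_alt R (K := ℚ) two_ne_zero (dA c A)]
  congr 2
  funext n
  rw [hd_H]

end Crest.Agent.R059.Hilb568
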