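import Crest.Agent.R059.AltApi_599
import Crest.Agent.R059.Hilb2_568

/-!
# Row 59: transport of 599's spaces `H`, `J`, `Igt`, `Ile` along a colour preserving embedding
(owner helper568)
-/

set_option autoImplicit false

open MvPolynomial

namespace Crest.Agent.R059.AltTr568

open Alt599

section tr

variable {V V' I : Type*} [Fintype V] [DecidableEq V] [Fintype V'] [DecidableEq V']
  [DecidableEq I] (e : V' ↪ V) (c : V → I)

/-! ### the groups -/

omit [Fintype V] [DecidableEq I] [DecidableEq V'] in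
theorem ext_mem {A : Finset V'} {w : Equiv.Perm V'} (hw : w ∈ G (c ∘ e) A) :
    w.viaFintypeEmbedding e ∈ G c (A.map e) := by
  have h1 : ∀ v, v ∉ Set.range e → w.viaFintypeEmbedding e v = v := fun v hv =>
    Equiv.Perm.viaFintypeEmbedding_apply_notMem_range w e hv
  constructor
  · intro v
    by_cases hv : v ∈ Set.range e
    · obtain ⟨u, rfl⟩ := hv
      rw [Equiv.Perm.viaFintypeEmbedding_apply_image]
      exact hw.1 u
    · rw [h1 v hv]
  · intro v hv
    by_cases hv' : v ∈ Set.range e
    · obtain ⟨u, rfl⟩ := hv'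
      rw [Equiv.Perm.viaFintypeEmbedding_apply_image]
      rw [hw.2 u fun h => hv (Finset.mem_map_of_mem e h)]
    · exact h1 v hv'

omit [Fintype V] [DecidableEq I] [DecidableEq V'] in
theorem ext_surj {A : Finset V'} {w : Equiv.Perm V} (hw : w ∈ G c (A.map e)) :
    ∃ w' ∈ G (c ∘ e) A, w'.viaFintypeEmbedding e = w := by
  have hr : ∀ v, w v ∈ Set.range e ↔ v ∈ Set.range e := by
    intro v
    by_cases hv : v ∈ A.map e
    · have h1 := G_maps hw hv
      obtain ⟨a, _, ha⟩ := Finset.mem_map.1 hv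
      obtain ⟨b, _, hb⟩ := Finset.mem_map.1 h1
      exact ⟨fun _ => ⟨a, ha⟩, fun _ => ⟨b, hb⟩⟩
    · rw [hw.2 v hv]
  let w' : Equiv.Perm V' := e.toEquivRange.symm.permCongr (w.subtypePerm hr)
  have key : ∀ u, e (w' u) = w (e u) := by
    intro u
    have h2 : e.toEquivRange (w' u) = w.subtypePerm hr (e.toEquivRange u) := by
      simp [w', Equiv.permCongr_apply]
    have h3 := congrArg Subtype.val h2
    exact h3
  refine ⟨w', ⟨fun u => ?_, fun u hu => ?_⟩, ?_⟩
  · change c (e (w' u)) = c (e u)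
    rw [key, hw.1]
  · apply e.injective
    rw [key, hw.2 _ fun h => hu ((Finset.mem_map' e).1 h)]
  · ext1 v
    by_cases hv : v ∈ Set.range e
    · obtain ⟨u, rfl⟩ := hv
      rw [Equiv.Perm.viaFintypeEmbedding_apply_image, key]
    · rw [Equiv.Perm.viaFintypeEmbedding_apply_notMem_range w' e hv]
      refine (hw.2 v fun h => hv ?_).symm
      obtain ⟨a, _, ha⟩ := Finset.mem_map.1 h
      exact ⟨a, ha⟩

/-- the groups are isomorphic -/
noncomputable def gE (A : Finset V') : G (c ∘ e) A ≃ G c (A.map e) :=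
  Equiv.ofBijective (fun w => ⟨(w : Equiv.Perm V').viaFintypeEmbedding e, ext_mem e c w.2⟩) (by
    constructor
    · intro w w' h
      have h1 := congrArg Subtype.val h
      refine Subtype.ext (Equiv.ext fun u => e.injective ?_)
      have h2 := congrArg (fun p : Equiv.Perm V => p (e u)) h1
      simpa only [Equiv.Perm.viaFintypeEmbedding_apply_image] using h2
    · intro w
      obtain ⟨w', hw', h⟩ := ext_surj e c w.2
      exact ⟨⟨w', hw'⟩, Subtype.ext h⟩)

theorem gE_coe (A : Finset V') (w : G (c ∘ e) A) :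
    (gE e c A w : Equiv.Perm V) = (w : Equiv.Perm V').viaFintypeEmbedding e := rfl

omit [DecidableEq V'] in
theorem sg_ext [DecidableEq V'] (w : Equiv.Perm V') : sg (w.viaFintypeEmbedding e) = sg w := by
  unfold sg
  rw [Equiv.Perm.viaFintypeEmbedding_sign]

/-! ### the antisymmetriser and the spaces -/

theorem rename_Alt_tr (A : Finset V') (F : MvPolynomial V' ℚ) :
    rename e (Alt (c ∘ e) A F) = Alt c (A.map e) (rename e F) := by
  rw [Alt_apply, Alt_apply, map_sum]
  refine Fintype.sum_equiv (gE e c A) _ _ fun w => ?_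
  rw [map_smul, gE_coe, sg_ext, rename_rename, rename_rename]
  congr 3
  funext u
  exact (Equiv.Perm.viaFintypeEmbedding_apply_image _ e u).symm

omit [Fintype V] [Fintype V'] [DecidableEq V'] in
theorem map_RA (A : Finset V') :
    (RA A).map (rename e).toLinearMap = RA (A.map e) := by
  ext F
  constructor
  · rintro ⟨F₀, hF₀, rfl⟩
    rw [SetLike.mem_coe, mem_RA] at hF₀
    rw [mem_RA]
    intro v hv
    obtain ⟨u, hu, rfl⟩ := Finset.mem_image.1 (vars_rename e F₀ (Finset.mem_coe.1 hv))
    exact Finset.mem_coe.2 (Finset.mem_map_of_mem e (hF₀ hu))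
  · intro hF
    rw [mem_RA', supported_eq_range_rename] at hF
    obtain ⟨F₁, rfl⟩ := hF
    have hch : ∀ v : {v // v ∈ (↑(A.map e) : Set V)}, ∃ u ∈ A, e u = v.1 := fun v =>
      Finset.mem_map.1 (Finset.mem_coe.1 v.2)
    choose g hgA hg using hch
    refine ⟨rename g F₁, ?_, ?_⟩
    · rw [SetLike.mem_coe, mem_RA]
      intro u hu
      classical
      obtain ⟨v, _, rfl⟩ := Finset.mem_image.1 (vars_rename g F₁ (Finset.mem_coe.1 hu))
      exact hgA v
    · change rename e (rename g F₁) = rename _ F₁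
      rw [rename_rename]
      congr 2
      funext v
      exact hg v

omit [Fintype V] [DecidableEq V] [Fintype V'] [DecidableEq V'] [DecidableEq I] in
theorem rename_K_tr (k : I → I → ℕ) (A B : Finset V') :
    rename e (K k (c ∘ e) A B) = K k c (A.map e) (B.map e) := by
  unfold K
  rw [map_prod, Finset.prod_map]
  refine Finset.prod_congr rfl fun a _ => ?_
  rw [map_prod, Finset.prod_map]
  refine Finset.prod_congr rfl fun b _ => ?_
  simp

omit [Fintype V] [DecidableEq V] [Fintype V'] [DecidableEq V'] [DecidableEq I] in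
theorem wt_tr (θ : I → ℤ) (A : Finset V') : wt θ c (A.map e) = wt θ (c ∘ e) A := by
  unfold wt
  rw [Finset.sum_map]
  rfl

theorem map_H (A : Finset V') :
    (H (c ∘ e) A).map (rename e).toLinearMap = H c (A.map e) := by
  unfold H
  rw [← map_RA, ← Submodule.map_comp, ← Submodule.map_comp]
  congr 1
  exact LinearMap.ext fun F => rename_Alt_tr e c A F

theorem map_J (k : I → I → ℕ) (A B : Finset V') :
    (J k (c ∘ e) A B).map (rename e).toLinearMap = J k c (A.map e) (B.map e) := by
  unfold J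
  rw [← Finset.map_union, ← map_RA, ← Submodule.map_comp, ← Submodule.map_comp]
  congr 1
  refine LinearMap.ext fun F => ?_
  change rename e (Alt (c ∘ e) (A ∪ B) (K k (c ∘ e) A B * F)) =
    Alt c ((A ∪ B).map e) (K k c (A.map e) (B.map e) * rename e F)
  rw [rename_Alt_tr, map_mul, rename_K_tr]

omit [Fintype V] [Fintype V'] [DecidableEq V'] in
theorem exists_map_of_subset {A : Finset V'} {B : Finset V} (h : B ⊆ A.map e) :
    ∃ B' ⊆ A, B'.map e = B := by
  refine ⟨A.filter fun u => e u ∈ B, Finset.filter_subset _ _, ?_⟩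
  ext v
  rw [Finset.mem_map]
  constructor
  · rintro ⟨u, hu, rfl⟩
    exact (Finset.mem_filter.1 hu).2
  · intro hv
    obtain ⟨u, hu, rfl⟩ := Finset.mem_map.1 (h hv)
    exact ⟨u, Finset.mem_filter.2 ⟨hu, hv⟩, rfl⟩

omit [Fintype V] [Fintype V'] in
theorem map_sdiff_tr (A B : Finset V') : (A \ B).map e = A.map e \ B.map e := by
  rw [Finset.map_eq_image, Finset.map_eq_image, Finset.map_eq_image,
    Finset.image_sdiff _ _ e.injective]

theorem map_Igt (k : I → I → ℕ) (θ : I → ℤ) (A : Finset V') :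
    (Igt k (c ∘ e) θ A).map (rename e).toLinearMap = Igt k c θ (A.map e) := by
  unfold Igt
  rw [Submodule.map_iSup]
  apply le_antisymm
  · refine iSup_le fun A₂ => ?_
    rw [Submodule.map_iSup]
    refine iSup_le fun h => ?_
    rw [map_J, map_sdiff_tr]
    rw [Finset.mem_filter, Finset.mem_powerset] at h
    refine le_iSup₂_of_le (A₂.map e) ?_ le_rfl
    rw [Finset.mem_filter, Finset.mem_powerset, wt_tr]
    exact ⟨Finset.map_subset_map.2 h.1, h.2.1.map, h.2.2⟩
  · refine iSup₂_le fun B h => ?_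
    rw [Finset.mem_filter, Finset.mem_powerset] at h
    obtain ⟨B', hB', rfl⟩ := exists_map_of_subset e h.1
    rw [← map_sdiff_tr, ← map_J]
    refine le_iSup_of_le B' ?_
    rw [Submodule.map_iSup]
    refine le_iSup_of_le ?_ le_rfl
    rw [Finset.mem_filter, Finset.mem_powerset]
    rw [wt_tr] at h
    exact ⟨hB', Finset.map_nonempty.1 h.2.1, h.2.2⟩

theorem map_Ile (k : I → I → ℕ) (θ : I → ℤ) (A : Finset V') :
    (Ile k (c ∘ e) θ A).map (rename e).toLinearMap = Ile k c θ (A.map e) := by
  unfold Ile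
  rw [Submodule.map_iSup]
  apply le_antisymm
  · refine iSup_le fun A₂ => ?_
    rw [Submodule.map_iSup]
    refine iSup_le fun h => ?_
    rw [map_J, map_sdiff_tr]
    rw [Finset.mem_filter, Finset.mem_powerset] at h
    refine le_iSup₂_of_le (A₂.map e) ?_ le_rfl
    rw [Finset.mem_filter, Finset.mem_powerset, wt_tr]
    exact ⟨Finset.map_subset_map.2 h.1, h.2.1.map, h.2.2⟩
  · refine iSup₂_le fun B h => ?_
    rw [Finset.mem_filter, Finset.mem_powerset] at h
    obtain ⟨B', hB', rfl⟩ := exists_map_of_subset e h.1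
    rw [← map_sdiff_tr, ← map_J]
    refine le_iSup_of_le B' ?_
    rw [Submodule.map_iSup]
    refine le_iSup_of_le ?_ le_rfl
    rw [Finset.mem_filter, Finset.mem_powerset]
    rw [wt_tr] at h
    exact ⟨hB', Finset.map_nonempty.1 h.2.1, h.2.2⟩

/-! ### dimensions -/

omit [Fintype V] [DecidableEq V] [Fintype V'] [DecidableEq V'] in
theorem map_inf_homogeneous (W : Submodule ℚ (MvPolynomial V' ℚ)) (n : ℕ) :
    W.map (rename e).toLinearMap ⊓ homogeneousSubmodule V ℚ n =
      (W ⊓ homogeneousSubmodule V' ℚ n).map (rename e).toLinearMap := by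
  ext F
  constructor
  · rintro ⟨⟨F₀, hF₀, rfl⟩, h⟩
    exact ⟨F₀, ⟨hF₀, (IsHomogeneous.rename_isHomogeneous_iff e.injective).1 h⟩, rfl⟩
  · rintro ⟨F₀, ⟨hF₀, h⟩, rfl⟩
    exact ⟨⟨F₀, hF₀, rfl⟩, IsHomogeneous.rename_isHomogeneous h⟩

omit [Fintype V] [DecidableEq V] [Fintype V'] [DecidableEq V'] in
theorem hd_map (W : Submodule ℚ (MvPolynomial V' ℚ)) (n : ℕ) :
    hd (W.map (rename e).toLinearMap) n = hd W n := by
  unfold hd
  rw [map_inf_homogeneous]
  exact ((Submodule.equivMapOfInjective _ (rename_injective _ e.injective) _).finrank_eq).symm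

theorem hd_H_tr (A : Finset V') (n : ℕ) : hd (H c (A.map e)) n = hd (H (c ∘ e) A) n := by
  rw [← map_H, hd_map]

theorem hd_Igt_tr (k : I → I → ℕ) (θ : I → ℤ) (A : Finset V') (n : ℕ) :
    hd (Igt k c θ (A.map e)) n = hd (Igt k (c ∘ e) θ A) n := by
  rw [← map_Igt, hd_map]

theorem hd_Ile_tr (k : I → I → ℕ) (θ : I → ℤ) (A : Finset V') (n : ℕ) :
    hd (Ile k c θ (A.map e)) n = hd (Ile k (c ∘ e) θ A) n := by
  rw [← map_Ile, hd_map]

end tr

/-! ### the standard model `V_d = Σ i, Fin (d i)` -/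

section std

open Hilb568

variable {V I : Type*} [Fintype V] [DecidableEq V] [Fintype I] [DecidableEq I] (c : V → I)
  (A : Finset V)

/-- the particles in `A`, numbered colour by colour -/
noncomputable def emb : Vars (dA c A) ↪ V := ⟨embA c A, embA_injective c A⟩

theorem c_emb : c ∘ emb c A = Sigma.fst := funext fun x => c_embA c A x

theorem map_emb : (Finset.univ : Finset (Vars (dA c A))).map (emb c A) = A := by
  ext v
  rw [Finset.mem_map]
  constructor
  · rintro ⟨x, _, rfl⟩
    exact embA_mem c A x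
  · intro hv
    obtain ⟨x, rfl⟩ := embA_surj c A hv
    exact ⟨x, Finset.mem_univ _, rfl⟩

/-- `H` depends only on the colour counts -/
theorem hd_H_std (n : ℕ) :
    hd (H c A) n = hd (H (Sigma.fst : Vars (dA c A) → I) Finset.univ) n := by
  conv_lhs => rw [← map_emb c A]
  rw [hd_H_tr, c_emb]

/-- `Igt` depends only on the colour counts -/
theorem hd_Igt_std (k : I → I → ℕ) (θ : I → ℤ) (n : ℕ) :
    hd (Igt k c θ A) n = hd (Igt k (Sigma.fst : Vars (dA c A) → I) θ Finset.univ) n := by
  conv_lhs => rw [← map_emb c A]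
  rw [hd_Igt_tr, c_emb]

/-- `Ile` depends only on the colour counts -/
theorem hd_Ile_std (k : I → I → ℕ) (θ : I → ℤ) (n : ℕ) :
    hd (Ile k c θ A) n = hd (Ile k (Sigma.fst : Vars (dA c A) → I) θ Finset.univ) n := by
  conv_lhs => rw [← map_emb c A]
  rw [hd_Ile_tr, c_emb]

end std

end Crest.Agent.R059.AltTr568
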