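import Crest.Agent.R059.AltSpan_599
import Crest.Agent.R059.AltGr_599
import Crest.Agent.R059.AltTr_568

/-!
# Theorem A'' in numeric form
-/

set_option autoImplicit false

open MvPolynomial

namespace Crest.Agent.R059.Alt599

open Hilb568 (dA Vars)
open AltTr568 (hd_H_std hd_Igt_std hd_Ile_std)

section conj

variable {V I : Type*} [Fintype V] [DecidableEq V] [DecidableEq I]

omit [DecidableEq I] in
/-- sets with the same colour counts are conjugate -/
theorem exists_conj [DecidableEq I] {c : V → I} {A X : Finset V}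
    (h : ∀ i, (A.filter (fun v => c v = i)).card = (X.filter (fun v => c v = i)).card) :
    ∃ w : Equiv.Perm V, (∀ v, c (w v) = c v) ∧ A.map w.toEmbedding = X := by
  classical
  have hcard : ∀ (B : Finset V) (i : I), Fintype.card {x : {v // c v = i} // x.1 ∈ B}
      = (B.filter (fun v => c v = i)).card := by
    intro B i
    rw [← Fintype.card_coe]
    refine Fintype.card_congr ⟨fun x => ⟨x.1.1, Finset.mem_filter.2 ⟨x.2, x.1.2⟩⟩,
      fun y => ⟨⟨y.1, (Finset.mem_filter.1 y.2).2⟩, (Finset.mem_filter.1 y.2).1⟩, ?_, ?_⟩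
    · intro x; rfl
    · intro y; rfl
  have hE : ∀ i, Nonempty ({x : {v // c v = i} // x.1 ∈ A} ≃ {x : {v // c v = i} // x.1 ∈ X}) :=
    fun i => Fintype.card_eq.1 (by rw [hcard, hcard, h i])
  let f : ∀ i, {x : {v // c v = i} // x.1 ∈ A} ≃ {x : {v // c v = i} // x.1 ∈ X} :=
    fun i => (hE i).some
  let g : ∀ i, Equiv.Perm {v // c v = i} := fun i => (f i).extendSubtype
  let w : Equiv.Perm V := (Equiv.sigmaFiberEquiv c).symm.trans
    ((Equiv.sigmaCongrRight g).trans (Equiv.sigmaFiberEquiv c))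
  have hw : ∀ v, w v = (g (c v) ⟨v, rfl⟩ : {u // c u = c v}).1 := fun v => rfl
  have hwc : ∀ v, c (w v) = c v := fun v => by
    rw [hw]; exact (g (c v) ⟨v, rfl⟩ : {u // c u = c v}).2
  have hmem : ∀ v, v ∈ A → w v ∈ X := by
    intro v hv
    rw [hw]
    exact (f (c v)).extendSubtype_mem ⟨v, rfl⟩ hv
  refine ⟨w, hwc, ?_⟩
  apply Finset.eq_of_subset_of_card_le
  · intro v hv
    obtain ⟨u, hu, rfl⟩ := Finset.mem_map.1 hv
    exact hmem u hu
  · rw [Finset.card_map]
    have h1 : ∀ B : Finset V, B.card = ∑ i ∈ Finset.univ.image c,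
        (B.filter (fun v => c v = i)).card := by
      intro B
      exact Finset.card_eq_sum_card_fiberwise fun v _ =>
        Finset.mem_coe.2 (Finset.mem_image_of_mem c (Finset.mem_univ v))
    rw [h1 A, h1 X]
    exact le_of_eq (Finset.sum_congr rfl fun i _ => (h i).symm)

end conj

section count

variable {V I : Type*} [Fintype V] [DecidableEq V] [DecidableEq I]

omit [DecidableEq I] in
/-- a homogeneous basis computes the dimensions -/
theorem hd_span {T : Type*} {v : T → MvPolynomial V ℚ} (hv : LinearIndependent ℚ v)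
    {δ : T → ℕ} (hδ : ∀ t, (v t).IsHomogeneous (δ t)) (n : ℕ) :
    hd (Submodule.span ℚ (Set.range v)) n = Nat.card {t : T // δ t = n} := by
  have h1 : Submodule.span ℚ (Set.range v) ⊓ homogeneousSubmodule V ℚ n
      = Submodule.span ℚ (Set.range (fun t : {t : T // δ t = n} => v t)) := by
    apply le_antisymm
    · rintro f ⟨hf, hn⟩
      have h2 : homogeneousComponent n f = f := homogeneousComponent_eq_self hn
      rw [← h2]
      have hle : Submodule.span ℚ (Set.range v) ≤ (Submodule.span ℚ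
          (Set.range (fun t : {t : T // δ t = n} => v t))).comap (homogeneousComponent n) := by
        rw [Submodule.span_le]
        rintro _ ⟨t, rfl⟩
        change homogeneousComponent n (v t) ∈ Submodule.span ℚ
          (Set.range (fun t : {t : T // δ t = n} => v t))
        rw [homogeneousComponent_of_mem ((mem_homogeneousSubmodule _ _).2 (hδ t))]
        split_ifs with h
        · exact Submodule.subset_span ⟨⟨t, h.symm⟩, rfl⟩
        · exact zero_mem _
      exact hle hf
    · rw [Submodule.span_le]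
      rintro _ ⟨t, rfl⟩
      refine ⟨Submodule.subset_span ⟨t, rfl⟩, ?_⟩
      have := hδ t
      rw [t.2] at this
      exact this
  unfold hd
  rw [h1]
  have h3 : LinearIndependent ℚ (fun t : {t : T // δ t = n} => v t) :=
    hv.comp _ Subtype.val_injective
  exact Module.finrank_eq_nat_card_basis (Module.Basis.span h3)

/-- the index count -/
theorem card_index {S : Type*} [Fintype S] (g e : S → ℕ → ℕ) (m : S → ℕ) (n : ℕ) :
    Nat.card {t : (Σ A : S, (Σ p : ℕ, Fin (g A p)) × (Σ r : ℕ, Fin (e A r))) //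
      m t.1 + (t.2.1.1 + t.2.2.1) = n}
      = ∑ A : S, if m A ≤ n then ∑ pr ∈ Finset.HasAntidiagonal.antidiagonal (n - m A),
        g A pr.1 * e A pr.2 else 0 := by
  classical
  -- the finite model
  let U : Type _ := Σ A : S, Σ pr : {pr : ℕ × ℕ // m A + (pr.1 + pr.2) = n},
    Fin (g A pr.1.1) × Fin (e A pr.1.2)
  let E : {t : (Σ A : S, (Σ p : ℕ, Fin (g A p)) × (Σ r : ℕ, Fin (e A r))) //
      m t.1 + (t.2.1.1 + t.2.2.1) = n} ≃ U :=
    { toFun := fun t => ⟨t.1.1, ⟨(t.1.2.1.1, t.1.2.2.1), t.2⟩, (t.1.2.1.2, t.1.2.2.2)⟩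
      invFun := fun u => ⟨⟨u.1, (⟨u.2.1.1.1, u.2.2.1⟩, ⟨u.2.1.1.2, u.2.2.2⟩)⟩, u.2.1.2⟩
      left_inv := fun t => rfl
      right_inv := fun u => rfl }
  rw [Nat.card_congr E]
  have hfin : ∀ A : S, Finite {pr : ℕ × ℕ // m A + (pr.1 + pr.2) = n} := by
    intro A
    refine Set.Finite.to_subtype (s := {pr : ℕ × ℕ | m A + (pr.1 + pr.2) = n}) ?_
    refine ((Finset.range (n + 1) ×ˢ Finset.range (n + 1)).finite_toSet).subset ?_
    rintro ⟨p, r⟩ h
    change m A + (p + r) = n at h
    simp only [Finset.coe_product, Finset.coe_range, Set.mem_prod, Set.mem_Iio]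
    omega
  have : ∀ A : S, Fintype {pr : ℕ × ℕ // m A + (pr.1 + pr.2) = n} :=
    fun A => Fintype.ofFinite _
  rw [Nat.card_sigma]
  refine Finset.sum_congr rfl fun A _ => ?_
  rw [Nat.card_sigma]
  have hc : ∀ pr : {pr : ℕ × ℕ // m A + (pr.1 + pr.2) = n},
      Nat.card (Fin (g A pr.1.1) × Fin (e A pr.1.2)) = g A pr.1.1 * e A pr.1.2 := by
    intro pr
    rw [Nat.card_prod, Nat.card_eq_fintype_card, Nat.card_eq_fintype_card, Fintype.card_fin,
      Fintype.card_fin]
  rw [Finset.sum_congr rfl fun pr _ => hc pr]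
  split_ifs with h
  · refine Finset.sum_bij (fun (pr : {pr : ℕ × ℕ // m A + (pr.1 + pr.2) = n}) _ => pr.1)
      ?_ ?_ ?_ ?_
    · rintro ⟨pr, hpr⟩ _
      rw [Finset.HasAntidiagonal.mem_antidiagonal]
      simp only
      omega
    · rintro ⟨pr, _⟩ _ ⟨pr', _⟩ _ hh
      exact Subtype.ext hh
    · rintro pr hpr
      rw [Finset.HasAntidiagonal.mem_antidiagonal] at hpr
      exact ⟨⟨pr, by omega⟩, Finset.mem_univ _, rfl⟩
    · rintro pr _
      rfl
  · refine Finset.sum_eq_zero ?_
    rintro ⟨pr, hpr⟩ _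
    omega

theorem Alt_homogeneous (c : V → I) (A : Finset V) {f : MvPolynomial V ℚ} {n : ℕ}
    (hf : f.IsHomogeneous n) : (Alt c A f).IsHomogeneous n := by
  have h1 := Alt_homogeneousComponent c A n f
  rw [homogeneousComponent_eq_self hf] at h1
  rw [← h1]
  exact homogeneousComponent_isHomogeneous n _

/-- the dimension count for a fixed particle set -/
theorem count_V (k : I → I → ℕ) (c : V → I) (θ : I → ℤ) (S : Finset (Finset V))
    (hS1 : ∀ X ∈ S, ∀ Y ∈ S, (∀ i, (X.filter (fun v => c v = i)).card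
      = (Y.filter (fun v => c v = i)).card) → X = Y)
    (hS2 : ∀ X : Finset V, ∃ A ∈ S, ∀ i, (A.filter (fun v => c v = i)).card
      = (X.filter (fun v => c v = i)).card) (n : ℕ) :
    hd (H c (Finset.univ : Finset V)) n = ∑ A : S, if kd k c (A : Finset V) (A : Finset V)ᶜ ≤ n then
      ∑ pr ∈ Finset.HasAntidiagonal.antidiagonal (n - kd k c (A : Finset V) (A : Finset V)ᶜ),
        (hd (H c (A : Finset V)) pr.1 - hd (Igt k c θ (A : Finset V)) pr.1) *
        (hd (H c (A : Finset V)ᶜ) pr.2 - hd (Ile k c θ (A : Finset V)ᶜ) pr.2) else 0 := by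
  have hexb := fun A : S => exists_compl (Igt_le_H k c θ (A : Finset V)) (graded_H c A)
    (graded_Igt k c θ A)
  choose b hb1 hb2 hb3 hb4 using hexb
  have hexd := fun A : S => exists_compl (Ile_le_H k c θ (A : Finset V)ᶜ) (graded_H c _)
    (graded_Ile k c θ _)
  choose d hd1 hd2 hd3 hd4 using hexd
  have hrep : ∀ X ∈ S, ∀ Y ∈ S, X ≠ Y → ∀ w : Equiv.Perm V, (∀ v, c (w v) = c v) →
      X.map w.toEmbedding ≠ Y := by
    rintro X hX Y hY hne w hw rfl
    apply hne
    refine hS1 X hX _ hY fun i => ?_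
    rw [Finset.filter_map, Finset.card_map]
    congr 1
    refine Finset.filter_congr fun v _ => ?_
    simp [hw]
  have hind := indep_all (k := k) (θ := θ) hrep b d hb1 hd1 hb4 hd4
  have hspan := span_all (k := k) (c := c) (θ := θ) (S := S) (fun X => by
    obtain ⟨A, hA, h⟩ := hS2 X
    obtain ⟨w, hw, hwX⟩ := exists_conj h
    exact ⟨A, hA, w, hw, hwX⟩) b d hb3 hd3
  have hHle : Submodule.span ℚ (Set.range (fun p : Σ A : S, (Σ n : ℕ,
      Fin (hd (H c (A : Finset V)) n - hd (Igt k c θ (A : Finset V)) n)) × (Σ n : ℕ,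
      Fin (hd (H c (A : Finset V)ᶜ) n - hd (Ile k c θ (A : Finset V)ᶜ) n)) =>
      Alt c Finset.univ (K k c (p.1 : Finset V) (p.1 : Finset V)ᶜ *
        (b p.1 p.2.1 * d p.1 p.2.2)))) ≤ H c Finset.univ := by
    rw [Submodule.span_le]
    rintro _ ⟨p, rfl⟩
    exact Alt_mem_H (by rw [RA_univ]; trivial)
  rw [le_antisymm hspan hHle]
  rw [hd_span hind (δ := fun t => kd k c (t.1 : Finset V) (t.1 : Finset V)ᶜ + (t.2.1.1 + t.2.2.1))]
  · exact card_index _ _ (fun A : S => kd k c (A : Finset V) (A : Finset V)ᶜ) n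
  · intro t
    exact Alt_homogeneous c _ ((K_homogeneous k c _ _).mul ((hb2 t.1 t.2.1).mul (hd2 t.1 t.2.2)))

end count

/-! ### numeric form -/

section numeric

variable {I : Type*} [Fintype I] [DecidableEq I]

/-- dimensions of the alternating polynomials on `V_d` -/
noncomputable def hH (d : I →₀ ℕ) (n : ℕ) : ℕ :=
  hd (H (Sigma.fst : Vars (⇑d) → I) Finset.univ) n

/-- dimensions of `H / I^>` on `V_d` -/
noncomputable def hgt (k : I → I → ℕ) (θ : I → ℤ) (d : I →₀ ℕ) (n : ℕ) : ℕ :=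
  hd (H (Sigma.fst : Vars (⇑d) → I) Finset.univ) n
    - hd (Igt k (Sigma.fst : Vars (⇑d) → I) θ Finset.univ) n

/-- dimensions of `H / I^≤` on `V_d` -/
noncomputable def hle (k : I → I → ℕ) (θ : I → ℤ) (d : I →₀ ℕ) (n : ℕ) : ℕ :=
  hd (H (Sigma.fst : Vars (⇑d) → I) Finset.univ) n
    - hd (Ile k (Sigma.fst : Vars (⇑d) → I) θ Finset.univ) n

/-- colour counts -/
noncomputable def typ {V : Type*} [Fintype V] [DecidableEq V] (c : V → I) (A : Finset V) :
    I →₀ ℕ := Finsupp.equivFunOnFinite.symm (dA c A)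

section

variable {V : Type*} [Fintype V] [DecidableEq V] (c : V → I) (A : Finset V)

theorem coe_typ : ⇑(typ c A) = dA c A := rfl

theorem typ_apply (i : I) : typ c A i = (A.filter (fun v => c v = i)).card := rfl

theorem hd_H_typ (n : ℕ) : hd (H c A) n = hH (typ c A) n := hd_H_std c A n

theorem hgt_typ (k : I → I → ℕ) (θ : I → ℤ) (n : ℕ) :
    hd (H c A) n - hd (Igt k c θ A) n = hgt k θ (typ c A) n := by
  rw [hd_H_std, hd_Igt_std]; rfl

theorem hle_typ (k : I → I → ℕ) (θ : I → ℤ) (n : ℕ) :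
    hd (H c A) n - hd (Ile k c θ A) n = hle k θ (typ c A) n := by
  rw [hd_H_std, hd_Ile_std]; rfl

theorem sum_typ {M : Type*} [AddCommMonoid M] (f : I → M) :
    ∑ a ∈ A, f (c a) = ∑ i, typ c A i • f i := by
  rw [← Finset.sum_fiberwise A c]
  refine Finset.sum_congr rfl fun i _ => ?_
  rw [typ_apply, ← Finset.sum_const]
  exact Finset.sum_congr rfl fun a ha => by rw [(Finset.mem_filter.1 ha).2]

theorem kd_typ (k : I → I → ℕ) (B : Finset V) :
    kd k c A B = ∑ i, ∑ j, k i j * typ c A i * typ c B j := by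
  unfold kd
  rw [sum_typ c A (fun i => ∑ b ∈ B, k i (c b))]
  refine Finset.sum_congr rfl fun i _ => ?_
  rw [sum_typ c B (fun j => k i j), Finset.smul_sum]
  refine Finset.sum_congr rfl fun j _ => ?_
  simp only [smul_eq_mul]
  ring

theorem wt_typ (θ : I → ℤ) : wt θ c A = ∑ i, θ i * (typ c A i : ℤ) := by
  unfold wt
  rw [sum_typ c A θ]
  refine Finset.sum_congr rfl fun i _ => ?_
  rw [nsmul_eq_mul, mul_comm]

theorem typ_add_compl : typ c A + typ c Aᶜ = typ c Finset.univ := by
  ext i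
  rw [Finsupp.add_apply, typ_apply, typ_apply, typ_apply, ← Finset.card_union_of_disjoint]
  · congr 1
    ext v
    simp only [Finset.mem_union, Finset.mem_filter, Finset.mem_compl, Finset.mem_univ, true_and]
    tauto
  · exact (disjoint_compl_right (a := A)).mono (Finset.filter_subset _ _)
      (Finset.filter_subset _ _)

theorem exists_typ {a : I →₀ ℕ} (ha : a ≤ typ c Finset.univ) : ∃ A : Finset V, typ c A = a := by
  classical
  have h : ∀ i, ∃ B ⊆ (Finset.univ : Finset V).filter (fun v => c v = i), B.card = a i :=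
    fun i => Finset.exists_subset_card_eq (ha i)
  choose B hB1 hB2 using h
  refine ⟨Finset.univ.biUnion B, ?_⟩
  ext i
  rw [typ_apply, ← hB2 i]
  congr 1
  ext v
  simp only [Finset.mem_filter, Finset.mem_biUnion, Finset.mem_univ, true_and]
  constructor
  · rintro ⟨⟨j, hj⟩, hv⟩
    have := (Finset.mem_filter.1 (hB1 j hj)).2
    rw [hv] at this
    rwa [this]
  · intro hv
    exact ⟨⟨i, hv⟩, (Finset.mem_filter.1 (hB1 i hv)).2⟩

end

theorem typ_univ (d : I →₀ ℕ) : typ (Sigma.fst : Vars (⇑d) → I) Finset.univ = d := by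
  ext i
  rw [typ_apply]
  have : ((Finset.univ : Finset (Vars (⇑d))).filter (fun v => v.1 = i))
      = (Finset.univ : Finset (Fin (d i))).map ⟨fun x => (⟨i, x⟩ : Vars (⇑d)), fun x y h => by
          simpa using h⟩ := by
    ext ⟨j, x⟩
    simp only [Finset.mem_filter, Finset.mem_univ, true_and, Finset.mem_map,
      Function.Embedding.coeFn_mk]
    constructor
    · rintro rfl
      exact ⟨x, rfl⟩
    · rintro ⟨y, hy⟩
      exact (congrArg Sigma.fst hy).symm
  rw [this, Finset.card_map, Finset.card_univ, Fintype.card_fin]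

/-- **THEOREM A'' (numeric form)** -/
theorem thmA (k : I → I → ℕ) (θ : I → ℤ) (d : I →₀ ℕ) (n : ℕ) :
    hH d n = ∑ ab ∈ Finset.HasAntidiagonal.antidiagonal d,
      if ∑ i, ∑ j, k i j * ab.1 i * ab.2 j ≤ n then
        ∑ pr ∈ Finset.HasAntidiagonal.antidiagonal (n - ∑ i, ∑ j, k i j * ab.1 i * ab.2 j),
          hgt k θ ab.1 pr.1 * hle k θ ab.2 pr.2 else 0 := by
  classical
  set c : Vars (⇑d) → I := Sigma.fst with hc
  let sec : (I →₀ ℕ) → Finset (Vars (⇑d)) := Function.invFun (typ c)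
  have hsec : ∀ A, typ c (sec (typ c A)) = typ c A := fun A =>
    Function.invFun_eq ⟨A, rfl⟩
  let S : Finset (Finset (Vars (⇑d))) := Finset.univ.image (fun A => sec (typ c A))
  have hS1 : ∀ X ∈ S, ∀ Y ∈ S, (∀ i, (X.filter (fun v => c v = i)).card
      = (Y.filter (fun v => c v = i)).card) → X = Y := by
    intro X hX Y hY h
    obtain ⟨A, _, rfl⟩ := Finset.mem_image.1 hX
    obtain ⟨B, _, rfl⟩ := Finset.mem_image.1 hY
    have h1 : typ c (sec (typ c A)) = typ c (sec (typ c B)) := by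
      ext i
      exact h i
    rw [hsec, hsec] at h1
    rw [h1]
  have hS2 : ∀ X : Finset (Vars (⇑d)), ∃ A ∈ S, ∀ i, (A.filter (fun v => c v = i)).card
      = (X.filter (fun v => c v = i)).card := by
    intro X
    refine ⟨sec (typ c X), Finset.mem_image.2 ⟨X, Finset.mem_univ _, rfl⟩, fun i => ?_⟩
    have := DFunLike.congr_fun (hsec X) i
    exact this
  unfold hH
  rw [count_V k c θ S hS1 hS2 n]
  simp only [hgt_typ, hle_typ, kd_typ]
  rw [Finset.sum_coe_sort S (fun A => if ∑ i, ∑ j, k i j * typ c A i * typ c Aᶜ j ≤ n then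
      ∑ pr ∈ Finset.HasAntidiagonal.antidiagonal (n - ∑ i, ∑ j, k i j * typ c A i * typ c Aᶜ j),
        hgt k θ (typ c A) pr.1 * hle k θ (typ c Aᶜ) pr.2 else 0)]
  refine Finset.sum_bij (fun A _ => (typ c A, typ c Aᶜ)) ?_ ?_ ?_ ?_
  · intro A _
    rw [Finset.HasAntidiagonal.mem_antidiagonal]
    exact (typ_add_compl c A).trans (typ_univ d)
  · intro X hX Y hY h
    have h1 : typ c X = typ c Y := congrArg Prod.fst h
    exact hS1 X hX Y hY fun i => DFunLike.congr_fun h1 i
  · rintro ⟨a, b⟩ hab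
    rw [Finset.HasAntidiagonal.mem_antidiagonal] at hab
    have ha : a ≤ typ c Finset.univ := by
      rw [typ_univ, ← hab]
      exact le_self_add
    obtain ⟨A, hA⟩ := exists_typ c ha
    obtain ⟨B, hB, hBA⟩ := hS2 A
    have h1 : typ c B = a := by
      rw [← hA]
      ext i
      exact hBA i
    refine ⟨B, hB, Prod.ext h1 ?_⟩
    have h2 := typ_add_compl c B
    rw [h1, typ_univ] at h2
    exact add_left_cancel (h2.trans hab.symm)
  · intro A _
    rfl

end numeric

end Crest.Agent.R059.Alt599
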