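import Crest.Agent.R059.AltDefs_599

/-!
# API for the alternating form of the shuffle algebra (row 59)
-/

set_option autoImplicit false

open MvPolynomial

namespace Crest.Agent.R059.Alt599

variable {V I : Type*} [Fintype V] [DecidableEq V] [DecidableEq I]

/-! ### signs -/

omit [DecidableEq I] in
theorem sg_mul (a b : Equiv.Perm V) : sg (a * b) = sg a * sg b := by
  simp [sg]

theorem sg_one : sg (1 : Equiv.Perm V) = 1 := by simp [sg]

theorem sg_mul_self (a : Equiv.Perm V) : sg a * sg a = 1 := by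
  unfold sg
  rcases Int.units_eq_one_or (Equiv.Perm.sign a) with h | h <;> simp [h]

theorem sg_inv (a : Equiv.Perm V) : sg a⁻¹ = sg a := by
  simp [sg]

theorem sg_ne_zero (a : Equiv.Perm V) : sg a ≠ 0 := fun h => by
  have := sg_mul_self a
  rw [h] at this
  simp at this

/-! ### the groups -/

omit [Fintype V] [DecidableEq V] [DecidableEq I] in
theorem G_mono (c : V → I) {A B : Finset V} (h : A ⊆ B) : G c A ≤ G c B :=
  fun _ hw => ⟨hw.1, fun v hv => hw.2 v fun hA => hv (h hA)⟩

omit [Fintype V] [DecidableEq V] [DecidableEq I] in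
theorem G_maps {c : V → I} {A : Finset V} {w : Equiv.Perm V} (hw : w ∈ G c A) {v : V}
    (hv : v ∈ A) : w v ∈ A := by
  by_contra h
  have h1 := hw.2 (w v) h
  have h2 : w v = v := w.injective h1
  rw [h2] at h
  exact h hv

omit [Fintype V] [DecidableEq I] in
theorem map_of_mem_G {c : V → I} {A : Finset V} {w : Equiv.Perm V} (hw : w ∈ G c A)
    {B : Finset V} (hB : A ⊆ B) : B.map w.toEmbedding = B := by
  apply Finset.eq_of_subset_of_card_le
  · intro v hv
    obtain ⟨u, hu, rfl⟩ := Finset.mem_map.1 hv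
    exact G_maps (G_mono c hB hw) hu
  · rw [Finset.card_map]

omit [Fintype V] [DecidableEq I] in
theorem map_of_mem_G_disjoint {c : V → I} {A : Finset V} {w : Equiv.Perm V} (hw : w ∈ G c A)
    {B : Finset V} (hB : Disjoint A B) : B.map w.toEmbedding = B := by
  apply Finset.eq_of_subset_of_card_le
  · intro v hv
    obtain ⟨u, hu, rfl⟩ := Finset.mem_map.1 hv
    have : w u = u := hw.2 u (fun h => (Finset.disjoint_left.1 hB h) hu)
    simp only [Equiv.coe_toEmbedding, this, hu]
  · rw [Finset.card_map]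

/-! ### the antisymmetriser -/

theorem Alt_apply (c : V → I) (A : Finset V) (f : MvPolynomial V ℚ) :
    Alt c A f = ∑ w : G c A, sg (w : Equiv.Perm V) • rename (w : Equiv.Perm V) f := by
  simp [Alt, LinearMap.sum_apply]

theorem rename_Alt {c : V → I} {A : Finset V} {g : Equiv.Perm V} (hg : g ∈ G c A)
    (f : MvPolynomial V ℚ) : rename g (Alt c A f) = sg g • Alt c A f := by
  rw [Alt_apply, map_sum, Finset.smul_sum]
  refine Fintype.sum_equiv (Equiv.mulLeft (⟨g, hg⟩ : G c A)) _ _ fun w => ?_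
  simp only [map_smul, Equiv.coe_mulLeft, Subgroup.coe_mul, sg_mul, smul_smul]
  rw [← mul_assoc, sg_mul_self, one_mul, rename_rename]
  rfl

theorem Alt_rename {c : V → I} {A : Finset V} {g : Equiv.Perm V} (hg : g ∈ G c A)
    (f : MvPolynomial V ℚ) : Alt c A (rename g f) = sg g • Alt c A f := by
  rw [Alt_apply, Alt_apply, Finset.smul_sum]
  refine Fintype.sum_equiv (Equiv.mulRight (⟨g, hg⟩ : G c A)) _ _ fun w => ?_
  simp only [Equiv.coe_mulRight, Subgroup.coe_mul, sg_mul, smul_smul]
  rw [mul_comm (sg (w : Equiv.Perm V)) (sg g), ← mul_assoc, sg_mul_self, one_mul, rename_rename]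
  rfl

theorem Alt_mul_left {c : V → I} {A : Finset V} {s : MvPolynomial V ℚ}
    (hs : ∀ w ∈ G c A, rename w s = s) (f : MvPolynomial V ℚ) :
    Alt c A (s * f) = s * Alt c A f := by
  rw [Alt_apply, Alt_apply, Finset.mul_sum]
  refine Finset.sum_congr rfl fun w _ => ?_
  rw [map_mul, hs _ w.2, mul_smul_comm]

/-- number of elements of `G c A` as a rational number -/
noncomputable def nG (c : V → I) (A : Finset V) : ℚ := (Fintype.card (G c A) : ℚ)

theorem nG_pos (c : V → I) (A : Finset V) : 0 < nG c A := by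
  unfold nG
  exact_mod_cast Fintype.card_pos

theorem nG_ne_zero (c : V → I) (A : Finset V) : nG c A ≠ 0 := (nG_pos c A).ne'

theorem Alt_Alt_of_subset {c : V → I} {A A' : Finset V} (h : A' ⊆ A) (f : MvPolynomial V ℚ) :
    Alt c A (Alt c A' f) = nG c A' • Alt c A f := by
  rw [Alt_apply c A' f, map_sum]
  have : ∀ w : G c A', Alt c A (sg (w : Equiv.Perm V) • rename (w : Equiv.Perm V) f)
      = Alt c A f := by
    intro w
    rw [map_smul, Alt_rename (G_mono c h w.2), smul_smul, sg_mul_self, one_smul]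
  rw [Finset.sum_congr rfl fun w _ => this w, Finset.sum_const, Finset.card_univ, nG,
    ← Nat.cast_smul_eq_nsmul ℚ]

theorem Alt_eq_smul {c : V → I} {A : Finset V} {f : MvPolynomial V ℚ}
    (hf : ∀ w ∈ G c A, rename w f = sg w • f) : Alt c A f = nG c A • f := by
  rw [Alt_apply]
  have : ∀ w : G c A, sg (w : Equiv.Perm V) • rename (w : Equiv.Perm V) f = f := by
    intro w
    rw [hf _ w.2, smul_smul, sg_mul_self, one_smul]
  rw [Finset.sum_congr rfl fun w _ => this w, Finset.sum_const, Finset.card_univ, nG,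
    ← Nat.cast_smul_eq_nsmul ℚ]

theorem Alt_Alt_of_subset' {c : V → I} {A A' : Finset V} (h : A' ⊆ A) (f : MvPolynomial V ℚ) :
    Alt c A' (Alt c A f) = nG c A' • Alt c A f :=
  Alt_eq_smul fun _ hw => rename_Alt (G_mono c h hw) f

theorem rename_Alt_comm {c : V → I} {A B : Finset V} (hAB : Disjoint A B) {g : Equiv.Perm V}
    (hg : g ∈ G c A) (f : MvPolynomial V ℚ) :
    rename g (Alt c B f) = Alt c B (rename g f) := by
  rw [Alt_apply, Alt_apply, map_sum]
  refine Finset.sum_congr rfl fun w _ => ?_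
  rw [map_smul, rename_rename, rename_rename]
  have key : (⇑g ∘ ⇑(w : Equiv.Perm V)) = (⇑(w : Equiv.Perm V) ∘ ⇑g) := ?_
  · rw [key]
  funext v
  simp only [Function.comp_apply]
  by_cases hA : v ∈ A
  · have hB : v ∉ B := Finset.disjoint_left.1 hAB hA
    have hgB : g v ∉ B := Finset.disjoint_left.1 hAB (G_maps hg hA)
    rw [w.2.2 v hB, w.2.2 _ hgB]
  · by_cases hB : v ∈ B
    · have hwB := G_maps w.2 hB
      rw [hg.2 v hA, hg.2 _ (Finset.disjoint_right.1 hAB hwB)]
    · rw [hg.2 v hA, w.2.2 v hB, hg.2 v hA]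

theorem Alt_comm {c : V → I} {A B : Finset V} (hAB : Disjoint A B) (f : MvPolynomial V ℚ) :
    Alt c A (Alt c B f) = Alt c B (Alt c A f) := by
  rw [Alt_apply c A (Alt c B f), Alt_apply c A f, map_sum]
  refine Finset.sum_congr rfl fun w _ => ?_
  rw [map_smul, rename_Alt_comm hAB w.2]

/-! ### polynomials in the variables of a set -/

omit [Fintype V] [DecidableEq V] in
theorem mem_RA {A : Finset V} {f : MvPolynomial V ℚ} :
    f ∈ RA A ↔ (f.vars : Set V) ⊆ (A : Set V) := by
  unfold RA
  rw [Subalgebra.mem_toSubmodule, mem_supported]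

omit [Fintype V] [DecidableEq V] in
theorem mem_RA' {A : Finset V} {f : MvPolynomial V ℚ} :
    f ∈ RA A ↔ f ∈ supported ℚ (A : Set V) := by
  unfold RA
  rw [Subalgebra.mem_toSubmodule]

omit [Fintype V] [DecidableEq V] in
theorem RA_mono {A B : Finset V} (h : A ⊆ B) : RA (V := V) A ≤ RA B := fun f hf => by
  rw [mem_RA] at *
  exact hf.trans (by exact_mod_cast h)

omit [Fintype V] [DecidableEq V] in
theorem mul_mem_RA {A : Finset V} {f g : MvPolynomial V ℚ} (hf : f ∈ RA A) (hg : g ∈ RA A) :
    f * g ∈ RA A := by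
  rw [mem_RA'] at *
  exact mul_mem hf hg

omit [DecidableEq V] in
theorem RA_univ : RA (V := V) Finset.univ = ⊤ := by
  ext f
  simp [mem_RA]

omit [Fintype V] in
theorem rename_mem_RA {A : Finset V} {w : Equiv.Perm V} {f : MvPolynomial V ℚ} (hf : f ∈ RA A) :
    rename w f ∈ RA (A.map w.toEmbedding) := by
  rw [mem_RA] at *
  intro v hv
  have := vars_rename w f
  obtain ⟨u, hu, rfl⟩ := Finset.mem_image.1 (this hv)
  simp only [Finset.coe_map, Equiv.coe_toEmbedding, Set.mem_image, Finset.mem_coe]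
  exact ⟨u, hf hu, rfl⟩

omit [Fintype V] [DecidableEq V] in
theorem rename_eq_self {A : Finset V} {w : V → V} (hw : ∀ v ∈ A, w v = v)
    {f : MvPolynomial V ℚ} (hf : f ∈ RA A) : rename w f = f := by
  rw [mem_RA', supported_eq_range_rename] at hf
  obtain ⟨g, rfl⟩ := hf
  change rename w (rename _ g) = rename _ g
  rw [rename_rename]
  congr 1
  congr 1
  funext v
  exact hw v v.2

theorem Alt_mem_RA {c : V → I} {A B : Finset V} (hAB : A ⊆ B) {f : MvPolynomial V ℚ}
    (hf : f ∈ RA B) : Alt c A f ∈ RA B := by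
  rw [Alt_apply]
  refine Submodule.sum_mem _ fun w _ => Submodule.smul_mem _ _ ?_
  have := rename_mem_RA (w := (w : Equiv.Perm V)) hf
  rwa [map_of_mem_G w.2 hAB] at this

omit [Fintype V] [DecidableEq I] in
theorem rename_eq_self_of_disjoint {c : V → I} {A B : Finset V} (hAB : Disjoint A B)
    {w : Equiv.Perm V} (hw : w ∈ G c A) {f : MvPolynomial V ℚ} (hf : f ∈ RA B) :
    rename w f = f :=
  rename_eq_self (fun v hv => hw.2 v (Finset.disjoint_right.1 hAB hv)) hf

theorem H_le_RA (c : V → I) (A : Finset V) : H c A ≤ RA A := by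
  rintro _ ⟨f, hf, rfl⟩
  exact Alt_mem_RA (Finset.Subset.refl _) hf

/-- elements of `H c A` are alternating -/
theorem rename_of_mem_H {c : V → I} {A : Finset V} {f : MvPolynomial V ℚ} (hf : f ∈ H c A)
    {w : Equiv.Perm V} (hw : w ∈ G c A) : rename w f = sg w • f := by
  obtain ⟨g, _, rfl⟩ := hf
  exact rename_Alt hw g

theorem Alt_of_mem_H {c : V → I} {A : Finset V} {f : MvPolynomial V ℚ} (hf : f ∈ H c A) :
    Alt c A f = nG c A • f := Alt_eq_smul fun _ hw => rename_of_mem_H hf hw

theorem Alt_mem_H {c : V → I} {A : Finset V} {f : MvPolynomial V ℚ} (hf : f ∈ RA A) :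
    Alt c A f ∈ H c A := ⟨f, hf, rfl⟩

theorem Alt_Alt_mul {c : V → I} {A B : Finset V} (hAB : Disjoint A B) {f g : MvPolynomial V ℚ}
    (hf : f ∈ RA A) (hg : g ∈ RA B) : Alt c A (Alt c B (f * g)) = Alt c A f * Alt c B g := by
  rw [Alt_mul_left fun w hw => rename_eq_self_of_disjoint hAB.symm hw hf, mul_comm,
    Alt_mul_left fun w hw => rename_eq_self_of_disjoint hAB hw
      (Alt_mem_RA (Finset.Subset.refl B) hg), mul_comm]


/-! ### the kernel -/

omit [Fintype V] [DecidableEq V] [DecidableEq I] in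
theorem K_mem_RA (k : I → I → ℕ) (c : V → I) [DecidableEq V] {A B D : Finset V} (hA : A ⊆ D)
    (hB : B ⊆ D) : K k c A B ∈ RA D := by
  rw [mem_RA']
  unfold K
  refine Subalgebra.prod_mem _ fun a ha => Subalgebra.prod_mem _ fun b hb => ?_
  refine Subalgebra.pow_mem _ (Subalgebra.sub_mem _ ?_ ?_) _
  · exact X_mem_supported.2 (hB hb)
  · exact X_mem_supported.2 (hA ha)

omit [Fintype V] [DecidableEq I] in
theorem K_union_left (k : I → I → ℕ) (c : V → I) {A A' B : Finset V} (h : Disjoint A A') :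
    K k c (A ∪ A') B = K k c A B * K k c A' B := by
  unfold K
  rw [Finset.prod_union h]

omit [Fintype V] [DecidableEq I] in
theorem K_union_right (k : I → I → ℕ) (c : V → I) {A B B' : Finset V} (h : Disjoint B B') :
    K k c A (B ∪ B') = K k c A B * K k c A B' := by
  unfold K
  rw [← Finset.prod_mul_distrib]
  exact Finset.prod_congr rfl fun a _ => Finset.prod_union h

omit [Fintype V] [DecidableEq V] [DecidableEq I] in
theorem rename_K (k : I → I → ℕ) {c : V → I} {w : Equiv.Perm V} (hw : ∀ v, c (w v) = c v)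
    (A B : Finset V) :
    rename w (K k c A B) = K k c (A.map w.toEmbedding) (B.map w.toEmbedding) := by
  unfold K
  rw [map_prod, Finset.prod_map]
  refine Finset.prod_congr rfl fun a _ => ?_
  rw [map_prod, Finset.prod_map]
  refine Finset.prod_congr rfl fun b _ => ?_
  simp [hw]

omit [Fintype V] [DecidableEq I] in
theorem rename_K_self (k : I → I → ℕ) {c : V → I} {w : Equiv.Perm V} {A B D : Finset V}
    (hw : w ∈ G c D) (hA : D ⊆ A ∨ Disjoint D A) (hB : D ⊆ B ∨ Disjoint D B) :
    rename w (K k c A B) = K k c A B := by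
  have h : ∀ E : Finset V, (D ⊆ E ∨ Disjoint D E) → E.map w.toEmbedding = E := by
    rintro E (h | h)
    · exact map_of_mem_G hw h
    · exact map_of_mem_G_disjoint hw h
  rw [rename_K k hw.1, h A hA, h B hB]

/-! ### products span -/

omit [Fintype V] in
theorem monomial_mem_RA {A : Finset V} {m : V →₀ ℕ} (hm : m.support ⊆ A) (r : ℚ) :
    monomial m r ∈ RA A := by
  by_cases hr : r = 0
  · rw [hr, monomial_zero]
    exact zero_mem _
  · rw [mem_RA, vars_monomial hr]
    exact_mod_cast hm

omit [Fintype V] in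
theorem support_subset_of_mem_RA {A : Finset V} {f : MvPolynomial V ℚ} (hf : f ∈ RA A)
    {m : V →₀ ℕ} (hm : m ∈ f.support) : m.support ⊆ A := by
  intro v hv
  rw [mem_RA] at hf
  have : v ∈ f.vars := (mem_vars_iff_mem_support v).2 ⟨m, hm, hv⟩
  exact_mod_cast hf this

omit [Fintype V] in
theorem RA_union (A B : Finset V) :
    RA (V := V) (A ∪ B) = RA A * RA B := by
  apply le_antisymm
  · intro f hf
    rw [f.as_sum]
    refine Submodule.sum_mem _ fun m hm => ?_
    have hmv : m.support ⊆ A ∪ B := support_subset_of_mem_RA hf hm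
    have h1 : monomial m (coeff m f)
        = monomial (m.filter (· ∈ A)) (coeff m f) * monomial (m.filter (· ∉ A)) 1 := by
      rw [monomial_mul, mul_one, Finsupp.filter_add_filter_not]
    rw [h1]
    refine Submodule.mul_mem_mul (monomial_mem_RA ?_ _) (monomial_mem_RA ?_ _)
    · intro v hv
      rw [Finsupp.support_filter, Finset.mem_filter] at hv
      exact hv.2
    · intro v hv
      rw [Finsupp.support_filter, Finset.mem_filter] at hv
      exact (Finset.mem_union.1 (hmv hv.1)).resolve_left hv.2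
  · rw [Submodule.mul_le]
    intro f hf g hg
    exact mul_mem_RA (RA_mono Finset.subset_union_left hf) (RA_mono Finset.subset_union_right hg)

omit [Fintype V] in
/-- induction over the monomials of a polynomial in the variables of `A` -/
theorem RA_induction {A : Finset V} {P : MvPolynomial V ℚ → Prop}
    (hmon : ∀ m : V →₀ ℕ, m.support ⊆ A → P (monomial m 1))
    (hzero : P 0) (hadd : ∀ f g, P f → P g → P (f + g)) (hsmul : ∀ (r : ℚ) f, P f → P (r • f))
    {f : MvPolynomial V ℚ} (hf : f ∈ RA A) : P f := by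
  rw [f.as_sum]
  refine Finset.sum_induction _ P hadd hzero fun m hm => ?_
  have : monomial m (coeff m f) = coeff m f • monomial m (1 : ℚ) := by
    rw [smul_monomial, smul_eq_mul, mul_one]
  rw [this]
  exact hsmul _ _ (hmon m (support_subset_of_mem_RA hf hm))

/-- the "product" of two linear functionals (the first one on the variables of `A`, the second one
on the other variables) -/
noncomputable def prodFun {W₁ W₂ W₃ : Type*} [AddCommGroup W₁] [Module ℚ W₁] [AddCommGroup W₂]
    [Module ℚ W₂] [AddCommGroup W₃] [Module ℚ W₃] (A : Finset V) (b : W₁ →ₗ[ℚ] W₂ →ₗ[ℚ] W₃)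
    (φ : MvPolynomial V ℚ →ₗ[ℚ] W₁) (ψ : MvPolynomial V ℚ →ₗ[ℚ] W₂) :
    MvPolynomial V ℚ →ₗ[ℚ] W₃ :=
  (basisMonomials V ℚ).constr ℚ fun m =>
    b (φ (monomial (m.filter (· ∈ A)) 1)) (ψ (monomial (m.filter (· ∉ A)) 1))

omit [Fintype V] in
theorem prodFun_mul {W₁ W₂ W₃ : Type*} [AddCommGroup W₁] [Module ℚ W₁] [AddCommGroup W₂]
    [Module ℚ W₂] [AddCommGroup W₃] [Module ℚ W₃] {A B : Finset V} (hAB : Disjoint A B)
    (b : W₁ →ₗ[ℚ] W₂ →ₗ[ℚ] W₃)
    (φ : MvPolynomial V ℚ →ₗ[ℚ] W₁) (ψ : MvPolynomial V ℚ →ₗ[ℚ] W₂)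
    {f g : MvPolynomial V ℚ} (hf : f ∈ RA A) (hg : g ∈ RA B) :
    prodFun A b φ ψ (f * g) = b (φ f) (ψ g) := by
  refine RA_induction (A := A) (P := fun f => prodFun A b φ ψ (f * g) = b (φ f) (ψ g))
    ?_ ?_ ?_ ?_ hf
  · intro m hm
    refine RA_induction (A := B)
      (P := fun g => prodFun A b φ ψ (monomial m 1 * g) = b (φ (monomial m 1)) (ψ g))
      ?_ ?_ ?_ ?_ hg
    · intro m' hm'
      rw [monomial_mul, one_mul]
      have h0 := (basisMonomials V ℚ).constr_basis ℚ (fun m =>
        b (φ (monomial (m.filter (· ∈ A)) 1)) (ψ (monomial (m.filter (· ∉ A)) 1))) (m + m')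
      rw [coe_basisMonomials] at h0
      unfold prodFun
      rw [h0]
      have e1 : (m + m').filter (· ∈ A) = m := by
        ext v
        by_cases hv : v ∈ A
        · rw [Finsupp.filter_apply_pos _ _ hv, Finsupp.add_apply]
          have : m' v = 0 := by
            by_contra h
            exact Finset.disjoint_left.1 hAB hv (hm' (Finsupp.mem_support_iff.2 h))
          omega
        · rw [Finsupp.filter_apply_neg _ _ hv]
          by_contra h
          exact hv (hm (Finsupp.mem_support_iff.2 (Ne.symm h)))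
      have e2 : (m + m').filter (· ∉ A) = m' := by
        ext v
        by_cases hv : v ∈ A
        · rw [Finsupp.filter_apply_neg (· ∉ A) _ (not_not.2 hv)]
          by_contra h
          exact Finset.disjoint_left.1 hAB hv (hm' (Finsupp.mem_support_iff.2 (Ne.symm h)))
        · rw [Finsupp.filter_apply_pos (· ∉ A) _ hv, Finsupp.add_apply]
          have : m v = 0 := by
            by_contra h
            exact hv (hm (Finsupp.mem_support_iff.2 h))
          omega
      rw [e1, e2]
    · simp
    · intro g₁ g₂ h₁ h₂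
      simp only [mul_add, map_add, h₁, h₂]
    · intro r g₁ h₁
      simp only [mul_smul_comm, map_smul, h₁]
  · simp
  · intro g₁ g₂ h₁ h₂
    simp only [add_mul, map_add, h₁, h₂, LinearMap.add_apply]
  · intro r g₁ h₁
    simp only [smul_mul_assoc, map_smul, h₁, LinearMap.smul_apply]

end Crest.Agent.R059.Alt599
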