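import Crest.Agent.R059.AltApi_599

/-!
# Theorem A'' (independence part)
-/

set_option autoImplicit false

open MvPolynomial

namespace Crest.Agent.R059.Alt599

variable {V I : Type*} [Fintype V] [DecidableEq V] [DecidableEq I]

/-! ### weights -/

omit [Fintype V] [DecidableEq V] [DecidableEq I] in
theorem wt_map (θ : I → ℤ) {c : V → I} {w : Equiv.Perm V} (hw : ∀ v, c (w v) = c v)
    (A : Finset V) : wt θ c (A.map w.toEmbedding) = wt θ c A := by
  unfold wt
  rw [Finset.sum_map]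
  simp [hw]

omit [Fintype V] [DecidableEq I] in
theorem wt_sdiff_add (θ : I → ℤ) (c : V → I) {A B : Finset V} (h : B ⊆ A) :
    wt θ c (A \ B) + wt θ c B = wt θ c A := by
  unfold wt
  exact Finset.sum_sdiff h

omit [Fintype V] [DecidableEq I] in
theorem wt_exchange (θ : I → ℤ) (c : V → I) (A B : Finset V) :
    wt θ c B + wt θ c (A \ B) = wt θ c A + wt θ c (B \ A) := by
  unfold wt
  rw [add_comm (∑ a ∈ B, _), add_comm (∑ a ∈ A, _)]
  rw [← Finset.sum_union Finset.sdiff_disjoint, ← Finset.sum_union Finset.sdiff_disjoint]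
  congr 1
  rw [Finset.sdiff_union_self_eq_union, Finset.sdiff_union_self_eq_union, Finset.union_comm]

/-! ### the two sided ideal `NN A B = I^>_A H_B + H_A I^≤_B` -/

/-- the two sided ideal of the pair of blocks `(A, B)` -/
noncomputable def NN (k : I → I → ℕ) (c : V → I) (θ : I → ℤ) (A B : Finset V) :
    Submodule ℚ (MvPolynomial V ℚ) :=
  (⨆ A₂ ∈ A.powerset.filter (fun A₂ => A₂.Nonempty ∧ wt θ c A₂ ≤ 0),
    (⊤ : Submodule ℚ (MvPolynomial V ℚ)).map
      (((Alt c A).comp (Alt c B)).comp (LinearMap.mulLeft ℚ (K k c (A \ A₂) A₂)))) ⊔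
  (⨆ B₁ ∈ B.powerset.filter (fun B₁ => B₁.Nonempty ∧ 0 < wt θ c B₁),
    (⊤ : Submodule ℚ (MvPolynomial V ℚ)).map
      (((Alt c A).comp (Alt c B)).comp (LinearMap.mulLeft ℚ (K k c B₁ (B \ B₁)))))

theorem NN_left {k : I → I → ℕ} {c : V → I} {θ : I → ℤ} {A B A₂ : Finset V} (h : A₂ ⊆ A)
    (hne : A₂.Nonempty) (hwt : wt θ c A₂ ≤ 0) (r : MvPolynomial V ℚ) :
    Alt c A (Alt c B (K k c (A \ A₂) A₂ * r)) ∈ NN k c θ A B := by
  refine Submodule.mem_sup_left ?_
  refine Submodule.mem_iSup_of_mem A₂ (Submodule.mem_iSup_of_mem ?_ ⟨r, trivial, rfl⟩)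
  simp [h, hne, hwt]

theorem NN_right {k : I → I → ℕ} {c : V → I} {θ : I → ℤ} {A B B₁ : Finset V} (h : B₁ ⊆ B)
    (hne : B₁.Nonempty) (hwt : 0 < wt θ c B₁) (r : MvPolynomial V ℚ) :
    Alt c A (Alt c B (K k c B₁ (B \ B₁) * r)) ∈ NN k c θ A B := by
  refine Submodule.mem_sup_right ?_
  refine Submodule.mem_iSup_of_mem B₁ (Submodule.mem_iSup_of_mem ?_ ⟨r, trivial, rfl⟩)
  simp [h, hne, hwt]

theorem NN_le {k : I → I → ℕ} {c : V → I} {θ : I → ℤ} {A B : Finset V}
    {W : Submodule ℚ (MvPolynomial V ℚ)}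
    (h1 : ∀ A₂ ⊆ A, A₂.Nonempty → wt θ c A₂ ≤ 0 → ∀ r,
      Alt c A (Alt c B (K k c (A \ A₂) A₂ * r)) ∈ W)
    (h2 : ∀ B₁ ⊆ B, B₁.Nonempty → 0 < wt θ c B₁ → ∀ r,
      Alt c A (Alt c B (K k c B₁ (B \ B₁) * r)) ∈ W) : NN k c θ A B ≤ W := by
  refine sup_le (iSup₂_le fun A₂ h => ?_) (iSup₂_le fun B₁ h => ?_)
  · rw [Finset.mem_filter, Finset.mem_powerset] at h
    rintro _ ⟨r, _, rfl⟩
    exact h1 A₂ h.1 h.2.1 h.2.2 r
  · rw [Finset.mem_filter, Finset.mem_powerset] at h
    rintro _ ⟨r, _, rfl⟩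
    exact h2 B₁ h.1 h.2.1 h.2.2 r

/-- `s` is invariant under `G_A` and `G_B` -/
def Inv2 (c : V → I) (A B : Finset V) (s : MvPolynomial V ℚ) : Prop :=
  (∀ w ∈ G c A, rename w s = s) ∧ ∀ w ∈ G c B, rename w s = s

theorem NN_mul {k : I → I → ℕ} {c : V → I} {θ : I → ℤ} {A B : Finset V}
    {s : MvPolynomial V ℚ} (hs : Inv2 c A B s) {x : MvPolynomial V ℚ} (hx : x ∈ NN k c θ A B) :
    s * x ∈ NN k c θ A B := by
  have : NN k c θ A B ≤ (NN k c θ A B).comap (LinearMap.mulLeft ℚ s) := by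
    refine NN_le ?_ ?_
    · intro A₂ h hne hwt r
      rw [Submodule.mem_comap, LinearMap.mulLeft_apply, ← Alt_mul_left hs.1, ← Alt_mul_left hs.2,
        mul_left_comm]
      exact NN_left h hne hwt _
    · intro B₁ h hne hwt r
      rw [Submodule.mem_comap, LinearMap.mulLeft_apply, ← Alt_mul_left hs.1, ← Alt_mul_left hs.2,
        mul_left_comm]
      exact NN_right h hne hwt _
  exact this hx

/-! ### the shift -/

/-- shift of the variables of `B` by a parameter -/
noncomputable def sh (B : Finset V) : MvPolynomial V ℚ →ₐ[ℚ] Polynomial (MvPolynomial V ℚ) :=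
  aeval (fun v => Polynomial.C (X v) + if v ∈ B then Polynomial.X else 0)

theorem sh_X (B : Finset V) (v : V) :
    sh B (X v) = Polynomial.C (X v) + if v ∈ B then Polynomial.X else 0 := by
  simp [sh]

/-- the coefficients of the shift -/
noncomputable def shc (B : Finset V) (n : ℕ) : MvPolynomial V ℚ →ₗ[ℚ] MvPolynomial V ℚ :=
  ((Polynomial.lcoeff (MvPolynomial V ℚ) n).restrictScalars ℚ).comp (sh B).toLinearMap

theorem shc_apply (B : Finset V) (n : ℕ) (f : MvPolynomial V ℚ) :
    shc B n f = (sh B f).coeff n := rfl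

theorem sh_rename {B : Finset V} {w : Equiv.Perm V} (hw : ∀ v, w v ∈ B ↔ v ∈ B)
    (f : MvPolynomial V ℚ) :
    sh B (rename w f) = Polynomial.map (rename w : MvPolynomial V ℚ →ₐ[ℚ] _).toRingHom (sh B f) := by
  have : (sh B).comp (rename w) = (Polynomial.mapAlgHom (rename w)).comp (sh B) := by
    refine MvPolynomial.algHom_ext fun v => ?_
    rw [AlgHom.comp_apply, AlgHom.comp_apply, rename_X, sh_X, sh_X]
    by_cases h : v ∈ B
    · have h' := (hw v).2 h
      simp [h, h']
    · have h' : w v ∉ B := fun h'' => h ((hw v).1 h'')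
      simp [h, h']
  have := congrArg (fun F => F f) this
  simpa using this

theorem shc_rename {B : Finset V} {w : Equiv.Perm V} (hw : ∀ v, w v ∈ B ↔ v ∈ B) (n : ℕ)
    (f : MvPolynomial V ℚ) : shc B n (rename w f) = rename w (shc B n f) := by
  rw [shc_apply, sh_rename hw, Polynomial.coeff_map]
  rfl


omit [Fintype V] [DecidableEq I] in
theorem G_mem_iff {c : V → I} {A B : Finset V} {w : Equiv.Perm V} (hw : w ∈ G c A)
    (hAB : A ⊆ B ∨ Disjoint A B) (v : V) : w v ∈ B ↔ v ∈ B := by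
  have h : B.map w.toEmbedding = B := by
    rcases hAB with h | h
    · exact map_of_mem_G hw h
    · exact map_of_mem_G_disjoint hw h
  constructor
  · intro hv
    rw [← h] at hv
    obtain ⟨u, hu, huv⟩ := Finset.mem_map.1 hv
    have := w.injective huv
    rwa [this] at hu
  · intro hv
    rw [← h]
    exact Finset.mem_map.2 ⟨v, hv, rfl⟩

theorem shc_Alt {c : V → I} {A B : Finset V} (hAB : A ⊆ B ∨ Disjoint A B) (n : ℕ)
    (f : MvPolynomial V ℚ) : shc B n (Alt c A f) = Alt c A (shc B n f) := by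
  rw [Alt_apply, Alt_apply, map_sum]
  refine Finset.sum_congr rfl fun w _ => ?_
  rw [map_smul, shc_rename (G_mem_iff w.2 hAB)]

omit [DecidableEq I] in
theorem sh_K_same (k : I → I → ℕ) (c : V → I) {A₁ A₂ B : Finset V}
    (h : ∀ a ∈ A₁, ∀ b ∈ A₂, (a ∈ B ↔ b ∈ B)) :
    sh B (K k c A₁ A₂) = Polynomial.C (K k c A₁ A₂) := by
  unfold K
  rw [map_prod, map_prod]
  refine Finset.prod_congr rfl fun a ha => ?_
  rw [map_prod, map_prod]
  refine Finset.prod_congr rfl fun b hb => ?_
  rw [map_pow, map_pow, map_sub, map_sub, sh_X, sh_X]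
  congr 1
  by_cases hB : a ∈ B
  · have hb' := (h a ha b hb).1 hB
    simp [hB, hb']
  · have hb' : b ∉ B := fun h' => hB ((h a ha b hb).2 h')
    simp [hB, hb']

omit [DecidableEq I] in
theorem shc_K_mul (k : I → I → ℕ) (c : V → I) {A₁ A₂ B : Finset V}
    (h : ∀ a ∈ A₁, ∀ b ∈ A₂, (a ∈ B ↔ b ∈ B)) (n : ℕ) (f : MvPolynomial V ℚ) :
    shc B n (K k c A₁ A₂ * f) = K k c A₁ A₂ * shc B n f := by
  rw [shc_apply, map_mul, sh_K_same k c h, Polynomial.coeff_C_mul]
  rfl

theorem NN_shc {k : I → I → ℕ} {c : V → I} {θ : I → ℤ} {A B : Finset V} (hAB : Disjoint A B)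
    (n : ℕ) {x : MvPolynomial V ℚ} (hx : x ∈ NN k c θ A B) : shc B n x ∈ NN k c θ A B := by
  have : NN k c θ A B ≤ (NN k c θ A B).comap (shc B n) := by
    refine NN_le ?_ ?_
    · intro A₂ h hne hwt r
      rw [Submodule.mem_comap, shc_Alt (Or.inr hAB), shc_Alt (Or.inl (Finset.Subset.refl B)),
        shc_K_mul]
      · exact NN_left h hne hwt _
      · intro a ha b hb
        have ha' : a ∉ B := Finset.disjoint_left.1 hAB (Finset.mem_sdiff.1 ha).1
        have hb' : b ∉ B := Finset.disjoint_left.1 hAB (h hb)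
        simp [ha', hb']
    · intro B₁ h hne hwt r
      rw [Submodule.mem_comap, shc_Alt (Or.inr hAB), shc_Alt (Or.inl (Finset.Subset.refl B)),
        shc_K_mul]
      · exact NN_right h hne hwt _
      · intro a ha b hb
        simp [h ha, (Finset.mem_sdiff.1 hb).1]
  exact this hx

omit [DecidableEq I] in
theorem sh_K_monic (k : I → I → ℕ) (c : V → I) {A B : Finset V} (hAB : Disjoint A B) :
    (sh B (K k c A B)).Monic := by
  unfold K
  rw [map_prod]
  refine Polynomial.monic_prod_of_monic _ _ fun a ha => ?_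
  rw [map_prod]
  refine Polynomial.monic_prod_of_monic _ _ fun b hb => ?_
  rw [map_pow]
  refine Polynomial.Monic.pow ?_ _
  rw [map_sub, sh_X, sh_X, if_pos hb, if_neg (Finset.disjoint_left.1 hAB ha), add_zero]
  have : Polynomial.C (X b) + Polynomial.X - Polynomial.C (X a : MvPolynomial V ℚ)
      = Polynomial.X + Polynomial.C (X b - X a) := by
    rw [map_sub]; ring
  rw [this]
  exact Polynomial.monic_X_add_C _

theorem shc_inv {c : V → I} {A B : Finset V} (hAB : Disjoint A B) {s : MvPolynomial V ℚ}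
    (hs : Inv2 c A B s) (n : ℕ) : Inv2 c A B (shc B n s) := by
  refine ⟨fun w hw => ?_, fun w hw => ?_⟩
  · rw [← shc_rename (G_mem_iff hw (Or.inr hAB)), hs.1 w hw]
  · rw [← shc_rename (G_mem_iff hw (Or.inl (Finset.Subset.refl B))), hs.2 w hw]

omit [DecidableEq I] in
theorem shc_zero (B : Finset V) (f : MvPolynomial V ℚ) : shc B 0 f = f := by
  have : (Polynomial.aeval (R := MvPolynomial V ℚ) (0 : MvPolynomial V ℚ)).toRingHom.comp
      (sh B).toRingHom = RingHom.id _ := by
    refine MvPolynomial.ringHom_ext (fun r => ?_) (fun v => ?_)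
    · simp
    · change Polynomial.aeval (R := MvPolynomial V ℚ) (0 : MvPolynomial V ℚ) (sh B (X v)) = X v
      rw [sh_X]
      by_cases h : v ∈ B <;> simp [h]
  have := congrArg (fun F => F f) this
  rw [shc_apply, Polynomial.coeff_zero_eq_aeval_zero]
  exact this

/-- the kernel is a non zero divisor modulo `NN A B` -/
theorem NN_nzd {k : I → I → ℕ} {c : V → I} {θ : I → ℤ} {A B : Finset V} (hAB : Disjoint A B)
    {τ : MvPolynomial V ℚ} (h : K k c A B * τ ∈ NN k c θ A B) : τ ∈ NN k c θ A B := by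
  set s := K k c A B with hsdef
  have hinv : Inv2 c A B s := by
    refine ⟨fun w hw => ?_, fun w hw => ?_⟩
    · exact rename_K_self k hw (Or.inl (Finset.Subset.refl A)) (Or.inr hAB)
    · exact rename_K_self k hw (Or.inr hAB.symm) (Or.inl (Finset.Subset.refl B))
  have hmonic : (sh B s).Monic := sh_K_monic k c hAB
  set D := (sh B s).natDegree with hD
  set M := (sh B τ).natDegree with hM
  have key : ∀ m : ℕ, ∀ n : ℕ, M < n + m → shc B n τ ∈ NN k c θ A B := by
    intro m
    induction m with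
    | zero =>
      intro n hn
      rw [shc_apply, Polynomial.coeff_eq_zero_of_natDegree_lt (by omega)]
      exact zero_mem _
    | succ m ih =>
      intro n hn
      have h1 : shc B (D + n) (s * τ) ∈ NN k c θ A B := NN_shc hAB _ h
      rw [shc_apply, map_mul, Polynomial.coeff_mul] at h1
      have h2 : ∑ x ∈ Finset.HasAntidiagonal.antidiagonal (D + n), (sh B s).coeff x.1 * (sh B τ).coeff x.2
          = (sh B s).coeff D * (sh B τ).coeff n
            + ∑ x ∈ (Finset.HasAntidiagonal.antidiagonal (D + n)).erase (D, n),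
              (sh B s).coeff x.1 * (sh B τ).coeff x.2 := by
        exact (Finset.add_sum_erase (Finset.HasAntidiagonal.antidiagonal (D + n))
          (fun x : ℕ × ℕ => (sh B s).coeff x.1 * (sh B τ).coeff x.2) (a := (D, n))
          (Finset.HasAntidiagonal.mem_antidiagonal.2 rfl)).symm
      rw [h2, hmonic.coeff_natDegree, one_mul] at h1
      have h3 : ∑ x ∈ (Finset.HasAntidiagonal.antidiagonal (D + n)).erase (D, n),
              (sh B s).coeff x.1 * (sh B τ).coeff x.2 ∈ NN k c θ A B := by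
        refine Submodule.sum_mem _ fun x hx => ?_
        rw [Finset.mem_erase, Finset.HasAntidiagonal.mem_antidiagonal] at hx
        by_cases hx1 : D < x.1
        · rw [Polynomial.coeff_eq_zero_of_natDegree_lt hx1, zero_mul]
          exact zero_mem _
        · have hx2 : n < x.2 := by
            rcases Nat.lt_or_ge n x.2 with h' | h'
            · exact h'
            · exfalso
              apply hx.1
              have e1 : x.1 = D := by omega
              have e2 : x.2 = n := by omega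
              exact Prod.ext e1 e2
          exact NN_mul (shc_inv hAB hinv x.1) (ih x.2 (by omega))
      have := Submodule.sub_mem _ h1 h3
      rwa [add_sub_cancel_right] at this
  have := key (M + 1) 0 (by omega)
  rwa [shc_zero] at this


/-! ### the terms of a product restricted to the blocks -/

/-- a term `K(X, Xᶜ) r` with `X ≠ A` not below `A` dies -/
theorem term_mem {k : I → I → ℕ} {c : V → I} {θ : I → ℤ} {A X : Finset V} (hX : X ≠ A)
    (hmin : wt θ c A < wt θ c X ∨ (wt θ c A = wt θ c X ∧ X.card ≤ A.card))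
    (r : MvPolynomial V ℚ) :
    Alt c A (Alt c Aᶜ (K k c X Xᶜ * r)) ∈ NN k c θ A Aᶜ := by
  have hex := wt_exchange θ c A X
  -- wt X + wt (A \ X) = wt A + wt (X \ A)
  have hK1 : ∃ r', K k c X Xᶜ = K k c (A \ (A \ X)) (A \ X) * r' := by
    have e1 : X = (A \ (A \ X)) ∪ (X \ A) := by
      ext v; simp only [Finset.mem_union, Finset.mem_sdiff]; tauto
    have d1 : Disjoint (A \ (A \ X)) (X \ A) := by
      rw [Finset.disjoint_left]; intro v; simp only [Finset.mem_sdiff]; tauto
    have e2 : Xᶜ = (A \ X) ∪ (Aᶜ \ X) := by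
      ext v; simp only [Finset.mem_union, Finset.mem_sdiff, Finset.mem_compl]; tauto
    have d2 : Disjoint (A \ X) (Aᶜ \ X) := by
      rw [Finset.disjoint_left]; intro v; simp only [Finset.mem_sdiff, Finset.mem_compl]; tauto
    refine ⟨K k c (X \ A) (A \ X) * K k c X (Aᶜ \ X), ?_⟩
    rw [← mul_assoc, ← K_union_left k c d1, ← e1, ← K_union_right k c d2, ← e2]
  have hK2 : ∃ r', K k c X Xᶜ = K k c (X \ A) (Aᶜ \ (X \ A)) * r' := by
    have e1 : X = (X \ A) ∪ (X ∩ A) := by
      ext v; simp only [Finset.mem_union, Finset.mem_sdiff, Finset.mem_inter]; tauto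
    have d1 : Disjoint (X \ A) (X ∩ A) := by
      rw [Finset.disjoint_left]; intro v; simp only [Finset.mem_sdiff, Finset.mem_inter]; tauto
    have e2 : Xᶜ = (Aᶜ \ (X \ A)) ∪ (A \ X) := by
      ext v; simp only [Finset.mem_union, Finset.mem_sdiff, Finset.mem_compl]; tauto
    have d2 : Disjoint (Aᶜ \ (X \ A)) (A \ X) := by
      rw [Finset.disjoint_left]; intro v; simp only [Finset.mem_sdiff, Finset.mem_compl]; tauto
    refine ⟨K k c (X ∩ A) (Aᶜ \ (X \ A)) * K k c X (A \ X), ?_⟩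
    rw [← mul_assoc, ← K_union_left k c d1, ← e1, ← K_union_right k c d2, ← e2]
  by_cases h1 : (A \ X).Nonempty ∧ wt θ c (A \ X) ≤ 0
  · obtain ⟨r', hr'⟩ := hK1
    rw [hr', mul_assoc]
    exact NN_left Finset.sdiff_subset h1.1 h1.2 _
  by_cases h2 : (X \ A).Nonempty ∧ 0 < wt θ c (X \ A)
  · obtain ⟨r', hr'⟩ := hK2
    rw [hr', mul_assoc]
    refine NN_right ?_ h2.1 h2.2 _
    intro v hv
    rw [Finset.mem_compl]
    exact (Finset.mem_sdiff.1 hv).2
  exfalso
  have h1' : 0 ≤ wt θ c (A \ X) := by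
    rcases (A \ X).eq_empty_or_nonempty with h | h
    · rw [h]; simp [wt]
    · by_contra h'
      exact h1 ⟨h, by omega⟩
  have h2' : wt θ c (X \ A) ≤ 0 := by
    rcases (X \ A).eq_empty_or_nonempty with h | h
    · rw [h]; simp [wt]
    · by_contra h'
      exact h2 ⟨h, by omega⟩
  rcases hmin with h | ⟨h, hc⟩
  · omega
  · have h3 : wt θ c (A \ X) = 0 := by omega
    have h4 : A \ X = ∅ := by
      by_contra h'
      exact h1 ⟨Finset.nonempty_iff_ne_empty.2 h', by omega⟩
    have h5 : A ⊆ X := Finset.sdiff_eq_empty_iff_subset.1 h4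
    exact hX (Finset.eq_of_subset_of_card_le h5 hc).symm

/-- decomposition of a permutation preserving `A` -/
theorem exists_decomp {c : V → I} {A : Finset V} {w : Equiv.Perm V}
    (hw : ∀ v, c (w v) = c v) (hA : A.map w.toEmbedding = A) :
    ∃ w₁ ∈ G c A, ∃ w₂ ∈ G c Aᶜ, w = w₁ * w₂ := by
  have hmem : ∀ v, v ∈ A ↔ w v ∈ A := by
    intro v
    constructor
    · intro hv
      rw [← hA]
      exact Finset.mem_map.2 ⟨v, hv, rfl⟩
    · intro hv
      rw [← hA] at hv
      obtain ⟨u, hu, huv⟩ := Finset.mem_map.1 hv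
      have := w.injective huv
      rwa [this] at hu
  let w₁ : Equiv.Perm V := Equiv.Perm.ofSubtype (w.subtypePerm (p := (· ∈ A)) (fun v => (hmem v).symm))
  have h1 : ∀ v ∈ A, w₁ v = w v := by
    intro v hv
    exact Equiv.Perm.ofSubtype_apply_of_mem _ hv
  have h1' : ∀ v, v ∉ A → w₁ v = v := by
    intro v hv
    exact Equiv.Perm.ofSubtype_apply_of_not_mem _ hv
  have hw₁ : w₁ ∈ G c A := by
    refine ⟨fun v => ?_, h1'⟩
    by_cases hv : v ∈ A
    · rw [h1 v hv, hw]
    · rw [h1' v hv]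
  refine ⟨w₁, hw₁, w₁⁻¹ * w, ⟨fun v => ?_, fun v hv => ?_⟩, ?_⟩
  · rw [Equiv.Perm.mul_apply, (inv_mem hw₁).1, hw]
  · rw [Finset.mem_compl, not_not] at hv
    rw [Equiv.Perm.mul_apply, Equiv.Perm.inv_eq_iff_eq]
    exact (h1 v hv).symm
  · rw [mul_inv_cancel_left]

theorem Alt2_rename {c : V → I} {A : Finset V} {w : Equiv.Perm V}
    (hw : ∀ v, c (w v) = c v) (hA : A.map w.toEmbedding = A) (f : MvPolynomial V ℚ) :
    Alt c A (Alt c Aᶜ (rename w f)) = sg w • Alt c A (Alt c Aᶜ f) := by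
  obtain ⟨w₁, h₁, w₂, h₂, rfl⟩ := exists_decomp hw hA
  have : rename (⇑(w₁ * w₂)) f = rename w₁ (rename w₂ f) := by
    rw [rename_rename]; rfl
  rw [this, ← rename_Alt_comm disjoint_compl_right h₁, Alt_rename h₁, Alt_rename h₂, map_smul,
    smul_smul, sg_mul]


theorem map_compl (w : Equiv.Perm V) (X : Finset V) :
    Xᶜ.map w.toEmbedding = (X.map w.toEmbedding)ᶜ := by
  ext v
  simp only [Finset.mem_map, Finset.mem_compl, Equiv.coe_toEmbedding]
  constructor
  · rintro ⟨u, hu, rfl⟩ ⟨u', hu', h⟩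
    exact hu (w.injective h ▸ hu')
  · intro h
    refine ⟨w⁻¹ v, fun h' => h ⟨_, h', ?_⟩, ?_⟩ <;>
    · rw [← Equiv.Perm.mul_apply, mul_inv_cancel, Equiv.Perm.one_apply]

/-- Restricting a relation to the blocks `(A, Aᶜ)`, where `A` is minimal. -/
theorem key_rel {k : I → I → ℕ} {c : V → I} {θ : I → ℤ} {A : Finset V} {S : Finset (Finset V)}
    (hAS : A ∈ S) (τ : Finset V → MvPolynomial V ℚ)
    (hrep : ∀ X ∈ S, X ≠ A → ∀ w : Equiv.Perm V, (∀ v, c (w v) = c v) →
      X.map w.toEmbedding ≠ A)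
    (hmin : ∀ X ∈ S, τ X ≠ 0 →
      wt θ c A < wt θ c X ∨ (wt θ c A = wt θ c X ∧ X.card ≤ A.card))
    (hrel : ∑ X ∈ S, Alt c Finset.univ (K k c X Xᶜ * τ X) = 0)
    (hτ : Alt c A (Alt c Aᶜ (τ A)) = (nG c A * nG c Aᶜ) • τ A) :
    τ A ∈ NN k c θ A Aᶜ := by
  classical
  set L : MvPolynomial V ℚ →ₗ[ℚ] MvPolynomial V ℚ := (Alt c A).comp (Alt c Aᶜ) with hL
  have hLx : ∀ f, L f = Alt c A (Alt c Aᶜ f) := fun f => rfl
  -- a generic term
  have hterm : ∀ X ∈ S, ∀ w : G c (Finset.univ : Finset V),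
      X.map (w : Equiv.Perm V).toEmbedding ≠ A →
      sg (w : Equiv.Perm V) • L (rename (w : Equiv.Perm V) (K k c X Xᶜ * τ X))
        ∈ NN k c θ A Aᶜ := by
    intro X hX w hne
    refine Submodule.smul_mem _ _ ?_
    by_cases h0 : τ X = 0
    · rw [h0, mul_zero, map_zero, map_zero]
      exact zero_mem _
    rw [map_mul, rename_K k w.2.1, map_compl, hLx]
    refine term_mem hne ?_ _
    rw [wt_map θ w.2.1, Finset.card_map]
    exact hmin X hX h0
  have hAlt : ∀ X, L (Alt c Finset.univ (K k c X Xᶜ * τ X))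
      = ∑ w : G c (Finset.univ : Finset V),
        sg (w : Equiv.Perm V) • L (rename (w : Equiv.Perm V) (K k c X Xᶜ * τ X)) := by
    intro X
    rw [Alt_apply, map_sum]
    exact Finset.sum_congr rfl fun w _ => by rw [map_smul]
  have hrel2 : ∑ X ∈ S, L (Alt c Finset.univ (K k c X Xᶜ * τ X)) = 0 := by
    rw [← map_sum, hrel, map_zero]
  rw [← Finset.add_sum_erase _ _ hAS] at hrel2
  have hrest : ∑ X ∈ S.erase A, L (Alt c Finset.univ (K k c X Xᶜ * τ X)) ∈ NN k c θ A Aᶜ := by
    refine Submodule.sum_mem _ fun X hX => ?_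
    rw [Finset.mem_erase] at hX
    rw [hAlt]
    exact Submodule.sum_mem _ fun w _ => hterm X hX.2 w (hrep X hX.2 hX.1 w w.2.1)
  have hA : L (Alt c Finset.univ (K k c A Aᶜ * τ A)) ∈ NN k c θ A Aᶜ := by
    have := Submodule.neg_mem _ hrest
    rwa [← eq_neg_iff_add_eq_zero.2 hrel2] at this
  rw [hAlt] at hA
  set P : Finset (G c (Finset.univ : Finset V)) :=
    Finset.univ.filter (fun w => A.map (w : Equiv.Perm V).toEmbedding = A) with hP
  rw [← Finset.sum_filter_add_sum_filter_not Finset.univ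
    (fun w : G c (Finset.univ : Finset V) => A.map (w : Equiv.Perm V).toEmbedding = A)] at hA
  have hnot : ∑ w ∈ Finset.univ.filter (fun w : G c (Finset.univ : Finset V) =>
      ¬ A.map (w : Equiv.Perm V).toEmbedding = A),
      sg (w : Equiv.Perm V) • L (rename (w : Equiv.Perm V) (K k c A Aᶜ * τ A))
        ∈ NN k c θ A Aᶜ :=
    Submodule.sum_mem _ fun w hw => hterm A hAS w (Finset.mem_filter.1 hw).2
  have hyes := Submodule.sub_mem _ hA hnot
  rw [add_sub_cancel_right] at hyes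
  have hinvA : ∀ w ∈ G c A, rename w (K k c A Aᶜ) = K k c A Aᶜ := fun w hw =>
    rename_K_self k hw (Or.inl (Finset.Subset.refl A)) (Or.inr disjoint_compl_right)
  have hinvB : ∀ w ∈ G c Aᶜ, rename w (K k c A Aᶜ) = K k c A Aᶜ := fun w hw =>
    rename_K_self k hw (Or.inr disjoint_compl_left) (Or.inl (Finset.Subset.refl Aᶜ))
  have heach : ∀ w ∈ P, sg (w : Equiv.Perm V) •
      L (rename (w : Equiv.Perm V) (K k c A Aᶜ * τ A))
        = (nG c A * nG c Aᶜ) • (K k c A Aᶜ * τ A) := by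
    intro w hw
    rw [hLx, Alt2_rename w.2.1 (Finset.mem_filter.1 hw).2, smul_smul, sg_mul_self, one_smul,
      Alt_mul_left hinvB, Alt_mul_left hinvA, hτ, mul_smul_comm]
  rw [← hP, Finset.sum_congr rfl heach, Finset.sum_const, ← Nat.cast_smul_eq_nsmul ℚ,
    smul_smul] at hyes
  have hne : ((P.card : ℚ) * (nG c A * nG c Aᶜ)) ≠ 0 := by
    refine mul_ne_zero ?_ (mul_ne_zero (nG_ne_zero c A) (nG_ne_zero c Aᶜ))
    rw [Nat.cast_ne_zero]
    refine Finset.card_ne_zero_of_mem (a := (1 : G c (Finset.univ : Finset V))) ?_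
    rw [hP, Finset.mem_filter]
    exact ⟨Finset.mem_univ _, map_of_mem_G (c := c) (one_mem (G c A)) (Finset.Subset.refl A)⟩
  have := Submodule.smul_mem _ ((P.card : ℚ) * (nG c A * nG c Aᶜ))⁻¹ hyes
  rw [smul_smul, inv_mul_cancel₀ hne, one_smul] at this
  exact NN_nzd disjoint_compl_right this


/-! ### linear algebra -/

/-- `c` is independent modulo `W` -/
def IndMod {ι : Type*} (W : Submodule ℚ (MvPolynomial V ℚ)) (b : ι → MvPolynomial V ℚ) : Prop :=
  ∀ l : ι →₀ ℚ, Finsupp.linearCombination ℚ b l ∈ W → l = 0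

omit [Fintype V] [DecidableEq V] in
theorem IndMod.exists_dual {ι : Type*} {W : Submodule ℚ (MvPolynomial V ℚ)}
    {b : ι → MvPolynomial V ℚ} (h : IndMod W b) :
    ∃ φ : MvPolynomial V ℚ →ₗ[ℚ] (ι →₀ ℚ), (∀ x ∈ W, φ x = 0) ∧
      ∀ i, φ (b i) = Finsupp.single i 1 := by
  have hinj : LinearMap.ker (W.mkQ.comp (Finsupp.linearCombination ℚ b)) = ⊥ := by
    rw [LinearMap.ker_eq_bot']
    intro l hl
    refine h l ?_
    rwa [LinearMap.comp_apply, Submodule.mkQ_apply, Submodule.Quotient.mk_eq_zero] at hl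
  obtain ⟨g, hg⟩ := LinearMap.exists_leftInverse_of_injective _ hinj
  refine ⟨g.comp W.mkQ, fun x hx => ?_, fun i => ?_⟩
  · rw [LinearMap.comp_apply, Submodule.mkQ_apply, (Submodule.Quotient.mk_eq_zero _).2 hx,
      map_zero]
  · have := congrArg (fun F => F (Finsupp.single i 1)) hg
    simpa using this

theorem NN_le_mul (k : I → I → ℕ) (c : V → I) (θ : I → ℤ) (A : Finset V) :
    NN k c θ A Aᶜ ≤ Igt k c θ A * H c Aᶜ ⊔ H c A * Ile k c θ Aᶜ := by
  have hspan : ∀ r : MvPolynomial V ℚ, r ∈ RA A * RA Aᶜ := by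
    intro r
    rw [← RA_union, Finset.union_compl, RA_univ]
    trivial
  refine NN_le ?_ ?_
  · intro A₂ h hne hwt r
    refine Submodule.mem_sup_left ?_
    refine Submodule.mul_induction_on (hspan r) ?_ ?_
    · intro f hf g hg
      have hK : K k c (A \ A₂) A₂ ∈ RA A := K_mem_RA k c Finset.sdiff_subset h
      rw [← mul_assoc, Alt_Alt_mul disjoint_compl_right (mul_mem_RA hK hf) hg]
      refine Submodule.mul_mem_mul ?_ (Alt_mem_H hg)
      refine Submodule.mem_iSup_of_mem A₂ (Submodule.mem_iSup_of_mem ?_ ?_)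
      · simp [h, hne, hwt]
      · refine ⟨f, ?_, ?_⟩
        · rw [Finset.sdiff_union_of_subset h]; exact hf
        · rw [Finset.sdiff_union_of_subset h]; rfl
    · intro f g hf hg
      rw [mul_add, map_add, map_add]
      exact add_mem hf hg
  · intro B₁ h hne hwt r
    refine Submodule.mem_sup_right ?_
    refine Submodule.mul_induction_on (hspan r) ?_ ?_
    · intro f hf g hg
      have hK : K k c B₁ (Aᶜ \ B₁) ∈ RA Aᶜ := K_mem_RA k c h Finset.sdiff_subset
      rw [mul_left_comm, Alt_Alt_mul disjoint_compl_right hf (mul_mem_RA hK hg)]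
      refine Submodule.mul_mem_mul (Alt_mem_H hf) ?_
      refine Submodule.mem_iSup_of_mem B₁ (Submodule.mem_iSup_of_mem ?_ ?_)
      · simp [h, hne, hwt]
      · refine ⟨g, ?_, ?_⟩
        · rw [Finset.union_sdiff_of_subset h]; exact hg
        · rw [Finset.union_sdiff_of_subset h]; rfl
    · intro f g hf hg
      rw [mul_add, map_add, map_add]
      exact add_mem hf hg

theorem J_le_H (k : I → I → ℕ) (c : V → I) (A₁ A₂ : Finset V) :
    J k c A₁ A₂ ≤ H c (A₁ ∪ A₂) := by
  rintro _ ⟨r, hr, rfl⟩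
  exact Alt_mem_H (mul_mem_RA (K_mem_RA k c Finset.subset_union_left Finset.subset_union_right) hr)

theorem Igt_le_H (k : I → I → ℕ) (c : V → I) (θ : I → ℤ) (A : Finset V) :
    Igt k c θ A ≤ H c A := by
  refine iSup₂_le fun A₂ h => ?_
  rw [Finset.mem_filter, Finset.mem_powerset] at h
  have := J_le_H k c (A \ A₂) A₂
  rwa [Finset.sdiff_union_of_subset h.1] at this

theorem Ile_le_H (k : I → I → ℕ) (c : V → I) (θ : I → ℤ) (A : Finset V) :
    Ile k c θ A ≤ H c A := by
  refine iSup₂_le fun A₂ h => ?_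
  rw [Finset.mem_filter, Finset.mem_powerset] at h
  have := J_le_H k c A₂ (A \ A₂)
  rwa [Finset.union_sdiff_of_subset h.1] at this

/-- products of elements which are independent modulo the ideals are independent modulo `NN` -/
theorem indep_pair {k : I → I → ℕ} {c : V → I} {θ : I → ℤ} {A : Finset V} {ι κ : Type*}
    {b : ι → MvPolynomial V ℚ} {d : κ → MvPolynomial V ℚ}
    (hb : ∀ i, b i ∈ H c A) (hd : ∀ j, d j ∈ H c Aᶜ)
    (hbI : IndMod (Igt k c θ A) b) (hdI : IndMod (Ile k c θ Aᶜ) d)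
    {l : ι × κ →₀ ℚ}
    (hl : Finsupp.linearCombination ℚ (fun p : ι × κ => b p.1 * d p.2) l ∈ NN k c θ A Aᶜ) :
    l = 0 := by
  classical
  obtain ⟨φ, hφ, hφb⟩ := hbI.exists_dual
  obtain ⟨ψ, hψ, hψd⟩ := hdI.exists_dual
  ext ⟨i, j⟩
  let bil : ((ι →₀ ℚ)) →ₗ[ℚ] (κ →₀ ℚ) →ₗ[ℚ] ℚ :=
    LinearMap.mk₂ ℚ (fun x y => x i * y j) (by intros; simp [add_mul]) (by intros; simp [mul_assoc])
      (by intros; simp [mul_add]) (by intros; simp [mul_left_comm])
  have hbil : ∀ x y, bil x y = x i * y j := fun _ _ => rfl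
  set Φ := prodFun A bil φ ψ with hΦ
  have hmul : ∀ f ∈ RA A, ∀ g ∈ RA Aᶜ, Φ (f * g) = φ f i * ψ g j := by
    intro f hf g hg
    rw [hΦ, prodFun_mul disjoint_compl_right bil φ ψ hf hg, hbil]
  have hzero : ∀ x ∈ NN k c θ A Aᶜ, Φ x = 0 := by
    have hle : NN k c θ A Aᶜ ≤ LinearMap.ker Φ := by
      refine (NN_le_mul k c θ A).trans (sup_le ?_ ?_)
      · rw [Submodule.mul_le]
        intro f hf g hg
        rw [LinearMap.mem_ker, hmul f (H_le_RA c A (Igt_le_H k c θ A hf)) g (H_le_RA c _ hg),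
          hφ f hf]
        simp
      · rw [Submodule.mul_le]
        intro f hf g hg
        rw [LinearMap.mem_ker, hmul f (H_le_RA c A hf) g (H_le_RA c _ (Ile_le_H k c θ _ hg)),
          hψ g hg]
        simp
    exact fun x hx => hle hx
  have h1 := hzero _ hl
  rw [Finsupp.linearCombination_apply, Finsupp.sum, map_sum] at h1
  have h2 : ∀ p ∈ l.support, Φ (l p • (b p.1 * d p.2)) = if p = (i, j) then l (i, j) else 0 := by
    rintro ⟨i', j'⟩ _
    rw [map_smul, hmul _ (H_le_RA c A (hb i')) _ (H_le_RA c _ (hd j')), hφb, hψd, smul_eq_mul]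
    by_cases hi : i' = i
    · by_cases hj : j' = j
      · subst hi; subst hj; simp
      · rw [Finsupp.single_eq_of_ne (a' := j) (Ne.symm hj), if_neg (by simp [hj])]; simp
    · rw [Finsupp.single_eq_of_ne (a' := i) (Ne.symm hi), if_neg (by simp [hi])]; simp
  rw [Finset.sum_congr rfl h2, Finset.sum_ite_eq'] at h1
  rw [Finsupp.coe_zero, Pi.zero_apply]
  by_cases hmem : (i, j) ∈ l.support
  · rwa [if_pos hmem] at h1
  · exact Finsupp.notMem_support_iff.1 hmem


/-- **Independence**: the products of elements which are independent modulo the ideals, for pairwise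
non conjugate blocks, are linearly independent. -/
theorem indep_all {k : I → I → ℕ} {c : V → I} {θ : I → ℤ} {S : Finset (Finset V)}
    {ι κ : S → Type*}
    (hrep : ∀ X ∈ S, ∀ Y ∈ S, X ≠ Y → ∀ w : Equiv.Perm V, (∀ v, c (w v) = c v) →
      X.map w.toEmbedding ≠ Y)
    (b : ∀ A : S, ι A → MvPolynomial V ℚ) (d : ∀ A : S, κ A → MvPolynomial V ℚ)
    (hb : ∀ (A : S) (i : ι A), b A i ∈ H c (A : Finset V))
    (hd : ∀ (A : S) (j : κ A), d A j ∈ H c (A : Finset V)ᶜ)
    (hbI : ∀ A : S, IndMod (Igt k c θ A) (b A)) (hdI : ∀ A : S, IndMod (Ile k c θ (A : Finset V)ᶜ) (d A)) :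
    LinearIndependent ℚ (fun p : Σ A : S, ι A × κ A =>
      Alt c Finset.univ (K k c (p.1 : Finset V) (p.1 : Finset V)ᶜ * (b p.1 p.2.1 * d p.1 p.2.2))) := by
  classical
  rw [linearIndependent_iff]
  intro l hl
  by_contra hne
  let lc : ∀ A : S, MvPolynomial V ℚ := fun A =>
    Finsupp.linearCombination ℚ (fun p : ι A × κ A => b A p.1 * d A p.2) (l.split A)
  let τ : Finset V → MvPolynomial V ℚ := fun X => if h : X ∈ S then lc ⟨X, h⟩ else 0
  have hτ : ∀ A : S, τ A = lc A := fun A => by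
    simp only [τ]
    rw [dif_pos A.2]
  -- the nonempty set of indices with a nonzero part
  have hS' : (Finset.univ.filter (fun A : S => l.split A ≠ 0)).Nonempty := by
    by_contra h
    rw [Finset.not_nonempty_iff_eq_empty, Finset.filter_eq_empty_iff] at h
    apply hne
    ext ⟨A, x⟩
    have h1 := h (Finset.mem_univ A)
    rw [not_not] at h1
    have h2 : l.split A x = 0 := by rw [h1]; rfl
    simpa [Finsupp.split_apply] using h2
  obtain ⟨A, hA, hAmin⟩ := Finset.exists_min_image _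
    (fun A : S => toLex (wt θ c (A : Finset V), -((A : Finset V).card : ℤ))) hS'
  rw [Finset.mem_filter] at hA
  have hlcmem : ∀ A : S, lc A ∈ H c (A : Finset V) * H c (A : Finset V)ᶜ := by
    intro A
    simp only [lc]
    rw [Finsupp.linearCombination_apply]
    exact Submodule.sum_mem _ fun p _ => Submodule.smul_mem _ _
      (Submodule.mul_mem_mul (hb A p.1) (hd A p.2))
  have hAlt : ∀ x ∈ H c (A : Finset V) * H c (A : Finset V)ᶜ,
      Alt c A (Alt c (A : Finset V)ᶜ x) = (nG c A * nG c (A : Finset V)ᶜ) • x := by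
    intro x hx
    refine Submodule.mul_induction_on hx ?_ ?_
    · intro f hf g hg
      rw [Alt_Alt_mul disjoint_compl_right (H_le_RA c _ hf) (H_le_RA c _ hg), Alt_of_mem_H hf,
        Alt_of_mem_H hg, smul_mul_smul_comm]
    · intro f g hf hg
      rw [map_add, map_add, hf, hg, smul_add]
  have hkey : τ A ∈ NN k c θ (A : Finset V) (A : Finset V)ᶜ := by
    refine key_rel (S := S) A.2 τ ?_ ?_ ?_ ?_
    · intro X hX hXA w hw
      exact hrep X hX A A.2 hXA w hw
    · intro X hX h0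
      have h1 : l.split ⟨X, hX⟩ ≠ 0 := by
        intro h1
        apply h0
        rw [hτ ⟨X, hX⟩]
        simp only [lc]
        rw [h1, map_zero]
      have h2 := hAmin ⟨X, hX⟩ (Finset.mem_filter.2 ⟨Finset.mem_univ _, h1⟩)
      rw [Prod.Lex.le_iff] at h2
      simp only [ofLex_toLex] at h2
      rcases h2 with h2 | ⟨h2, h3⟩
      · exact Or.inl h2
      · refine Or.inr ⟨h2, ?_⟩
        have : ((X.card : ℕ) : ℤ) ≤ (A : Finset V).card := by linarith
        exact_mod_cast this
    · rw [← hl, Finsupp.linearCombination_apply, Finsupp.sigma_sum]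
      rw [← Finset.sum_coe_sort S]
      rw [← Finset.sum_subset (Finset.subset_univ (Finsupp.splitSupport l))]
      · refine Finset.sum_congr rfl fun X _ => ?_
        rw [hτ]
        simp only [lc]
        rw [Finsupp.linearCombination_apply, Finsupp.sum, Finset.mul_sum, map_sum, Finsupp.sum]
        refine Finset.sum_congr rfl fun p _ => ?_
        rw [mul_smul_comm, map_smul]
      · intro X _ hX
        rw [hτ]
        have : l.split X = 0 := by
          by_contra h
          exact hX ((Finsupp.mem_splitSupport_iff_nonzero l X).2 h)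
        simp only [lc]
        rw [this, map_zero, mul_zero, map_zero]
    · rw [hτ]
      exact hAlt _ (hlcmem A)
  rw [hτ] at hkey
  exact hA.2 (indep_pair (hb A) (hd A) (hbI A) (hdI A) hkey)

end Crest.Agent.R059.Alt599
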