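import Crest.Agent.R059.AltInd_599

/-!
# Theorem A'' (spanning part)
-/

set_option autoImplicit false

open MvPolynomial

namespace Crest.Agent.R059.Alt599

variable {V I : Type*} [Fintype V] [DecidableEq V] [DecidableEq I]

/-- moving the `I^>` part to an earlier product -/
theorem move_left {k : I → I → ℕ} {c : V → I} {θ : I → ℤ} {A : Finset V}
    {U : Submodule ℚ (MvPolynomial V ℚ)}
    (hU : ∀ A₂ ⊆ A, A₂.Nonempty → wt θ c A₂ ≤ 0 → ∀ r,
      Alt c Finset.univ (K k c (A \ A₂) (A \ A₂)ᶜ * r) ∈ U)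
    {x y : MvPolynomial V ℚ} (hx : x ∈ Igt k c θ A) (hy : y ∈ RA Aᶜ) :
    Alt c Finset.univ (K k c A Aᶜ * (x * y)) ∈ U := by
  have hle : Igt k c θ A ≤ U.comap ((Alt c Finset.univ).comp
      ((LinearMap.mulLeft ℚ (K k c A Aᶜ)).comp (LinearMap.mulRight ℚ y))) := by
    refine iSup₂_le fun A₂ h => ?_
    rw [Finset.mem_filter, Finset.mem_powerset] at h
    rintro _ ⟨r, _, rfl⟩
    rw [Submodule.mem_comap]
    simp only [LinearMap.comp_apply, LinearMap.mulLeft_apply, LinearMap.mulRight_apply]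
    rw [Finset.sdiff_union_of_subset h.1]
    have hinvK : ∀ w ∈ G c A, rename w (K k c A Aᶜ) = K k c A Aᶜ := fun w hw =>
      rename_K_self k hw (Or.inl (Finset.Subset.refl A)) (Or.inr disjoint_compl_right)
    have hinvy : ∀ w ∈ G c A, rename w y = y := fun w hw =>
      rename_eq_self_of_disjoint disjoint_compl_right hw hy
    rw [mul_comm (Alt c A _) y, ← Alt_mul_left hinvy, ← Alt_mul_left hinvK,
      Alt_Alt_of_subset (Finset.subset_univ A)]
    refine Submodule.smul_mem _ _ ?_
    have e1 : K k c A Aᶜ * (y * (K k c (A \ A₂) A₂ * r))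
        = K k c (A \ A₂) (A \ A₂)ᶜ * (K k c A₂ Aᶜ * (y * r)) := by
      have h1 : K k c A Aᶜ = K k c (A \ A₂) Aᶜ * K k c A₂ Aᶜ := by
        rw [← K_union_left k c Finset.sdiff_disjoint, Finset.sdiff_union_of_subset h.1]
      have h2 : K k c (A \ A₂) (A \ A₂)ᶜ = K k c (A \ A₂) Aᶜ * K k c (A \ A₂) A₂ := by
        rw [← K_union_right]
        · congr 1
          ext v
          simp only [Finset.mem_compl, Finset.mem_sdiff, Finset.mem_union]
          have := @h.1 v
          tauto
        · rw [Finset.disjoint_left]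
          intro v hv hv'
          exact (Finset.mem_compl.1 hv) (h.1 hv')
      rw [h1, h2]
      ring
    rw [e1]
    exact hU A₂ h.1 h.2.1 h.2.2 _
  exact hle hx

/-- moving the `I^≤` part to an earlier product -/
theorem move_right {k : I → I → ℕ} {c : V → I} {θ : I → ℤ} {A : Finset V}
    {U : Submodule ℚ (MvPolynomial V ℚ)}
    (hU : ∀ B₁ ⊆ Aᶜ, B₁.Nonempty → 0 < wt θ c B₁ → ∀ r,
      Alt c Finset.univ (K k c (A ∪ B₁) (A ∪ B₁)ᶜ * r) ∈ U)
    {x y : MvPolynomial V ℚ} (hx : x ∈ RA A) (hy : y ∈ Ile k c θ Aᶜ) :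
    Alt c Finset.univ (K k c A Aᶜ * (x * y)) ∈ U := by
  have hle : Ile k c θ Aᶜ ≤ U.comap ((Alt c Finset.univ).comp
      ((LinearMap.mulLeft ℚ (K k c A Aᶜ)).comp (LinearMap.mulLeft ℚ x))) := by
    refine iSup₂_le fun B₁ h => ?_
    rw [Finset.mem_filter, Finset.mem_powerset] at h
    rintro _ ⟨r, _, rfl⟩
    rw [Submodule.mem_comap]
    simp only [LinearMap.comp_apply, LinearMap.mulLeft_apply]
    rw [Finset.union_sdiff_of_subset h.1]
    have hinvK : ∀ w ∈ G c Aᶜ, rename w (K k c A Aᶜ) = K k c A Aᶜ := fun w hw =>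
      rename_K_self k hw (Or.inr disjoint_compl_left) (Or.inl (Finset.Subset.refl Aᶜ))
    have hinvx : ∀ w ∈ G c Aᶜ, rename w x = x := fun w hw =>
      rename_eq_self_of_disjoint disjoint_compl_left hw hx
    rw [← Alt_mul_left hinvx, ← Alt_mul_left hinvK,
      Alt_Alt_of_subset (Finset.subset_univ Aᶜ)]
    refine Submodule.smul_mem _ _ ?_
    have hd : Disjoint A B₁ := by
      rw [Finset.disjoint_left]
      intro v hv hv'
      exact (Finset.mem_compl.1 (h.1 hv')) hv
    have e0 : (A ∪ B₁)ᶜ = Aᶜ \ B₁ := by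
      ext v
      simp only [Finset.mem_compl, Finset.mem_sdiff, Finset.mem_union]
      tauto
    have e1 : K k c A Aᶜ * (x * (K k c B₁ (Aᶜ \ B₁) * r))
        = K k c (A ∪ B₁) (A ∪ B₁)ᶜ * (K k c A B₁ * (x * r)) := by
      have h1 : K k c A Aᶜ = K k c A B₁ * K k c A (Aᶜ \ B₁) := by
        rw [← K_union_right k c Finset.disjoint_sdiff, Finset.union_sdiff_of_subset h.1]
      rw [e0, K_union_left k c hd, h1]
      ring
    rw [e1]
    exact hU B₁ h.1 h.2.1 h.2.2 _
  exact hle hy

/-- **Spanning** -/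
theorem span_all {k : I → I → ℕ} {c : V → I} {θ : I → ℤ} {S : Finset (Finset V)}
    {ι κ : S → Type*}
    (hrep : ∀ X : Finset V, ∃ A ∈ S, ∃ w : Equiv.Perm V, (∀ v, c (w v) = c v) ∧
      A.map w.toEmbedding = X)
    (b : ∀ A : S, ι A → MvPolynomial V ℚ) (d : ∀ A : S, κ A → MvPolynomial V ℚ)
    (hbs : ∀ A : S, H c (A : Finset V) ≤ Submodule.span ℚ (Set.range (b A)) ⊔ Igt k c θ A)
    (hds : ∀ A : S, H c (A : Finset V)ᶜ ≤
      Submodule.span ℚ (Set.range (d A)) ⊔ Ile k c θ (A : Finset V)ᶜ) :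
    H c Finset.univ ≤ Submodule.span ℚ (Set.range (fun p : Σ A : S, ι A × κ A =>
      Alt c Finset.univ (K k c (p.1 : Finset V) (p.1 : Finset V)ᶜ *
        (b p.1 p.2.1 * d p.1 p.2.2)))) := by
  set U := Submodule.span ℚ (Set.range (fun p : Σ A : S, ι A × κ A =>
      Alt c Finset.univ (K k c (p.1 : Finset V) (p.1 : Finset V)ᶜ *
        (b p.1 p.2.1 * d p.1 p.2.2)))) with hUdef
  -- a bound for the weights
  obtain ⟨M, hM⟩ : ∃ M : ℤ, ∀ X : Finset V, wt θ c X ≤ M := by
    obtain ⟨M, hM⟩ := (Set.finite_range (fun X : Finset V => wt θ c X)).bddAbove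
    exact ⟨M, fun X => hM ⟨X, rfl⟩⟩
  let m : Finset V → ℕ := fun X => (M - wt θ c X).toNat * (Fintype.card V + 1) + X.card
  have main : ∀ n : ℕ, ∀ X : Finset V, m X < n → ∀ r,
      Alt c Finset.univ (K k c X Xᶜ * r) ∈ U := by
    intro n
    induction n with
    | zero => intro X hX; omega
    | succ n ih =>
      intro X hX r
      obtain ⟨A, hAS, w, hw, rfl⟩ := hrep X
      have hmA : m A < n + 1 := by
        simp only [m] at hX ⊢
        rwa [wt_map θ hw, Finset.card_map] at hX
      -- reduction to the representative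
      have hwG : w ∈ G c (Finset.univ : Finset V) := ⟨hw, fun v hv => absurd (Finset.mem_univ v) hv⟩
      have e1 : K k c (A.map w.toEmbedding) (A.map w.toEmbedding)ᶜ * r
          = rename w (K k c A Aᶜ * rename (⇑w⁻¹) r) := by
        rw [map_mul, rename_K k hw, map_compl, rename_rename]
        have : (⇑w ∘ ⇑w⁻¹) = id := by
          funext v
          rw [Function.comp_apply, ← Equiv.Perm.mul_apply, mul_inv_cancel]
          rfl
        rw [this, rename_id_apply]
      rw [e1, Alt_rename hwG]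
      refine Submodule.smul_mem _ _ ?_
      generalize rename (⇑w⁻¹) r = r'
      -- the two moves
      have hL : ∀ A₂ ⊆ A, A₂.Nonempty → wt θ c A₂ ≤ 0 → ∀ r,
          Alt c Finset.univ (K k c (A \ A₂) (A \ A₂)ᶜ * r) ∈ U := by
        intro A₂ h hne hwt r
        refine ih _ ?_ r
        have h1 := wt_sdiff_add θ c h
        have h2 := Finset.card_sdiff_add_card_eq_card h
        have h3 := hne.card_pos
        simp only [m] at hmA ⊢
        have h4 : (M - wt θ c (A \ A₂)).toNat ≤ (M - wt θ c A).toNat := by omega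
        have h5 := Nat.mul_le_mul_right (Fintype.card V + 1) h4
        omega
      have hR : ∀ B₁ ⊆ Aᶜ, B₁.Nonempty → 0 < wt θ c B₁ → ∀ r,
          Alt c Finset.univ (K k c (A ∪ B₁) (A ∪ B₁)ᶜ * r) ∈ U := by
        intro B₁ h hne hwt r
        refine ih _ ?_ r
        have hd : Disjoint A B₁ := by
          rw [Finset.disjoint_left]
          intro v hv hv'
          exact (Finset.mem_compl.1 (h hv')) hv
        have h1 : wt θ c (A ∪ B₁) = wt θ c A + wt θ c B₁ := by
          unfold wt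
          exact Finset.sum_union hd
        have h2 : (A ∪ B₁).card ≤ Fintype.card V := Finset.card_le_univ _
        have h3 := hM (A ∪ B₁)
        simp only [m] at hmA ⊢
        have h4 : (M - wt θ c (A ∪ B₁)).toNat + 1 ≤ (M - wt θ c A).toNat := by omega
        have h5 := Nat.mul_le_mul_right (Fintype.card V + 1) h4
        rw [add_mul, one_mul] at h5
        omega
      -- elements of `H A`, `H Aᶜ`
      have hxy : ∀ x ∈ H c A, ∀ y ∈ H c Aᶜ, Alt c Finset.univ (K k c A Aᶜ * (x * y)) ∈ U := by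
        intro x hx y hy
        obtain ⟨x₁, hx₁, x₂, hx₂, rfl⟩ := Submodule.mem_sup.1 (hbs ⟨A, hAS⟩ hx)
        have hx₁R : x₁ ∈ RA A := by
          have h1 := H_le_RA c A hx
          have h2 := H_le_RA c A (Igt_le_H k c θ A hx₂)
          have := Submodule.sub_mem _ h1 h2
          rwa [add_sub_cancel_right] at this
        have hyR := H_le_RA c Aᶜ hy
        obtain ⟨y₁, hy₁, y₂, hy₂, rfl⟩ := Submodule.mem_sup.1 (hds ⟨A, hAS⟩ hy)
        have e2 : K k c A Aᶜ * ((x₁ + x₂) * (y₁ + y₂))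
            = K k c A Aᶜ * (x₁ * y₁) + (K k c A Aᶜ * (x₁ * y₂)
              + K k c A Aᶜ * (x₂ * (y₁ + y₂))) := by ring
        rw [e2, map_add, map_add]
        refine add_mem ?_ (add_mem (move_right hR hx₁R hy₂) (move_left hL hx₂ hyR))
        have hle : Submodule.span ℚ (Set.range (b ⟨A, hAS⟩)) ≤
            U.comap ((Alt c Finset.univ).comp
              ((LinearMap.mulLeft ℚ (K k c A Aᶜ)).comp (LinearMap.mulRight ℚ y₁))) := by
          rw [Submodule.span_le]
          rintro _ ⟨i, rfl⟩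
          have hle2 : Submodule.span ℚ (Set.range (d ⟨A, hAS⟩)) ≤
              U.comap ((Alt c Finset.univ).comp
                ((LinearMap.mulLeft ℚ (K k c A Aᶜ)).comp
                  (LinearMap.mulLeft ℚ (b ⟨A, hAS⟩ i)))) := by
            rw [Submodule.span_le]
            rintro _ ⟨j, rfl⟩
            exact Submodule.subset_span ⟨⟨⟨A, hAS⟩, (i, j)⟩, rfl⟩
          exact hle2 hy₁
        exact hle hx₁
      -- general elements
      have hr' : r' ∈ RA A * RA Aᶜ := by
        rw [← RA_union, Finset.union_compl, RA_univ]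
        trivial
      refine Submodule.mul_induction_on hr' ?_ ?_
      · intro f hf g hg
        have hinvA : ∀ w ∈ G c A, rename w (K k c A Aᶜ) = K k c A Aᶜ := fun w hw =>
          rename_K_self k hw (Or.inl (Finset.Subset.refl A)) (Or.inr disjoint_compl_right)
        have hinvB : ∀ w ∈ G c Aᶜ, rename w (K k c A Aᶜ) = K k c A Aᶜ := fun w hw =>
          rename_K_self k hw (Or.inr disjoint_compl_left) (Or.inl (Finset.Subset.refl Aᶜ))
        have h1 := hxy _ (Alt_mem_H (c := c) hf) _ (Alt_mem_H (c := c) hg)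
        rw [← Alt_Alt_mul disjoint_compl_right hf hg, ← Alt_mul_left hinvA, ← Alt_mul_left hinvB,
          Alt_Alt_of_subset (Finset.subset_univ A), Alt_Alt_of_subset (Finset.subset_univ Aᶜ),
          smul_smul] at h1
        have h2 := Submodule.smul_mem _ (nG c A * nG c Aᶜ)⁻¹ h1
        rwa [smul_smul, inv_mul_cancel₀ (mul_ne_zero (nG_ne_zero c A) (nG_ne_zero c Aᶜ)),
          one_smul] at h2
      · intro f g hf hg
        rw [mul_add, map_add]
        exact add_mem hf hg
  rintro _ ⟨r, _, rfl⟩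
  have h1 := main (m ∅ + 1) ∅ (Nat.lt_succ_self _) r
  have h2 : K k c ∅ (∅ : Finset V)ᶜ = 1 := by simp [K]
  rwa [h2, one_mul] at h1

end Crest.Agent.R059.Alt599
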