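import Crest.Agent.R059.AltGr_599

/-!
# Transport between particle sets
-/

set_option autoImplicit false

open MvPolynomial

namespace Crest.Agent.R059.Alt599

variable {V V' I : Type*} [Fintype V] [DecidableEq V] [Fintype V'] [DecidableEq V']
  [DecidableEq I]

section transport

variable (e : V' ↪ V) {c : V → I} {c' : V' → I} (he : ∀ v, c (e v) = c' v)

omit [Fintype V] [Fintype V'] [DecidableEq I] in
theorem map_RA (A : Finset V') :
    (RA A).map (rename e : MvPolynomial V' ℚ →ₐ[ℚ] _).toLinearMap = RA (A.map e) := by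
  ext f
  constructor
  · rintro ⟨g, hg, rfl⟩
    have hg' : g ∈ RA A := hg
    change rename e g ∈ RA (A.map e)
    rw [mem_RA] at *
    intro v hv
    obtain ⟨u, hu, rfl⟩ := Finset.mem_image.1 (vars_rename e g hv)
    simp only [Finset.coe_map, Set.mem_image, Finset.mem_coe]
    exact ⟨u, hg' hu, rfl⟩
  · intro hf
    rw [mem_RA', supported_eq_range_rename] at hf
    obtain ⟨g, rfl⟩ := hf
    have hu : ∀ x : ((A.map e : Finset V) : Set V), ∃ u ∈ A, e u = x := by
      rintro ⟨x, hx⟩
      rw [Finset.mem_coe, Finset.mem_map] at hx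
      exact hx
    choose u hu1 hu2 using hu
    refine ⟨rename u g, ?_, ?_⟩
    · change rename u g ∈ RA A
      rw [mem_RA]
      intro v hv
      obtain ⟨x, _, rfl⟩ := Finset.mem_image.1 (vars_rename u g hv)
      exact_mod_cast hu1 x
    · change rename e (rename u g) = rename _ g
      rw [rename_rename]
      have : (⇑e ∘ u) = Subtype.val := by
        funext x
        exact hu2 x
      rw [this]

include he in
theorem via_mem_G {A : Finset V'} {w : Equiv.Perm V'} (hw : w ∈ G c' A) :
    w.viaFintypeEmbedding e ∈ G c (A.map e) := by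
  refine ⟨fun v => ?_, fun v hv => ?_⟩
  · by_cases h : v ∈ Set.range e
    · obtain ⟨u, rfl⟩ := h
      rw [Equiv.Perm.viaFintypeEmbedding_apply_image, he, he, hw.1]
    · rw [Equiv.Perm.viaFintypeEmbedding_apply_notMem_range _ _ h]
  · by_cases h : v ∈ Set.range e
    · obtain ⟨u, rfl⟩ := h
      rw [Equiv.Perm.viaFintypeEmbedding_apply_image, hw.2]
      intro hu
      exact hv (Finset.mem_map.2 ⟨u, hu, rfl⟩)
    · rw [Equiv.Perm.viaFintypeEmbedding_apply_notMem_range _ _ h]

include he in
theorem via_surj {A : Finset V'} {w : Equiv.Perm V} (hw : w ∈ G c (A.map e)) :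
    ∃ w' ∈ G c' A, w'.viaFintypeEmbedding e = w := by
  have hr : ∀ v, v ∈ Set.range e ↔ w v ∈ Set.range e := by
    intro v
    by_cases h : v ∈ A.map e
    · have h1 := G_maps hw h
      rw [Finset.mem_map] at h h1
      obtain ⟨u, _, rfl⟩ := h
      obtain ⟨u', _, hu'⟩ := h1
      exact ⟨fun _ => ⟨u', hu'⟩, fun _ => ⟨u, rfl⟩⟩
    · rw [hw.2 v h]
  let w' : Equiv.Perm V' := (e.toEquivRange.trans
    (w.subtypePerm (p := (· ∈ Set.range e)) (fun v => (hr v).symm))).trans e.toEquivRange.symm
  have hw' : ∀ v, e (w' v) = w (e v) := by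
    intro v
    have h1 : e.toEquivRange (w' v) = (w.subtypePerm (p := (· ∈ Set.range e))
        (fun v => (hr v).symm)) (e.toEquivRange v) := by
      simp [w']
    have h2 := congrArg Subtype.val h1
    simpa using h2
  refine ⟨w', ⟨fun v => ?_, fun v hv => ?_⟩, ?_⟩
  · rw [← he, hw', hw.1, he]
  · apply e.injective
    rw [hw']
    refine hw.2 _ fun h => ?_
    obtain ⟨u, hu, huv⟩ := Finset.mem_map.1 h
    exact hv (e.injective huv ▸ hu)
  · ext v
    by_cases h : v ∈ Set.range e
    · obtain ⟨u, rfl⟩ := h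
      rw [Equiv.Perm.viaFintypeEmbedding_apply_image, hw']
    · rw [Equiv.Perm.viaFintypeEmbedding_apply_notMem_range _ _ h]
      refine (hw.2 v fun h' => h ?_).symm
      obtain ⟨u, _, huv⟩ := Finset.mem_map.1 h'
      exact ⟨u, huv⟩

include he in
theorem rename_Alt_emb (A : Finset V') (f : MvPolynomial V' ℚ) :
    rename e (Alt c' A f) = Alt c (A.map e) (rename e f) := by
  rw [Alt_apply, Alt_apply, map_sum]
  refine Fintype.sum_bijective
    (fun w : G c' A => (⟨_, via_mem_G e he w.2⟩ : G c (A.map e))) ⟨?_, ?_⟩ _ _ ?_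
  · intro w₁ w₂ h
    have h1 := congrArg Subtype.val h
    simp only at h1
    apply Subtype.ext
    ext v
    apply e.injective
    have h2 := congrArg (fun w : Equiv.Perm V => w (e v)) h1
    simpa [Equiv.Perm.viaFintypeEmbedding_apply_image] using h2
  · rintro ⟨w, hw⟩
    obtain ⟨w', hw', h⟩ := via_surj e he hw
    exact ⟨⟨w', hw'⟩, Subtype.ext h⟩
  · intro w
    have h1 : sg ((w : Equiv.Perm V').viaFintypeEmbedding e) = sg (w : Equiv.Perm V') := by
      unfold sg
      rw [Equiv.Perm.viaFintypeEmbedding_sign]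
    rw [map_smul, rename_rename, rename_rename, h1]
    have h2 : (⇑e ∘ ⇑(w : Equiv.Perm V')) =
        (⇑((w : Equiv.Perm V').viaFintypeEmbedding e) ∘ ⇑e) := by
      funext v
      rw [Function.comp_apply, Function.comp_apply, Equiv.Perm.viaFintypeEmbedding_apply_image]
    rw [h2]

include he in
omit [Fintype V] [Fintype V'] [DecidableEq V] [DecidableEq V'] [DecidableEq I] in
theorem rename_K_emb (k : I → I → ℕ) (A B : Finset V') :
    rename e (K k c' A B) = K k c (A.map e) (B.map e) := by
  unfold K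
  rw [map_prod, Finset.prod_map]
  refine Finset.prod_congr rfl fun a _ => ?_
  rw [map_prod, Finset.prod_map]
  refine Finset.prod_congr rfl fun b _ => ?_
  rw [map_pow, map_sub, rename_X, rename_X, he, he]

include he in
theorem map_H (A : Finset V') :
    (H c' A).map (rename e : MvPolynomial V' ℚ →ₐ[ℚ] _).toLinearMap = H c (A.map e) := by
  unfold H
  rw [← map_RA, ← Submodule.map_comp, ← Submodule.map_comp]
  congr 1
  refine LinearMap.ext fun f => ?_
  exact rename_Alt_emb e he A f

include he in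
theorem map_J (k : I → I → ℕ) (A₁ A₂ : Finset V') :
    (J k c' A₁ A₂).map (rename e : MvPolynomial V' ℚ →ₐ[ℚ] _).toLinearMap
      = J k c (A₁.map e) (A₂.map e) := by
  unfold J
  rw [← Finset.map_union, ← map_RA, ← Submodule.map_comp, ← Submodule.map_comp]
  congr 1
  refine LinearMap.ext fun f => ?_
  simp only [LinearMap.comp_apply, LinearMap.mulLeft_apply, AlgHom.toLinearMap_apply]
  rw [rename_Alt_emb e he, map_mul, rename_K_emb e he]

omit [Fintype V] [Fintype V'] [DecidableEq V] [DecidableEq V'] [DecidableEq I] in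
include he in
theorem wt_emb (θ : I → ℤ) (A : Finset V') : wt θ c (A.map e) = wt θ c' A := by
  unfold wt
  rw [Finset.sum_map]
  simp [he]

include he in
theorem map_Igt (k : I → I → ℕ) (θ : I → ℤ) (A : Finset V') :
    (Igt k c' θ A).map (rename e : MvPolynomial V' ℚ →ₐ[ℚ] _).toLinearMap
      = Igt k c θ (A.map e) := by
  apply le_antisymm
  · rw [Submodule.map_le_iff_le_comap]
    refine iSup₂_le fun A₂ h => ?_
    rw [Finset.mem_filter, Finset.mem_powerset] at h
    rw [← Submodule.map_le_iff_le_comap, map_J e he, Finset.map_sdiff]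
    refine le_iSup₂_of_le (A₂.map e) ?_ le_rfl
    rw [Finset.mem_filter, Finset.mem_powerset, wt_emb e he]
    exact ⟨Finset.map_subset_map.2 h.1, h.2.1.map, h.2.2⟩
  · refine iSup₂_le fun A₂ h => ?_
    rw [Finset.mem_filter, Finset.mem_powerset] at h
    obtain ⟨B, hB, rfl⟩ := Finset.subset_map_iff.1 h.1
    rw [wt_emb e he] at h
    rw [← Finset.map_sdiff, ← map_J e he]
    refine Submodule.map_mono (le_iSup₂_of_le B ?_ le_rfl)
    rw [Finset.mem_filter, Finset.mem_powerset]
    exact ⟨hB, Finset.map_nonempty.1 h.2.1, h.2.2⟩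

include he in
theorem map_Ile (k : I → I → ℕ) (θ : I → ℤ) (A : Finset V') :
    (Ile k c' θ A).map (rename e : MvPolynomial V' ℚ →ₐ[ℚ] _).toLinearMap
      = Ile k c θ (A.map e) := by
  apply le_antisymm
  · rw [Submodule.map_le_iff_le_comap]
    refine iSup₂_le fun A₂ h => ?_
    rw [Finset.mem_filter, Finset.mem_powerset] at h
    rw [← Submodule.map_le_iff_le_comap, map_J e he, Finset.map_sdiff]
    refine le_iSup₂_of_le (A₂.map e) ?_ le_rfl
    rw [Finset.mem_filter, Finset.mem_powerset, wt_emb e he]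
    exact ⟨Finset.map_subset_map.2 h.1, h.2.1.map, h.2.2⟩
  · refine iSup₂_le fun A₂ h => ?_
    rw [Finset.mem_filter, Finset.mem_powerset] at h
    obtain ⟨B, hB, rfl⟩ := Finset.subset_map_iff.1 h.1
    rw [wt_emb e he] at h
    rw [← Finset.map_sdiff, ← map_J e he]
    refine Submodule.map_mono (le_iSup₂_of_le B ?_ le_rfl)
    rw [Finset.mem_filter, Finset.mem_powerset]
    exact ⟨hB, Finset.map_nonempty.1 h.2.1, h.2.2⟩

omit [Fintype V] [Fintype V'] [DecidableEq V] [DecidableEq V'] in
theorem hd_map (W : Submodule ℚ (MvPolynomial V' ℚ)) (n : ℕ) :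
    hd (W.map (rename e : MvPolynomial V' ℚ →ₐ[ℚ] _).toLinearMap) n = hd W n := by
  unfold hd
  have h1 : W.map (rename e : MvPolynomial V' ℚ →ₐ[ℚ] _).toLinearMap ⊓ homogeneousSubmodule V ℚ n
      = (W ⊓ homogeneousSubmodule V' ℚ n).map
        (rename e : MvPolynomial V' ℚ →ₐ[ℚ] _).toLinearMap := by
    ext f
    constructor
    · rintro ⟨⟨g, hg, rfl⟩, h⟩
      refine ⟨g, ⟨hg, ?_⟩, rfl⟩
      exact (IsHomogeneous.rename_isHomogeneous_iff e.injective).1 h
    · rintro ⟨g, ⟨hg, h⟩, rfl⟩
      exact ⟨⟨g, hg, rfl⟩, (IsHomogeneous.rename_isHomogeneous_iff e.injective).2 h⟩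
  rw [h1]
  exact (LinearEquiv.finrank_eq (Submodule.equivMapOfInjective _
    (rename_injective e e.injective) _)).symm

end transport

end Crest.Agent.R059.Alt599
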