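import Crest.Agent.R059.Att_201
import Crest.Agent.R059.Dilog_344

set_option autoImplicit false
set_option linter.unusedSectionVars false

/-!
Row 59 (S0081), leaf ATT, part 2: plain elements on `M = ι →₀ ℕ`.
`IsPlain T p S A`: the attractor data of `A` are those of the node series `p(Y_{e_i})`, `i ∈ S`,
and `0` otherwise.
-/

namespace Crest.Agent.R059.Att201

open Finset TPS Tr201 PowerSeries

section kap

variable {R : Type*} [CommRing R]

/-- `X p'`. -/
noncomputable def xder (p : R⟦X⟧) : R⟦X⟧ := PowerSeries.mk fun k => (k : R) * coeff k p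

/-- coefficients of the logarithmic derivative `X p' / p`. -/
noncomputable def kap (p : R⟦X⟧) (j : ℕ) : R := coeff j (xder p * invOfUnit p 1)

theorem coeff_xder (p : R⟦X⟧) (k : ℕ) : coeff k (xder p) = (k : R) * coeff k p := by
  rw [xder, coeff_mk]

end kap

section general

variable {M : Type*} [AddCommMonoid M] [PartialOrder M] [IsOrderedCancelAddMonoid M]
  [CanonicallyOrderedAdd M] [WellFoundedLT M] [HasAntidiagonal M]
variable {R : Type*} [CommRing R] {T : Tw M R}

theorem der_ev {c : M} (hc : Function.Injective (fun k : ℕ => k • c)) (h : M →+ R)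
    (p : R⟦X⟧) : der h (ev T c p) = h c • ev T c (xder p) := by
  ext d
  by_cases hd : ∃ k : ℕ, d = k • c
  · obtain ⟨k, rfl⟩ := hd
    rw [co_der, co_smul, co_ev_nsmul hc, co_ev_nsmul hc, coeff_xder, map_nsmul,
      nsmul_eq_mul]
    ring
  · push Not at hd
    rw [co_der, co_smul, co_ev_of_not _ hd, co_ev_of_not _ hd, mul_zero, mul_zero]

theorem ev_co_zero' {c : M} (hc : Function.Injective (fun k : ℕ => k • c)) {p : R⟦X⟧}
    (hp : constantCoeff p = 1) : (ev T c p).co 0 = 1 := by
  rw [co_ev_zero hc, hp]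

theorem inv_ev {c : M} (hc : Function.Injective (fun k : ℕ => k • c)) {p : R⟦X⟧}
    (hp : constantCoeff p = 1) : inv (ev T c p) = ev T c (invOfUnit p 1) := by
  apply inv_eq_of_mul (ev_co_zero' hc hp)
  rw [← ev_mul hc, mul_invOfUnit p 1 (by rw [hp]; rfl), ev_one hc]

theorem lamI_ev {c : M} (hc : Function.Injective (fun k : ℕ => k • c)) (hcc : T.β c c = 0)
    (h : M →+ R) {p : R⟦X⟧} (hp : constantCoeff p = 1) (k : ℕ) :
    lamI h (k • c) (ev T c p) = h c * kap p k := by
  rw [lamI, lam, inv_ev hc hp, der_ev hc, TPS.smul_mul', co_smul, ← ev_mul hc, co_ev_nsmul hc,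
    pw_one_of c hcc, mul_one, kap]

theorem in1_ev {c : M} (hc : Function.Injective (fun k : ℕ => k • c)) {p : R⟦X⟧}
    (hp : constantCoeff p = 1) : In1 (fun d => ∃ k : ℕ, d = k • c) (ev T c p) := by
  refine ⟨ev_co_zero' hc hp, fun d _ hd => ?_⟩
  push Not at hd
  exact co_ev_of_not _ hd

end general

section plain

variable {ι : Type*} [DecidableEq ι] {R : Type*} [CommRing R] {T : Tw (ι →₀ ℕ) R}

/-- the height, with values in `R`. -/
noncomputable def htR (ι : Type*) (R : Type*) [CommRing R] : (ι →₀ ℕ) →+ R :=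
  (Nat.castAddMonoidHom R).comp (Finsupp.degree : (ι →₀ ℕ) →+ ℕ)

theorem htR_apply (d : ι →₀ ℕ) : htR ι R d = ((Finsupp.degree d : ℕ) : R) := rfl

theorem htR_single (i : ι) (j : ℕ) : htR ι R (Finsupp.single i j) = (j : R) := by
  rw [htR_apply, Finsupp.degree_single]

/-- nonzero natural numbers are units. -/
def NatUnits (R : Type*) [CommRing R] : Prop := ∀ n : ℕ, n ≠ 0 → IsUnit (n : R)

theorem natUnits_of_algebra (R : Type*) [CommRing R] [Algebra ℚ R] : NatUnits R := by
  intro n hn
  have h1 : IsUnit ((n : ℚ)) := IsUnit.mk0 _ (by exact_mod_cast hn)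
  have h2 := h1.map (algebraMap ℚ R)
  simpa using h2

theorem isUnit_htR (hu : NatUnits R) (d : ι →₀ ℕ) (hd : d ≠ 0) : IsUnit (htR ι R d) := by
  rw [htR_apply]
  apply hu
  intro h
  exact hd ((Finsupp.degree_eq_zero_iff d).1 h)

open Classical in
/-- attractor data of a plain element with node set `S` and node series `p`. -/
noncomputable def plainDat (p : R⟦X⟧) (S : Set ι) (d : ι →₀ ℕ) : R :=
  if ∃ i ∈ S, ∃ j, d = Finsupp.single i j then kap p (Finsupp.degree d) else 0

theorem plainDat_single (p : R⟦X⟧) {S : Set ι} {i : ι} (hi : i ∈ S) (j : ℕ) :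
    plainDat p S (Finsupp.single i j) = kap p j := by
  rw [plainDat, if_pos ⟨i, hi, j, rfl⟩, Finsupp.degree_single]

theorem plainDat_of_not (p : R⟦X⟧) {S : Set ι} {d : ι →₀ ℕ}
    (h : ∀ i ∈ S, ∀ j, d ≠ Finsupp.single i j) : plainDat p S d = 0 := by
  rw [plainDat, if_neg]
  rintro ⟨i, hi, j, hj⟩
  exact h i hi j hj

/-- **plain elements**. -/
structure IsPlain (T : Tw (ι →₀ ℕ) R) (p : R⟦X⟧) (S : Set ι) (A : TPS T) : Prop where
  one : A.co 0 = 1
  data : ∀ d, d ≠ 0 → dat (htR ι R) A d = plainDat p S d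

/-- the plain element with node set `S` and node series `p`. -/
noncomputable def plainEl (T : Tw (ι →₀ ℕ) R) (p : R⟦X⟧) (S : Set ι) : TPS T :=
  attr T (htR ι R) (plainDat p S)

theorem isPlain_plainEl (hs : ∀ a b, T.β a b = - T.β b a) (hu : NatUnits R) (p : R⟦X⟧)
    (S : Set ι) : IsPlain T p S (plainEl T p S) :=
  ⟨attr_zero _ _, fun d hd => dat_attr hs _ _ hd (isUnit_htR hu d hd)⟩

theorem IsPlain.eq (hs : ∀ a b, T.β a b = - T.β b a) (hu : NatUnits R) {p : R⟦X⟧}
    {S : Set ι} {A : TPS T} (hA : IsPlain T p S A) : A = plainEl T p S :=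
  attr_unique hs _ (isUnit_htR hu) hA.one hA.data

theorem IsPlain.unique (hs : ∀ a b, T.β a b = - T.β b a) (hu : NatUnits R) {p : R⟦X⟧}
    {S : Set ι} {A B : TPS T} (hA : IsPlain T p S A) (hB : IsPlain T p S B) : A = B :=
  (hA.eq hs hu).trans (hB.eq hs hu).symm

/-! ### coordinate faces -/

/-- exponents supported on `J`. -/
def OnF (J : Set ι) (d : ι →₀ ℕ) : Prop := ∀ i, d i ≠ 0 → i ∈ J

theorem isFace_OnF (J : Set ι) : IsFace (OnF J) where
  zero := fun i h => absurd (by simp) h
  add := fun a b ha hb i h => by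
    by_cases h1 : a i = 0
    · exact hb i (by intro h2; apply h; simp [h1, h2])
    · exact ha i h1
  left := fun a b h i hi => h i (by
    simp only [Finsupp.coe_add, Pi.add_apply]
    omega)
  right := fun a b h i hi => h i (by
    simp only [Finsupp.coe_add, Pi.add_apply]
    omega)

theorem onF_single {J : Set ι} {i : ι} (hi : i ∈ J) (j : ℕ) : OnF J (Finsupp.single i j) := by
  classical
  intro k hk
  rw [Finsupp.single_apply] at hk
  by_cases h : i = k
  · rw [← h]; exact hi
  · rw [if_neg h] at hk; exact absurd rfl hk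

theorem IsPlain.restr {p : R⟦X⟧} {S : Set ι} {A : TPS T}
    (hA : IsPlain T p S A) (J : Set ι) : IsPlain T p (S ∩ J) (Att201.restr (OnF J) A) := by
  refine ⟨by rw [restr_co_zero (isFace_OnF J), hA.one], fun d hd => ?_⟩
  by_cases hJ : OnF J d
  · rw [dat_restr (isFace_OnF J) _ hA.one hJ, hA.data d hd]
    by_cases h : ∃ i ∈ S, ∃ j, d = Finsupp.single i j
    · obtain ⟨i, hi, j, rfl⟩ := h
      have hj : j ≠ 0 := fun h => hd (by rw [h, Finsupp.single_zero])
      have hiJ : i ∈ J := hJ i (by rw [Finsupp.single_eq_same]; exact hj)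
      rw [plainDat_single p hi, plainDat_single (S := S ∩ J) p ⟨hi, hiJ⟩]
    · push Not at h
      rw [plainDat_of_not p h, plainDat_of_not p (fun i hi j => h i hi.1 j)]
  · rw [dat_restr_of_not (isFace_OnF J) _ hA.one hJ, plainDat_of_not]
    rintro i hi j rfl
    exact hJ (onF_single hi.2 j)

/-- a plain element is supported on the classes supported on the nodes. -/
theorem IsPlain.in1 (hs : ∀ a b, T.β a b = - T.β b a) (hu : NatUnits R) {p : R⟦X⟧}
    {S : Set ι} {A : TPS T} (hA : IsPlain T p S A) : In1 (OnF S) A := by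
  refine in1_of_dat hs _ (fun e he => (isUnit_htR hu e he).isRegular.left)
    (isFace_OnF S).zero (isFace_OnF S).add hA.one (fun d hd hS => ?_)
  rw [hA.data d hd, plainDat_of_not]
  rintro i hi j rfl
  exact hS (onF_single hi j)

theorem restr_eq_self {S : (ι →₀ ℕ) → Prop} {A : TPS T} (h0 : S 0) (hA : In1 S A) :
    Att201.restr S A = A := by
  ext d
  by_cases h : S d
  · rw [restr_of h]
  · rw [restr_of_not h, hA.supp d (fun h1 => h (h1 ▸ h0)) h]

theorem IsPlain.eq_one (hs : ∀ a b, T.β a b = - T.β b a) (hu : NatUnits R) {p : R⟦X⟧}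
    {A : TPS T} (hA : IsPlain T p ∅ A) : A = 1 := by
  have h := hA.in1 hs hu
  ext d
  by_cases hd : d = 0
  · rw [hd, hA.one, co_one_zero]
  · rw [co_one_ne hd, h.supp d hd]
    intro h1
    apply hd
    ext i
    by_contra h2
    exact h1 i h2

/-! ### one node -/

theorem single_one_ne (i : ι) : (Finsupp.single i 1 : ι →₀ ℕ) ≠ 0 := by
  rw [Ne, Finsupp.single_eq_zero]; exact one_ne_zero

theorem inj_single (i : ι) :
    Function.Injective (fun k : ℕ => k • (Finsupp.single i 1 : ι →₀ ℕ)) :=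
  nsmul_inj (single_one_ne i)

theorem nsmul_single_one (i : ι) (j : ℕ) :
    (j • Finsupp.single i 1 : ι →₀ ℕ) = Finsupp.single i j := by
  rw [Finsupp.smul_single, smul_eq_mul, mul_one]

/-- the node series `p(Y_{e_i})`. -/
noncomputable def node (T : Tw (ι →₀ ℕ) R) (i : ι) (p : R⟦X⟧) : TPS T :=
  ev T (Finsupp.single i 1) p

theorem node_co_zero (i : ι) {p : R⟦X⟧} (hp : constantCoeff p = 1) :
    (node T i p).co 0 = 1 := ev_co_zero' (inj_single i) hp

theorem node_co_single (hs : ∀ a b, T.β a b = - T.β b a) (i : ι) (p : R⟦X⟧) (j : ℕ) :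
    (node T i p).co (Finsupp.single i j) = coeff j p := by
  rw [node, ← nsmul_single_one i j, co_ev_nsmul (inj_single i), pw_one_of _ (beta_self hs _),
    mul_one]

theorem node_co_of_not (i : ι) (p : R⟦X⟧) {d : ι →₀ ℕ}
    (h : ∀ j, d ≠ Finsupp.single i j) : (node T i p).co d = 0 := by
  apply co_ev_of_not
  intro k hk
  exact h k (by rw [hk, nsmul_single_one])

theorem in1_node (i : ι) {p : R⟦X⟧} (hp : constantCoeff p = 1) :
    In1 (fun d => ∃ j, d = Finsupp.single i j) (node T i p) := by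
  refine ⟨node_co_zero i hp, fun d _ hd => ?_⟩
  push Not at hd
  exact node_co_of_not i p hd

theorem lamI_node (hs : ∀ a b, T.β a b = - T.β b a) (i : ι) {p : R⟦X⟧}
    (hp : constantCoeff p = 1) (j : ℕ) :
    lamI (htR ι R) (Finsupp.single i j) (node T i p) = kap p j := by
  rw [node, ← nsmul_single_one i j, lamI_ev (inj_single i) (beta_self hs _) _ hp, htR_single]
  simp

theorem zer_node {V : Type*} [AddCommGroup V] [LinearOrder V] [IsOrderedAddMonoid V]
    (x : (ι →₀ ℕ) →+ V) (i : ι) {p : R⟦X⟧} (hp : constantCoeff p = 1)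
    (hx : x (Finsupp.single i 1) = 0) : zer x (node T i p) = node T i p := by
  have h : In1 (fun d => x d = 0) (node T i p) :=
    (in1_node i hp).mono (fun d _ hd => by
      obtain ⟨j, rfl⟩ := hd
      rw [← nsmul_single_one, map_nsmul, hx, smul_zero])
  exact (parts_of_zer x h).2.1

theorem isPlain_node (hs : ∀ a b, T.β a b = - T.β b a) (i : ι) {p : R⟦X⟧}
    (hp : constantCoeff p = 1) : IsPlain T p {i} (node T i p) := by
  refine ⟨node_co_zero i hp, fun d hd => ?_⟩
  by_cases h : ∃ j, d = Finsupp.single i j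
  · obtain ⟨j, rfl⟩ := h
    rw [plainDat_single p (Set.mem_singleton i), dat, zer_node _ i hp, lamI_node hs i hp]
    have h1 := beta_self hs (Finsupp.single i 1 : ι →₀ ℕ)
    rw [← nsmul_single_one i j, map_nsmul]
    simp [h1]
  · push Not at h
    rw [plainDat_of_not p (fun i' hi' j => by rw [Set.mem_singleton_iff.1 hi']; exact h j)]
    refine lamI_eq_zero_of_in1 (S := fun d => ∃ j, d = Finsupp.single i j) ⟨0, by simp⟩ ?_ _
      (by push Not; exact h) (((in1_node i hp).zer ?_ _).mono (fun _ _ h => h.2))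
    · rintro a b ⟨j, rfl⟩ ⟨k, rfl⟩
      exact ⟨j + k, by rw [Finsupp.single_add]⟩
    · rintro a b ⟨j, rfl⟩ ⟨k, rfl⟩
      exact ⟨j + k, by rw [Finsupp.single_add]⟩

theorem IsPlain.eq_node (hs : ∀ a b, T.β a b = - T.β b a) (hu : NatUnits R) {p : R⟦X⟧}
    (hp : constantCoeff p = 1) {i : ι} {A : TPS T} (hA : IsPlain T p {i} A) :
    A = node T i p :=
  hA.unique hs hu (isPlain_node hs i hp)

/-- restriction of a plain element to the ray of a node. -/
theorem IsPlain.restr_node (hs : ∀ a b, T.β a b = - T.β b a) (hu : NatUnits R) {p : R⟦X⟧}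
    (hp : constantCoeff p = 1) {S : Set ι} {A : TPS T} (hA : IsPlain T p S A) {i : ι}
    (hi : i ∈ S) : Att201.restr (OnF {i}) A = node T i p := by
  have h := hA.restr {i}
  have h2 : S ∩ {i} = {i} := by
    ext k
    simp only [Set.mem_inter_iff, Set.mem_singleton_iff]
    constructor
    · exact fun h => h.2
    · intro h; exact ⟨h ▸ hi, h⟩
  rw [h2] at h
  exact h.eq_node hs hu hp

theorem IsPlain.co_single (hs : ∀ a b, T.β a b = - T.β b a) (hu : NatUnits R) {p : R⟦X⟧}
    (hp : constantCoeff p = 1) {S : Set ι} {A : TPS T} (hA : IsPlain T p S A) {i : ι}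
    (hi : i ∈ S) (j : ℕ) : A.co (Finsupp.single i j) = coeff j p := by
  rw [← node_co_single hs i p j, ← hA.restr_node hs hu hp hi,
    restr_of (S := OnF {i}) (onF_single (Set.mem_singleton i) j)]

/-- the zero part of a plain element along `x`, `x e_i = 0`, on the ray of the node `i`. -/
theorem IsPlain.zer_co_single {V : Type*} [AddCommGroup V] [LinearOrder V]
    [IsOrderedAddMonoid V] (hs : ∀ a b, T.β a b = - T.β b a) (hu : NatUnits R) {p : R⟦X⟧}
    (hp : constantCoeff p = 1) {S : Set ι} {A : TPS T} (hA : IsPlain T p S A) {i : ι}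
    (hi : i ∈ S) (x : (ι →₀ ℕ) →+ V) (hx : x (Finsupp.single i 1) = 0) (j : ℕ) :
    (zer x A).co (Finsupp.single i j) = coeff j p := by
  rw [← restr_of (S := OnF {i}) (a := zer x A) (onF_single (Set.mem_singleton i) j),
    restr_zer (isFace_OnF {i}) x hA.one, hA.restr_node hs hu hp hi, zer_node x i hp hx,
    node_co_single hs]

/-- if the kernel of `x` on the classes `≤ d` is the ray of the node `i`, the zero part of a
plain element along `x` is the node series, in degrees `≤ d`. -/
theorem IsPlain.zer_eq_node {V : Type*} [AddCommGroup V] [LinearOrder V]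
    [IsOrderedAddMonoid V] (hs : ∀ a b, T.β a b = - T.β b a) (hu : NatUnits R) {p : R⟦X⟧}
    (hp : constantCoeff p = 1) {S : Set ι} {A : TPS T} (hA : IsPlain T p S A) {i : ι}
    (hi : i ∈ S) (x : (ι →₀ ℕ) →+ V) (hx : x (Finsupp.single i 1) = 0) (d : ι →₀ ℕ)
    (hk : ∀ e ≤ d, x e = 0 → ∃ j, e = Finsupp.single i j) :
    ∀ e ≤ d, (zer x A).co e = (node T i p).co e := by
  intro e he
  by_cases h : ∃ j, e = Finsupp.single i j
  · obtain ⟨j, rfl⟩ := h
    rw [hA.zer_co_single hs hu hp hi x hx, node_co_single hs]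
  · have hxe : ¬ x e = 0 := fun h1 => h (hk e he h1)
    have he0 : e ≠ 0 := fun h1 => h ⟨0, by rw [h1, Finsupp.single_zero]⟩
    push Not at h
    rw [(in1_zer x A).supp e he0 hxe, node_co_of_not i p h]

end plain

end Crest.Agent.R059.Att201
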