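import Crest.Agent.R059.Att2_201

set_option autoImplicit false
set_option linter.unusedSectionVars false

/-!
Row 59 (S0081), leaf ATT, part 3: base change.  `F : TPS T →+* TPS T'` is any ring homomorphism
given coefficientwise by `φ : R →+* R'` (`mapR` of `Sc_998`, `TPS.map` of `Grnd_883`,
`mapW` of `Map_510`).
-/

namespace Crest.Agent.R059.Att201

open Finset TPS Tr201 PowerSeries

section general

variable {M : Type*} [AddCommMonoid M] [PartialOrder M] [IsOrderedCancelAddMonoid M]
  [CanonicallyOrderedAdd M] [WellFoundedLT M] [HasAntidiagonal M]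
variable {R : Type*} [CommRing R] {T : Tw M R} {R' : Type*} [CommRing R'] {T' : Tw M R'}
variable {V : Type*} [AddCommGroup V] [LinearOrder V] [IsOrderedAddMonoid V]
variable {φ : R →+* R'} {F : TPS T →+* TPS T'}

theorem In1.bc (hF : ∀ f m, (F f).co m = φ (f.co m)) {P : M → Prop} {a : TPS T}
    (h : In1 P a) : In1 P (F a) :=
  ⟨by rw [hF, h.one, map_one], fun d hd hP => by rw [hF, h.supp d hd hP, map_zero]⟩

theorem bc_inv (hF : ∀ f m, (F f).co m = φ (f.co m)) {a : TPS T} (ha : a.co 0 = 1) :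
    F (inv a) = inv (F a) := by
  symm
  apply inv_eq_of_mul (by rw [hF, ha, map_one])
  rw [← map_mul, mul_inv ha, map_one]

theorem bc_parts (hF : ∀ f m, (F f).co m = φ (f.co m)) (x : M →+ V) {a : TPS T}
    (ha : a.co 0 = 1) :
    F (pos x a) = pos x (F a) ∧ F (zer x a) = zer x (F a) ∧ F (neg x a) = neg x (F a) := by
  have h := pzn_unique' x (In1.bc hF (in1_pos x a)) (In1.bc hF (in1_zer x a))
    (In1.bc hF (in1_neg x a)) (a := F a)
    (by rw [← map_mul, ← map_mul, pos_mul_zer_mul_neg x ha])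
  exact ⟨h.1.symm, h.2.1.symm, h.2.2.symm⟩

theorem bc_pos (hF : ∀ f m, (F f).co m = φ (f.co m)) (x : M →+ V) {a : TPS T}
    (ha : a.co 0 = 1) : F (pos x a) = pos x (F a) := (bc_parts hF x ha).1

theorem bc_zer (hF : ∀ f m, (F f).co m = φ (f.co m)) (x : M →+ V) {a : TPS T}
    (ha : a.co 0 = 1) : F (zer x a) = zer x (F a) := (bc_parts hF x ha).2.1

theorem bc_neg (hF : ∀ f m, (F f).co m = φ (f.co m)) (x : M →+ V) {a : TPS T}
    (ha : a.co 0 = 1) : F (neg x a) = neg x (F a) := (bc_parts hF x ha).2.2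

theorem bc_der (hF : ∀ f m, (F f).co m = φ (f.co m)) (h : M →+ R) (h' : M →+ R')
    (hh : ∀ m, h' m = φ (h m)) (a : TPS T) : F (der h a) = der h' (F a) := by
  ext d
  rw [hF, co_der, co_der, hF, map_mul, hh]

theorem bc_lamI (hF : ∀ f m, (F f).co m = φ (f.co m)) (h : M →+ R) (h' : M →+ R')
    (hh : ∀ m, h' m = φ (h m)) {a : TPS T} (ha : a.co 0 = 1) (d : M) :
    lamI h' d (F a) = φ (lamI h d a) := by
  rw [lamI, lamI, lam, lam, ← hF, map_mul, bc_der hF h h' hh, bc_inv hF ha]

theorem bc_dat (hF : ∀ f m, (F f).co m = φ (f.co m)) (hβ : T'.β = T.β) (h : M →+ R)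
    (h' : M →+ R') (hh : ∀ m, h' m = φ (h m)) {a : TPS T} (ha : a.co 0 = 1) (d : M) :
    dat h' (F a) d = φ (dat h a d) := by
  rw [dat, dat, hβ, ← bc_zer hF _ ha, bc_lamI hF h h' hh (zer_co_zero _ _)]

end general

section plain

variable {ι : Type*} [DecidableEq ι] {R : Type*} [CommRing R] {T : Tw (ι →₀ ℕ) R}
variable {R' : Type*} [CommRing R'] {T' : Tw (ι →₀ ℕ) R'}
variable {φ : R →+* R'} {F : TPS T →+* TPS T'}

theorem map_kap (φ : R →+* R') {p : R⟦X⟧} (hp : constantCoeff p = 1) (j : ℕ) :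
    kap (PowerSeries.map φ p) j = φ (kap p j) := by
  have h1 : PowerSeries.map φ (xder p) = xder (PowerSeries.map φ p) := by
    ext k
    rw [coeff_xder, PowerSeries.coeff_map, coeff_xder, PowerSeries.coeff_map, map_mul,
      map_natCast]
  have hp' : constantCoeff (PowerSeries.map φ p) = 1 := by
    rw [← PowerSeries.coeff_zero_eq_constantCoeff_apply, PowerSeries.coeff_map,
      PowerSeries.coeff_zero_eq_constantCoeff_apply, hp, map_one]
  have h2 : PowerSeries.map φ (invOfUnit p 1) = invOfUnit (PowerSeries.map φ p) 1 := by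
    have e1 : p * invOfUnit p 1 = 1 := mul_invOfUnit p 1 (by rw [hp]; rfl)
    have e2 : PowerSeries.map φ p * invOfUnit (PowerSeries.map φ p) 1 = 1 :=
      mul_invOfUnit _ 1 (by rw [hp']; rfl)
    have e3 : PowerSeries.map φ p * PowerSeries.map φ (invOfUnit p 1) = 1 := by
      rw [← map_mul, e1, map_one]
    calc PowerSeries.map φ (invOfUnit p 1)
        = PowerSeries.map φ (invOfUnit p 1) *
            (PowerSeries.map φ p * invOfUnit (PowerSeries.map φ p) 1) := by rw [e2, mul_one]
      _ = (PowerSeries.map φ p * PowerSeries.map φ (invOfUnit p 1)) *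
            invOfUnit (PowerSeries.map φ p) 1 := by ring
      _ = invOfUnit (PowerSeries.map φ p) 1 := by rw [e3, one_mul]
  rw [kap, kap, ← h1, ← h2, ← map_mul, PowerSeries.coeff_map]

/-- **base change of plain elements.** -/
theorem IsPlain.bc (hF : ∀ f m, (F f).co m = φ (f.co m)) (hβ : T'.β = T.β) {p : R⟦X⟧}
    (hp : constantCoeff p = 1) {S : Set ι} {A : TPS T} (hA : IsPlain T p S A) :
    IsPlain T' (PowerSeries.map φ p) S (F A) := by
  classical
  refine ⟨by rw [hF, hA.one, map_one], fun d hd => ?_⟩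
  rw [bc_dat hF hβ (htR ι R) (htR ι R') (fun m => by rw [htR_apply, htR_apply, map_natCast])
    hA.one, hA.data d hd, plainDat, plainDat]
  split_ifs
  · rw [map_kap φ hp]
  · rw [map_zero]

end plain

end Crest.Agent.R059.Att201
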