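import Crest.Agent.R059.TPS_883

set_option autoImplicit false

/-!
Row 59 (S0081), leaf F6: the trace property, degree derivations and the logarithmic derivative
`lam`.  Inverses are always explicit (`a * a' = 1`, `a' * a = 1`).
-/

namespace Crest.Agent.R059.Tr201

open Finset TPS

section pairing

variable {M : Type*} [AddCommMonoid M] {R : Type*} [CommRing R]

/-- the commutator pairing `com d a = β d a - β a d`. -/
def com (T : Tw M R) : M →+ M →+ ℤ := T.β - T.β.flip

theorem com_apply (T : Tw M R) (d a : M) : com T d a = T.β d a - T.β a d := rfl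

theorem com_self (T : Tw M R) (d : M) : com T d d = 0 := by simp [com_apply]

theorem com_swap (T : Tw M R) (d a : M) : com T a d = - com T d a := by simp [com_apply]

theorem com_add_left (T : Tw M R) (d e a : M) : com T (d + e) a = com T d a + com T e a := by
  simp

theorem com_add_right (T : Tw M R) (d a b : M) : com T d (a + b) = com T d a + com T d b := by
  simp

/-- the kernel of `com d`. -/
def comKer (T : Tw M R) (d : M) : AddSubmonoid M := AddMonoidHom.mker (com T d)

theorem mem_comKer {T : Tw M R} {d a : M} : a ∈ comKer T d ↔ com T d a = 0 := Iff.rfl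

theorem self_mem_comKer (T : Tw M R) (d : M) : d ∈ comKer T d := com_self T d

theorem wt_comm_of_com {T : Tw M R} {a b : M} (h : com T (a + b) a = 0) :
    wt T a b = wt T b a := by
  have h1 : com T b a = 0 := by
    rw [com_add_left, com_self, zero_add] at h
    exact h
  have h2 : T.β a b = T.β b a := by
    rw [com_apply] at h1
    omega
  rw [wt, wt, h2]

end pairing

section supp

variable {M : Type*} [AddCommMonoid M] {R : Type*} [CommRing R] {T : Tw M R}

/-- support contained in a submonoid. -/
def SuppIn (S : AddSubmonoid M) (f : TPS T) : Prop := ∀ a, f.co a ≠ 0 → a ∈ S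

theorem SuppIn.zero_of_not {S : AddSubmonoid M} {f : TPS T} (h : SuppIn S f) {a : M}
    (ha : a ∉ S) : f.co a = 0 := by
  by_contra h0
  exact ha (h a h0)

theorem suppIn_zero (S : AddSubmonoid M) : SuppIn S (0 : TPS T) := fun a h => by simp at h

theorem SuppIn.add {S : AddSubmonoid M} {f g : TPS T} (hf : SuppIn S f) (hg : SuppIn S g) :
    SuppIn S (f + g) := by
  intro a h
  by_contra ha
  apply h
  rw [co_add, hf.zero_of_not ha, hg.zero_of_not ha, add_zero]

theorem SuppIn.neg {S : AddSubmonoid M} {f : TPS T} (hf : SuppIn S f) : SuppIn S (-f) := by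
  intro a h
  apply hf
  intro h0
  apply h
  rw [co_neg, h0, neg_zero]

theorem SuppIn.sub {S : AddSubmonoid M} {f g : TPS T} (hf : SuppIn S f) (hg : SuppIn S g) :
    SuppIn S (f - g) := by
  rw [sub_eq_add_neg]
  exact hf.add hg.neg

theorem suppIn_mono {S : AddSubmonoid M} {m : M} (hm : m ∈ S) (r : R) :
    SuppIn S (mono T m r) := by
  intro a h
  by_cases hc : a = m
  · rw [hc]; exact hm
  · exact absurd (co_mono_ne hc r) h

theorem SuppIn.le {S S' : AddSubmonoid M} {f : TPS T} (hf : SuppIn S f) (h : S ≤ S') :
    SuppIn S' f := fun a ha => h (hf a ha)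

theorem suppIn_one (S : AddSubmonoid M) : SuppIn S (1 : TPS T) := by
  rw [one_def]; exact suppIn_mono S.zero_mem 1

variable [HasAntidiagonal M]

theorem SuppIn.mul {S : AddSubmonoid M} {f g : TPS T} (hf : SuppIn S f) (hg : SuppIn S g) :
    SuppIn S (f * g) := by
  intro d h
  rw [co_mul] at h
  obtain ⟨p, hp, hne⟩ := Finset.exists_ne_zero_of_sum_ne_zero h
  rw [HasAntidiagonal.mem_antidiagonal] at hp
  rw [← hp]
  refine S.add_mem (hf _ ?_) (hg _ ?_)
  · intro h0; apply hne; rw [h0]; simp
  · intro h0; apply hne; rw [h0]; simp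

end supp

section trace

variable {M : Type*} [AddCommMonoid M] {R : Type*} [CommRing R] {T : Tw M R}
variable [HasAntidiagonal M]

/-- **(TR1)** `[Y^d]` is a trace as soon as one factor is supported on `ker (com d)`. -/
theorem co_mul_comm {d : M} {f : TPS T} (hf : SuppIn (comKer T d) f) (g : TPS T) :
    (f * g).co d = (g * f).co d := by
  rw [co_mul, co_mul]
  refine Finset.sum_nbij' Prod.swap Prod.swap ?_ ?_ ?_ ?_ ?_
  · rintro ⟨a, b⟩ hp
    rw [HasAntidiagonal.mem_antidiagonal] at hp ⊢
    simp only [Prod.swap] at hp ⊢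
    rw [add_comm]; exact hp
  · rintro ⟨a, b⟩ hp
    rw [HasAntidiagonal.mem_antidiagonal] at hp ⊢
    simp only [Prod.swap] at hp ⊢
    rw [add_comm]; exact hp
  · intro p _; simp
  · intro p _; simp
  · rintro ⟨a, b⟩ hp
    rw [HasAntidiagonal.mem_antidiagonal] at hp
    simp only [Prod.swap] at hp ⊢
    by_cases h0 : f.co a = 0
    · rw [h0]; simp
    · have h1 : com T (a + b) a = 0 := by
        rw [hp]; exact hf a h0
      rw [wt_comm_of_com h1]
      ring

/-- **(TR2)** conjugation by a series supported on `ker (com d)` does not change `[Y^d]`. -/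
theorem co_conj {d : M} {z z' : TPS T} (hz' : SuppIn (comKer T d) z') (h : z * z' = 1)
    (g : TPS T) : (z' * g * z).co d = g.co d := by
  rw [mul_assoc, co_mul_comm hz', mul_assoc, h, mul_one]

/-- **(TR2')** the other side. -/
theorem co_conj' {d : M} {z z' : TPS T} (hz : SuppIn (comKer T d) z) (h : z * z' = 1)
    (g : TPS T) : (z' * g * z).co d = g.co d := by
  rw [← co_mul_comm hz, ← mul_assoc, h, one_mul]

/-- degree derivation. -/
def der (h : M →+ R) : TPS T →ₗ[R] TPS T where
  toFun f := ⟨fun d => h d * f.co d⟩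
  map_add' f g := by ext d; simp only [co_add]; ring
  map_smul' r f := by ext d; simp only [co_smul, RingHom.id_apply]; ring

@[simp] theorem co_der (h : M →+ R) (f : TPS T) (d : M) : (der h f).co d = h d * f.co d := rfl

theorem co_der_zero (h : M →+ R) (f : TPS T) : (der h f).co 0 = 0 := by simp

/-- **(TR3)** Leibniz. -/
theorem der_mul (h : M →+ R) (f g : TPS T) : der h (f * g) = der h f * g + f * der h g := by
  ext d
  rw [co_add, co_der, co_mul, co_mul, co_mul, Finset.mul_sum, ← Finset.sum_add_distrib]
  refine Finset.sum_congr rfl (fun p hp => ?_)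
  rw [HasAntidiagonal.mem_antidiagonal] at hp
  rw [co_der, co_der, ← hp, map_add]
  ring

theorem der_one (h : M →+ R) : der h (1 : TPS T) = 0 := by
  ext d
  rw [co_der]
  by_cases hd : d = 0
  · rw [hd]; simp
  · rw [co_one_ne hd]; simp

theorem SuppIn.der {S : AddSubmonoid M} {f : TPS T} (h : M →+ R) (hf : SuppIn S f) :
    SuppIn S (Tr201.der h f) := by
  intro a ha
  apply hf
  intro h0
  apply ha
  rw [co_der, h0, mul_zero]

/-- logarithmic derivative, coefficient `d`; `a'` is the inverse of `a`. -/
noncomputable def lam (h : M →+ R) (d : M) (a a' : TPS T) : R := (der h a * a').co d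

theorem lam_one (h : M →+ R) (d : M) : lam h d (1 : TPS T) 1 = 0 := by
  rw [lam, der_one]; simp

/-- **(TR4)** additivity; only the left factor has to be supported on `ker (com d)`. -/
theorem lam_mul (h : M →+ R) {d : M} {a a' b b' : TPS T} (ha : SuppIn (comKer T d) a)
    (haa' : a' * a = 1) (hbb : b * b' = 1) :
    lam h d (a * b) (b' * a') = lam h d a a' + lam h d b b' := by
  have h1 : der h (a * b) * (b' * a') = der h a * a' + a * (der h b * b' * a') := by
    rw [der_mul, add_mul]
    congr 1
    · rw [mul_assoc, ← mul_assoc b, hbb, one_mul]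
    · rw [mul_assoc, mul_assoc]
  rw [lam, lam, lam, h1, co_add]
  congr 1
  rw [co_mul_comm ha, mul_assoc, haa', mul_one]

theorem lam_inv (h : M →+ R) {d : M} {a a' : TPS T} (ha : SuppIn (comKer T d) a)
    (haa : a * a' = 1) (haa' : a' * a = 1) : lam h d a' a = - lam h d a a' := by
  have h1 := lam_mul h ha haa' haa'
  rw [haa, lam_one] at h1
  exact (neg_eq_of_add_eq_zero_right h1.symm).symm

/-- support condition with a sign: everything except `0` satisfies `P`. -/
def SuppOn (P : M → Prop) (f : TPS T) : Prop := ∀ a, f.co a ≠ 0 → a = 0 ∨ P a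

/-- `lam` vanishes on series supported on `{x > 0}`. -/
theorem lam_pos {V : Type*} [AddCommGroup V] [LinearOrder V] [IsOrderedAddMonoid V]
    (x : M →+ V) (h : M →+ R) {d : M} (hd : x d = 0) {a a' : TPS T}
    (ha : SuppOn (fun e => 0 < x e) a) (ha' : SuppOn (fun e => 0 < x e) a') :
    lam h d a a' = 0 := by
  rw [lam, co_mul]
  apply Finset.sum_eq_zero
  rintro ⟨e, f⟩ hp
  rw [HasAntidiagonal.mem_antidiagonal] at hp
  simp only at hp ⊢
  by_contra hne
  have h1 : a.co e ≠ 0 := by intro h0; apply hne; rw [co_der, h0]; simp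
  have h2 : a'.co f ≠ 0 := by intro h0; apply hne; rw [h0]; simp
  rcases ha e h1 with rfl | h3
  · apply hne; rw [co_der_zero]; simp
  · have h4 : 0 ≤ x f := by
      rcases ha' f h2 with rfl | h5
      · simp
      · exact h5.le
    have h6 : x d = x e + x f := by rw [← hp, map_add]
    rw [hd] at h6
    exact absurd h6 (ne_of_lt (add_pos_of_pos_of_nonneg h3 h4))

theorem lam_neg {V : Type*} [AddCommGroup V] [LinearOrder V] [IsOrderedAddMonoid V]
    (x : M →+ V) (h : M →+ R) {d : M} (hd : x d = 0) {a a' : TPS T}
    (ha : SuppOn (fun e => x e < 0) a) (ha' : SuppOn (fun e => x e < 0) a') :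
    lam h d a a' = 0 := by
  refine lam_pos (-x) h (by simp [hd]) (fun e he => ?_) (fun e he => ?_)
  · rcases ha e he with h1 | h1
    · exact Or.inl h1
    · exact Or.inr (by simpa using h1)
  · rcases ha' e he with h1 | h1
    · exact Or.inl h1
    · exact Or.inr (by simpa using h1)

/-- **(TR5)** the attractor coefficient does not depend on the perturbation. -/
theorem lam_parts {V : Type*} [AddCommGroup V] [LinearOrder V] [IsOrderedAddMonoid V]
    (x : M →+ V) (h : M →+ R) {d : M} (hd : x d = 0) {p p' z z' n n' : TPS T}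
    (hpk : SuppIn (comKer T d) p) (hzk : SuppIn (comKer T d) z)
    (hp : SuppOn (fun e => 0 < x e) p) (hp' : SuppOn (fun e => 0 < x e) p')
    (hn : SuppOn (fun e => x e < 0) n) (hn' : SuppOn (fun e => x e < 0) n')
    (hpp' : p' * p = 1) (hzz : z * z' = 1) (hzz' : z' * z = 1) (hnn : n * n' = 1) :
    lam h d (p * z * n) (n' * (z' * p')) = lam h d z z' := by
  have hk : SuppIn (comKer T d) (p * z) := hpk.mul hzk
  have h2 : (z' * p') * (p * z) = 1 := by
    rw [mul_assoc, ← mul_assoc p', hpp', one_mul, hzz']
  rw [lam_mul h hk h2 hnn, lam_neg x h hd hn hn', add_zero, lam_mul h hpk hpp' hzz,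
    lam_pos x h hd hp hp', zero_add]

/-- the constant coefficient of `der h f * g` vanishes. -/
theorem co_der_mul_zero (ht : M →+ ℕ) (hht : ∀ d, ht d = 0 → d = 0) (h : M →+ R)
    (f g : TPS T) : (der h f * g).co 0 = 0 := by
  rw [co_mul]
  apply Finset.sum_eq_zero
  rintro ⟨a, b⟩ hp
  rw [HasAntidiagonal.mem_antidiagonal] at hp
  simp only at hp ⊢
  have h1 : ht a + ht b = 0 := by rw [← map_add, hp, map_zero]
  have h2 : a = 0 := hht a (by omega)
  rw [h2, co_der_zero]
  simp

/-- **(TR6)** uniqueness: two series with the same constant term and the same logarithmic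
derivative are equal.  `ht` is a height, `h` the (regular) degree derivation. -/
theorem eq_of_lam (ht : M →+ ℕ) (hht : ∀ d, ht d = 0 → d = 0) (h : M →+ R)
    {f f' g g' : TPS T} (h0 : f.co 0 = g.co 0) (hff : f' * f = 1) (hgg : g' * g = 1)
    (hreg : ∀ d, d ≠ 0 → f.co d ≠ g.co d → IsLeftRegular (h d))
    (hl : ∀ d, d ≠ 0 → lam h d f f' = lam h d g g') : f = g := by
  have hu : der h f * f' = der h g * g' := by
    ext d
    by_cases hd : d = 0
    · rw [hd, co_der_mul_zero ht hht, co_der_mul_zero ht hht]
    · exact hl d hd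
  have hf : der h f = (der h f * f') * f := by rw [mul_assoc, hff, mul_one]
  have hg : der h g = (der h f * f') * g := by rw [hu, mul_assoc, hgg, mul_one]
  have hu0 : (der h f * f').co 0 = 0 := co_der_mul_zero ht hht h f f'
  set u := der h f * f' with hudef
  have key : ∀ n : ℕ, ∀ d, ht d = n → f.co d = g.co d := by
    intro n
    induction n using Nat.strong_induction_on with
    | _ n ih =>
      intro d hd
      by_cases hd0 : d = 0
      · rw [hd0]; exact h0
      by_contra hne
      apply hne
      apply hreg d hd0 hne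
      have e1 : h d * f.co d = (u * f).co d := by rw [← hf]; rfl
      have e2 : h d * g.co d = (u * g).co d := by rw [← hg]; rfl
      show h d * f.co d = h d * g.co d
      rw [e1, e2, co_mul, co_mul]
      refine Finset.sum_congr rfl ?_
      rintro ⟨a, b⟩ hp
      rw [HasAntidiagonal.mem_antidiagonal] at hp
      simp only at hp ⊢
      by_cases ha : ht a = 0
      · rw [hht a ha, hu0]; ring
      · have hb : ht b < n := by
          have : ht a + ht b = n := by rw [← map_add, hp, hd]
          omega
        rw [ih _ hb b rfl]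
  ext d
  exact key _ d rfl

/-- inverses agree as far as the series agree. -/
theorem inv_co_eq (ht : M →+ ℕ) (n : ℕ)
    {a a' b b' : TPS T} (haa : a' * a = 1) (hbb : b * b' = 1)
    (hab : ∀ e, ht e ≤ n → a.co e = b.co e) : ∀ e, ht e ≤ n → a'.co e = b'.co e := by
  intro e he
  have h1 : a' - b' = a' * ((b - a) * b') := by
    rw [sub_mul, mul_sub, hbb, mul_one, ← mul_assoc, haa, one_mul]
  have h2 : (a' - b').co e = 0 := by
    rw [h1, co_mul]
    apply Finset.sum_eq_zero
    rintro ⟨c, d⟩ hp
    rw [HasAntidiagonal.mem_antidiagonal] at hp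
    simp only at hp ⊢
    have hcd : ht c + ht d = ht e := by rw [← map_add, hp]
    have h3 : ((b - a) * b').co d = 0 := by
      rw [co_mul]
      apply Finset.sum_eq_zero
      rintro ⟨c', d'⟩ hp'
      rw [HasAntidiagonal.mem_antidiagonal] at hp'
      simp only at hp' ⊢
      have hcd' : ht c' + ht d' = ht d := by rw [← map_add, hp']
      rw [co_sub, hab c' (by omega), sub_self]
      ring
    rw [h3]; ring
  rw [co_sub] at h2
  exact sub_eq_zero.mp h2

/-- **(TR6')** `lam_d` only depends on the coefficients of height `≤ ht d`, and changing the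
coefficient at `d` (keeping everything of smaller height) changes `lam_d` by `h d` times the
change. -/
theorem lam_sub_lam (ht : M →+ ℕ) (hht : ∀ d, ht d = 0 → d = 0) (h : M →+ R) {d : M}
    (hd : d ≠ 0)
    {a a' b b' : TPS T} (h0 : a.co 0 = 1) (haa : a' * a = 1) (haa2 : a * a' = 1)
    (hbb : b * b' = 1)
    (hab : ∀ e, ht e < ht d → a.co e = b.co e) :
    lam h d a a' - lam h d b b' = h d * (a.co d - b.co d) := by
  have hpos : 0 < ht d := Nat.pos_of_ne_zero (fun h1 => hd (hht d h1))
  have hinv : ∀ e, ht e < ht d → a'.co e = b'.co e := by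
    intro e he
    refine inv_co_eq ht (ht d - 1) haa hbb (fun e' he' => hab e' (by omega)) e (by omega)
  have h0' : a'.co 0 = 1 := by
    have h1 : (a * a').co 0 = a.co 0 * a'.co 0 := co_mul_zero (fun x y hxy => by
      have h2 : ht x + ht y = 0 := by rw [← map_add, hxy, map_zero]
      exact ⟨hht x (by omega), hht y (by omega)⟩) a a'
    rw [haa2, co_one_zero, h0, one_mul] at h1
    exact h1.symm
  rw [lam, lam, co_mul, co_mul, ← Finset.sum_sub_distrib, Finset.sum_eq_single (d, 0)]
  · simp only [co_der, wt_zero_right]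
    have h3 : b'.co 0 = 1 := by rw [← hinv 0 (by rw [map_zero]; exact hpos), h0']
    rw [h0', h3]
    ring
  · rintro ⟨x, y⟩ hp hne
    rw [HasAntidiagonal.mem_antidiagonal] at hp
    simp only at hp ⊢
    have hxy : ht x + ht y = ht d := by rw [← map_add, hp]
    have hy : ht y ≠ 0 := by
      intro hy0
      apply hne
      have h4 := hht y hy0
      rw [h4, add_zero] at hp
      rw [hp, h4]
    by_cases hx : ht x = 0
    · rw [hht x hx, co_der_zero, co_der_zero]; ring
    · rw [co_der, co_der, hab x (by omega), hinv y (by omega)]; ring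
  · intro h4
    exact absurd (by simp [HasAntidiagonal.mem_antidiagonal]) h4

end trace

end Crest.Agent.R059.Tr201
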