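import Crest.Agent.R059.Fac_150
import Crest.Agent.R059.Tr_201

set_option autoImplicit false
set_option linter.unusedSectionVars false

/-!
Row 59 (S0081), leaf ATT: attractor data `dat h a d = lam h d (zer (T.β d) a)`; existence and
uniqueness of the series with prescribed attractor data; independence of the perturbation;
restriction to a face; supports.
The form `T.β` is skew (`hs`), the attractor functional of `d` is `T.β d`.
-/

namespace Crest.Agent.R059.Att201

open Finset TPS Tr201

section general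

variable {M : Type*} [AddCommMonoid M] [PartialOrder M] [IsOrderedCancelAddMonoid M]
  [CanonicallyOrderedAdd M] [WellFoundedLT M] [HasAntidiagonal M]
variable {R : Type*} [CommRing R] {T : Tw M R}
variable {V : Type*} [AddCommGroup V] [LinearOrder V] [IsOrderedAddMonoid V]
variable {W : Type*} [AddCommGroup W] [LinearOrder W] [IsOrderedAddMonoid W]

/-- logarithmic derivative of a series with constant term `1` (inverse of `Fac_150`). -/
noncomputable def lamI (h : M →+ R) (d : M) (a : TPS T) : R := lam h d a (inv a)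

/-- the attractor datum of `a` in degree `d`. -/
noncomputable def dat (h : M →+ R) (a : TPS T) (d : M) : R := lamI h d (zer (T.β d) a)

theorem lamI_one (h : M →+ R) (d : M) : lamI h d (1 : TPS T) = 0 := by
  rw [lamI, TPS.inv_one, lam_one]

/-! ### locality -/

theorem lamI_congr_le (h : M →+ R) {d : M} {a b : TPS T} (hab : ∀ e ≤ d, a.co e = b.co e) :
    lamI h d a = lamI h d b := by
  refine co_mul_congr_le d (fun e he => ?_) (fun e he => ?_)
  · rw [co_der, co_der, hab e he]
  · exact co_inv_congr_le e (fun c hc => hab c (hc.trans he))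

theorem lamI_sub (h : M →+ R) {d : M} {a b : TPS T}
    (hab : ∀ e < d, a.co e = b.co e) :
    lamI h d a - lamI h d b = h d * (a.co d - b.co d) := by
  rw [lamI, lamI, lam, lam, co_mul, co_mul, ← Finset.sum_sub_distrib,
    Finset.sum_eq_single (d, 0)]
  · simp only [co_der, wt_zero_right, TPS.inv_zero]
    ring
  · rintro ⟨x, y⟩ hp hne
    by_cases hx : x = 0
    · subst hx
      simp only [co_der_zero]; ring
    · have hy : y ≠ 0 := by
        intro hy
        rw [HasAntidiagonal.mem_antidiagonal] at hp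
        simp only at hp
        apply hne
        rw [hy, add_zero] at hp
        rw [hp, hy]
      have h1 : x < d := fst_lt_of_mem hp hy
      have h2 : y < d := snd_lt_of_mem hp hx
      simp only [co_der]
      rw [hab x h1, co_inv_congr_le y (fun e he => hab e (he.trans_lt h2))]
      ring
  · intro h4
    exact absurd (by simp [HasAntidiagonal.mem_antidiagonal]) h4

theorem unk_congr_le {P : M → Prop} {a b : TPS T} (d : M) (hab : ∀ e ≤ d, a.co e = b.co e) :
    unk P a d = unk P b d := by
  classical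
  induction d using WellFoundedLT.induction with
  | ind d ih =>
    rw [unk_eq, unk_eq, hab d le_rfl]
    congr 1
    apply Finset.sum_congr rfl
    intro p hp
    by_cases hh : p.1 ≠ 0 ∧ p.2 ≠ 0
    · rw [if_pos hh, if_pos hh]
      have h1 := fst_lt_of_mem hp hh.2
      have h2 := snd_lt_of_mem hp hh.1
      rw [ih p.1 h1 (fun e he => hab e (he.trans h1.le)),
        ih p.2 h2 (fun e he => hab e (he.trans h2.le))]
    · rw [if_neg hh, if_neg hh]

theorem unk_sub {P : M → Prop} {a b : TPS T} (d : M) (hab : ∀ e < d, a.co e = b.co e) :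
    unk P a d - unk P b d = a.co d - b.co d := by
  classical
  rw [unk_eq, unk_eq]
  have : (∑ p ∈ HasAntidiagonal.antidiagonal d,
      if p.1 ≠ 0 ∧ p.2 ≠ 0 then
        wt T p.1 p.2 * ((if P p.1 then unk P a p.1 else 0) *
          (if P p.2 then 0 else unk P a p.2)) else 0) =
      ∑ p ∈ HasAntidiagonal.antidiagonal d,
      if p.1 ≠ 0 ∧ p.2 ≠ 0 then
        wt T p.1 p.2 * ((if P p.1 then unk P b p.1 else 0) *
          (if P p.2 then 0 else unk P b p.2)) else 0 := by
    apply Finset.sum_congr rfl
    intro p hp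
    by_cases hh : p.1 ≠ 0 ∧ p.2 ≠ 0
    · rw [if_pos hh, if_pos hh]
      have h1 := fst_lt_of_mem hp hh.2
      have h2 := snd_lt_of_mem hp hh.1
      rw [unk_congr_le p.1 (fun e he => hab e (he.trans_lt h1)),
        unk_congr_le p.2 (fun e he => hab e (he.trans_lt h2))]
    · rw [if_neg hh, if_neg hh]
  rw [this]; ring

theorem rgt_sub {P : M → Prop} {a b : TPS T} {d : M} (hd : d ≠ 0) (hP : ¬ P d)
    (hab : ∀ e < d, a.co e = b.co e) :
    (rgt P a).co d - (rgt P b).co d = a.co d - b.co d := by
  simp only [rgt, if_neg hd, if_neg hP]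
  exact unk_sub d hab

theorem lft_sub {P : M → Prop} {a b : TPS T} {d : M} (hd : d ≠ 0) (hP : P d)
    (hab : ∀ e < d, a.co e = b.co e) :
    (lft P a).co d - (lft P b).co d = a.co d - b.co d := by
  simp only [lft, if_neg hd, if_pos hP]
  exact unk_sub d hab

/-- changing `a` in degree `d` changes `zer x a` in degree `d` by the same amount. -/
theorem zer_sub (x : M →+ V) {a b : TPS T} {d : M} (hd : d ≠ 0) (hx : x d = 0)
    (ha : a.co 0 = 1) (hab : ∀ e < d, a.co e = b.co e) :
    (zer x a).co d - (zer x b).co d = a.co d - b.co d := by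
  have h1 : ∀ e < d, (npos x a).co e = (npos x b).co e := fun e he =>
    (pos_congr x x ha e (fun c hc => hab c (hc.trans_lt he)) (fun _ _ => Iff.rfl)).2
  rw [zer, zer, lft_sub hd hx h1, npos, npos, rgt_sub hd (by rw [hx]; exact lt_irrefl _) hab]

theorem zer_congr_lt (x : M →+ V) {a b : TPS T} (ha : a.co 0 = 1) (d : M)
    (hab : ∀ e ≤ d, a.co e = b.co e) : (zer x a).co d = (zer x b).co d :=
  (zer_congr x x ha d hab (fun _ _ => Iff.rfl) (fun _ _ => Iff.rfl)).1

theorem dat_congr_le (h : M →+ R) {a b : TPS T} (ha : a.co 0 = 1) {d : M}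
    (hab : ∀ e ≤ d, a.co e = b.co e) : dat h a d = dat h b d :=
  lamI_congr_le h (fun e he => zer_congr_lt _ ha e (fun c hc => hab c (hc.trans he)))

theorem beta_self (hs : ∀ a b, T.β a b = - T.β b a) (d : M) : T.β d d = 0 := by
  have := hs d d
  omega

/-- **(AT0)** changing `a` in degree `d` changes the datum in degree `d` by `h d` times the
change. -/
theorem dat_sub (hs : ∀ a b, T.β a b = - T.β b a) (h : M →+ R) {a b : TPS T}
    (ha : a.co 0 = 1) {d : M} (hd : d ≠ 0) (hab : ∀ e < d, a.co e = b.co e) :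
    dat h a d - dat h b d = h d * (a.co d - b.co d) := by
  rw [dat, dat, lamI_sub h, zer_sub _ hd (beta_self hs d) ha hab]
  intro e he
  exact zer_congr_lt _ ha e (fun c hc => hab c (hc.trans_lt he))

/-! ### uniqueness -/

/-- **(AT1) uniqueness, local form.** -/
theorem eq_of_dat_le (hs : ∀ a b, T.β a b = - T.β b a) (h : M →+ R) {a b : TPS T}
    (ha : a.co 0 = 1) (hb : b.co 0 = 1) (d : M)
    (hreg : ∀ e ≤ d, e ≠ 0 → IsLeftRegular (h e))
    (hdat : ∀ e ≤ d, e ≠ 0 → dat h a e = dat h b e) : a.co d = b.co d := by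
  induction d using WellFoundedLT.induction with
  | ind d ih =>
    by_cases hd : d = 0
    · rw [hd, ha, hb]
    · have h1 := dat_sub hs h ha hd (b := b) (fun e he =>
        ih e he (fun c hc => hreg c (hc.trans he.le)) (fun c hc => hdat c (hc.trans he.le)))
      rw [hdat d le_rfl hd, sub_self] at h1
      have h2 : h d * (a.co d - b.co d) = h d * 0 := by rw [← h1, mul_zero]
      have h3 := hreg d le_rfl hd h2
      exact sub_eq_zero.1 h3

/-- **(AT1) uniqueness.** -/
theorem eq_of_dat (hs : ∀ a b, T.β a b = - T.β b a) (h : M →+ R) {a b : TPS T}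
    (ha : a.co 0 = 1) (hb : b.co 0 = 1) (hreg : ∀ e, e ≠ 0 → IsLeftRegular (h e))
    (hdat : ∀ e, e ≠ 0 → dat h a e = dat h b e) : a = b :=
  TPS.ext (funext fun d => eq_of_dat_le hs h ha hb d (fun e _ => hreg e) (fun e _ => hdat e))

/-! ### existence -/

open Classical in
/-- the series with prescribed lower coefficients. -/
noncomputable def below (d : M) (rec : ∀ e, e < d → R) : TPS T :=
  ⟨fun e => if e = 0 then 1 else if he : e < d then rec e he else 0⟩

open Classical in
/-- coefficients of the series with attractor data `c`. -/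
noncomputable def attrCo (T : Tw M R) (h : M →+ R) (c : M → R) : M → R :=
  WellFounded.fix (wellFounded_lt : WellFounded ((· < ·) : M → M → Prop))
    fun d rec => if d = 0 then 1 else
      Ring.inverse (h d) * (c d - dat h (below (T := T) d rec) d)

/-- **the series with attractor data `c`.** -/
noncomputable def attr (T : Tw M R) (h : M →+ R) (c : M → R) : TPS T := ⟨attrCo T h c⟩

open Classical in
theorem attrCo_eq (h : M →+ R) (c : M → R) (d : M) :
    attrCo T h c d = if d = 0 then 1 else
      Ring.inverse (h d) * (c d - dat h (below (T := T) d (fun e _ => attrCo T h c e)) d) := by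
  unfold attrCo
  rw [WellFounded.fix_eq]

theorem attr_zero (h : M →+ R) (c : M → R) : (attr T h c).co 0 = 1 := by
  change attrCo T h c 0 = 1
  rw [attrCo_eq, if_pos rfl]

/-- **(AT1) existence.** -/
theorem dat_attr (hs : ∀ a b, T.β a b = - T.β b a) (h : M →+ R) (c : M → R) {d : M}
    (hd : d ≠ 0) (hu : IsUnit (h d)) : dat h (attr T h c) d = c d := by
  classical
  set b : TPS T := below d (fun e _ => attrCo T h c e) with hb
  have hb0 : b.co 0 = 1 := by simp [hb, below]
  have hbd : b.co d = 0 := by simp [hb, below, hd]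
  have hab : ∀ e < d, (attr T h c).co e = b.co e := by
    intro e he
    by_cases h0 : e = 0
    · rw [h0, attr_zero, hb0]
    · simp [hb, below, h0, he, attr]
  have h1 := dat_sub hs h (attr_zero h c) hd hab
  have h2 : (attr T h c).co d = Ring.inverse (h d) * (c d - dat h b d) := by
    change attrCo T h c d = _
    rw [attrCo_eq, if_neg hd]
  rw [hbd, sub_zero, h2, ← mul_assoc, Ring.mul_inverse_cancel _ hu, one_mul] at h1
  have h3 := sub_eq_iff_eq_add.1 h1
  rw [h3]; ring

theorem attr_unique (hs : ∀ a b, T.β a b = - T.β b a) (h : M →+ R)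
    (hu : ∀ d : M, d ≠ 0 → IsUnit (h d)) {c : M → R} {a : TPS T} (ha : a.co 0 = 1)
    (hdat : ∀ d, d ≠ 0 → dat h a d = c d) : a = attr T h c :=
  eq_of_dat hs h ha (attr_zero h c) (fun e he => (hu e he).isRegular.left)
    (fun e he => by rw [hdat e he, dat_attr hs h c he (hu e he)])

theorem existsUnique_attr (hs : ∀ a b, T.β a b = - T.β b a) (h : M →+ R)
    (hu : ∀ d : M, d ≠ 0 → IsUnit (h d)) (c : M → R) :
    ∃! a : TPS T, a.co 0 = 1 ∧ ∀ d, d ≠ 0 → dat h a d = c d :=
  ⟨attr T h c, ⟨attr_zero h c, fun d hd => dat_attr hs h c hd (hu d hd)⟩,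
    fun _ ha => attr_unique hs h hu ha.1 ha.2⟩

/-! ### additivity and independence of the perturbation -/

theorem suppIn_of_in1 {S : AddSubmonoid M} {a : TPS T} (h : In1 (fun d => d ∈ S) a) :
    SuppIn S a := fun d hd => by
  rcases h.eq_zero_or hd with h1 | h1
  · rw [h1]; exact S.zero_mem
  · exact h1

theorem suppOn_of_in1 {P : M → Prop} {a : TPS T} (h : In1 P a) : Tr201.SuppOn P a :=
  fun _ hd => h.eq_zero_or hd

theorem comKer_iff (hs : ∀ a b, T.β a b = - T.β b a) (d a : M) :
    a ∈ comKer T d ↔ T.β d a = 0 := by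
  rw [mem_comKer, com_apply, hs a d]
  omega

theorem lamI_mul (h : M →+ R) {d : M} {a b : TPS T} (ha : In1 (fun e => e ∈ comKer T d) a)
    (hb : b.co 0 = 1) : lamI h d (a * b) = lamI h d a + lamI h d b := by
  rw [lamI, inv_mul_rev ha.one hb]
  exact lam_mul h (suppIn_of_in1 ha) (inv_mul ha.one) (mul_inv hb)

theorem lamI_inv (h : M →+ R) {d : M} {a : TPS T} (ha : In1 (fun e => e ∈ comKer T d) a) :
    lamI h d (inv a) = - lamI h d a := by
  rw [lamI, inv_inv ha.one]
  exact lam_inv h (suppIn_of_in1 ha) (mul_inv ha.one) (inv_mul ha.one)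

theorem lamI_pos (x : M →+ V) (h : M →+ R) {d : M} (hd : x d = 0) {a : TPS T}
    (ha : In1 (fun e => 0 < x e) a) : lamI h d a = 0 :=
  Tr201.lam_pos x h hd (suppOn_of_in1 ha) (suppOn_of_in1 (ha.inv (closed_pos x)))

theorem lamI_neg (x : M →+ V) (h : M →+ R) {d : M} (hd : x d = 0) {a : TPS T}
    (ha : In1 (fun e => x e < 0) a) : lamI h d a = 0 :=
  Tr201.lam_neg x h hd (suppOn_of_in1 ha) (suppOn_of_in1 (ha.inv (closed_neg x)))

/-- **(AT2), core**: for a series supported on `ker (com d)` taking the zero part with respect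
to `x`, `x d = 0`, does not change `lamI`. -/
theorem lamI_zer (x : M →+ V) (h : M →+ R) {d : M} (hd : x d = 0) {a : TPS T}
    (ha : In1 (fun e => e ∈ comKer T d) a) : lamI h d (zer x a) = lamI h d a := by
  have hadd : ∀ e f, e ∈ comKer T d → f ∈ comKer T d → e + f ∈ comKer T d :=
    fun e f he hf => (comKer T d).add_mem he hf
  have hp : In1 (fun e => e ∈ comKer T d) (pos x a) :=
    (ha.pos hadd x).mono (fun _ _ h => h.2)
  have hz : In1 (fun e => e ∈ comKer T d) (zer x a) :=
    (ha.zer hadd x).mono (fun _ _ h => h.2)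
  conv_rhs => rw [← pos_mul_zer_mul_neg x ha.one]
  rw [lamI_mul h (hp.mul hadd hz) (neg_co_zero _ _), lamI_mul h hp (zer_co_zero _ _),
    lamI_pos x h hd (in1_pos x a), lamI_neg x h hd (in1_neg x a), zero_add, add_zero]

theorem in1_zer_comKer (hs : ∀ a b, T.β a b = - T.β b a) (a : TPS T) (d : M) :
    In1 (fun e => e ∈ comKer T d) (zer (T.β d) a) :=
  (in1_zer (T.β d) a).mono (fun e _ he => (comKer_iff hs d e).2 he)

/-- **(AT2)** -/
theorem lamI_zer_zer (hs : ∀ a b, T.β a b = - T.β b a) (x : M →+ V) (h : M →+ R) {d : M}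
    (hd : x d = 0) (a : TPS T) : lamI h d (zer x (zer (T.β d) a)) = dat h a d :=
  lamI_zer x h hd (in1_zer_comKer hs a d)

/-- **(AT2), chamber form**: `x'` has on the classes `≤ d` the signs of the lexicographic pair
`(y, x)`, where `y` has the zeros and signs of `T.β d`; then `lamI` of the zero part along `x'`
is the attractor datum. -/
theorem lamI_zer_chamber {V' : Type*} [AddCommGroup V'] [LinearOrder V'] [IsOrderedAddMonoid V']
    (hs : ∀ a b, T.β a b = - T.β b a) (x : M →+ V) (x' : M →+ V') (h : M →+ R) {d : M}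
    (hd : x d = 0) {a : TPS T} (ha : a.co 0 = 1)
    (hp : ∀ e ≤ d, (0 < x' e ↔ 0 < T.β d e ∨ (T.β d e = 0 ∧ 0 < x e)))
    (hz : ∀ e ≤ d, (x' e = 0 ↔ T.β d e = 0 ∧ x e = 0)) :
    lamI h d (zer x' a) = dat h a d := by
  rw [← lamI_zer_zer hs x h hd a]
  refine lamI_congr_le h (fun e he => ?_)
  exact (parts_refine (T.β d) x x' ha e (fun c hc => hp c (hc.trans he))
    (fun c hc => hz c (hc.trans he))).2.1

/-- the same for the classes `k • d`: only the signs of `T.β d` are used. -/
theorem lamI_zer_chamber_nsmul {V' : Type*} [AddCommGroup V'] [LinearOrder V']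
    [IsOrderedAddMonoid V']
    (hs : ∀ a b, T.β a b = - T.β b a) (x : M →+ V) (x' : M →+ V') (h : M →+ R) {d : M}
    (hd : x d = 0) {k : ℕ} (hk : 0 < k) {a : TPS T} (ha : a.co 0 = 1)
    (hp : ∀ e ≤ k • d, (0 < x' e ↔ 0 < T.β d e ∨ (T.β d e = 0 ∧ 0 < x e)))
    (hz : ∀ e ≤ k • d, (x' e = 0 ↔ T.β d e = 0 ∧ x e = 0)) :
    lamI h (k • d) (zer x' a) = dat h a (k • d) := by
  have e1 : ∀ e, T.β (k • d) e = k * T.β d e := by intro e; rw [map_nsmul]; simp
  have hk' : (0 : ℤ) < k := by exact_mod_cast hk
  refine lamI_zer_chamber hs x x' h (by rw [map_nsmul, hd, smul_zero]) ha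
    (fun e he => ?_) (fun e he => ?_)
  · rw [hp e he, e1, mul_pos_iff_of_pos_left hk', mul_eq_zero]
    simp only [hk'.ne', false_or]
  · rw [hz e he, e1, mul_eq_zero]
    simp only [hk'.ne', false_or]

/-! ### supports -/

open Classical in
/-- the coefficients outside `S` are set to `0`. -/
noncomputable def restr (S : M → Prop) (a : TPS T) : TPS T := ⟨fun d => if S d then a.co d else 0⟩

theorem restr_of {S : M → Prop} {a : TPS T} {d : M} (h : S d) : (restr S a).co d = a.co d := by
  simp [restr, h]

theorem restr_of_not {S : M → Prop} {a : TPS T} {d : M} (h : ¬ S d) :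
    (restr S a).co d = 0 := by
  simp [restr, h]

theorem in1_restr {S : M → Prop} {a : TPS T} (h0 : S 0) (ha : a.co 0 = 1) :
    In1 S (restr S a) :=
  ⟨by rw [restr_of h0, ha], fun _ _ h => restr_of_not h⟩

theorem lamI_eq_zero_of_in1 {S : M → Prop} (h0 : S 0) (hadd : ∀ a b, S a → S b → S (a + b))
    (h : M →+ R) {d : M} (hd : ¬ S d) {a : TPS T} (ha : In1 S a) : lamI h d a = 0 := by
  have h1 := ha.inv hadd
  rw [lamI, lam, co_mul]
  apply Finset.sum_eq_zero
  rintro ⟨x, y⟩ hp
  rw [HasAntidiagonal.mem_antidiagonal] at hp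
  simp only at hp ⊢
  by_contra hne
  have h2 : a.co x ≠ 0 := by intro h0; apply hne; rw [co_der, h0]; ring
  have h3 : (inv a).co y ≠ 0 := by intro h0; apply hne; rw [h0]; ring
  apply hd
  rw [← hp]
  refine hadd x y ?_ ?_
  · rcases ha.eq_zero_or h2 with h4 | h4
    · rw [h4]; exact h0
    · exact h4
  · rcases h1.eq_zero_or h3 with h4 | h4
    · rw [h4]; exact h0
    · exact h4

/-- **(AT5)** if the attractor data are supported on a submonoid, so is the series. -/
theorem in1_of_dat (hs : ∀ a b, T.β a b = - T.β b a) (h : M →+ R)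
    (hreg : ∀ e : M, e ≠ 0 → IsLeftRegular (h e)) {S : M → Prop} (h0 : S 0)
    (hadd : ∀ a b, S a → S b → S (a + b)) {a : TPS T} (ha : a.co 0 = 1)
    (hdat : ∀ d, d ≠ 0 → ¬ S d → dat h a d = 0) : In1 S a := by
  refine ⟨ha, fun d => ?_⟩
  induction d using WellFoundedLT.induction with
  | ind d ih =>
    intro hd hS
    have hb : In1 S (restr S a) := in1_restr h0 ha
    have hab : ∀ e < d, a.co e = (restr S a).co e := by
      intro e he
      by_cases hSe : S e
      · rw [restr_of hSe]
      · have he0 : e ≠ 0 := fun h => hSe (h ▸ h0)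
        rw [restr_of_not hSe, ih e he he0 hSe]
    have h1 := dat_sub hs h ha hd hab
    have h2 : dat h (restr S a) d = 0 :=
      lamI_eq_zero_of_in1 h0 hadd h hS
        ((hb.zer hadd (T.β d)).mono (fun _ _ h => h.2))
    rw [hdat d hd hS, h2, restr_of_not hS, sub_zero, sub_zero] at h1
    have h3 : h d * a.co d = h d * 0 := by rw [← h1, mul_zero]
    exact hreg d hd h3

/-! ### restriction to a face -/

/-- a face: additively closed, and summands of elements of the face are in the face. -/
structure IsFace (S : M → Prop) : Prop where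
  zero : S 0
  add : ∀ a b, S a → S b → S (a + b)
  left : ∀ a b, S (a + b) → S a
  right : ∀ a b, S (a + b) → S b

theorem restr_mul {S : M → Prop} (hS : IsFace S) (a b : TPS T) :
    restr S (a * b) = restr S a * restr S b := by
  ext d
  by_cases hd : S d
  · rw [restr_of hd, co_mul, co_mul]
    apply Finset.sum_congr rfl
    intro p hp
    rw [HasAntidiagonal.mem_antidiagonal] at hp
    rw [restr_of (hS.left p.1 p.2 (hp ▸ hd)), restr_of (hS.right p.1 p.2 (hp ▸ hd))]
  · rw [restr_of_not hd, co_mul]
    symm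
    apply Finset.sum_eq_zero
    intro p hp
    rw [HasAntidiagonal.mem_antidiagonal] at hp
    by_cases h1 : S p.1
    · have h2 : ¬ S p.2 := fun h2 => hd (hp ▸ hS.add _ _ h1 h2)
      rw [restr_of_not h2]; ring
    · rw [restr_of_not h1]; ring

theorem restr_one {S : M → Prop} (hS : IsFace S) : restr S (1 : TPS T) = 1 := by
  ext d
  by_cases hd : S d
  · rw [restr_of hd]
  · rw [restr_of_not hd, co_one_ne]
    intro h; exact hd (h ▸ hS.zero)

theorem restr_co_zero {S : M → Prop} (hS : IsFace S) (a : TPS T) :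
    (restr S a).co 0 = a.co 0 := restr_of hS.zero

theorem restr_inv {S : M → Prop} (hS : IsFace S) {a : TPS T} (ha : a.co 0 = 1) :
    restr S (inv a) = inv (restr S a) := by
  symm
  apply inv_eq_of_mul (by rw [restr_co_zero hS, ha])
  rw [← restr_mul hS, mul_inv ha, restr_one hS]

theorem restr_der (S : M → Prop) (h : M →+ R) (a : TPS T) :
    restr S (der h a) = der h (restr S a) := by
  ext d
  by_cases hd : S d
  · rw [restr_of hd, co_der, co_der, restr_of hd]
  · rw [restr_of_not hd, co_der, restr_of_not hd, mul_zero]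

/-- restriction of a series in `1 + P`. -/
theorem In1.restr' {S P : M → Prop} (hS : IsFace S) {a : TPS T} (ha : In1 P a) :
    In1 P (restr S a) := by
  refine ⟨by rw [restr_co_zero hS, ha.one], fun d hd hP => ?_⟩
  by_cases h : S d
  · rw [restr_of h, ha.supp d hd hP]
  · rw [restr_of_not h]

theorem restr_parts {S : M → Prop} (hS : IsFace S) (x : M →+ V) {a : TPS T} (ha : a.co 0 = 1) :
    restr S (pos x a) = pos x (restr S a) ∧ restr S (zer x a) = zer x (restr S a) ∧
      restr S (neg x a) = neg x (restr S a) := by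
  have h := pzn_unique' x (In1.restr' hS (in1_pos x a)) (In1.restr' hS (in1_zer x a))
    (In1.restr' hS (in1_neg x a)) (a := restr S a)
    (by rw [← restr_mul hS, ← restr_mul hS, pos_mul_zer_mul_neg x ha])
  exact ⟨h.1.symm, h.2.1.symm, h.2.2.symm⟩

theorem restr_pos {S : M → Prop} (hS : IsFace S) (x : M →+ V) {a : TPS T} (ha : a.co 0 = 1) :
    restr S (pos x a) = pos x (restr S a) := (restr_parts hS x ha).1

theorem restr_zer {S : M → Prop} (hS : IsFace S) (x : M →+ V) {a : TPS T} (ha : a.co 0 = 1) :
    restr S (zer x a) = zer x (restr S a) := (restr_parts hS x ha).2.1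

theorem restr_neg {S : M → Prop} (hS : IsFace S) (x : M →+ V) {a : TPS T} (ha : a.co 0 = 1) :
    restr S (neg x a) = neg x (restr S a) := (restr_parts hS x ha).2.2

theorem lamI_restr {S : M → Prop} (hS : IsFace S) (h : M →+ R) {a : TPS T} (ha : a.co 0 = 1)
    {d : M} (hd : S d) : lamI h d (restr S a) = lamI h d a := by
  rw [lamI, lam, ← restr_inv hS ha, ← restr_der, ← restr_mul hS, restr_of hd]
  rfl

/-- **(AT4)** attractor data of the restriction to a face. -/
theorem dat_restr {S : M → Prop} (hS : IsFace S) (h : M →+ R) {a : TPS T} (ha : a.co 0 = 1)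
    {d : M} (hd : S d) : dat h (restr S a) d = dat h a d := by
  rw [dat, ← restr_zer hS _ ha, lamI_restr hS h (zer_co_zero _ _) hd, dat]

theorem dat_restr_of_not {S : M → Prop} (hS : IsFace S) (h : M →+ R) {a : TPS T}
    (ha : a.co 0 = 1) {d : M} (hd : ¬ S d) : dat h (restr S a) d = 0 :=
  lamI_eq_zero_of_in1 hS.zero hS.add h hd
    (((in1_restr hS.zero ha).zer hS.add (T.β d)).mono (fun _ _ h => h.2))

theorem restr_attr (hs : ∀ a b, T.β a b = - T.β b a) {S : M → Prop} (hS : IsFace S)
    (h : M →+ R) (hu : ∀ d : M, d ≠ 0 → IsUnit (h d)) (c : M → R) :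
    restr S (attr T h c) = attr T h (open Classical in fun d => if S d then c d else 0) := by
  classical
  apply attr_unique hs h hu (by rw [restr_co_zero hS, attr_zero])
  intro d hd
  by_cases hSd : S d
  · rw [dat_restr hS h (attr_zero h c) hSd, dat_attr hs h c hd (hu d hd)]
    simp [hSd]
  · rw [dat_restr_of_not hS h (attr_zero h c) hSd]
    simp [hSd]

/-- the zero set of a nonnegative functional is a face. -/
theorem isFace_of_nonneg (x : M →+ V) (hx : ∀ d, 0 ≤ x d) : IsFace (fun d => x d = 0) where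
  zero := map_zero x
  add := fun a b ha hb => by rw [map_add, ha, hb, add_zero]
  left := fun a b h => by
    rw [map_add] at h
    exact ((add_eq_zero_iff_of_nonneg (hx a) (hx b)).1 h).1
  right := fun a b h => by
    rw [map_add] at h
    exact ((add_eq_zero_iff_of_nonneg (hx a) (hx b)).1 h).2

/-- if `x ≥ 0` everywhere, the zero part is the restriction to the face `x = 0`. -/
theorem zer_of_nonneg (x : M →+ V) (hx : ∀ d, 0 ≤ x d) {a : TPS T} (ha : a.co 0 = 1) :
    zer x a = restr (fun d => x d = 0) a := by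
  have hS := isFace_of_nonneg x hx
  have r1 : ∀ (b : TPS T) (d : M), x d = 0 → (restr (fun d => x d = 0) b).co d = b.co d :=
    fun b d hd => restr_of (S := fun d => x d = 0) hd
  have r2 : ∀ (b : TPS T) (d : M), ¬ x d = 0 → (restr (fun d => x d = 0) b).co d = 0 :=
    fun b d hd => restr_of_not (S := fun d => x d = 0) hd
  have hp : restr (fun d => x d = 0) (pos x a) = 1 := by
    ext d
    by_cases hd : d = 0
    · rw [hd, r1 _ _ (map_zero x), pos_co_zero, co_one_zero]
    · rw [co_one_ne hd]
      by_cases hxd : x d = 0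
      · rw [r1 _ _ hxd, (in1_pos x a).supp d hd (by rw [hxd]; exact lt_irrefl _)]
      · rw [r2 _ _ hxd]
  have hn : neg x a = 1 := by
    ext d
    by_cases hd : d = 0
    · rw [hd, neg_co_zero, co_one_zero]
    · rw [co_one_ne hd, (in1_neg x a).supp d hd (not_lt.2 (hx d))]
  have hz : restr (fun d => x d = 0) (zer x a) = zer x a := by
    ext d
    by_cases hxd : x d = 0
    · rw [r1 _ _ hxd]
    · have hd : d ≠ 0 := fun h => hxd (by rw [h, map_zero])
      rw [r2 _ _ hxd, (in1_zer x a).supp d hd hxd]
  calc zer x a = restr (fun d => x d = 0) (pos x a * zer x a * neg x a) := by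
        rw [hn, mul_one, restr_mul hS, hp, one_mul, hz]
    _ = restr (fun d => x d = 0) a := by rw [pos_mul_zer_mul_neg x ha]

end general

end Crest.Agent.R059.Att201
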