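import Mathlib

/-!
Row 59, TEAM THIN, leaf T7 (helper537): representative labellings of `Σ i, Fin (d i)` by consecutive
blocks, block permutations and their signs.
-/

set_option autoImplicit false

namespace Crest.Agent.R059.BlkSign537

open Equiv Equiv.Perm Finset

/-! ### Sign of a permutation which is increasing on the blocks -/

theorem sign_blocks {n : ℕ} {β : Type*} [Fintype β] [LinearOrder β] (b : Fin n → β)
    (hb : Monotone b) (g : Perm (Fin n)) (τ : Perm β) (hg : Monotone fun x => τ (b (g.symm x)))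
    (hs : ∀ x y, b x = b y → x < y → g x < g y) :
    sign g = ∏ u : β, ∏ v : β, if u < v ∧ τ v < τ u then
      (-1 : ℤˣ) ^ (#{x | b x = u} * #{x | b x = v}) else 1 := by
  classical
  rw [sign_eq_prod_prod_Iio]
  have h1 : ∀ x y, x < y → ((if g x < g y then (1 : ℤˣ) else -1) =
      if b x < b y ∧ τ (b y) < τ (b x) then -1 else 1) := by
    intro x y hxy
    rcases (hb hxy.le).lt_or_eq with h | h
    · have hne : τ (b x) ≠ τ (b y) := fun e => h.ne (τ.injective e)
      by_cases hgl : g x < g y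
      · have := hg hgl.le
        simp only [symm_apply_apply] at this
        rw [if_pos hgl, if_neg]
        rintro ⟨-, h2⟩
        exact absurd (this.trans_lt h2) (lt_irrefl _)
      · have hle : g y ≤ g x := not_lt.1 hgl
        have := hg hle
        simp only [symm_apply_apply] at this
        rw [if_neg hgl, if_pos ⟨h, lt_of_le_of_ne this hne.symm⟩]
    · rw [if_pos (hs x y h hxy), if_neg]
      rintro ⟨h2, -⟩
      exact absurd h2 (by rw [h]; exact lt_irrefl _)
  have h2 : ∏ j : Fin n, ∏ i ∈ Iio j, (if g i < g j then (1 : ℤˣ) else -1) =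
      ∏ j : Fin n, ∏ i : Fin n, if b i < b j ∧ τ (b j) < τ (b i) then -1 else 1 := by
    refine prod_congr rfl fun j _ => ?_
    rw [prod_congr rfl fun i hi => h1 i j (mem_Iio.1 hi)]
    refine prod_subset (subset_univ _) fun i _ hi => ?_
    rw [if_neg]
    rintro ⟨h2, -⟩
    exact absurd (hb (not_lt.1 (mt mem_Iio.2 hi))) (not_le.2 h2)
  rw [h2, prod_comm]
  have h3 : ∀ u v : β, (∏ x ∈ ({x | b x = u} : Finset (Fin n)),
      ∏ y ∈ ({y | b y = v} : Finset (Fin n)),
      (if b x < b y ∧ τ (b y) < τ (b x) then (-1 : ℤˣ) else 1)) =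
      if u < v ∧ τ v < τ u then (-1 : ℤˣ) ^ (#{x | b x = u} * #{x | b x = v}) else 1 := by
    intro u v
    have h4 : (∏ x ∈ ({x | b x = u} : Finset (Fin n)), ∏ y ∈ ({y | b y = v} : Finset (Fin n)),
      (if b x < b y ∧ τ (b y) < τ (b x) then (-1 : ℤˣ) else 1)) =
      (∏ x ∈ ({x | b x = u} : Finset (Fin n)), ∏ y ∈ ({y | b y = v} : Finset (Fin n)),
      (if u < v ∧ τ v < τ u then (-1 : ℤˣ) else 1)) := by
      refine prod_congr rfl fun x hx => prod_congr rfl fun y hy => ?_
      rw [(mem_filter.1 hx).2, (mem_filter.1 hy).2]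
    rw [h4]
    split_ifs
    · rw [prod_const, prod_const, ← pow_mul, mul_comm]
    · simp
  rw [← Finset.prod_fiberwise (s := univ) (g := b)]
  refine prod_congr rfl fun u _ => ?_
  rw [prod_comm]
  have h5 : ∀ v : β, (if u < v ∧ τ v < τ u then
      (-1 : ℤˣ) ^ (#{x | b x = u} * #{x | b x = v}) else 1) =
      ∏ y ∈ ({y | b y = v} : Finset (Fin n)), ∏ x ∈ ({x | b x = u} : Finset (Fin n)),
      (if b x < b y ∧ τ (b y) < τ (b x) then (-1 : ℤˣ) else 1) := by
    intro v
    rw [← h3 u v, prod_comm]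
  rw [prod_congr rfl fun v _ => h5 v, ← Finset.prod_fiberwise (s := univ) (g := b)]


/-- the fibre of a sigma type -/
def fibE {I : Type*} (β : I → Type*) (i : I) : β i ≃ {v : Σ i, β i // v.1 = i} where
  toFun y := ⟨⟨i, y⟩, rfl⟩
  invFun v := cast (by rw [v.2]) v.1.2
  left_inv y := rfl
  right_inv v := by obtain ⟨⟨j, y⟩, rfl⟩ := v; rfl

theorem sign_sigmaCongrRight {I : Type*} [Fintype I] [DecidableEq I] {β : I → Type*}
    [∀ i, Fintype (β i)] [∀ i, DecidableEq (β i)] (f : ∀ i, Perm (β i)) :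
    sign (Equiv.sigmaCongrRight f) = ∏ i, sign (f i) := by
  have h : (sign : Perm (Σ i, β i) →* ℤˣ).comp (sigmaCongrRightHom β) =
      ∏ i, (sign : Perm (β i) →* ℤˣ).comp (Pi.evalMonoidHom (fun i => Perm (β i)) i) := by
    refine MonoidHom.pi_ext fun i x => ?_
    have h1 : ((∏ j, (sign : Perm (β j) →* ℤˣ).comp (Pi.evalMonoidHom (fun i => Perm (β i)) j))
        (Pi.mulSingle i x)) = sign x := by
      rw [MonoidHom.finsetProd_apply, prod_eq_single i]
      · simp
      · intro j _ hj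
        simp [Pi.mulSingle_eq_of_ne hj]
      · intro h; exact absurd (mem_univ _) h
    rw [h1, MonoidHom.comp_apply]
    have h2 : (sigmaCongrRightHom β) (Pi.mulSingle i x) = x.extendDomain (fibE β i) := by
      apply Equiv.ext
      rintro ⟨j, y⟩
      by_cases hj : j = i
      · subst hj
        have := Equiv.Perm.extendDomain_apply_image x (fibE β j) y
        rw [show ((fibE β j y : {v : Σ i, β i // v.1 = j}) : Σ i, β i) = ⟨j, y⟩ from rfl] at this
        rw [this]
        simp [sigmaCongrRightHom, fibE]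
      · rw [Equiv.Perm.extendDomain_apply_not_subtype x (fibE β i) hj]
        simp [sigmaCongrRightHom, Pi.mulSingle_eq_of_ne hj]
    rw [h2, sign_extendDomain]
  have := DFunLike.congr_fun h f
  rw [MonoidHom.finsetProd_apply] at this
  exact this

/-! ### `finSigmaFinEquiv` is increasing for the lexicographic order -/

theorem fsfe_apply {m : ℕ} {n : Fin m → ℕ} (k : (i : Fin m) × Fin (n i)) :
    (finSigmaFinEquiv k : ℕ) = ∑ i ∈ Iio k.1, n i + k.2 := by
  rw [finSigmaFinEquiv_apply]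
  congr 1
  refine Finset.sum_bij (fun i _ => Fin.castLE k.1.2.le i) (fun i _ => ?_) (fun i _ i' _ h => ?_)
    (fun j hj => ?_) (fun i _ => rfl)
  · rw [mem_Iio, Fin.lt_def]; exact i.2
  · exact Fin.castLE_injective _ h
  · exact ⟨⟨j, Fin.lt_def.1 (mem_Iio.1 hj)⟩, mem_univ _, rfl⟩

theorem fsfe_lt_of_fst {m : ℕ} {n : Fin m → ℕ} {p q : (i : Fin m) × Fin (n i)}
    (h : p.1 < q.1) : finSigmaFinEquiv p < finSigmaFinEquiv q := by
  rw [Fin.lt_def, fsfe_apply, fsfe_apply]
  have h1 : ∑ i ∈ Iio p.1, n i + n p.1 ≤ ∑ i ∈ Iio q.1, n i := by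
    have h0 : p.1 ∉ Iio p.1 := by simp
    rw [add_comm, ← Finset.sum_insert h0]
    refine Finset.sum_le_sum_of_subset fun i hi => ?_
    rcases mem_insert.1 hi with rfl | hi
    · exact mem_Iio.2 h
    · exact mem_Iio.2 ((mem_Iio.1 hi).trans h)
  have := p.2.2
  omega

theorem fsfe_lt_snd {m : ℕ} {n : Fin m → ℕ} {i : Fin m} {x y : Fin (n i)} :
    finSigmaFinEquiv (⟨i, x⟩ : (i : Fin m) × Fin (n i)) < finSigmaFinEquiv ⟨i, y⟩ ↔ x < y := by
  rw [Fin.lt_def, Fin.lt_def, fsfe_apply, fsfe_apply]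
  simp

theorem fst_symm_mono {m : ℕ} {n : Fin m → ℕ} :
    Monotone fun x => (finSigmaFinEquiv (n := n) |>.symm x).1 := by
  intro x y hxy
  by_contra h
  have h1 := fsfe_lt_of_fst (not_le.1 h)
  simp only [apply_symm_apply] at h1
  exact absurd hxy (not_le.2 h1)

/-! ### Representative labelling -/

section rep

variable {I : Type*} {s : ℕ}

/-- the particles of dimension vector `d` -/
abbrev V (d : I → ℕ) := Σ i, Fin (d i)

variable (c : Fin s → I → ℕ) {d : I → ℕ} (hc : ∀ i, ∑ j, c j i = d i)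

/-- one colour cut into consecutive blocks -/
def E1 (i : I) : Fin (d i) ≃ Σ j, Fin (c j i) :=
  (finCongr (hc i).symm).trans finSigmaFinEquiv.symm

/-- every colour is cut into consecutive blocks -/
def E : V d ≃ Σ i, Σ j, Fin (c j i) :=
  Equiv.sigmaCongrRight (E1 c hc)

/-- the representative labelling with list of types `c` -/
def rep (v : V d) : Fin s := (E c hc v).2.1

/-- the inclusion of the `j`-th block -/
def emb (j : Fin s) (y : V (c j)) : V d := (E c hc).symm ⟨y.1, j, y.2⟩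

theorem emb_fst (j : Fin s) (y : V (c j)) : (emb c hc j y).1 = y.1 := rfl

@[simp] theorem rep_emb (j : Fin s) (y : V (c j)) : rep c hc (emb c hc j y) = j := by
  unfold rep emb
  rw [apply_symm_apply]

theorem emb_injective (j : Fin s) : Function.Injective (emb c hc j) := by
  intro y y' h
  have h1 := (E c hc).symm.injective h
  obtain ⟨i, y⟩ := y
  obtain ⟨i', y'⟩ := y'
  simp only [Sigma.mk.injEq] at h1
  obtain ⟨rfl, h1⟩ := h1
  rw [heq_eq_eq, Sigma.mk.injEq] at h1
  rw [Sigma.mk.injEq]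
  exact ⟨rfl, h1.2⟩

theorem emb_rep (v : V d) : emb c hc (rep c hc v) ⟨v.1, (E c hc v).2.2⟩ = v := by
  apply (E c hc).injective
  simp only [emb, apply_symm_apply]
  rfl

theorem exists_emb {v : V d} {j : Fin s} (h : rep c hc v = j) : ∃ y, emb c hc j y = v := by
  subst h
  exact ⟨_, emb_rep c hc v⟩

theorem range_emb (j : Fin s) : Set.range (emb c hc j) = {v | rep c hc v = j} := by
  ext v
  constructor
  · rintro ⟨y, rfl⟩
    exact rep_emb c hc j y
  · exact fun h => exists_emb c hc h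

theorem emb_inj_iff {j j' : Fin s} {y : V (c j)} {y' : V (c j')}
    (h : emb c hc j y = emb c hc j' y') : j = j' := by
  rw [← rep_emb c hc j y, h, rep_emb]

theorem card_rep (j : Fin s) (i : I) :
    #{x : Fin (d i) | rep c hc ⟨i, x⟩ = j} = c j i := by
  rw [← Fintype.card_fin (c j i), ← Finset.card_univ]
  refine (Finset.card_bij (fun y _ => (E1 c hc i).symm ⟨j, y⟩) (fun y _ => ?_)
    (fun y _ y' _ h => ?_) (fun x hx => ?_)).symm
  · rw [mem_filter]
    refine ⟨mem_univ _, ?_⟩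
    exact rep_emb c hc j ⟨i, y⟩
  · have := (E1 c hc i).symm.injective h
    simpa using this
  · rw [mem_filter] at hx
    refine ⟨?_, mem_univ _, ?_⟩
    · exact hx.2 ▸ (E1 c hc i x).2
    · obtain ⟨-, rfl⟩ := hx
      exact (E1 c hc i).symm_apply_apply x

/-! ### Block permutations -/

theorem hcτ {c : Fin s → I → ℕ} {d : I → ℕ} (hc : ∀ i, ∑ j, c j i = d i) (τ : Perm (Fin s)) :
    ∀ i, ∑ j, c (τ j) i = d i := fun i => by
  rw [← hc i]; exact Equiv.sum_comp τ (fun j => c j i)

/-- the block permutation in one colour -/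
def blk1 (τ : Perm (Fin s)) (i : I) : Perm (Fin (d i)) :=
  ((E1 c hc i).trans (Equiv.sigmaCongrLeft (β := fun j => Fin (c j i)) τ).symm).trans
    (E1 (fun j => c (τ j)) (hcτ hc τ) i).symm

/-- the block permutation: maps the block `τ j` of `rep c` onto the block `j` of `rep (c ∘ τ)` -/
def blk (τ : Perm (Fin s)) : Perm (V d) := Equiv.sigmaCongrRight (blk1 c hc τ)

theorem blk_fst (τ : Perm (Fin s)) (v : V d) : (blk c hc τ v).1 = v.1 := rfl

theorem blk_emb (τ : Perm (Fin s)) (j : Fin s) (y : V (c (τ j))) :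
    blk c hc τ (emb c hc (τ j) y) = emb (fun j => c (τ j)) (hcτ hc τ) j y := by
  obtain ⟨i, y⟩ := y
  have h1 : blk1 c hc τ i ((E1 c hc i).symm ⟨τ j, y⟩) =
      (E1 (fun j => c (τ j)) (hcτ hc τ) i).symm ⟨j, y⟩ := by
    simp only [blk1, Equiv.trans_apply, Equiv.apply_symm_apply]
    congr 1
    rw [Equiv.symm_apply_eq]
    rfl
  exact Sigma.ext rfl (heq_of_eq h1)

theorem rep_blk (τ : Perm (Fin s)) (v : V d) :
    τ (rep (fun j => c (τ j)) (hcτ hc τ) (blk c hc τ v)) = rep c hc v := by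
  obtain ⟨y, hy⟩ := exists_emb c hc (v := v) (j := τ (τ.symm (rep c hc v))) (by simp)
  conv_lhs => rw [← hy]
  rw [blk_emb, rep_emb, apply_symm_apply]

theorem rep_blk_symm (τ : Perm (Fin s)) (v : V d) :
    rep c hc ((blk c hc τ).symm v) = τ (rep (fun j => c (τ j)) (hcτ hc τ) v) := by
  rw [← rep_blk c hc τ, apply_symm_apply]

theorem sign_blk1 (τ : Perm (Fin s)) (i : I) :
    sign (blk1 c hc τ i) = ∏ u : Fin s, ∏ v : Fin s, if u < v ∧ τ.symm v < τ.symm u then
      (-1 : ℤˣ) ^ (c u i * c v i) else 1 := by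
  rw [sign_blocks (fun x => rep c hc ⟨i, x⟩) ?_ (blk1 c hc τ i) τ.symm ?_ ?_]
  · refine prod_congr rfl fun u _ => prod_congr rfl fun v _ => ?_
    rw [card_rep, card_rep]
  · intro x y hxy
    exact fst_symm_mono (n := fun j => c j i) (show finCongr (hc i).symm x ≤ _ from hxy)
  · intro x y hxy
    have h1 : ∀ x, τ.symm (rep c hc ⟨i, (blk1 c hc τ i).symm x⟩) =
        rep (fun j => c (τ j)) (hcτ hc τ) ⟨i, x⟩ := by
      intro x
      rw [symm_apply_eq, ← rep_blk_symm c hc τ]
      rfl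
    simp only [h1]
    exact fst_symm_mono (n := fun j => c (τ j) i)
      (show finCongr (hcτ hc τ i).symm x ≤ _ from hxy)
  · intro x y hxy hlt
    have key : ∀ x, ∃ (j : Fin s) (a : Fin (c (τ j) i)), (E1 c hc i).symm ⟨τ j, a⟩ = x := by
      intro x
      refine ⟨τ.symm (E1 c hc i x).1, cast (by simp) (E1 c hc i x).2, ?_⟩
      rw [Equiv.symm_apply_eq]
      refine Sigma.ext (by simp) (cast_heq _ _)
    obtain ⟨j, a, rfl⟩ := key x
    obtain ⟨j', a', rfl⟩ := key y
    have hj : τ j = τ j' := by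
      have h1 := rep_emb c hc (τ j) ⟨i, a⟩
      have h2 := rep_emb c hc (τ j') ⟨i, a'⟩
      rw [← h1, ← h2]
      exact hxy
    obtain rfl := τ.injective hj
    have e1 : ∀ a : Fin (c (τ j) i), blk1 c hc τ i ((E1 c hc i).symm ⟨τ j, a⟩) =
        (E1 (fun j => c (τ j)) (hcτ hc τ) i).symm ⟨j, a⟩ := by
      intro a
      simp only [blk1, Equiv.trans_apply, Equiv.apply_symm_apply]
      congr 1
      rw [Equiv.symm_apply_eq]
      rfl
    rw [e1, e1]
    have hlt' : a < a' := (fsfe_lt_snd (n := fun j => c j i) (i := τ j)).1 hlt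
    exact (fsfe_lt_snd (n := fun j => c (τ j) i) (i := j)).2 hlt'

variable [Fintype I] [DecidableEq I]

/-- sign of a block permutation -/
theorem sign_blk (τ : Perm (Fin s)) :
    sign (blk c hc τ) = ∏ u : Fin s, ∏ v : Fin s, if u < v ∧ τ.symm v < τ.symm u then
      (-1 : ℤˣ) ^ (∑ i, c u i * c v i) else 1 := by
  rw [blk, sign_sigmaCongrRight, prod_congr rfl fun i _ => sign_blk1 c hc τ i, prod_comm]
  refine prod_congr rfl fun u _ => ?_
  rw [prod_comm]
  refine prod_congr rfl fun v _ => ?_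
  split_ifs
  · rw [prod_pow_eq_pow_sum]
  · simp

/-- sign of the swap of two adjacent blocks -/
theorem sign_blk_swap (j : ℕ) (hj : j + 1 < s) :
    sign (blk c hc (swap ⟨j, by omega⟩ ⟨j + 1, hj⟩)) =
      (-1 : ℤˣ) ^ (∑ i, c ⟨j, by omega⟩ i * c ⟨j + 1, hj⟩ i) := by
  rw [sign_blk, prod_eq_single (⟨j, by omega⟩ : Fin s), prod_eq_single (⟨j + 1, hj⟩ : Fin s), if_pos]
  · simp [Fin.lt_def]
  · intro v _ hv
    rw [if_neg]
    rintro ⟨h1, h2⟩
    rw [symm_swap, swap_apply_left] at h2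
    have hv1 : v ≠ ⟨j, by omega⟩ := fun h => lt_irrefl _ (h ▸ h1)
    rw [swap_apply_of_ne_of_ne hv1 hv] at h2
    have hvv : (v : ℕ) ≠ j + 1 := fun h => hv (Fin.ext h)
    simp only [Fin.lt_def] at h1 h2
    omega
  · intro h; exact absurd (mem_univ _) h
  · intro u _ hu
    refine prod_eq_one fun v _ => if_neg ?_
    rintro ⟨h1, h2⟩
    have huu : (u : ℕ) ≠ j := fun h => hu (Fin.ext h)
    rw [symm_swap, swap_apply_def, swap_apply_def] at h2
    rw [Fin.lt_def] at h1
    split_ifs at h2 <;> simp_all only [Fin.ext_iff, Fin.lt_def] <;> omega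
  · intro h; exact absurd (mem_univ _) h

omit [Fintype I] [DecidableEq I] in
/-- the list of types of a labelling -/
theorem ty_sum (b : V d → Fin s) (i : I) :
    ∑ j, #{x : Fin (d i) | b ⟨i, x⟩ = j} = d i := by
  rw [← Finset.card_eq_sum_card_fiberwise (f := fun x : Fin (d i) => b ⟨i, x⟩) (s := univ)
    (t := univ) (fun _ _ => mem_coe.2 (mem_univ _))]
  simp

omit [Fintype I] [DecidableEq I] in
/-- every labelling is a representative labelling up to a colour preserving permutation -/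
theorem exists_rep (b b' : V d → Fin s)
    (h : ∀ i j, #{x : Fin (d i) | b ⟨i, x⟩ = j} = #{x : Fin (d i) | b' ⟨i, x⟩ = j}) :
    ∃ g : Perm (V d), (∀ v, (g v).1 = v.1) ∧ ∀ v, b' (g v) = b v := by
  have h1 : ∀ i, ∃ g : Perm (Fin (d i)), ∀ x, b' ⟨i, g x⟩ = b ⟨i, x⟩ := by
    intro i
    have e : ∀ j, Nonempty ({x : Fin (d i) // b ⟨i, x⟩ = j} ≃ {x : Fin (d i) // b' ⟨i, x⟩ = j}) := by
      intro j
      refine ⟨Fintype.equivOfCardEq ?_⟩
      rw [Fintype.card_subtype, Fintype.card_subtype]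
      exact h i j
    have e := fun j => Classical.choice (e j)
    refine ⟨((Equiv.sigmaFiberEquiv fun x => b ⟨i, x⟩).symm.trans
      (Equiv.sigmaCongrRight fun j => e j)).trans (Equiv.sigmaFiberEquiv fun x => b' ⟨i, x⟩), ?_⟩
    intro x
    exact (e _ ⟨x, rfl⟩).2
  choose g hg using h1
  exact ⟨Equiv.sigmaCongrRight g, fun v => rfl, fun v => hg v.1 v.2⟩

end rep

end Crest.Agent.R059.BlkSign537
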