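import Mathlib

/-!
# Row 59, Theorem B (thin form): integer degree bounds and top parts of multivariate polynomials

`TD m p` : every monomial of `p` has total degree `≤ m` (`m : ℤ`, so `TD (-1) p ↔ p = 0`).
`top m p` : the homogeneous part of degree `m` (`m : ℤ`, zero for negative `m`).
-/

open MvPolynomial

namespace Crest.Agent.R059.Deg359

variable {L L' A B : Type*} [CommRing A] [CommRing B]

/-- integer degree bound -/
def TD (m : ℤ) (p : MvPolynomial L A) : Prop :=
  ∀ α : L →₀ ℕ, coeff α p ≠ 0 → ((α.degree : ℕ) : ℤ) ≤ m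

/-- homogeneous of integer degree -/
def Hom (m : ℤ) (p : MvPolynomial L A) : Prop :=
  ∀ α : L →₀ ℕ, coeff α p ≠ 0 → ((α.degree : ℕ) : ℤ) = m

theorem Hom.td {m : ℤ} {p : MvPolynomial L A} (h : Hom m p) : TD m p :=
  fun α hα => (h α hα).le

theorem TD.coeff_eq_zero {m : ℤ} {p : MvPolynomial L A} (h : TD m p) {α : L →₀ ℕ}
    (hα : m < ((α.degree : ℕ) : ℤ)) : coeff α p = 0 := by
  by_contra hc
  exact absurd (h α hc) (not_le.mpr hα)

theorem Hom.coeff_eq_zero {m : ℤ} {p : MvPolynomial L A} (h : Hom m p) {α : L →₀ ℕ}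
    (hα : ((α.degree : ℕ) : ℤ) ≠ m) : coeff α p = 0 := by
  by_contra hc
  exact absurd (h α hc) hα

theorem TD.mono {m n : ℤ} {p : MvPolynomial L A} (h : TD m p) (hmn : m ≤ n) : TD n p :=
  fun α hα => (h α hα).trans hmn

theorem TD_zero (m : ℤ) : TD m (0 : MvPolynomial L A) := by
  intro α hα
  simp at hα

theorem Hom_zero (m : ℤ) : Hom m (0 : MvPolynomial L A) := by
  intro α hα
  simp at hα

theorem TD.add {m : ℤ} {p q : MvPolynomial L A} (hp : TD m p) (hq : TD m q) : TD m (p + q) := by
  intro α hα
  rw [coeff_add] at hα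
  by_cases h : coeff α p = 0
  · rw [h, zero_add] at hα
    exact hq α hα
  · exact hp α h

theorem Hom.add {m : ℤ} {p q : MvPolynomial L A} (hp : Hom m p) (hq : Hom m q) :
    Hom m (p + q) := by
  intro α hα
  rw [coeff_add] at hα
  by_cases h : coeff α p = 0
  · rw [h, zero_add] at hα
    exact hq α hα
  · exact hp α h

theorem TD.neg {m : ℤ} {p : MvPolynomial L A} (hp : TD m p) : TD m (-p) := by
  intro α hα
  rw [coeff_neg] at hα
  exact hp α (fun h => hα (by rw [h, neg_zero]))

theorem Hom.neg {m : ℤ} {p : MvPolynomial L A} (hp : Hom m p) : Hom m (-p) := by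
  intro α hα
  rw [coeff_neg] at hα
  exact hp α (fun h => hα (by rw [h, neg_zero]))

theorem TD.sub {m : ℤ} {p q : MvPolynomial L A} (hp : TD m p) (hq : TD m q) : TD m (p - q) := by
  rw [sub_eq_add_neg]
  exact hp.add hq.neg

theorem Hom.sub {m : ℤ} {p q : MvPolynomial L A} (hp : Hom m p) (hq : Hom m q) :
    Hom m (p - q) := by
  rw [sub_eq_add_neg]
  exact hp.add hq.neg

theorem TD.sum {ι : Type*} {m : ℤ} (s : Finset ι) (f : ι → MvPolynomial L A)
    (h : ∀ i ∈ s, TD m (f i)) : TD m (∑ i ∈ s, f i) := by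
  classical
  induction s using Finset.induction_on with
  | empty => simpa using TD_zero m
  | insert a s ha ih =>
    rw [Finset.sum_insert ha]
    exact (h a (Finset.mem_insert_self a s)).add
      (ih fun i hi => h i (Finset.mem_insert_of_mem hi))

theorem Hom.sum {ι : Type*} {m : ℤ} (s : Finset ι) (f : ι → MvPolynomial L A)
    (h : ∀ i ∈ s, Hom m (f i)) : Hom m (∑ i ∈ s, f i) := by
  classical
  induction s using Finset.induction_on with
  | empty => simpa using Hom_zero m
  | insert a s ha ih =>
    rw [Finset.sum_insert ha]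
    exact (h a (Finset.mem_insert_self a s)).add
      (ih fun i hi => h i (Finset.mem_insert_of_mem hi))

theorem TD.mul {m n : ℤ} {p q : MvPolynomial L A} (hp : TD m p) (hq : TD n q) :
    TD (m + n) (p * q) := by
  classical
  intro α hα
  rw [coeff_mul] at hα
  obtain ⟨x, hx, hne⟩ := Finset.exists_ne_zero_of_sum_ne_zero hα
  have h1 : coeff x.1 p ≠ 0 := left_ne_zero_of_mul hne
  have h2 : coeff x.2 q ≠ 0 := right_ne_zero_of_mul hne
  have h3 : x.1 + x.2 = α := Finset.HasAntidiagonal.mem_antidiagonal.mp hx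
  rw [← h3, map_add, Nat.cast_add]
  exact add_le_add (hp _ h1) (hq _ h2)

theorem Hom.mul {m n : ℤ} {p q : MvPolynomial L A} (hp : Hom m p) (hq : Hom n q) :
    Hom (m + n) (p * q) := by
  classical
  intro α hα
  rw [coeff_mul] at hα
  obtain ⟨x, hx, hne⟩ := Finset.exists_ne_zero_of_sum_ne_zero hα
  have h1 : coeff x.1 p ≠ 0 := left_ne_zero_of_mul hne
  have h2 : coeff x.2 q ≠ 0 := right_ne_zero_of_mul hne
  have h3 : x.1 + x.2 = α := Finset.HasAntidiagonal.mem_antidiagonal.mp hx
  rw [← h3, map_add, Nat.cast_add, hp _ h1, hq _ h2]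

theorem Hom_C (a : A) : Hom 0 (C a : MvPolynomial L A) := by
  classical
  intro α hα
  rw [coeff_C] at hα
  have h : (0 : L →₀ ℕ) = α := by
    by_contra hc
    exact hα (if_neg hc)
  rw [← h]
  simp

theorem Hom_X (i : L) : Hom 1 (X i : MvPolynomial L A) := by
  classical
  intro α hα
  rw [coeff_X] at hα
  have h : Finsupp.single i 1 = α := by
    by_contra hc
    exact hα (if_neg hc)
  rw [← h, Finsupp.degree_single]
  simp

theorem Hom_one : Hom 0 (1 : MvPolynomial L A) := by
  rw [← C_1]
  exact Hom_C 1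

theorem TD_C (a : A) : TD 0 (C a : MvPolynomial L A) := (Hom_C a).td

theorem TD_X (i : L) : TD 1 (X i : MvPolynomial L A) := (Hom_X i).td

theorem TD_one : TD 0 (1 : MvPolynomial L A) := Hom_one.td

theorem Hom_monomial (α : L →₀ ℕ) (a : A) : Hom (α.degree : ℕ) (monomial α a) := by
  classical
  intro β hβ
  rw [coeff_monomial] at hβ
  have h : α = β := by
    by_contra hc
    exact hβ (if_neg hc)
  rw [h]

theorem TD.pow {m : ℤ} {p : MvPolynomial L A} (hp : TD m p) (n : ℕ) : TD (n * m) (p ^ n) := by
  induction n with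
  | zero => simpa using TD_one
  | succ n ih =>
    rw [pow_succ]
    have := ih.mul hp
    refine this.mono (le_of_eq ?_)
    push_cast
    ring

theorem Hom.pow {m : ℤ} {p : MvPolynomial L A} (hp : Hom m p) (n : ℕ) : Hom (n * m) (p ^ n) := by
  induction n with
  | zero => simpa using Hom_one
  | succ n ih =>
    rw [pow_succ]
    have := ih.mul hp
    have e : (n : ℤ) * m + m = ((n + 1 : ℕ) : ℤ) * m := by push_cast; ring
    rwa [e] at this

theorem TD.prod {ι : Type*} (s : Finset ι) (f : ι → MvPolynomial L A) (m : ι → ℤ)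
    (h : ∀ i ∈ s, TD (m i) (f i)) : TD (∑ i ∈ s, m i) (∏ i ∈ s, f i) := by
  classical
  induction s using Finset.induction_on with
  | empty => simpa using TD_one
  | insert a s ha ih =>
    rw [Finset.prod_insert ha, Finset.sum_insert ha]
    exact (h a (Finset.mem_insert_self a s)).mul
      (ih fun i hi => h i (Finset.mem_insert_of_mem hi))

theorem Hom.prod {ι : Type*} (s : Finset ι) (f : ι → MvPolynomial L A) (m : ι → ℤ)
    (h : ∀ i ∈ s, Hom (m i) (f i)) : Hom (∑ i ∈ s, m i) (∏ i ∈ s, f i) := by
  classical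
  induction s using Finset.induction_on with
  | empty => simpa using Hom_one
  | insert a s ha ih =>
    rw [Finset.prod_insert ha, Finset.sum_insert ha]
    exact (h a (Finset.mem_insert_self a s)).mul
      (ih fun i hi => h i (Finset.mem_insert_of_mem hi))

theorem eq_zero_of_TD {m : ℤ} (hm : m < 0) {p : MvPolynomial L A} (h : TD m p) : p = 0 := by
  ext α
  rw [coeff_zero]
  apply h.coeff_eq_zero
  have : (0 : ℤ) ≤ ((α.degree : ℕ) : ℤ) := Int.natCast_nonneg _
  omega

theorem TD_neg_one_iff {p : MvPolynomial L A} : TD (-1) p ↔ p = 0 :=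
  ⟨fun h => eq_zero_of_TD (by omega) h, fun h => h ▸ TD_zero _⟩

theorem TD_totalDegree (p : MvPolynomial L A) : TD (p.totalDegree : ℕ) p := by
  intro α hα
  have := le_totalDegree (mem_support_iff.mpr hα)
  rw [Finsupp.degree_apply]
  exact_mod_cast this

theorem TD_iff_totalDegree_le {n : ℕ} {p : MvPolynomial L A} :
    TD (n : ℤ) p ↔ p.totalDegree ≤ n := by
  constructor
  · intro h
    rw [totalDegree, Finset.sup_le_iff]
    intro α hα
    have := h α (mem_support_iff.mp hα)
    rw [Finsupp.degree_apply] at this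
    exact_mod_cast this
  · intro h
    exact (TD_totalDegree p).mono (by exact_mod_cast h)

theorem TD.map {m : ℤ} {p : MvPolynomial L A} (h : TD m p) (φ : A →+* B) :
    TD m (MvPolynomial.map φ p) := by
  intro α hα
  rw [coeff_map] at hα
  exact h α (fun hc => hα (by rw [hc, map_zero]))

theorem Hom.map {m : ℤ} {p : MvPolynomial L A} (h : Hom m p) (φ : A →+* B) :
    Hom m (MvPolynomial.map φ p) := by
  intro α hα
  rw [coeff_map] at hα
  exact h α (fun hc => hα (by rw [hc, map_zero]))

theorem TD.C_mul {m : ℤ} {p : MvPolynomial L A} (h : TD m p) (a : A) : TD m (C a * p) := by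
  have := (TD_C (L := L) a).mul h
  rwa [zero_add] at this

theorem Hom.C_mul {m : ℤ} {p : MvPolynomial L A} (h : Hom m p) (a : A) : Hom m (C a * p) := by
  have := (Hom_C (L := L) a).mul h
  rwa [zero_add] at this

theorem TD.rename {m : ℤ} {p : MvPolynomial L A} (h : TD m p) (φ : L → L') :
    TD m (MvPolynomial.rename φ p) := by
  classical
  rw [p.as_sum, map_sum]
  refine TD.sum _ _ fun α hα => ?_
  rw [rename_monomial]
  have h1 := Hom_monomial (α.mapDomain φ) (coeff α p)
  rw [Finsupp.degree_mapDomain] at h1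
  exact h1.td.mono (h α (mem_support_iff.mp hα))

/-! ## top part -/

/-- homogeneous part of integer degree `m` -/
noncomputable def top (m : ℤ) (p : MvPolynomial L A) : MvPolynomial L A :=
  if 0 ≤ m then homogeneousComponent m.toNat p else 0

theorem coeff_top (m : ℤ) (p : MvPolynomial L A) (α : L →₀ ℕ) :
    coeff α (top m p) = if ((α.degree : ℕ) : ℤ) = m then coeff α p else 0 := by
  classical
  unfold top
  by_cases hm : 0 ≤ m
  · rw [if_pos hm, coeff_homogeneousComponent]
    by_cases h : α.degree = m.toNat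
    · rw [if_pos h, if_pos (by rw [h, Int.toNat_of_nonneg hm])]
    · rw [if_neg h, if_neg]
      intro hc
      apply h
      rw [← hc, Int.toNat_natCast]
  · rw [if_neg hm, coeff_zero, if_neg]
    intro hc
    apply hm
    rw [← hc]
    exact Int.natCast_nonneg _

theorem top_hom (m : ℤ) (p : MvPolynomial L A) : Hom m (top m p) := by
  intro α hα
  rw [coeff_top] at hα
  by_contra hc
  exact hα (if_neg hc)

theorem top_add (m : ℤ) (p q : MvPolynomial L A) : top m (p + q) = top m p + top m q := by
  ext α
  rw [coeff_add, coeff_top, coeff_top, coeff_top, coeff_add]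
  split_ifs <;> simp

theorem top_neg (m : ℤ) (p : MvPolynomial L A) : top m (-p) = -top m p := by
  ext α
  rw [coeff_neg, coeff_top, coeff_top, coeff_neg]
  split_ifs <;> simp

theorem top_sub (m : ℤ) (p q : MvPolynomial L A) : top m (p - q) = top m p - top m q := by
  rw [sub_eq_add_neg, top_add, top_neg, ← sub_eq_add_neg]

@[simp] theorem top_zero (m : ℤ) : top m (0 : MvPolynomial L A) = 0 := by
  ext α
  rw [coeff_top]
  simp

theorem top_sum {ι : Type*} (m : ℤ) (s : Finset ι) (f : ι → MvPolynomial L A) :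
    top m (∑ i ∈ s, f i) = ∑ i ∈ s, top m (f i) := by
  classical
  induction s using Finset.induction_on with
  | empty => simp
  | insert a s ha ih => rw [Finset.sum_insert ha, Finset.sum_insert ha, top_add, ih]

theorem TD.sub_top {m : ℤ} {p : MvPolynomial L A} (h : TD m p) : TD (m - 1) (p - top m p) := by
  intro α hα
  rw [coeff_sub, coeff_top] at hα
  by_cases hd : ((α.degree : ℕ) : ℤ) = m
  · rw [if_pos hd, sub_self] at hα
    exact absurd rfl hα
  · rw [if_neg hd, sub_zero] at hα
    have := h α hα
    omega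

theorem TD.of_top_eq_zero {m : ℤ} {p : MvPolynomial L A} (h : TD m p) (h0 : top m p = 0) :
    TD (m - 1) p := by
  have := h.sub_top
  rwa [h0, sub_zero] at this

theorem top_eq_zero_of_TD {m n : ℤ} {p : MvPolynomial L A} (h : TD n p) (hn : n < m) :
    top m p = 0 := by
  ext α
  rw [coeff_top, coeff_zero]
  split_ifs with hd
  · apply h.coeff_eq_zero
    omega
  · rfl

theorem top_of_Hom {m : ℤ} {p : MvPolynomial L A} (h : Hom m p) : top m p = p := by
  ext α
  rw [coeff_top]
  split_ifs with hd
  · rfl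
  · exact (h.coeff_eq_zero hd).symm

/-- characterization of the top part -/
theorem top_eq_of {m : ℤ} {p t : MvPolynomial L A} (ht : Hom m t) (h : TD (m - 1) (p - t)) :
    top m p = t := by
  have h1 : top m (p - t) = 0 := top_eq_zero_of_TD h (by omega)
  rw [top_sub, top_of_Hom ht, sub_eq_zero] at h1
  exact h1

theorem top_mul {m n : ℤ} {p q : MvPolynomial L A} (hp : TD m p) (hq : TD n q) :
    top (m + n) (p * q) = top m p * top n q := by
  apply top_eq_of ((top_hom m p).mul (top_hom n q))
  have e : p * q - top m p * top n q = (p - top m p) * q + top m p * (q - top n q) := by ring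
  rw [e]
  refine TD.add ?_ ?_
  · exact (hp.sub_top.mul hq).mono (by omega)
  · exact ((top_hom m p).td.mul hq.sub_top).mono (by omega)

theorem top_prod {ι : Type*} (s : Finset ι) (f : ι → MvPolynomial L A) (m : ι → ℤ)
    (h : ∀ i ∈ s, TD (m i) (f i)) :
    top (∑ i ∈ s, m i) (∏ i ∈ s, f i) = ∏ i ∈ s, top (m i) (f i) := by
  classical
  induction s using Finset.induction_on with
  | empty =>
    rw [Finset.sum_empty, Finset.prod_empty, Finset.prod_empty]
    exact top_of_Hom Hom_one
  | insert a s ha ih =>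
    rw [Finset.sum_insert ha, Finset.prod_insert ha, Finset.prod_insert ha,
      top_mul (h a (Finset.mem_insert_self a s))
        (TD.prod s f m fun i hi => h i (Finset.mem_insert_of_mem hi)),
      ih fun i hi => h i (Finset.mem_insert_of_mem hi)]

theorem top_pow {m : ℤ} {p : MvPolynomial L A} (hp : TD m p) (n : ℕ) :
    top (n * m) (p ^ n) = top m p ^ n := by
  induction n with
  | zero =>
    rw [pow_zero, pow_zero]
    simpa using top_of_Hom (L := L) (A := A) Hom_one
  | succ n ih =>
    have e : ((n + 1 : ℕ) : ℤ) * m = (n : ℤ) * m + m := by push_cast; ring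
    rw [pow_succ, pow_succ, e, top_mul (hp.pow n) hp, ih]

theorem top_map (m : ℤ) (p : MvPolynomial L A) (φ : A →+* B) :
    top m (MvPolynomial.map φ p) = MvPolynomial.map φ (top m p) := by
  ext α
  rw [coeff_top, coeff_map, coeff_map, coeff_top]
  split_ifs <;> simp

end Crest.Agent.R059.Deg359
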