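/-
Row 59, TEAM THIN, leaf AB0 (helper613): definitions of the thin (particle) form of Theorems A/B
and the divisibility facts between the ideals.
-/
import Mathlib
import Crest.Agent.R059.Deg_359

set_option autoImplicit false
set_option linter.unusedSectionVars false

namespace Crest.Agent.R059.Thin613

open MvPolynomial Finset

variable {P : Type*} [Fintype P] [DecidableEq P]
variable {F : Type*} [CommRing F]
variable {V : Type*} [AddCommGroup V] [LinearOrder V] [IsOrderedAddMonoid V]
variable {L : Type*} {L' : Type*}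

/-- weight of a set of particles -/
def wt (th : P → V) (S : Finset P) : V := ∑ a ∈ S, th a

/-- the kernel `K(S,T) = ∏_{a∈S, b∈T} (X b - X a)^{arr a b}` -/
noncomputable def KK (F : Type*) [CommRing F] (arr : P → P → ℕ) (S T : Finset P) :
    MvPolynomial P F :=
  ∏ a ∈ S, ∏ b ∈ T, (X b - X a) ^ arr a b

/-- `J0(A)`: the ideal generated by the `K(T, A∖T)`, `T ⊆ A`, `0 < wt T`. -/
noncomputable def J0 (F : Type*) [CommRing F] (arr : P → P → ℕ) (th : P → V) (A : Finset P) :
    Ideal (MvPolynomial P F) :=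
  Ideal.span {q | ∃ T : Finset P, T ⊆ A ∧ 0 < wt th T ∧ q = KK F arr T (A \ T)}

open scoped Classical in
/-- fibre of a labelling -/
noncomputable def fib (f : P → L) (l : L) : Finset P := univ.filter fun a => f a = l

@[simp] lemma mem_fib (f : P → L) (l : L) (a : P) : a ∈ fib f l ↔ f a = l := by
  simp [fib]

/-- all fibres have weight zero -/
def Good (th : P → V) (f : P → L) : Prop := ∀ l, wt th (fib f l) = 0

/-- the ideal of a labelling: sum of the `J0` of the fibres -/
noncomputable def JJ (F : Type*) [CommRing F] (arr : P → P → ℕ) (th : P → V) (f : P → L) :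
    Ideal (MvPolynomial P F) :=
  ⨆ l, J0 F arr th (fib f l)

open scoped Classical in
/-- `K_f = ∏_{f a < f b} (X b - X a)^{arr a b}` (labels linearly ordered). -/
noncomputable def KL (F : Type*) [CommRing F] (arr : P → P → ℕ) [LinearOrder L'] (f : P → L') :
    MvPolynomial P F :=
  ∏ a, ∏ b, if f a < f b then (X b - X a) ^ arr a b else 1

/-- The block shift ring homomorphism `X a ↦ C [X a] + X (f a)`. -/
noncomputable def sh (F : Type*) [CommRing F] (arr : P → P → ℕ) (th : P → V) (f : P → L) :
    MvPolynomial P F →+* MvPolynomial L (MvPolynomial P F ⧸ JJ F arr th f) :=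
  MvPolynomial.eval₂Hom ((C : (MvPolynomial P F ⧸ JJ F arr th f) →+* _).comp
      ((Ideal.Quotient.mk (JJ F arr th f)).comp C))
    (fun a => C (Ideal.Quotient.mk (JJ F arr th f) (X a)) + X (f a))

/-- `ud f m x`: the shift degree of `x` at `f` is at most `m` (`TD` of `Deg_359`). -/
def ud (F : Type*) [CommRing F] (arr : P → P → ℕ) (th : P → V) (f : P → L) (m : ℤ)
    (x : MvPolynomial P F) : Prop :=
  Deg359.TD m (sh F arr th f x)

open scoped Classical in
/-- ordered pairs of particles in different blocks, counted with arrows (`= 2 arr_f`). -/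
noncomputable def N2 (arr : P → P → ℕ) (f : P → L) : ℕ :=
  ∑ a, ∑ b, if f a ≠ f b then arr a b else 0

/-- `arr` is symmetric on disjoint sets of weight zero. -/
def Sym (arr : P → P → ℕ) (th : P → V) : Prop :=
  ∀ S T : Finset P, Disjoint S T → wt th S = 0 → wt th T = 0 →
    ∑ a ∈ S, ∑ b ∈ T, arr a b = ∑ a ∈ S, ∑ b ∈ T, arr b a

/-! ### basic facts -/

lemma wt_union {th : P → V} {S T : Finset P} (h : Disjoint S T) :
    wt th (S ∪ T) = wt th S + wt th T := by
  simp [wt, Finset.sum_union h]

@[simp] lemma wt_empty (th : P → V) : wt th ∅ = 0 := by simp [wt]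

/-- the weight of a set is the sum of the weights of its intersections with the fibres -/
lemma wt_eq_sum_fib [Fintype L] (th : P → V) (f : P → L) (S : Finset P) :
    wt th S = ∑ l, wt th (S ∩ fib f l) := by
  classical
  unfold wt
  rw [← Finset.sum_fiberwise S f th]
  refine Finset.sum_congr rfl fun l _ => ?_
  refine Finset.sum_congr ?_ fun _ _ => rfl
  ext a; simp

lemma KK_mem_J0 (arr : P → P → ℕ) {th : P → V} {A T : Finset P} (hT : T ⊆ A)
    (h : 0 < wt th T) : KK F arr T (A \ T) ∈ J0 F arr th A :=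
  Ideal.subset_span ⟨T, hT, h, rfl⟩

lemma KK_dvd_KK (arr : P → P → ℕ) {S T S' T' : Finset P} (hS : S ⊆ S') (hT : T ⊆ T') :
    KK F arr S T ∣ KK F arr S' T' := by
  unfold KK
  refine dvd_trans ?_ (Finset.prod_dvd_prod_of_subset _ _ _ hS)
  exact Finset.prod_dvd_prod_of_dvd _ _ fun a _ => Finset.prod_dvd_prod_of_subset _ _ _ hT

/-- a rectangle product divides a product over a relation containing the rectangle -/
lemma KK_dvd_prod (arr : P → P → ℕ) {S T : Finset P} (p : P → P → Prop)
    [∀ a b, Decidable (p a b)] (h : ∀ a ∈ S, ∀ b ∈ T, p a b) :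
    KK F arr S T ∣ ∏ a, ∏ b, if p a b then (X b - X a : MvPolynomial P F) ^ arr a b else 1 := by
  unfold KK
  have h1 : ∏ a ∈ S, ∏ b ∈ T, (X b - X a : MvPolynomial P F) ^ arr a b
      = ∏ a ∈ S, ∏ b ∈ T, if p a b then (X b - X a : MvPolynomial P F) ^ arr a b else 1 := by
    refine Finset.prod_congr rfl fun a ha => Finset.prod_congr rfl fun b hb => ?_
    rw [if_pos (h a ha b hb)]
  rw [h1]
  refine dvd_trans ?_ (Finset.prod_dvd_prod_of_subset _ _ _ (Finset.subset_univ S))
  exact Finset.prod_dvd_prod_of_dvd _ _ fun a _ =>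
    Finset.prod_dvd_prod_of_subset _ _ _ (Finset.subset_univ T)

lemma JJ_le_iff (arr : P → P → ℕ) (th : P → V) (f : P → L) (I : Ideal (MvPolynomial P F)) :
    JJ F arr th f ≤ I ↔ ∀ l (T : Finset P), T ⊆ fib f l → 0 < wt th T →
      KK F arr T (fib f l \ T) ∈ I := by
  unfold JJ J0
  rw [iSup_le_iff]
  constructor
  · intro h l T hT hw
    exact (Ideal.span_le.1 (h l)) ⟨T, hT, hw, rfl⟩
  · intro h l
    rw [Ideal.span_le]
    rintro q ⟨T, hT, hw, rfl⟩
    exact h l T hT hw

lemma KK_mem_JJ (arr : P → P → ℕ) {th : P → V} (f : P → L) (l : L) {T : Finset P}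
    (hT : T ⊆ fib f l) (hw : 0 < wt th T) : KK F arr T (fib f l \ T) ∈ JJ F arr th f :=
  (JJ_le_iff arr th f _).1 le_rfl l T hT hw

/-- Refinement: if `f = g ∘ f'` with `f'` good then `JJ f ≤ JJ f'`. -/
lemma JJ_le_of_refine (arr : P → P → ℕ) {th : P → V} (f' : P → L') (g : L' → L)
    (_hf' : Good th f') : JJ F arr th (g ∘ f') ≤ JJ F arr th f' := by
  classical
  rw [JJ_le_iff]
  intro l T hT hw
  -- some fibre of `f'` meets `T` in positive weight
  obtain ⟨m, hm⟩ : ∃ m, 0 < wt th (T ∩ fib f' m) := by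
    by_contra hcon
    push Not at hcon
    have h1 : wt th T = ∑ m ∈ univ.image f', wt th (T ∩ fib f' m) := by
      unfold wt
      rw [← Finset.sum_fiberwise_of_maps_to (s := T) (t := univ.image f') (g := f')
        (fun a _ => Finset.mem_image_of_mem _ (Finset.mem_univ a)) th]
      refine Finset.sum_congr rfl fun l _ => Finset.sum_congr ?_ fun _ _ => rfl
      ext a; simp
    rw [h1] at hw
    exact absurd hw (not_lt.2 (Finset.sum_nonpos fun m _ => hcon m))
  have hsub : fib f' m ⊆ fib (g ∘ f') l := by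
    intro a ha
    have hne : (T ∩ fib f' m).Nonempty := by
      rw [Finset.nonempty_iff_ne_empty]
      intro h; rw [h] at hm; simp at hm
    obtain ⟨b, hb⟩ := hne
    simp only [Finset.mem_inter, mem_fib] at hb ha ⊢
    have := hT hb.1
    simp only [mem_fib, Function.comp_apply] at this ⊢
    rw [ha, ← hb.2, this]
  have hmem := KK_mem_JJ (F := F) arr f' m (T := T ∩ fib f' m) Finset.inter_subset_right hm
  refine Ideal.mem_of_dvd _ ?_ hmem
  refine KK_dvd_KK arr Finset.inter_subset_left ?_
  intro b hb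
  simp only [Finset.mem_sdiff, Finset.mem_inter, not_and] at hb ⊢
  exact ⟨hsub hb.1, fun h => hb.2 h hb.1⟩

end Crest.Agent.R059.Thin613
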