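import Mathlib

/-!
# Row 59, Theorem A in the thin model (helper313)

`E a A B = ∏ i ∈ A, ∏ j ∈ B, (X j - X i) ^ (a i j)` in `MvPolynomial ι K`.

* `Lid a θ A`  : ideal generated by `E (A \ B) B`, `∅ ≠ B ⊆ A`, `θ(B) ≤ 0`
* `Jid a θ T`  : ideal generated by `E A (T \ A)`, `∅ ≠ A ⊆ T`, `0 < θ(A)`
* `Fid a T 𝒮`  : ideal generated by `E A (T \ A)`, `A ∈ 𝒮`

`colon` : `g * E A (T \ A) ∈ Fid a T 𝒮 ↔ g ∈ Lid a θ A ⊔ Jid a θ (T \ A)` for every `𝒮`
between "earlier than A" and "not later than A, different from A".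
-/

set_option autoImplicit false
set_option linter.unusedSectionVars false

namespace Crest.Agent.R059.ThinA

open MvPolynomial Finset

variable {ι : Type*} [DecidableEq ι] {K : Type*} [CommRing K]

/-- the kernel polynomial -/
noncomputable def E (K : Type*) [CommRing K] (a : ι → ι → ℕ) (A B : Finset ι) :
    MvPolynomial ι K :=
  ∏ i ∈ A, ∏ j ∈ B, (X j - X i) ^ (a i j)

variable (K) (a : ι → ι → ℕ)

@[simp] lemma E_empty_left (B : Finset ι) : E K a ∅ B = 1 := by simp [E]

@[simp] lemma E_empty_right (A : Finset ι) : E K a A ∅ = 1 := by simp [E]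

lemma E_union_left {A A' : Finset ι} (h : Disjoint A A') (B : Finset ι) :
    E K a (A ∪ A') B = E K a A B * E K a A' B := by
  simp [E, Finset.prod_union h]

lemma E_union_right (A : Finset ι) {B B' : Finset ι} (h : Disjoint B B') :
    E K a A (B ∪ B') = E K a A B * E K a A B' := by
  simp only [E]
  rw [← Finset.prod_mul_distrib]
  exact Finset.prod_congr rfl fun i _ => Finset.prod_union h

lemma E_dvd {A A' B B' : Finset ι} (hA : A ⊆ A') (hB : B ⊆ B') :
    E K a A B ∣ E K a A' B' := by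
  have h1 : E K a A' B' = E K a A B' * E K a (A' \ A) B' := by
    rw [← E_union_left K a Finset.disjoint_sdiff, Finset.union_sdiff_of_subset hA]
  have h2 : E K a A B' = E K a A B * E K a A (B' \ B) := by
    rw [← E_union_right K a A Finset.disjoint_sdiff, Finset.union_sdiff_of_subset hB]
  rw [h1, h2, mul_assoc]
  exact Dvd.intro _ rfl

variable {G : Type*} [AddCommGroup G] [LinearOrder G] [IsOrderedAddMonoid G] (θ : ι → G)

/-- generators of the left ideal -/
noncomputable def Lid (A : Finset ι) : Ideal (MvPolynomial ι K) :=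
  Ideal.span {f | ∃ B : Finset ι, B ⊆ A ∧ B ≠ ∅ ∧ ∑ i ∈ B, θ i ≤ 0 ∧ f = E K a (A \ B) B}

/-- the destabilizing ideal -/
noncomputable def Jid (T : Finset ι) : Ideal (MvPolynomial ι K) :=
  Ideal.span {f | ∃ A : Finset ι, A ⊆ T ∧ A ≠ ∅ ∧ 0 < ∑ i ∈ A, θ i ∧ f = E K a A (T \ A)}

/-- the filtration ideal of a family of subsets -/
noncomputable def Fid (T : Finset ι) (S : Set (Finset ι)) : Ideal (MvPolynomial ι K) :=
  Ideal.span {f | ∃ A ∈ S, f = E K a A (T \ A)}

/-- `A'` is strictly earlier than `A` -/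
def Earlier (A' A : Finset ι) : Prop :=
  ∑ i ∈ A, θ i < ∑ i ∈ A', θ i ∨ (∑ i ∈ A', θ i = ∑ i ∈ A, θ i ∧ A'.card < A.card)

/-- `A'` is not later than `A` -/
def NotLater (A' A : Finset ι) : Prop :=
  ∑ i ∈ A, θ i < ∑ i ∈ A', θ i ∨ (∑ i ∈ A', θ i = ∑ i ∈ A, θ i ∧ A'.card ≤ A.card)

lemma E_mem_Fid {T : Finset ι} {S : Set (Finset ι)} {A : Finset ι} (h : A ∈ S) :
    E K a A (T \ A) ∈ Fid K a T S := Ideal.subset_span ⟨A, h, rfl⟩

lemma Fid_mono {T : Finset ι} {S S' : Set (Finset ι)} (h : S ⊆ S') :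
    Fid K a T S ≤ Fid K a T S' := by
  apply Ideal.span_mono
  rintro f ⟨A, hA, rfl⟩
  exact ⟨A, h hA, rfl⟩

/-- spanning half -/
theorem mem_Fid_of_mem {T A : Finset ι} (hAT : A ⊆ T) {S : Set (Finset ι)}
    (h1 : ∀ A' : Finset ι, A' ⊆ T → Earlier θ A' A → A' ∈ S)
    {g : MvPolynomial ι K} (hg : g ∈ Lid K a θ A ⊔ Jid K a θ (T \ A)) :
    g * E K a A (T \ A) ∈ Fid K a T S := by
  have key : Lid K a θ A ⊔ Jid K a θ (T \ A) ≤
      Submodule.comap (LinearMap.mulRight (MvPolynomial ι K) (E K a A (T \ A)))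
        (Fid K a T S) := by
    apply sup_le
    · rw [Lid, Ideal.span_le]
      rintro f ⟨B, hBA, hB, hθ, rfl⟩
      change E K a (A \ B) B * E K a A (T \ A) ∈ Fid K a T S
      have e1 : T \ (A \ B) = (T \ A) ∪ B := by
        ext x
        simp only [mem_sdiff, mem_union]
        constructor
        · rintro ⟨h1, h2⟩
          by_cases hx : x ∈ A
          · right
            by_contra h3
            exact h2 ⟨hx, h3⟩
          · exact Or.inl ⟨h1, hx⟩
        · rintro (⟨h1, h2⟩ | h1)
          · exact ⟨h1, fun h => h2 h.1⟩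
          · exact ⟨hAT (hBA h1), fun h => h.2 h1⟩
      have hd : Disjoint (T \ A) B := by
        rw [Finset.disjoint_left]
        intro x hx hxB
        exact (mem_sdiff.1 hx).2 (hBA hxB)
      have e2 : E K a (A \ B) B * E K a A (T \ A) =
          E K a B (T \ A) * E K a (A \ B) (T \ (A \ B)) := by
        have e3 : E K a A (T \ A) = E K a (A \ B) (T \ A) * E K a B (T \ A) := by
          rw [← E_union_left K a Finset.sdiff_disjoint, Finset.sdiff_union_of_subset hBA]
        rw [e1, E_union_right K a _ hd, e3]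
        ring
      rw [e2]
      apply Ideal.mul_mem_left
      apply E_mem_Fid
      apply h1 _ (Finset.sdiff_subset.trans hAT)
      have hs : ∑ i ∈ A \ B, θ i = ∑ i ∈ A, θ i - ∑ i ∈ B, θ i := by
        rw [eq_sub_iff_add_eq, Finset.sum_sdiff hBA]
      rcases hθ.lt_or_eq with h | h
      · left
        rw [hs]
        rw [lt_sub_iff_add_lt]
        exact add_lt_of_neg_right _ h
      · right
        refine ⟨by rw [hs, h, sub_zero], ?_⟩
        apply Finset.card_lt_card
        refine ⟨Finset.sdiff_subset, fun hh => ?_⟩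
        obtain ⟨x, hx⟩ := Finset.nonempty_iff_ne_empty.2 hB
        exact (mem_sdiff.1 (hh (hBA hx))).2 hx
    · rw [Jid, Ideal.span_le]
      rintro f ⟨C, hCT, hC, hθ, rfl⟩
      change E K a C ((T \ A) \ C) * E K a A (T \ A) ∈ Fid K a T S
      have e1 : T \ (A ∪ C) = (T \ A) \ C := by
        ext x
        simp only [mem_sdiff, mem_union]
        tauto
      have hd : Disjoint A C := by
        rw [Finset.disjoint_left]
        intro x hx hxC
        exact (mem_sdiff.1 (hCT hxC)).2 hx
      have e2 : E K a C ((T \ A) \ C) * E K a A (T \ A) =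
          E K a A C * E K a (A ∪ C) (T \ (A ∪ C)) := by
        have e3 : E K a A (T \ A) = E K a A C * E K a A ((T \ A) \ C) := by
          rw [← E_union_right K a _ Finset.disjoint_sdiff, Finset.union_sdiff_of_subset hCT]
        rw [e1, E_union_left K a hd, e3]
        ring
      rw [e2]
      apply Ideal.mul_mem_left
      apply E_mem_Fid
      apply h1 _ (Finset.union_subset hAT (hCT.trans Finset.sdiff_subset))
      left
      rw [Finset.sum_union hd]
      exact lt_add_of_pos_right _ hθ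
  exact key hg

/-- the shift `x_j ↦ x_j + ζ` for `j ∈ C` -/
noncomputable def shift (C : Finset ι) : MvPolynomial ι K →+* Polynomial (MvPolynomial ι K) :=
  MvPolynomial.eval₂Hom (Polynomial.C.comp MvPolynomial.C)
    (fun i => Polynomial.C (X i) + if i ∈ C then Polynomial.X else 0)

lemma shift_X (C : Finset ι) (i : ι) :
    shift K C (X i) = Polynomial.C (X i) + if i ∈ C then Polynomial.X else 0 := by
  simp [shift]

lemma eval_shift (C : Finset ι) (g : MvPolynomial ι K) :
    (shift K C g).eval 0 = g := by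
  have h : (Polynomial.evalRingHom (0 : MvPolynomial ι K)).comp (shift K C) =
      RingHom.id (MvPolynomial ι K) := by
    apply MvPolynomial.ringHom_ext
    · intro r
      simp [shift]
    · intro i
      simp only [RingHom.comp_apply, shift_X, Polynomial.coe_evalRingHom, Polynomial.eval_add,
        Polynomial.eval_C, RingHom.id_apply]
      split_ifs <;> simp
  exact congrArg (fun f => f g) h

lemma shift_E (C A B : Finset ι) :
    shift K C (E K a A B) = ∏ i ∈ A, ∏ j ∈ B, (Polynomial.C (X j - X i) +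
      ((if j ∈ C then Polynomial.X else 0) - (if i ∈ C then Polynomial.X else 0))) ^ (a i j) := by
  simp only [E, map_prod, map_pow, map_sub, shift_X]
  refine Finset.prod_congr rfl fun i _ => Finset.prod_congr rfl fun j _ => ?_
  congr 1
  ring

lemma shift_E_const (C A B : Finset ι)
    (h : (A ⊆ C ∧ B ⊆ C) ∨ (Disjoint A C ∧ Disjoint B C)) :
    shift K C (E K a A B) = Polynomial.C (E K a A B) := by
  rw [shift_E]
  simp only [E, map_prod, map_pow]
  refine Finset.prod_congr rfl fun i hi => Finset.prod_congr rfl fun j hj => ?_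
  congr 1
  rcases h with ⟨h1, h2⟩ | ⟨h1, h2⟩
  · simp [h1 hi, h2 hj]
  · simp [Finset.disjoint_left.1 h1 hi, Finset.disjoint_left.1 h2 hj]

lemma shift_E_monic (C A B : Finset ι) (hA : Disjoint A C) (hB : B ⊆ C) :
    (shift K C (E K a A B)).Monic := by
  rw [shift_E]
  refine Polynomial.monic_prod_of_monic _ _ fun i hi => ?_
  refine Polynomial.monic_prod_of_monic _ _ fun j hj => ?_
  apply Polynomial.Monic.pow
  rw [if_pos (hB hj), if_neg (Finset.disjoint_left.1 hA hi), sub_zero, add_comm]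
  exact Polynomial.monic_X_add_C _

/-- independence half -/
theorem mem_of_mem_Fid {T A : Finset ι} (hAT : A ⊆ T) {S : Set (Finset ι)}
    (h2 : ∀ A' ∈ S, A' ⊆ T ∧ A' ≠ A ∧ NotLater θ A' A)
    {g : MvPolynomial ι K} (hg : g * E K a A (T \ A) ∈ Fid K a T S) :
    g ∈ Lid K a θ A ⊔ Jid K a θ (T \ A) := by
  set I := Lid K a θ A ⊔ Jid K a θ (T \ A) with hI
  -- the homomorphism to `(P/I)[ζ]`
  let φ : MvPolynomial ι K →+* Polynomial (MvPolynomial ι K ⧸ I) :=
    (Polynomial.mapRingHom (Ideal.Quotient.mk I)).comp (shift K (T \ A))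
  have hF : Fid K a T S ≤ RingHom.ker φ := by
    rw [Fid, Ideal.span_le]
    rintro f ⟨A', hA', rfl⟩
    obtain ⟨hA'T, hne, hlate⟩ := h2 A' hA'
    rw [SetLike.mem_coe, RingHom.mem_ker]
    have d1 : E K a (A' ∩ A) (A \ A') ∣ E K a A' (T \ A') :=
      E_dvd K a Finset.inter_subset_left (Finset.sdiff_subset_sdiff hAT le_rfl)
    have d2 : E K a (A' \ A) ((T \ A) \ (A' \ A)) ∣ E K a A' (T \ A') := by
      apply E_dvd K a Finset.sdiff_subset
      intro x hx
      simp only [mem_sdiff] at hx ⊢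
      exact ⟨hx.1.1, fun h => hx.2 ⟨h, hx.1.2⟩⟩
    -- kill by one of the two factors
    have kill : ∀ D : MvPolynomial ι K, D ∣ E K a A' (T \ A') → D ∈ I →
        shift K (T \ A) D = Polynomial.C D → φ (E K a A' (T \ A')) = 0 := by
      rintro D ⟨D', hD'⟩ hDI hsh
      rw [hD', map_mul]
      have : φ D = 0 := by
        simp only [φ, RingHom.comp_apply, hsh, Polynomial.coe_mapRingHom, Polynomial.map_C]
        rw [Ideal.Quotient.eq_zero_iff_mem.2 hDI, Polynomial.C_0]
      rw [this, zero_mul]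
    by_cases c1 : A \ A' ≠ ∅ ∧ ∑ i ∈ A \ A', θ i ≤ 0
    · apply kill _ d1
      · apply Ideal.mem_sup_left
        apply Ideal.subset_span
        refine ⟨A \ A', Finset.sdiff_subset, c1.1, c1.2, ?_⟩
        congr 1
        ext x
        simp only [mem_inter, mem_sdiff]
        tauto
      · apply shift_E_const
        right
        constructor
        · rw [Finset.disjoint_left]
          intro x hx hx2
          exact (mem_sdiff.1 hx2).2 (mem_inter.1 hx).2
        · rw [Finset.disjoint_left]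
          intro x hx hx2
          exact (mem_sdiff.1 hx2).2 (mem_sdiff.1 hx).1
    by_cases c2 : A' \ A ≠ ∅ ∧ 0 < ∑ i ∈ A' \ A, θ i
    · apply kill _ d2
      · apply Ideal.mem_sup_right
        apply Ideal.subset_span
        exact ⟨A' \ A, Finset.sdiff_subset_sdiff hA'T le_rfl, c2.1, c2.2, rfl⟩
      · apply shift_E_const
        left
        exact ⟨Finset.sdiff_subset_sdiff hA'T le_rfl, Finset.sdiff_subset⟩
    exfalso
    have s1 : ∑ i ∈ A \ A', θ i + ∑ i ∈ A ∩ A', θ i = ∑ i ∈ A, θ i := by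
      rw [← Finset.sum_union (Finset.disjoint_left.2 fun x hx hx2 =>
        (mem_sdiff.1 hx).2 (mem_inter.1 hx2).2), Finset.sdiff_union_inter]
    have s2 : ∑ i ∈ A' \ A, θ i + ∑ i ∈ A' ∩ A, θ i = ∑ i ∈ A', θ i := by
      rw [← Finset.sum_union (Finset.disjoint_left.2 fun x hx hx2 =>
        (mem_sdiff.1 hx).2 (mem_inter.1 hx2).2), Finset.sdiff_union_inter]
    have t1 : 0 ≤ ∑ i ∈ A \ A', θ i := by
      by_cases h : A \ A' = ∅
      · rw [h, Finset.sum_empty]
      · by_contra h3
        exact c1 ⟨h, (not_le.1 h3).le⟩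
    have t2 : ∑ i ∈ A' \ A, θ i ≤ 0 := by
      by_cases h : A' \ A = ∅
      · rw [h, Finset.sum_empty]
      · by_contra h3
        exact c2 ⟨h, not_le.1 h3⟩
    have s3 : ∑ i ∈ A', θ i ≤ ∑ i ∈ A, θ i := by
      rw [← s1, ← s2, Finset.inter_comm A' A]
      exact add_le_add_left (t2.trans t1) _
    rcases hlate with hl | ⟨hl, hcard⟩
    · exact absurd s3 (not_le.2 hl)
    · have s4 : ∑ i ∈ A \ A', θ i = ∑ i ∈ A' \ A, θ i := by
        have := hl
        rw [← s1, ← s2, Finset.inter_comm A' A] at this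
        exact (add_right_cancel this).symm
      have s5 : ∑ i ∈ A \ A', θ i = 0 := le_antisymm (s4 ▸ t2) t1
      have s6 : A \ A' = ∅ := by
        by_contra h
        exact c1 ⟨h, s5.le⟩
      have s7 : A ⊆ A' := Finset.sdiff_eq_empty_iff_subset.1 s6
      exact hne (Finset.eq_of_subset_of_card_le s7 hcard).symm
  have h0 : φ g * φ (E K a A (T \ A)) = 0 := by
    rw [← map_mul]
    exact hF hg
  have hm : (φ (E K a A (T \ A))).Monic := by
    apply Polynomial.Monic.map
    exact shift_E_monic K a _ _ _ Finset.disjoint_sdiff le_rfl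
  have h1 : φ g = 0 := (hm.mul_left_eq_zero_iff).1 h0
  have h3 : Ideal.Quotient.mk I g = 0 := by
    have := congrArg (Polynomial.eval 0) h1
    simp only [φ, RingHom.comp_apply, Polynomial.coe_mapRingHom, Polynomial.eval_zero] at this
    rw [Polynomial.eval_zero_map] at this
    rw [eval_shift] at this
    exact this
  exact Ideal.Quotient.eq_zero_iff_mem.1 h3

/-- **Theorem A, thin form.** -/
theorem colon {T A : Finset ι} (hAT : A ⊆ T) {S : Set (Finset ι)}
    (h1 : ∀ A' : Finset ι, A' ⊆ T → Earlier θ A' A → A' ∈ S)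
    (h2 : ∀ A' ∈ S, A' ⊆ T ∧ A' ≠ A ∧ NotLater θ A' A)
    (g : MvPolynomial ι K) :
    g * E K a A (T \ A) ∈ Fid K a T S ↔ g ∈ Lid K a θ A ⊔ Jid K a θ (T \ A) :=
  ⟨mem_of_mem_Fid K a θ hAT h2, mem_Fid_of_mem K a θ hAT h1⟩

end Crest.Agent.R059.ThinA
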