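import Crest.Agent.R059.AltDefs_599
import Crest.Agent.R059.ThinA_313
import Crest.Agent.R059.Thin0_613

/-!
# Row 59: the alternating form (599) and the thin form (313, 613) speak about the same spaces (helper830)

* `J0_eq_Jid`   : `Thin613.J0 = ThinA.Jid`
* `H_univ_eq`   : `Alt599.H c univ = AltSub c` (all sign-alternating polynomials)
* `Ile_univ_eq` : `Alt599.Ile k c θ univ = AltSub c ⊓ Jid univ`
* `Igt_univ_eq` : `Alt599.Igt k c θ univ = AltSub c ⊓ Lid univ`
-/

set_option autoImplicit false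

namespace Crest.Agent.R059.Bridge830

open MvPolynomial Finset

section J0

variable {P : Type*} [Fintype P] [DecidableEq P] {F : Type*} [CommRing F]
variable {V : Type*} [AddCommGroup V] [LinearOrder V] [IsOrderedAddMonoid V]

theorem KK_eq_E (arr : P → P → ℕ) (S T : Finset P) :
    Thin613.KK F arr S T = ThinA.E F arr S T := rfl

theorem J0_eq_Jid (arr : P → P → ℕ) (th : P → V) (A : Finset P) :
    Thin613.J0 F arr th A = ThinA.Jid F arr th A := by
  unfold Thin613.J0 ThinA.Jid
  congr 1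
  ext f
  constructor
  · rintro ⟨T, hT, hw, rfl⟩
    refine ⟨T, hT, ?_, hw, rfl⟩
    rintro rfl
    simp [Thin613.wt] at hw
  · rintro ⟨T, hT, _, hw, rfl⟩
    exact ⟨T, hT, hw, rfl⟩

end J0

section Alt

variable {V I : Type*} [Fintype V] [DecidableEq V] [DecidableEq I]

/-- all polynomials which are sign-alternating under the colour preserving permutations -/
def AltSub (c : V → I) : Submodule ℚ (MvPolynomial V ℚ) where
  carrier := {f | ∀ s : Equiv.Perm V, (∀ x, c (s x) = c x) →
    rename s f = ((Equiv.Perm.sign s : ℤ) : ℚ) • f}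
  add_mem' := by
    intro f g hf hg s hs
    rw [map_add, hf s hs, hg s hs, smul_add]
  zero_mem' := by
    intro s _
    simp
  smul_mem' := by
    intro a f hf s hs
    rw [map_smul, hf s hs, smul_comm]

omit [DecidableEq I] in
theorem mem_AltSub {c : V → I} {f : MvPolynomial V ℚ} :
    f ∈ AltSub c ↔ ∀ s : Equiv.Perm V, (∀ x, c (s x) = c x) →
      rename s f = ((Equiv.Perm.sign s : ℤ) : ℚ) • f := Iff.rfl

theorem mem_G_univ {c : V → I} {w : Equiv.Perm V} :
    w ∈ Alt599.G c univ ↔ ∀ v, c (w v) = c v := by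
  rw [Alt599.mem_G]
  simp

theorem Alt_apply (c : V → I) (A : Finset V) (f : MvPolynomial V ℚ) :
    Alt599.Alt c A f = ∑ w : Alt599.G c A, Alt599.sg (w : Equiv.Perm V) •
      rename (w : Equiv.Perm V) f := by
  simp [Alt599.Alt, LinearMap.sum_apply]

theorem Alt_mem (c : V → I) (f : MvPolynomial V ℚ) :
    Alt599.Alt c univ f ∈ AltSub c := by
  intro s hs
  rw [Alt_apply, map_sum, Finset.smul_sum]
  have hsG : s ∈ Alt599.G c univ := mem_G_univ.2 hs
  refine Fintype.sum_equiv (Equiv.mulLeft (⟨s, hsG⟩ : Alt599.G c univ)) _ _ ?_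
  intro w
  rw [map_smul, rename_rename, Equiv.coe_mulLeft, smul_smul]
  congr 1
  · simp only [Alt599.sg, Subgroup.coe_mul, map_mul, Units.val_mul, Int.cast_mul]
    rw [← mul_assoc]
    have h1 : ((Equiv.Perm.sign s : ℤ) : ℚ) * ((Equiv.Perm.sign s : ℤ) : ℚ) = 1 := by
      rcases Int.units_eq_one_or (Equiv.Perm.sign s) with h | h <;> rw [h] <;> norm_num
    rw [h1, one_mul]

theorem Alt_of_mem {c : V → I} {f : MvPolynomial V ℚ} (hf : f ∈ AltSub c) :
    Alt599.Alt c univ f = (Fintype.card (Alt599.G c univ) : ℚ) • f := by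
  rw [Alt_apply]
  have h1 : ∀ w : Alt599.G c univ, Alt599.sg (w : Equiv.Perm V) •
      rename (w : Equiv.Perm V) f = f := by
    intro w
    rw [hf w (mem_G_univ.1 w.2), smul_smul]
    have : Alt599.sg (w : Equiv.Perm V) * ((Equiv.Perm.sign (w : Equiv.Perm V) : ℤ) : ℚ) = 1 := by
      unfold Alt599.sg
      rcases Int.units_eq_one_or (Equiv.Perm.sign (w : Equiv.Perm V)) with h | h <;>
        rw [h] <;> norm_num
    rw [this, one_smul]
  rw [Finset.sum_congr rfl fun w _ => h1 w, Finset.sum_const, Finset.card_univ]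
  simp [Nat.cast_smul_eq_nsmul]

theorem card_ne_zero (c : V → I) : (Fintype.card (Alt599.G c univ) : ℚ) ≠ 0 := by
  have : 0 < Fintype.card (Alt599.G c univ) := Fintype.card_pos
  exact_mod_cast this.ne'

/-- an alternating member of `W` is in the image of `W` under `Alt` and conversely, if `W` is stable -/
theorem map_Alt_eq (c : V → I) (W : Submodule ℚ (MvPolynomial V ℚ))
    (hW : ∀ s : Equiv.Perm V, (∀ x, c (s x) = c x) → ∀ f ∈ W, rename s f ∈ W) :
    W.map (Alt599.Alt c univ) = AltSub c ⊓ W := by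
  apply le_antisymm
  · rintro _ ⟨f, hf, rfl⟩
    refine ⟨Alt_mem c f, ?_⟩
    rw [Alt_apply]
    exact Submodule.sum_mem _ fun w _ =>
      Submodule.smul_mem _ _ (hW w (mem_G_univ.1 w.2) f hf)
  · rintro f ⟨hf, hfW⟩
    refine ⟨(Fintype.card (Alt599.G c univ) : ℚ)⁻¹ • f, Submodule.smul_mem _ _ hfW, ?_⟩
    rw [map_smul, Alt_of_mem hf, smul_smul, inv_mul_cancel₀ (card_ne_zero c), one_smul]

theorem RA_univ : Alt599.RA (univ : Finset V) = ⊤ := by
  unfold Alt599.RA
  rw [Finset.coe_univ, supported_univ]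
  rfl

theorem H_univ_eq (c : V → I) : Alt599.H c univ = AltSub c := by
  unfold Alt599.H
  rw [RA_univ, map_Alt_eq c ⊤ (fun _ _ _ _ => Submodule.mem_top), inf_top_eq]

variable (k : I → I → ℕ) (c : V → I) (θ : I → ℤ)

theorem K_eq_E (A B : Finset V) :
    Alt599.K k c A B = ThinA.E ℚ (fun i j => k (c i) (c j)) A B := rfl

theorem rename_E (s : Equiv.Perm V) (hs : ∀ x, c (s x) = c x) (A B : Finset V) :
    rename s (ThinA.E ℚ (fun i j => k (c i) (c j)) A B) =
      ThinA.E ℚ (fun i j => k (c i) (c j)) (A.map s.toEmbedding) (B.map s.toEmbedding) := by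
  simp only [ThinA.E, map_prod, map_pow, map_sub, rename_X, Finset.prod_map,
    Equiv.coe_toEmbedding, hs]

theorem map_sdiff_univ (s : Equiv.Perm V) (A : Finset V) :
    (univ \ A).map s.toEmbedding = univ \ A.map s.toEmbedding := by
  ext v
  simp only [mem_map_equiv, mem_sdiff, mem_univ, true_and]

theorem sum_map_th (s : Equiv.Perm V) (hs : ∀ x, c (s x) = c x) (A : Finset V) :
    ∑ i ∈ A.map s.toEmbedding, θ (c i) = ∑ i ∈ A, θ (c i) := by
  simp [Finset.sum_map, hs]

theorem rename_Jid (s : Equiv.Perm V) (hs : ∀ x, c (s x) = c x) :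
    ∀ f ∈ ThinA.Jid ℚ (fun i j => k (c i) (c j)) (fun i => θ (c i)) (univ : Finset V),
      rename s f ∈ ThinA.Jid ℚ (fun i j => k (c i) (c j)) (fun i => θ (c i)) univ := by
  intro f hf
  have h : ThinA.Jid ℚ (fun i j => k (c i) (c j)) (fun i => θ (c i)) (univ : Finset V) ≤
      (ThinA.Jid ℚ (fun i j => k (c i) (c j)) (fun i => θ (c i)) univ).comap
        (rename s : MvPolynomial V ℚ →ₐ[ℚ] MvPolynomial V ℚ) := by
    unfold ThinA.Jid
    rw [Ideal.span_le]
    rintro _ ⟨A, _, hA, hw, rfl⟩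
    rw [SetLike.mem_coe, Ideal.mem_comap]
    apply Ideal.subset_span
    refine ⟨A.map s.toEmbedding, subset_univ _, ?_, ?_, ?_⟩
    · simpa using hA
    · rw [sum_map_th c θ s hs]; exact hw
    · rw [← map_sdiff_univ]
      exact rename_E k c s hs A (univ \ A)
  exact h hf

theorem rename_Lid (s : Equiv.Perm V) (hs : ∀ x, c (s x) = c x) :
    ∀ f ∈ ThinA.Lid ℚ (fun i j => k (c i) (c j)) (fun i => θ (c i)) (univ : Finset V),
      rename s f ∈ ThinA.Lid ℚ (fun i j => k (c i) (c j)) (fun i => θ (c i)) univ := by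
  intro f hf
  have h : ThinA.Lid ℚ (fun i j => k (c i) (c j)) (fun i => θ (c i)) (univ : Finset V) ≤
      (ThinA.Lid ℚ (fun i j => k (c i) (c j)) (fun i => θ (c i)) univ).comap
        (rename s : MvPolynomial V ℚ →ₐ[ℚ] MvPolynomial V ℚ) := by
    unfold ThinA.Lid
    rw [Ideal.span_le]
    rintro _ ⟨A, _, hA, hw, rfl⟩
    rw [SetLike.mem_coe, Ideal.mem_comap]
    apply Ideal.subset_span
    refine ⟨A.map s.toEmbedding, subset_univ _, ?_, ?_, ?_⟩
    · simpa using hA
    · rw [sum_map_th c θ s hs]; exact hw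
    · rw [← map_sdiff_univ]
      exact rename_E k c s hs (univ \ A) A
  exact h hf

/-- the ideal generated by a set, as a `ℚ`-space, is the supremum of the principal multiples -/
theorem span_restrict (S : Set (MvPolynomial V ℚ)) :
    (Ideal.span S).restrictScalars ℚ =
      ⨆ g ∈ S, (⊤ : Submodule ℚ (MvPolynomial V ℚ)).map (LinearMap.mulLeft ℚ g) := by
  apply le_antisymm
  · intro f hf
    rw [Submodule.restrictScalars_mem] at hf
    induction hf using Submodule.span_induction with
    | mem x hx =>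
      refine Submodule.mem_iSup_of_mem x (Submodule.mem_iSup_of_mem hx ?_)
      exact ⟨1, Submodule.mem_top, by simp⟩
    | zero => exact zero_mem _
    | add x y _ _ hx hy => exact add_mem hx hy
    | smul a x _ hx =>
      have hle : (⨆ g ∈ S, (⊤ : Submodule ℚ (MvPolynomial V ℚ)).map (LinearMap.mulLeft ℚ g)) ≤
          (⨆ g ∈ S, (⊤ : Submodule ℚ (MvPolynomial V ℚ)).map (LinearMap.mulLeft ℚ g)).comap
            (LinearMap.mulLeft ℚ a) := by
        refine iSup₂_le fun g hg => ?_
        rintro _ ⟨y, _, rfl⟩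
        rw [Submodule.mem_comap]
        refine Submodule.mem_iSup_of_mem g (Submodule.mem_iSup_of_mem hg ?_)
        refine ⟨a * y, Submodule.mem_top, ?_⟩
        simp only [LinearMap.mulLeft_apply]
        ring
      exact hle hx
  · refine iSup₂_le fun g hg => ?_
    rintro _ ⟨y, _, rfl⟩
    rw [Submodule.restrictScalars_mem, LinearMap.mulLeft_apply, mul_comm]
    exact Ideal.mul_mem_left _ _ (Ideal.subset_span hg)

theorem Ile_univ_eq :
    Alt599.Ile k c θ univ = AltSub c ⊓
      (ThinA.Jid ℚ (fun i j => k (c i) (c j)) (fun i => θ (c i)) univ).restrictScalars ℚ := by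
  rw [← map_Alt_eq c _ (fun s hs f hf => rename_Jid k c θ s hs f hf)]
  unfold Alt599.Ile ThinA.Jid
  rw [span_restrict]
  simp only [Submodule.map_iSup]
  apply le_antisymm
  · refine iSup₂_le fun A hA => ?_
    rw [Finset.mem_filter] at hA
    refine le_iSup₂_of_le (ThinA.E ℚ (fun i j => k (c i) (c j)) A (univ \ A))
      ⟨A, subset_univ _, hA.2.1.ne_empty, hA.2.2, rfl⟩ ?_
    unfold Alt599.J
    rw [Finset.union_sdiff_of_subset (subset_univ A), RA_univ, Submodule.map_comp]
    exact le_rfl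
  · refine iSup₂_le fun g hg => ?_
    obtain ⟨A, _, hA, hw, rfl⟩ := hg
    refine le_iSup₂_of_le A (by
      rw [Finset.mem_filter]
      exact ⟨Finset.mem_powerset.2 (subset_univ _), Finset.nonempty_iff_ne_empty.2 hA, hw⟩) ?_
    unfold Alt599.J
    rw [Finset.union_sdiff_of_subset (subset_univ A), RA_univ, Submodule.map_comp]
    exact le_rfl

theorem Igt_univ_eq :
    Alt599.Igt k c θ univ = AltSub c ⊓
      (ThinA.Lid ℚ (fun i j => k (c i) (c j)) (fun i => θ (c i)) univ).restrictScalars ℚ := by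
  rw [← map_Alt_eq c _ (fun s hs f hf => rename_Lid k c θ s hs f hf)]
  unfold Alt599.Igt ThinA.Lid
  rw [span_restrict]
  simp only [Submodule.map_iSup]
  apply le_antisymm
  · refine iSup₂_le fun A hA => ?_
    rw [Finset.mem_filter] at hA
    refine le_iSup₂_of_le (ThinA.E ℚ (fun i j => k (c i) (c j)) (univ \ A) A)
      ⟨A, subset_univ _, hA.2.1.ne_empty, hA.2.2, rfl⟩ ?_
    unfold Alt599.J
    rw [Finset.sdiff_union_of_subset (subset_univ A), RA_univ, Submodule.map_comp]
    exact le_rfl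
  · refine iSup₂_le fun g hg => ?_
    obtain ⟨A, _, hA, hw, rfl⟩ := hg
    refine le_iSup₂_of_le A (by
      rw [Finset.mem_filter]
      exact ⟨Finset.mem_powerset.2 (subset_univ _), Finset.nonempty_iff_ne_empty.2 hA, hw⟩) ?_
    unfold Alt599.J
    rw [Finset.sdiff_union_of_subset (subset_univ A), RA_univ, Submodule.map_comp]
    exact le_rfl

end Alt

end Crest.Agent.R059.Bridge830
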