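import Crest.Agent.R059.TPS_883

set_option autoImplicit false

/-!
Row 59 (S0081), leaf MUT, part 1 (helper456).

`M = ι →₀ ℕ`, a node `k : ι`, an additive `c : M →+ ℕ` (the "cap") with `c (e_k) = 0`.
* `Cp c k m`   : `m k ≤ c m`  (capped exponents, a submonoid);
* `til c k m`  : replace `m k` by `c m - m k`; additive involution on capped exponents;
* `Tw.mut T c k` : the mutated form, `β' (til a) (til b) = β a b` for capped `a b`;
* `tilS` : series supported on capped exponents of `T`  ↔  the same for `Tw.mut T c k`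
  (multiplicative, additive, unital, involutive);
* `flip` of an additive functional `x`: `flip x (til m) = x m` for capped `m`.
-/

namespace Crest.Agent.R059

namespace MutIso

open Finset Finsupp

variable {ι : Type*} [DecidableEq ι]

section exps

variable (c : (ι →₀ ℕ) →+ ℕ) (k : ι)

/-- capped exponents. -/
def Cp (m : ι →₀ ℕ) : Prop := m k ≤ c m

/-- the involution on exponents. -/
noncomputable def til (m : ι →₀ ℕ) : ι →₀ ℕ := m.erase k + single k (c m - m k)

variable {c k}

theorem cp_def {m : ι →₀ ℕ} : Cp c k m ↔ m k ≤ c m := Iff.rfl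

theorem Cp.zero : Cp c k 0 := by simp [Cp]

theorem Cp.add {a b : ι →₀ ℕ} (ha : Cp c k a) (hb : Cp c k b) : Cp c k (a + b) := by
  unfold Cp at *
  rw [Finsupp.add_apply, map_add]
  omega

theorem erase_split (m : ι →₀ ℕ) : m = m.erase k + (m k) • single k 1 := by
  ext j
  by_cases hj : j = k
  · subst hj; simp
  · simp [Finsupp.erase_ne hj, Finsupp.single_apply, Ne.symm hj]

theorem til_apply_self (m : ι →₀ ℕ) : til c k m k = c m - m k := by
  simp [til]

theorem til_apply_ne (m : ι →₀ ℕ) {j : ι} (hj : j ≠ k) : til c k m j = m j := by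
  simp [til, Finsupp.erase_ne hj, Finsupp.single_apply, Ne.symm hj]

theorem til_erase (m : ι →₀ ℕ) : (til c k m).erase k = m.erase k := by
  ext j
  by_cases hj : j = k
  · subst hj; simp
  · rw [Finsupp.erase_ne hj, Finsupp.erase_ne hj, til_apply_ne m hj]

theorem cap_split (hc : c (single k 1) = 0) (m : ι →₀ ℕ) : c m = c (m.erase k) := by
  conv_lhs => rw [erase_split (k := k) m]
  rw [map_add, map_nsmul, hc]; simp

theorem cap_til (hc : c (single k 1) = 0) (m : ι →₀ ℕ) : c (til c k m) = c m := by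
  rw [cap_split hc (til c k m), til_erase, ← cap_split hc]

theorem Cp.til (hc : c (single k 1) = 0) (m : ι →₀ ℕ) : Cp c k (til c k m) := by
  unfold Cp
  rw [til_apply_self, cap_til hc]
  omega

theorem til_til (hc : c (single k 1) = 0) {m : ι →₀ ℕ} (hm : Cp c k m) :
    MutIso.til c k (MutIso.til c k m) = m := by
  ext j
  by_cases hj : j = k
  · subst hj
    rw [til_apply_self, cap_til hc, til_apply_self]
    unfold Cp at hm
    omega
  · rw [til_apply_ne _ hj, til_apply_ne _ hj]

theorem til_add {a b : ι →₀ ℕ} (ha : Cp c k a) (hb : Cp c k b) :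
    til c k (a + b) = til c k a + til c k b := by
  ext j
  by_cases hj : j = k
  · subst hj
    rw [Finsupp.add_apply, til_apply_self, til_apply_self, til_apply_self, map_add,
      Finsupp.add_apply]
    unfold Cp at *
    omega
  · rw [Finsupp.add_apply, til_apply_ne _ hj, til_apply_ne _ hj, til_apply_ne _ hj,
      Finsupp.add_apply]

theorem til_zero : til c k 0 = 0 := by
  ext j
  by_cases hj : j = k
  · subst hj; simp [til_apply_self]
  · simp [til_apply_ne _ hj]

theorem til_inj (hc : c (single k 1) = 0) {a b : ι →₀ ℕ} (ha : Cp c k a) (hb : Cp c k b)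
    (h : til c k a = til c k b) : a = b := by
  rw [← til_til hc ha, ← til_til hc hb, h]

theorem til_eq_zero (hc : c (single k 1) = 0) {a : ι →₀ ℕ} (ha : Cp c k a) :
    til c k a = 0 ↔ a = 0 := by
  constructor
  · intro h
    apply til_inj hc ha Cp.zero
    rw [h, til_zero]
  · rintro rfl; exact til_zero

end exps

/-! ### the mutated form -/

section form

variable {R : Type*} [CommRing R]

/-- `m ↦ c m - m k` in `ℤ`. -/
noncomputable def dl (c : (ι →₀ ℕ) →+ ℕ) (k : ι) : (ι →₀ ℕ) →+ ℤ :=
  AddMonoidHom.mk' (fun m => (c m : ℤ) - m k) (fun a b => by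
    rw [map_add, Finsupp.add_apply]; push_cast; ring)

theorem dl_apply (c : (ι →₀ ℕ) →+ ℕ) (k : ι) (m : ι →₀ ℕ) : dl c k m = (c m : ℤ) - m k := rfl

theorem dl_single_self {c : (ι →₀ ℕ) →+ ℕ} {k : ι} (hc : c (single k 1) = 0) :
    dl c k (single k 1) = -1 := by
  rw [dl_apply, hc]; simp

theorem dl_single_ne {c : (ι →₀ ℕ) →+ ℕ} {k j : ι} (hj : j ≠ k) :
    dl c k (single j 1) = c (single j 1) := by
  rw [dl_apply]; simp [Finsupp.single_apply, hj]

theorem dl_til (c : (ι →₀ ℕ) →+ ℕ) (k : ι) (hc : c (single k 1) = 0) {m : ι →₀ ℕ}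
    (hm : Cp c k m) : dl c k (til c k m) = m k := by
  rw [dl_apply, cap_til hc, til_apply_self]
  unfold Cp at hm
  omega

/-- the mutated form. -/
noncomputable def mutForm (β : (ι →₀ ℕ) →+ (ι →₀ ℕ) →+ ℤ) (c : (ι →₀ ℕ) →+ ℕ) (k : ι) :
    (ι →₀ ℕ) →+ (ι →₀ ℕ) →+ ℤ :=
  AddMonoidHom.mk' (fun a => AddMonoidHom.mk' (fun b =>
      β (a.erase k) (b.erase k) + dl c k a * β (single k 1) (b.erase k)
        + dl c k b * β (a.erase k) (single k 1)
        + dl c k a * dl c k b * β (single k 1) (single k 1))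
    (fun b b' => by
      rw [Finsupp.erase_add]
      simp only [map_add]
      ring))
    (fun a a' => by
      ext b
      · simp only [AddMonoidHom.coe_comp, Function.comp_apply, AddMonoidHom.mk'_apply,
          AddMonoidHom.add_apply, Finsupp.erase_add, map_add]
        ring)

theorem mutForm_apply (β : (ι →₀ ℕ) →+ (ι →₀ ℕ) →+ ℤ) (c : (ι →₀ ℕ) →+ ℕ) (k : ι)
    (a b : ι →₀ ℕ) :
    mutForm β c k a b = β (a.erase k) (b.erase k) + dl c k a * β (single k 1) (b.erase k)
        + dl c k b * β (a.erase k) (single k 1)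
        + dl c k a * dl c k b * β (single k 1) (single k 1) := rfl

theorem form_split (β : (ι →₀ ℕ) →+ (ι →₀ ℕ) →+ ℤ) (k : ι) (a b : ι →₀ ℕ) :
    β a b = β (a.erase k) (b.erase k) + (a k : ℤ) * β (single k 1) (b.erase k)
        + (b k : ℤ) * β (a.erase k) (single k 1)
        + (a k : ℤ) * (b k : ℤ) * β (single k 1) (single k 1) := by
  conv_lhs => rw [erase_split (k := k) a, erase_split (k := k) b]
  simp only [map_add, map_nsmul, AddMonoidHom.add_apply, AddMonoidHom.nsmul_apply,
    nsmul_eq_mul]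
  ring

theorem mutForm_til (β : (ι →₀ ℕ) →+ (ι →₀ ℕ) →+ ℤ) {c : (ι →₀ ℕ) →+ ℕ} {k : ι}
    (hc : c (single k 1) = 0) {a b : ι →₀ ℕ} (ha : Cp c k a) (hb : Cp c k b) :
    mutForm β c k (til c k a) (til c k b) = β a b := by
  rw [mutForm_apply, til_erase, til_erase, dl_til c k hc ha, dl_til c k hc hb,
    form_split β k a b]

theorem form_til (β : (ι →₀ ℕ) →+ (ι →₀ ℕ) →+ ℤ) {c : (ι →₀ ℕ) →+ ℕ} {k : ι}
    (hc : c (single k 1) = 0) {a b : ι →₀ ℕ} (ha : Cp c k a) (hb : Cp c k b) :
    β (til c k a) (til c k b) = mutForm β c k a b := by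
  rw [← mutForm_til β hc (Cp.til hc a) (Cp.til hc b), til_til hc ha, til_til hc hb]

/-- matrix entries of the mutated form. -/
theorem mutForm_self_left (β : (ι →₀ ℕ) →+ (ι →₀ ℕ) →+ ℤ) {c : (ι →₀ ℕ) →+ ℕ} {k : ι}
    (hc : c (single k 1) = 0) (hkk : β (single k 1) (single k 1) = 0) (b : ι →₀ ℕ) :
    mutForm β c k (single k 1) b = - β (single k 1) b := by
  rw [mutForm_apply, dl_single_self hc, form_split β k (single k 1) b, hkk]
  have h0 : (single k 1 : ι →₀ ℕ).erase k = 0 := by ext j; by_cases hj : j = k <;> simp [hj]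
  rw [h0]
  simp

theorem mutForm_self_right (β : (ι →₀ ℕ) →+ (ι →₀ ℕ) →+ ℤ) {c : (ι →₀ ℕ) →+ ℕ} {k : ι}
    (hc : c (single k 1) = 0) (hkk : β (single k 1) (single k 1) = 0) (a : ι →₀ ℕ) :
    mutForm β c k a (single k 1) = - β a (single k 1) := by
  rw [mutForm_apply, dl_single_self hc, form_split β k a (single k 1), hkk]
  have h0 : (single k 1 : ι →₀ ℕ).erase k = 0 := by ext j; by_cases hj : j = k <;> simp [hj]
  rw [h0]
  simp

theorem mutForm_single (β : (ι →₀ ℕ) →+ (ι →₀ ℕ) →+ ℤ) {c : (ι →₀ ℕ) →+ ℕ} {k : ι}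
    (hkk : β (single k 1) (single k 1) = 0) {i j : ι} (hi : i ≠ k) (hj : j ≠ k) :
    mutForm β c k (single i 1) (single j 1) = β (single i 1) (single j 1)
      + (c (single i 1) : ℤ) * β (single k 1) (single j 1)
      + (c (single j 1) : ℤ) * β (single i 1) (single k 1) := by
  have hei : (single i 1 : ι →₀ ℕ).erase k = single i 1 := by
    ext l; by_cases hl : l = k
    · subst hl; simp [Finsupp.single_apply, hi]
    · rw [Finsupp.erase_ne hl]
  have hej : (single j 1 : ι →₀ ℕ).erase k = single j 1 := by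
    ext l; by_cases hl : l = k
    · subst hl; simp [Finsupp.single_apply, hj]
    · rw [Finsupp.erase_ne hl]
  rw [mutForm_apply, dl_single_ne hi, dl_single_ne hj, hkk, hei, hej]
  ring

/-- skewness is preserved. -/
theorem mutForm_skew (β : (ι →₀ ℕ) →+ (ι →₀ ℕ) →+ ℤ) (c : (ι →₀ ℕ) →+ ℕ) (k : ι)
    (hs : ∀ a b, β a b = - β b a) (a b : ι →₀ ℕ) :
    mutForm β c k a b = - mutForm β c k b a := by
  rw [mutForm_apply, mutForm_apply, hs (a.erase k) (b.erase k), hs (single k 1) (b.erase k),
    hs (a.erase k) (single k 1)]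
  have h0 : β (single k 1) (single k 1) = 0 := by
    have := hs (single k 1) (single k 1); omega
  rw [h0]
  ring

/-- the mutated twist datum. -/
noncomputable def mutTw (T : Tw (ι →₀ ℕ) R) (c : (ι →₀ ℕ) →+ ℕ) (k : ι) : Tw (ι →₀ ℕ) R :=
  ⟨T.v, mutForm T.β c k⟩

end form

/-! ### series -/

section series

open TPS

variable {R : Type*} [CommRing R] {T T' : Tw (ι →₀ ℕ) R}
variable (c : (ι →₀ ℕ) →+ ℕ) (k : ι)

/-- series supported on capped exponents. -/
def Capped (f : TPS T) : Prop := ∀ m, f.co m ≠ 0 → Cp c k m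

/-- two twist data related by the involution. -/
structure Rel (T T' : Tw (ι →₀ ℕ) R) : Prop where
  hv : T'.v = T.v
  hβ : ∀ a b, Cp c k a → Cp c k b → T'.β (til c k a) (til c k b) = T.β a b

/-- transport of a series along the involution. -/
noncomputable def tilS (T' : Tw (ι →₀ ℕ) R) (f : TPS T) : TPS T' := by
  classical exact ⟨fun m => if Cp c k m then f.co (til c k m) else 0⟩

variable {c k}

theorem rel_mut (hc : c (single k 1) = 0) : Rel c k T (mutTw T c k) :=
  ⟨rfl, fun _ _ ha hb => mutForm_til T.β hc ha hb⟩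

theorem Rel.symm (hc : c (single k 1) = 0) (H : Rel c k T T') : Rel c k T' T :=
  ⟨H.hv.symm, fun a b ha hb => by
    have := H.hβ (til c k a) (til c k b) (Cp.til hc a) (Cp.til hc b)
    rw [til_til hc ha, til_til hc hb] at this
    exact this.symm⟩

theorem rel_mut_symm (hc : c (single k 1) = 0) : Rel c k (mutTw T c k) T :=
  (rel_mut hc).symm hc

theorem co_tilS_of {f : TPS T} {m : ι →₀ ℕ} (hm : Cp c k m) :
    (tilS c k T' f).co m = f.co (til c k m) := by
  classical
  unfold tilS
  simp only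
  rw [if_pos hm]

theorem co_tilS_not {f : TPS T} {m : ι →₀ ℕ} (hm : ¬ Cp c k m) :
    (tilS c k T' f).co m = 0 := by
  classical
  unfold tilS
  simp only
  rw [if_neg hm]

theorem co_tilS_til (hc : c (single k 1) = 0) {f : TPS T} {m : ι →₀ ℕ} (hm : Cp c k m) :
    (tilS c k T' f).co (til c k m) = f.co m := by
  rw [co_tilS_of (Cp.til hc m), til_til hc hm]

theorem Capped.co_not {f : TPS T} (hf : Capped c k f) {m : ι →₀ ℕ} (hm : ¬ Cp c k m) :
    f.co m = 0 := by
  by_contra h
  exact hm (hf m h)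

theorem capped_tilS (f : TPS T) : Capped c k (tilS c k T' f) := by
  intro m hm
  by_contra h
  exact hm (co_tilS_not h)

theorem Capped.zero : Capped c k (0 : TPS T) := fun m hm => absurd rfl hm

theorem Capped.one : Capped c k (1 : TPS T) := by
  intro m hm
  by_cases h : m = 0
  · rw [h]; exact Cp.zero
  · exact absurd (co_one_ne h) hm

theorem Capped.add {f g : TPS T} (hf : Capped c k f) (hg : Capped c k g) :
    Capped c k (f + g) := by
  intro m hm
  by_contra h
  apply hm
  rw [co_add, hf.co_not h, hg.co_not h, add_zero]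

theorem Capped.neg {f : TPS T} (hf : Capped c k f) : Capped c k (-f) := by
  intro m hm
  by_contra h
  apply hm
  rw [co_neg, hf.co_not h, neg_zero]

theorem Capped.sub {f g : TPS T} (hf : Capped c k f) (hg : Capped c k g) :
    Capped c k (f - g) := by
  rw [sub_eq_add_neg]; exact hf.add hg.neg

theorem Capped.smul {f : TPS T} (hf : Capped c k f) (r : R) : Capped c k (r • f) := by
  intro m hm
  by_contra h
  apply hm
  rw [co_smul, hf.co_not h, mul_zero]

theorem Capped.mul {f g : TPS T} (hf : Capped c k f) (hg : Capped c k g) :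
    Capped c k (f * g) := by
  intro m hm
  by_contra h
  apply hm
  rw [co_mul]
  apply Finset.sum_eq_zero
  rintro ⟨a, b⟩ hp
  rw [HasAntidiagonal.mem_antidiagonal] at hp
  by_cases ha : Cp c k a
  · by_cases hb : Cp c k b
    · exact absurd (by rw [← hp]; exact ha.add hb) h
    · simp [hg.co_not hb]
  · simp [hf.co_not ha]

theorem capped_mono {m : ι →₀ ℕ} (hm : Cp c k m) (r : R) : Capped c k (mono T m r) := by
  intro d hd
  by_cases h : d = m
  · rw [h]; exact hm
  · exact absurd (co_mono_ne h r) hd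

theorem tilS_tilS (hc : c (single k 1) = 0) {f : TPS T} (hf : Capped c k f) :
    tilS c k T (tilS c k T' f) = f := by
  ext m
  by_cases hm : Cp c k m
  · rw [co_tilS_of hm, co_tilS_of (Cp.til hc m), til_til hc hm]
  · rw [co_tilS_not hm, hf.co_not hm]

theorem tilS_inj (hc : c (single k 1) = 0) {f g : TPS T} (hf : Capped c k f)
    (hg : Capped c k g) (h : tilS c k T' f = tilS c k T' g) : f = g := by
  rw [← tilS_tilS (T' := T') hc hf, ← tilS_tilS (T' := T') hc hg, h]

theorem tilS_zero : tilS c k T' (0 : TPS T) = 0 := by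
  ext m
  by_cases hm : Cp c k m
  · rw [co_tilS_of hm]; rfl
  · rw [co_tilS_not hm]; rfl

theorem tilS_add (f g : TPS T) : tilS c k T' (f + g) = tilS c k T' f + tilS c k T' g := by
  ext m
  by_cases hm : Cp c k m
  · rw [co_add, co_tilS_of hm, co_tilS_of hm, co_tilS_of hm, co_add]
  · rw [co_add, co_tilS_not hm, co_tilS_not hm, co_tilS_not hm, add_zero]

theorem tilS_neg (f : TPS T) : tilS c k T' (-f) = - tilS c k T' f := by
  ext m
  by_cases hm : Cp c k m
  · rw [co_neg, co_tilS_of hm, co_tilS_of hm, co_neg]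
  · rw [co_neg, co_tilS_not hm, co_tilS_not hm, neg_zero]

theorem tilS_sub (f g : TPS T) : tilS c k T' (f - g) = tilS c k T' f - tilS c k T' g := by
  rw [sub_eq_add_neg, tilS_add, tilS_neg, ← sub_eq_add_neg]

theorem tilS_smul (r : R) (f : TPS T) : tilS c k T' (r • f) = r • tilS c k T' f := by
  ext m
  by_cases hm : Cp c k m
  · rw [co_smul, co_tilS_of hm, co_tilS_of hm, co_smul]
  · rw [co_smul, co_tilS_not hm, co_tilS_not hm, mul_zero]

theorem tilS_one (hc : c (single k 1) = 0) : tilS c k T' (1 : TPS T) = 1 := by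
  ext m
  by_cases hm : Cp c k m
  · rw [co_tilS_of hm]
    by_cases h0 : m = 0
    · subst h0; rw [til_zero]; simp
    · rw [co_one_ne h0, co_one_ne]
      rw [Ne, til_eq_zero hc hm]
      exact h0
  · have h0 : m ≠ 0 := by rintro rfl; exact hm Cp.zero
    rw [co_tilS_not hm, co_one_ne h0]

theorem tilS_co_zero (f : TPS T) : (tilS c k T' f).co 0 = f.co 0 := by
  rw [co_tilS_of Cp.zero, til_zero]

theorem tilS_mono (hc : c (single k 1) = 0) {m : ι →₀ ℕ} (hm : Cp c k m) (r : R) :
    tilS c k T' (mono T m r) = mono T' (til c k m) r := by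
  ext d
  by_cases hd : Cp c k d
  · rw [co_tilS_of hd]
    by_cases h : d = til c k m
    · subst h
      rw [til_til hc hm, co_mono_self, co_mono_self]
    · rw [co_mono_ne h, co_mono_ne]
      rintro rfl
      exact h (til_til hc hd).symm
  · rw [co_tilS_not hd, co_mono_ne]
    rintro rfl
    exact hd (Cp.til hc m)

theorem Rel.wt (H : Rel c k T T') {a b : ι →₀ ℕ} (ha : Cp c k a) (hb : Cp c k b) :
    TPS.wt T' (til c k a) (til c k b) = TPS.wt T a b := by
  unfold TPS.wt
  rw [H.hβ a b ha hb, H.hv]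

/-- **multiplicativity** on capped series. -/
theorem tilS_mul (hc : c (single k 1) = 0) (H : Rel c k T T') {f g : TPS T}
    (hf : Capped c k f) (hg : Capped c k g) :
    tilS c k T' (f * g) = tilS c k T' f * tilS c k T' g := by
  classical
  ext m
  by_cases hm : Cp c k m
  · rw [co_tilS_of hm, co_mul, co_mul]
    rw [← Finset.sum_filter_of_ne (p := fun p : (ι →₀ ℕ) × (ι →₀ ℕ) =>
        Cp c k p.1 ∧ Cp c k p.2) (s := HasAntidiagonal.antidiagonal (til c k m)),
      ← Finset.sum_filter_of_ne (p := fun p : (ι →₀ ℕ) × (ι →₀ ℕ) =>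
        Cp c k p.1 ∧ Cp c k p.2) (s := HasAntidiagonal.antidiagonal m)]
    · apply Finset.sum_nbij' (fun p => (til c k p.1, til c k p.2))
        (fun p => (til c k p.1, til c k p.2))
      · rintro ⟨a, b⟩ hp
        simp only [Finset.mem_filter, HasAntidiagonal.mem_antidiagonal] at hp ⊢
        refine ⟨?_, Cp.til hc a, Cp.til hc b⟩
        rw [← til_add hp.2.1 hp.2.2, hp.1, til_til hc hm]
      · rintro ⟨a, b⟩ hp
        simp only [Finset.mem_filter, HasAntidiagonal.mem_antidiagonal] at hp ⊢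
        refine ⟨?_, Cp.til hc a, Cp.til hc b⟩
        rw [← til_add hp.2.1 hp.2.2, hp.1]
      · rintro ⟨a, b⟩ hp
        simp only [Finset.mem_filter] at hp
        simp only [til_til hc hp.2.1, til_til hc hp.2.2]
      · rintro ⟨a, b⟩ hp
        simp only [Finset.mem_filter] at hp
        simp only [til_til hc hp.2.1, til_til hc hp.2.2]
      · rintro ⟨a, b⟩ hp
        simp only [Finset.mem_filter] at hp
        simp only
        rw [H.wt hp.2.1 hp.2.2, co_tilS_til hc hp.2.1, co_tilS_til hc hp.2.2]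
    · rintro ⟨a, b⟩ _ hne
      simp only at hne ⊢
      constructor
      · by_contra h
        apply hne
        rw [co_tilS_not h]; simp
      · by_contra h
        apply hne
        rw [co_tilS_not h]; simp
    · rintro ⟨a, b⟩ _ hne
      simp only at hne ⊢
      constructor
      · by_contra h
        apply hne
        rw [hf.co_not h]; simp
      · by_contra h
        apply hne
        rw [hg.co_not h]; simp
  · rw [co_tilS_not hm]
    symm
    exact (capped_tilS (T' := T') f).mul (capped_tilS (T' := T') g) |>.co_not hm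

end series

/-! ### functionals -/

section functional

variable {V : Type*} [AddCommGroup V]

/-- the functional `x` in the mutated coordinates:
`x' (e_k) = - x (e_k)`, `x' (e_j) = x (e_j) + c (e_j) • x (e_k)`. -/
noncomputable def flipF (c : (ι →₀ ℕ) →+ ℕ) (k : ι) (x : (ι →₀ ℕ) →+ V) : (ι →₀ ℕ) →+ V :=
  AddMonoidHom.mk' (fun m => x (m.erase k) + (dl c k m) • x (single k 1)) (fun a b => by
    rw [Finsupp.erase_add, map_add, map_add, add_smul]; abel)

theorem flipF_apply (c : (ι →₀ ℕ) →+ ℕ) (k : ι) (x : (ι →₀ ℕ) →+ V) (m : ι →₀ ℕ) :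
    flipF c k x m = x (m.erase k) + (dl c k m) • x (single k 1) := rfl

theorem functional_split (k : ι) (x : (ι →₀ ℕ) →+ V) (m : ι →₀ ℕ) :
    x m = x (m.erase k) + (m k : ℤ) • x (single k 1) := by
  conv_lhs => rw [erase_split (k := k) m]
  rw [map_add, map_nsmul]
  simp

theorem flipF_til {c : (ι →₀ ℕ) →+ ℕ} {k : ι} (hc : c (single k 1) = 0)
    (x : (ι →₀ ℕ) →+ V) {m : ι →₀ ℕ} (hm : Cp c k m) :
    flipF c k x (til c k m) = x m := by
  rw [flipF_apply, til_erase, dl_til c k hc hm, functional_split k x m]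

theorem functional_til {c : (ι →₀ ℕ) →+ ℕ} {k : ι} (hc : c (single k 1) = 0)
    (x : (ι →₀ ℕ) →+ V) {m : ι →₀ ℕ} (hm : Cp c k m) :
    x (til c k m) = flipF c k x m := by
  rw [← flipF_til hc x (Cp.til hc m), til_til hc hm]

theorem flipF_single_self {c : (ι →₀ ℕ) →+ ℕ} {k : ι} (hc : c (single k 1) = 0)
    (x : (ι →₀ ℕ) →+ V) : flipF c k x (single k 1) = - x (single k 1) := by
  have h0 : (single k 1 : ι →₀ ℕ).erase k = 0 := by ext j; by_cases hj : j = k <;> simp [hj]
  rw [flipF_apply, dl_single_self hc, h0]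
  simp

theorem flipF_single_ne {c : (ι →₀ ℕ) →+ ℕ} {k j : ι} (hj : j ≠ k)
    (x : (ι →₀ ℕ) →+ V) :
    flipF c k x (single j 1) = x (single j 1) + (c (single j 1)) • x (single k 1) := by
  have hej : (single j 1 : ι →₀ ℕ).erase k = single j 1 := by
    ext l; by_cases hl : l = k
    · subst hl; simp [Finsupp.single_apply, hj]
    · rw [Finsupp.erase_ne hl]
  rw [flipF_apply, dl_single_ne hj, hej]
  simp

theorem flipF_flipF {c : (ι →₀ ℕ) →+ ℕ} {k : ι} (hc : c (single k 1) = 0)
    (x : (ι →₀ ℕ) →+ V) : flipF c k (flipF c k x) = x := by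
  ext j
  simp only [AddMonoidHom.coe_comp, Function.comp_apply, Finsupp.singleAddHom_apply]
  by_cases hj : j = k
  · subst hj
    rw [flipF_single_self hc, flipF_single_self hc, neg_neg]
  · rw [flipF_single_ne hj, flipF_single_ne hj, flipF_single_self hc]
    simp

end functional

/-! ### the cap of a form -/

section capOf

/-- `[β(e_k,e_j)]_+` for `j ≠ k`, `0` for `j = k`. -/
noncomputable def cf (β : (ι →₀ ℕ) →+ (ι →₀ ℕ) →+ ℤ) (k j : ι) : ℕ :=
  if j = k then 0 else (β (single k 1) (single j 1)).toNat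

/-- the cap `m ↦ ∑_{j≠k} m_j [β(e_k,e_j)]_+`. -/
noncomputable def capOf (β : (ι →₀ ℕ) →+ (ι →₀ ℕ) →+ ℤ) (k : ι) : (ι →₀ ℕ) →+ ℕ :=
  Finsupp.liftAddHom (fun j => multiplesHom ℕ (cf β k j))

theorem capOf_single (β : (ι →₀ ℕ) →+ (ι →₀ ℕ) →+ ℤ) (k j : ι) (a : ℕ) :
    capOf β k (single j a) = a * cf β k j := by
  unfold capOf
  simp [Finsupp.liftAddHom_apply_single]

theorem capOf_self (β : (ι →₀ ℕ) →+ (ι →₀ ℕ) →+ ℤ) (k : ι) :
    capOf β k (single k 1) = 0 := by
  rw [capOf_single]; simp [cf]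

theorem capOf_single_one (β : (ι →₀ ℕ) →+ (ι →₀ ℕ) →+ ℤ) {k j : ι} (hj : j ≠ k) :
    capOf β k (single j 1) = (β (single k 1) (single j 1)).toNat := by
  rw [capOf_single]; simp [cf, hj]

/-- `capOf β k m - capOf (-β) k m = β(e_k, m)` (for `β(e_k,e_k) = 0`). -/
theorem capOf_sub (β γ : (ι →₀ ℕ) →+ (ι →₀ ℕ) →+ ℤ) {k : ι}
    (hkk : β (single k 1) (single k 1) = 0)
    (hγ : ∀ j, j ≠ k → γ (single k 1) (single j 1) = - β (single k 1) (single j 1))
    (m : ι →₀ ℕ) :
    (capOf β k m : ℤ) - capOf γ k m = β (single k 1) m := by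
  induction m using Finsupp.induction_linear with
  | zero => simp
  | add f g hf hg =>
    rw [map_add, map_add, map_add, ← hf, ← hg]; push_cast; ring
  | single j a =>
    rw [capOf_single, capOf_single]
    have h1 : (single j a : ι →₀ ℕ) = a • single j 1 := by simp
    rw [h1, map_nsmul]
    by_cases hj : j = k
    · subst hj; simp [cf, hkk]
    · simp only [cf, if_neg hj, hγ j hj, nsmul_eq_mul]
      push_cast
      rcases le_total 0 (β (single k 1) (single j 1)) with h | h
      · rw [Int.toNat_of_nonneg h, Int.toNat_of_nonpos (by omega)]; simp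
      · rw [Int.toNat_of_nonpos h, Int.toNat_of_nonneg (by omega)]; simp

end capOf

end MutIso

end Crest.Agent.R059
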