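import Crest.Agent.R059.Seeds_231
import Crest.Agent.R059.MutIso_456
import Crest.Agent.R059.Dilog_344
import Crest.Agent.R059.Fac_150

set_option autoImplicit false
set_option linter.unusedSectionVars false
set_option linter.unusedSimpArgs false
set_option linter.unusedVariables false

/-!
Row 59 (S0081), Step 2: the chain of the mutations at `u_0, …, u_{n-1}` (helper231).

`Pl T A` is an abstract predicate ("`A` is the plain element of `T`"), stable under mutation
(`hM`, helper633).  Conclusion: the plain element `A` of seed `0` is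
`P(u_0) P(u_1) ⋯ P(u_{n-1}) * Z` with `Z` supported on the face `m_0 = 0`.
-/

namespace Crest.Agent.R059.Seeds231

open Finset Crest.CombinatoricsR.UnitInterval MutIso TPS

/-! ### `ev` under the involution -/

section evtil

variable {ι : Type*} [DecidableEq ι] {R : Type*} [CommRing R] {T T' : Tw (ι →₀ ℕ) R}
  {c : (ι →₀ ℕ) →+ ℕ} {k : ι}

theorem cp_nsmul {m : ι →₀ ℕ} (hm : Cp c k m) (j : ℕ) : Cp c k (j • m) := by
  induction j with
  | zero => rw [zero_nsmul]; exact Cp.zero
  | succ j ih => rw [succ_nsmul]; exact ih.add hm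

theorem til_nsmul {m : ι →₀ ℕ} (hm : Cp c k m) (j : ℕ) : til c k (j • m) = j • til c k m := by
  induction j with
  | zero => rw [zero_nsmul, zero_nsmul, til_zero]
  | succ j ih => rw [succ_nsmul, succ_nsmul, til_add (cp_nsmul hm j) hm, ih]

theorem pw_til (H : Rel c k T T') {m : ι →₀ ℕ}
    (hm : Cp c k m) (j : ℕ) : pw T' (til c k m) j = pw T m j := by
  induction j with
  | zero => rfl
  | succ j ih => rw [pw, pw, ih, ← til_nsmul hm, H.wt (cp_nsmul hm j) hm]

theorem capped_ev {m : ι →₀ ℕ} (hm : Cp c k m) (f : PowerSeries R) : Capped c k (ev T m f) := by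
  intro d hd
  obtain ⟨j, rfl⟩ := exists_of_co_ev_ne hd
  exact cp_nsmul hm j

theorem tilS_ev (hc : c (Finsupp.single k 1) = 0) (H : Rel c k T T') {m : ι →₀ ℕ}
    (hm : Cp c k m) (h0 : m ≠ 0) (f : PowerSeries R) :
    tilS c k T' (ev T m f) = ev T' (til c k m) f := by
  have h0' : til c k m ≠ 0 := by rw [Ne, til_eq_zero hc hm]; exact h0
  ext d
  by_cases hd : ∃ j : ℕ, d = j • til c k m
  · obtain ⟨j, rfl⟩ := hd
    rw [co_ev_nsmul (nsmul_inj h0'), ← til_nsmul hm, co_tilS_til hc (cp_nsmul hm j),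
      co_ev_nsmul (nsmul_inj h0), pw_til H hm]
  · rw [co_ev_of_not f (fun j hj => hd ⟨j, hj⟩)]
    by_cases hcd : Cp c k d
    · rw [co_tilS_of hcd]
      apply co_ev_of_not
      intro j hj
      apply hd
      refine ⟨j, ?_⟩
      rw [← til_nsmul hm, ← hj, til_til hc hcd]
    · exact co_tilS_not hcd

theorem capped_iff_in1 {f : TPS T} (h1 : f.co 0 = 1) : Capped c k f ↔ In1 (Cp c k) f := by
  constructor
  · intro h
    exact ⟨h1, fun d _ hP => h.co_not hP⟩
  · intro h m hm
    rcases h.eq_zero_or hm with h2 | h2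
    · rw [h2]; exact Cp.zero
    · exact h2

theorem capped_inv {f : TPS T} (h1 : f.co 0 = 1) (hf : Capped c k f) : Capped c k (inv f) := by
  rw [capped_iff_in1 (inv_zero f)]
  exact In1.inv (fun a b ha hb => ha.add hb) ((capped_iff_in1 h1).mp hf)

end evtil

/-! ### products of `ev`'s -/

section lists

variable {M : Type*} [AddCommMonoid M] [PartialOrder M] [IsOrderedCancelAddMonoid M]
  [CanonicallyOrderedAdd M] [WellFoundedLT M] [HasAntidiagonal M]
  {R : Type*} [CommRing R] {T : Tw M R}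

theorem co_zero_list_prod (l : List (TPS T)) (hl : ∀ f ∈ l, f.co 0 = 1) : l.prod.co 0 = 1 := by
  induction l with
  | nil => exact co_one_zero
  | cons f l ih =>
    rw [List.prod_cons, co_mul_zero', hl f (by simp), ih (fun g hg => hl g (by simp [hg])),
      mul_one]

end lists

variable {n : ℕ} {R : Type*} [CommRing R]

theorem capped_list_prod {T : Tw (Fin n →₀ ℕ) R} {c : (Fin n →₀ ℕ) →+ ℕ} {k : Fin n}
    (l : List (TPS T)) (hl : ∀ f ∈ l, Capped c k f) : Capped c k l.prod := by
  induction l with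
  | nil => exact Capped.one
  | cons f l ih =>
    rw [List.prod_cons]
    exact (hl f (by simp)).mul (ih (fun g hg => hl g (by simp [hg])))

theorem tilS_list_prod {T T' : Tw (Fin n →₀ ℕ) R} {c : (Fin n →₀ ℕ) →+ ℕ} {k : Fin n}
    (hc : c (Finsupp.single k 1) = 0) (H : Rel c k T T')
    (l : List (TPS T)) (hl : ∀ f ∈ l, Capped c k f) :
    tilS c k T' l.prod = (l.map (tilS c k T')).prod := by
  induction l with
  | nil => exact tilS_one hc
  | cons f l ih =>
    rw [List.prod_cons, List.map_cons, List.prod_cons,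
      tilS_mul hc H (hl f (by simp)) (capped_list_prod l (fun g hg => hl g (by simp [hg]))),
      ih (fun g hg => hl g (by simp [hg]))]

/-! ### the step of the chain: exponents -/

section step

variable (h : Fin n → ℕ) (hh : IsHessenberg h)
  (hconn : ∀ i : Fin n, (i : ℕ) + 1 < n → (i : ℕ) + 2 ≤ h i)
  {T : Tw (Fin n →₀ ℕ) R} {k : ℕ} (hk : k < n)
  (hT : ∀ a b, T.β a b = Kill59.s h (uk k a) (uk k b))

include hT in
theorem capOf_single_ne {j : Fin n} (hj : (j : ℕ) ≠ k) :
    capOf T.β ⟨k, hk⟩ (Finsupp.single j 1) = (Kill59.s h (U n k) (cls k j)).toNat := by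
  rw [capOf_single_one T.β (fun h0 => hj (by rw [h0])), hT, uk_single, uk_single, cls_self hk]
  simp

include hh hconn hT in
/-- `uk (k+1) m = uk k (m without k) + (cap m - m_k) u_k`. -/
theorem uk_succ (m : Fin n →₀ ℕ) :
    uk (k + 1) m = uk k (m.erase ⟨k, hk⟩) + dl (capOf T.β ⟨k, hk⟩) ⟨k, hk⟩ m • U n k := by
  induction m using Finsupp.induction_linear with
  | zero => simp
  | add f g hf hg => rw [map_add, hf, hg, Finsupp.erase_add, map_add, map_add, add_smul]; abel
  | single j a =>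
    have h1 : (Finsupp.single j a : Fin n →₀ ℕ) = a • Finsupp.single j 1 := by simp
    rw [uk_single]
    by_cases hj : (j : ℕ) = k
    · have hj' : j = ⟨k, hk⟩ := Fin.ext hj
      subst hj'
      rw [cls_succ_self hk, Finsupp.erase_single, map_zero, zero_add, h1, map_nsmul,
        dl_single_self (capOf_self _ _)]
      simp
    · have hj' : j ≠ ⟨k, hk⟩ := fun h0 => hj (by rw [h0])
      have h2 : (Finsupp.single j a : Fin n →₀ ℕ).erase ⟨k, hk⟩ = Finsupp.single j a := by
        ext l; by_cases hl : l = ⟨k, hk⟩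
        · subst hl; simp [Finsupp.single_apply, hj']
        · rw [Finsupp.erase_ne hl]
      rw [h2, uk_single, cls_succ h hh hconn hk j hj]
      conv_rhs => rw [h1, map_nsmul, dl_single_ne hj', capOf_single_ne h hk hT hj]
      rw [smul_add, smul_smul, nsmul_eq_mul]

include hh hconn hT in
/-- the involution does not change the `u`-coordinates. -/
theorem uk_succ_til {m : Fin n →₀ ℕ} (hm : Cp (capOf T.β ⟨k, hk⟩) ⟨k, hk⟩ m) :
    uk (k + 1) (til (capOf T.β ⟨k, hk⟩) ⟨k, hk⟩ m) = uk k m := by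
  rw [uk_succ h hh hconn hk hT, til_erase, dl_til _ _ (capOf_self _ _) hm]
  conv_rhs => rw [erase_split (k := ⟨k, hk⟩) m, map_add, map_nsmul, uk_single, cls_self hk]
  simp

include hh hconn hT in
theorem xk_succ_til {m : Fin n →₀ ℕ} (hm : Cp (capOf T.β ⟨k, hk⟩) ⟨k, hk⟩ m) :
    xk (k + 1) (til (capOf T.β ⟨k, hk⟩) ⟨k, hk⟩ m) = xk k m := by
  rw [xk_apply, xk_apply, uk_succ_til h hh hconn hk hT hm]

include hh hconn hT in
/-- the mutated form is the form of seed `k+1`. -/
theorem mut_form (a b : Fin n →₀ ℕ) :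
    (mutTw T (capOf T.β ⟨k, hk⟩) ⟨k, hk⟩).β a b = Kill59.s h (uk (k + 1) a) (uk (k + 1) b) := by
  have h0 : (mutTw T (capOf T.β ⟨k, hk⟩) ⟨k, hk⟩).β a b =
    mutForm T.β (capOf T.β ⟨k, hk⟩) ⟨k, hk⟩ a b := rfl
  rw [h0, mutForm_apply, uk_succ h hh hconn hk hT, uk_succ h hh hconn hk hT]
  simp only [hT]
  rw [Kill59.s_add_left, s_add_right, s_add_right, Kill59.s_smul_left, Kill59.s_smul_left,
    s_smul_right, s_smul_right, s_self, uk_single, cls_self hk, s_self]
  simp only [Nat.cast_one, one_smul]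
  ring

include hh hconn hT in
/-- the cap of `u_j`, `j > k`, written at seed `k+1`, is `1`. -/
theorem capOf_uv : ∀ j : ℕ, k + 1 ≤ j → j < n →
    capOf T.β ⟨k, hk⟩ (uv n (k + 1) j) = 1 := by
  intro j hkj
  induction j, hkj using Nat.le_induction with
  | base =>
    intro hj
    rw [uv_self hj, capOf_single_ne h hk hT (by simp),
      s_U_cls_near h hconn hk _ (Or.inr rfl)]
    rfl
  | succ j hkj ih =>
    intro hj
    rw [uv_succ hkj hj, map_add, ih (by omega), capOf_single_ne h hk hT (by simp only; omega),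
      Int.toNat_of_nonpos (s_U_cls_far h hh hk _ (by simp only; omega) (by simp only; omega))]

theorem cp_uv (j : ℕ) (c : (Fin n →₀ ℕ) →+ ℕ) :
    Cp c ⟨k, hk⟩ (uv n (k + 1) j) := by
  rw [cp_def, uv_apply, if_neg (by simp only; omega)]
  exact Nat.zero_le _

include hh hconn hT in
theorem til_uv {j : ℕ} (hkj : k + 1 ≤ j) (hj : j < n) :
    til (capOf T.β ⟨k, hk⟩) ⟨k, hk⟩ (uv n (k + 1) j) = uv n k j := by
  ext i
  by_cases hi : i = ⟨k, hk⟩
  · subst hi
    rw [til_apply_self, capOf_uv h hh hconn hk hT j hkj hj, uv_apply, uv_apply,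
      if_neg (by simp only; omega), if_pos (by simp only; omega)]
  · rw [til_apply_ne _ hi, uv_apply, uv_apply]
    have : (i : ℕ) ≠ k := fun h0 => hi (Fin.ext h0)
    by_cases h1 : k + 1 ≤ (i : ℕ) ∧ (i : ℕ) ≤ j
    · rw [if_pos h1, if_pos (by omega)]
    · rw [if_neg h1, if_neg (by omega)]

end step

theorem uv_ne_zero {k j : ℕ} (hk : k < n) (hkj : k ≤ j) : uv n k j ≠ 0 := by
  intro h0
  have := DFunLike.congr_fun h0 (⟨k, hk⟩ : Fin n)
  rw [uv_apply, if_pos (by simp only; omega)] at this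
  simp at this

/-! ### the chain -/

/-- **The chain of mutations** (downward induction on the seed). -/
theorem chain_aux (h : Fin n → ℕ) (hh : IsHessenberg h)
    (hconn : ∀ i : Fin n, (i : ℕ) + 1 < n → (i : ℕ) + 2 ≤ h i)
    (v : Rˣ) (p : PowerSeries R) (hp : PowerSeries.constantCoeff p = 1)
    (Pl : ∀ T : Tw (Fin n →₀ ℕ) R, TPS T → Prop)
    (hM : ∀ T : Tw (Fin n →₀ ℕ) R, T.v = v → (∀ a b, T.β a b = - T.β b a) →
      ∀ (k : Fin n) (A : TPS T), Pl T A → ∃ B : TPS T, Capped (capOf T.β k) k B ∧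
        A = ev T (Finsupp.single k 1) p * B ∧
        Pl (mutTw T (capOf T.β k) k)
          (tilS (capOf T.β k) k (mutTw T (capOf T.β k) k) B *
            ev (mutTw T (capOf T.β k) k) (Finsupp.single k 1) p)) :
    ∀ (d k : ℕ), k + d = n → ∀ T : Tw (Fin n →₀ ℕ) R, T.v = v →
      (∀ a b, T.β a b = Kill59.s h (uk k a) (uk k b)) → ∀ A : TPS T, Pl T A →
      ∃ Z : TPS T, (∀ m, Z.co m ≠ 0 → xk k m ≤ 0) ∧
        A = ((List.range d).map (fun i => ev T (uv n k (k + i)) p)).prod * Z := by
  intro d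
  induction d with
  | zero =>
    intro k hkn T _ _ A _
    have hk : k = n := by omega
    subst hk
    exact ⟨A, fun m _ => xk_last m, by simp⟩
  | succ d ih =>
    intro k hkn T hv hT A hA
    have hk : k < n := by omega
    obtain ⟨B, hBc, hAB, hPl⟩ := hM T hv (fun a b => by rw [hT, hT, Kill59.s_skew]) ⟨k, hk⟩ A hA
    set c := capOf T.β ⟨k, hk⟩ with hcdef
    have hc0 : c (Finsupp.single ⟨k, hk⟩ 1) = 0 := capOf_self _ _
    set T' := mutTw T c ⟨k, hk⟩ with hT'def
    have hR : Rel c ⟨k, hk⟩ T T' := rel_mut hc0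
    have hR' : Rel c ⟨k, hk⟩ T' T := rel_mut_symm hc0
    have hT' : ∀ a b, T'.β a b = Kill59.s h (uk (k + 1) a) (uk (k + 1) b) :=
      mut_form h hh hconn hk hT
    obtain ⟨Z', hZ', hEq⟩ := ih (k + 1) (by omega) T' hv hT' _ hPl
    set L' : List (TPS T') :=
      (List.range d).map (fun i => ev T' (uv n (k + 1) (k + 1 + i)) p) with hL'
    -- the node of seed `k+1`
    have hek : (Finsupp.single (⟨k, hk⟩ : Fin n) 1 : Fin n →₀ ℕ) ≠ 0 := by simp
    set N := ev T' (Finsupp.single (⟨k, hk⟩ : Fin n) 1) p with hN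
    have hN1 : N.co 0 = 1 := by rw [hN, co_ev_zero (nsmul_inj hek), hp]
    have hLc : ∀ f ∈ L', Capped c ⟨k, hk⟩ f := by
      intro f hf
      rw [hL', List.mem_map] at hf
      obtain ⟨i, hi, rfl⟩ := hf
      rw [List.mem_range] at hi
      exact capped_ev (cp_uv hk _ _) p
    have hL1 : ∀ f ∈ L', f.co 0 = 1 := by
      intro f hf
      rw [hL', List.mem_map] at hf
      obtain ⟨i, hi, rfl⟩ := hf
      rw [List.mem_range] at hi
      rw [co_ev_zero (nsmul_inj (uv_ne_zero (by omega) (by omega))), hp]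
    have hP1 : L'.prod.co 0 = 1 := co_zero_list_prod L' hL1
    have hPc : Capped c ⟨k, hk⟩ L'.prod := capped_list_prod L' hLc
    -- `Z'' = Z' N⁻¹`
    set Z'' := Z' * inv N with hZ''
    have hB' : tilS c ⟨k, hk⟩ T' B = L'.prod * Z'' := by
      rw [hZ'', ← mul_assoc, ← hEq, mul_assoc, mul_inv hN1, mul_one]
    have hZc : Capped c ⟨k, hk⟩ Z'' := by
      have h1 : Z'' = inv L'.prod * tilS c ⟨k, hk⟩ T' B := by
        rw [hB', ← mul_assoc, inv_mul hP1, one_mul]
      rw [h1]
      exact (capped_inv hP1 hPc).mul (capped_tilS B)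
    -- support of `Z''`
    have hxN : xk (k + 1) (Finsupp.single (⟨k, hk⟩ : Fin n) 1) = -1 := by
      rw [xk_apply, uk_single, cls_succ_self hk, Nat.cast_one, one_smul, dg_neg, dg_U hk]
    have hNin : In1 (fun m : Fin n →₀ ℕ => xk (k + 1) m ≤ 0) (inv N) := by
      apply In1.inv (fun a b ha hb => by rw [map_add]; omega)
      refine ⟨hN1, fun m _ hm => ?_⟩
      by_contra hne
      obtain ⟨j, rfl⟩ := exists_of_co_ev_ne hne
      apply hm
      rw [map_nsmul, hxN]
      simp
    have hZs : ∀ m, Z''.co m ≠ 0 → xk (k + 1) m ≤ 0 := by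
      intro m hm
      by_contra hcon
      apply hm
      rw [hZ'', co_mul]
      apply Finset.sum_eq_zero
      rintro ⟨a, b⟩ hab
      rw [HasAntidiagonal.mem_antidiagonal] at hab
      simp only at hab ⊢
      by_cases ha : Z'.co a = 0
      · rw [ha]; simp
      · by_cases hb : (inv N).co b = 0
        · rw [hb]; simp
        · exfalso
          have h1 := hZ' a ha
          have h2 : xk (k + 1) b ≤ 0 := by
            rcases hNin.eq_zero_or hb with h3 | h3
            · rw [h3, map_zero]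
            · exact h3
          rw [← hab, map_add] at hcon
          omega
    refine ⟨tilS c ⟨k, hk⟩ T Z'', ?_, ?_⟩
    · intro m hm
      by_cases hmc : Cp c ⟨k, hk⟩ m
      · rw [co_tilS_of hmc] at hm
        have := hZs _ hm
        rwa [hcdef, xk_succ_til h hh hconn hk hT hmc] at this
      · exact absurd (co_tilS_not hmc) hm
    · have hB : B = (L'.map (tilS c ⟨k, hk⟩ T)).prod * tilS c ⟨k, hk⟩ T Z'' := by
        rw [← tilS_list_prod hc0 hR' L' hLc, ← tilS_mul hc0 hR' hPc hZc, ← hB',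
          tilS_tilS hc0 hBc]
      have hmap : L'.map (tilS c ⟨k, hk⟩ T) =
          (List.range d).map (fun i => ev T (uv n k (k + (i + 1))) p) := by
        rw [hL', List.map_map]
        apply List.map_congr_left
        intro i hi
        rw [List.mem_range] at hi
        simp only [Function.comp_apply]
        rw [tilS_ev hc0 hR' (cp_uv hk _ _)
          (uv_ne_zero (by omega) (by omega)), til_uv h hh hconn hk hT (by omega) (by omega)]
        congr 2
        omega
      rw [List.range_succ_eq_map, List.map_cons, List.map_map, List.prod_cons, hAB, hB, hmap,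
        add_zero, uv_self hk, mul_assoc]
      rfl

/-- **The chain**: the plain element of seed `0` is `P(u_0) ⋯ P(u_{n-1}) * Z`, `Z` supported on
the face `m_0 = 0`, where `Z` has the coefficients of `A`. -/
theorem chain (h : Fin n → ℕ) (hh : IsHessenberg h)
    (hconn : ∀ i : Fin n, (i : ℕ) + 1 < n → (i : ℕ) + 2 ≤ h i)
    (v : Rˣ) (p : PowerSeries R) (hp : PowerSeries.constantCoeff p = 1)
    (Pl : ∀ T : Tw (Fin n →₀ ℕ) R, TPS T → Prop)
    (hM : ∀ T : Tw (Fin n →₀ ℕ) R, T.v = v → (∀ a b, T.β a b = - T.β b a) →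
      ∀ (k : Fin n) (A : TPS T), Pl T A → ∃ B : TPS T, Capped (capOf T.β k) k B ∧
        A = ev T (Finsupp.single k 1) p * B ∧
        Pl (mutTw T (capOf T.β k) k)
          (tilS (capOf T.β k) k (mutTw T (capOf T.β k) k) B *
            ev (mutTw T (capOf T.β k) k) (Finsupp.single k 1) p))
    (hn : 0 < n) (T : Tw (Fin n →₀ ℕ) R) (hv : T.v = v) (hT : T.β = form h) (A : TPS T)
    (hA : Pl T A) :
    ∃ Z : TPS T, (∀ m, Z.co m ≠ 0 → m ⟨0, hn⟩ = 0) ∧
      (∀ m, m ⟨0, hn⟩ = 0 → Z.co m = A.co m) ∧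
      A = (List.ofFn (fun i : Fin n => ev T (ux i) p)).prod * Z := by
  obtain ⟨Z, hZ, hAZ⟩ := chain_aux h hh hconn v p hp Pl hM n 0 (by omega) T hv
    (fun a b => by rw [hT, form_apply, uk_zero_eq, uk_zero_eq]) A hA
  have hl : (List.range n).map (fun i => ev T (uv n 0 (0 + i)) p) =
      List.ofFn (fun i : Fin n => ev T (ux i) p) := by
    apply List.ext_getElem
    · simp
    · intro i h1 h2
      simp only [List.getElem_map, List.getElem_range, List.getElem_ofFn, zero_add]
      rw [← uv_zero]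
  rw [hl] at hAZ
  have hZ0 : ∀ m, Z.co m ≠ 0 → m ⟨0, hn⟩ = 0 := by
    intro m hm
    have := hZ m hm
    rw [xk_zero hn] at this
    omega
  refine ⟨Z, hZ0, ?_, hAZ⟩
  intro m hm
  -- the product has constant term 1 and degree `> 0` otherwise
  set L := (List.ofFn (fun i : Fin n => ev T (ux i) p)).prod with hL
  have hux : ∀ i : Fin n, ux i ≠ 0 := fun i => by
    rw [← uv_zero]; exact uv_ne_zero hn (Nat.zero_le _)
  have hin : ∀ l : List (TPS T), (∀ f ∈ l, In1 (fun m : Fin n →₀ ℕ => m ⟨0, hn⟩ ≠ 0) f) →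
      In1 (fun m : Fin n →₀ ℕ => m ⟨0, hn⟩ ≠ 0) l.prod := by
    intro l hl
    induction l with
    | nil => exact in1_one _
    | cons f l ih =>
      rw [List.prod_cons]
      apply In1.mul (fun a b ha hb => by rw [Finsupp.add_apply]; omega) (hl f (by simp))
        (ih (fun g hg => hl g (by simp [hg])))
  have hLin : In1 (fun m : Fin n →₀ ℕ => m ⟨0, hn⟩ ≠ 0) L := by
    apply hin
    intro f hf
    rw [List.mem_ofFn] at hf
    obtain ⟨i, rfl⟩ := hf
    refine ⟨by rw [co_ev_zero (nsmul_inj (hux i)), hp], fun m hm0 hm => ?_⟩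
    by_contra hne
    obtain ⟨j, rfl⟩ := exists_of_co_ev_ne hne
    apply hm
    have : ux i (⟨0, hn⟩ : Fin n) = 1 := by
      rw [ux_apply, if_pos (by simp [Fin.le_def])]
    rw [Finsupp.smul_apply, this, smul_eq_mul, mul_one]
    rintro rfl
    exact hm0 (zero_nsmul _)
  rw [hAZ, co_mul, Finset.sum_eq_single (0, m)]
  · simp only
    rw [hLin.one, wt_zero_left, one_mul, one_mul]
  · rintro ⟨a, b⟩ hab hne
    rw [HasAntidiagonal.mem_antidiagonal] at hab
    simp only at hab ⊢
    by_cases ha : a = 0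
    · exfalso; apply hne; rw [ha] at hab ⊢; rw [← hab, zero_add]
    · have ha0 : a ⟨0, hn⟩ = 0 := by
        have := DFunLike.congr_fun hab (⟨0, hn⟩ : Fin n)
        rw [Finsupp.add_apply] at this
        omega
      rw [hLin.supp a ha (by simp only [ne_eq, not_not]; exact ha0)]
      simp
  · intro hcon
    exact absurd (by simp [HasAntidiagonal.mem_antidiagonal]) hcon

end Crest.Agent.R059.Seeds231
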