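import Crest.Agent.R059.EPsiD_998
import Crest.Agent.R059.Fac_150
import Crest.Agent.R059.Grnd_883

/-!
# Row 59, track T: the `Ψ` identities in the frozen language of `Grnd_883`

* `udeg` : the `u`-degree of an exponent (coordinate of `b_0 = u_0`);
* `PsiK R h = ∏_i P(τ X_{u_i})` (344's `dil _ (ux i) true 1`), `sig R h` = scaling by `q^{udeg}`;
* `sig_Psi : sig (PsiK R h) = PsiK R h * EE R h 1`;
* `EE_scale : EE R h z = scale (z^{udeg}) (EE R h 1)`;
* `conj_form` : `B = lft P (Ψ a_W)` satisfies `B⁻¹ σ(B) = B_W⁻¹ E B_W`, `B_W = lft P_θ a_W`.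
-/

set_option autoImplicit false

namespace Crest.Agent.R059.EPsi998

open Finset TPS Sc998 Dilog344 Crest.CombinatoricsR.UnitInterval

section conj

variable {M : Type*} [AddCommMonoid M] [PartialOrder M] [IsOrderedCancelAddMonoid M]
  [CanonicallyOrderedAdd M] [WellFoundedLT M] [HasAntidiagonal M]
variable {R : Type*} [CommRing R] {T : Tw M R}

/-- left factors of `Ψ a` when `Ψ` is supported on `P`. -/
theorem lft_mul {P : M → Prop} (hadd : ∀ a b, P a → P b → P (a + b)) {Ψ a : TPS T}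
    (hΨ : In1 P Ψ) (ha : a.co 0 = 1) : lft P (Ψ * a) = Ψ * lft P a := by
  have h1 : In1 P (Ψ * lft P a) := hΨ.mul hadd (in1_lft P a)
  have h2 := fac_unique (P := P) (a := Ψ * a) (f := Ψ * lft P a) (g := rgt P a) h1.one
    (rgt_zero P a) (fun e he hPe => h1.supp e he hPe) (fun e he hPe => rgt_of a he hPe)
    (by rw [mul_assoc, lft_mul_rgt P ha])
  exact h2.1.symm

/-- the left factor only depends on the predicate on the (additively closed) support. -/
theorem lft_congr_supp {S P Q : M → Prop} (hS : ∀ a b, S a → S b → S (a + b)) {a : TPS T}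
    (ha : In1 S a) (hPQ : ∀ d, S d → (P d ↔ Q d)) : lft P a = lft Q a := by
  have h1 := ha.lft hS P
  have h2 := ha.rgt hS P
  refine (fac_unique (P := Q) (a := a) (f := lft P a) (g := rgt P a) h1.one h2.one ?_ ?_
    (lft_mul_rgt P ha.one)).1
  · intro e he hQ
    exact h1.supp e he (fun hc => hQ ((hPQ e hc.2).1 hc.1))
  · intro e he hQ
    exact h2.supp e he (fun hc => hc.1 ((hPQ e hc.2).2 hQ))

variable {χ : Multiplicative M →* R}

/-- `scale` fixes series supported on `χ = 1`. -/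
theorem scale_of_in1 {S : M → Prop} (hχ : ∀ d, S d → χ (Multiplicative.ofAdd d) = 1)
    {a : TPS T} (ha : In1 S a) : scale χ a = a := by
  apply scale_eq_self
  intro m hm
  rcases ha.eq_zero_or hm with h | h
  · rw [h, ofAdd_zero, map_one]
  · exact hχ m h

/-- **(E4)+(E5)** `B = lft P (Ψ a_W)`: `B = Ψ B_W` and `B⁻¹ σ(B) = B_W⁻¹ E B_W`. -/
theorem conj_form {deg : M →+ ℕ} {P Pθ : M → Prop} (hadd : ∀ a b, P a → P b → P (a + b))
    (hpos : ∀ d, 0 < deg d → P d) (h0 : ∀ d, deg d = 0 → (P d ↔ Pθ d))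
    (hχ : ∀ d, deg d = 0 → χ (Multiplicative.ofAdd d) = 1) {Ψ aW E : TPS T}
    (hΨ : In1 (fun d => 0 < deg d) Ψ) (haW : In1 (fun d => deg d = 0) aW)
    (hE : scale χ Ψ = Ψ * E) :
    lft P (Ψ * aW) = Ψ * lft Pθ aW ∧
      inv (lft P (Ψ * aW)) * scale χ (lft P (Ψ * aW)) = inv (lft Pθ aW) * E * lft Pθ aW := by
  have hS : ∀ a b : M, deg a = 0 → deg b = 0 → deg (a + b) = 0 := fun a b ha hb => by
    rw [map_add, ha, hb]
  have e1 : lft P (Ψ * aW) = Ψ * lft Pθ aW := by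
    rw [lft_mul hadd (hΨ.mono (fun d _ hd => hpos d hd)) haW.one,
      lft_congr_supp hS haW h0]
  refine ⟨e1, ?_⟩
  have e2 : scale χ (lft Pθ aW) = lft Pθ aW :=
    scale_of_in1 (S := fun d => Pθ d ∧ deg d = 0) (fun d hd => hχ d hd.2) (haW.lft hS Pθ)
  rw [e1, map_mul, e2, hE, inv_mul_rev hΨ.one (lft_zero _ _)]
  calc inv (lft Pθ aW) * inv Ψ * (Ψ * E * lft Pθ aW)
      = inv (lft Pθ aW) * (inv Ψ * Ψ) * E * lft Pθ aW := by simp only [mul_assoc]
    _ = _ := by rw [inv_mul hΨ.one, mul_one]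

end conj

section K

variable {n : ℕ}

/-- the `u`-degree. -/
def udeg (n : ℕ) : (Fin n →₀ ℕ) →+ ℕ where
  toFun d := if hn : 0 < n then d ⟨0, hn⟩ else 0
  map_zero' := by split_ifs <;> simp
  map_add' a b := by split_ifs <;> simp

theorem udeg_apply (hn : 0 < n) (d : Fin n →₀ ℕ) : udeg n d = d ⟨0, hn⟩ := dif_pos hn

theorem udeg_ux (i : Fin n) : udeg n (ux i) = 1 := by
  have hn : 0 < n := lt_of_le_of_lt (Nat.zero_le _) i.2
  rw [udeg_apply hn, ux_apply, if_pos]
  exact Fin.le_def.2 (Nat.zero_le _)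

theorem udeg_sum_ux (S : Finset (Fin n)) : udeg n (∑ i ∈ S, ux i) = S.card := by
  rw [map_sum, Finset.sum_congr rfl (fun i _ => udeg_ux i)]
  simp

theorem tau_ne (k : ℕ) (hk : k ≠ 0) : ((tau⁻¹ : KKˣ) : KK) ^ (2 * k) - 1 ≠ 0 := by
  have h1 := qq_pow_sub_one_ne k hk
  rw [qq, ← pow_mul] at h1
  intro h
  apply h1
  rw [sub_eq_zero] at h ⊢
  have h3 : (tau : KK) ^ (2 * k) * ((tau⁻¹ : KKˣ) : KK) ^ (2 * k) = 1 := by
    rw [← mul_pow, Units.mul_inv, one_pow]
  rw [h, mul_one] at h3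
  exact h3

theorem qreg_KK : QReg (((tau⁻¹ : KKˣ) : KK) ^ 2) := by
  intro k
  rw [← pow_mul]
  exact (Ne.isUnit (tau_ne (k + 1) (Nat.succ_ne_zero k)))

variable (R : Type*) [CommRing R] [Algebra KK R]

theorem tw_v {M : Type*} [AddCommMonoid M] (β : M →+ M →+ ℤ) :
    ((tw R β).v : R) = algebraMap KK R ((tau⁻¹ : KKˣ) : KK) := rfl

theorem qreg_tw {M : Type*} [AddCommMonoid M] (β : M →+ M →+ ℤ) :
    QReg (((tw R β).v : R) ^ 2) := by
  rw [tw_v, ← map_pow]
  exact qreg_KK.map (algebraMap KK R)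

theorem tw_v_neg {M : Type*} [AddCommMonoid M] (β : M →+ M →+ ℤ) :
    (((tw R β).v ^ (-1 : ℤ) : Rˣ) : R) = algebraMap KK R (tau : KK) := by
  have h1 : (tw R β).v = Units.map (algebraMap KK R).toMonoidHom tau⁻¹ := rfl
  rw [h1, ← map_zpow]
  have h2 : (tau⁻¹ : KKˣ) ^ (-1 : ℤ) = tau := by simp
  rw [h2]
  rfl

variable {R}

/-- adjacency for `i < j`. -/
def adjH (h : Fin n → ℕ) (i j : Fin n) : Prop := (j : ℕ) + 1 ≤ h i

theorem cls (h : Fin n → ℕ) (hh : IsHessenberg h) :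
    Cls (tw R (form h)) (adjH h) (ux : Fin n → Fin n →₀ ℕ) := by
  have hb : ∀ i j : Fin n, (tw R (form h)).β (ux i) (ux j) = Kill59.e h i j := by
    intro i j
    show form h (ux i) (ux j) = _
    rw [form_apply, uco_ux, uco_ux, Kill59.s_u_u]
  refine ⟨fun a b => form_skew h a b, ?_, ?_, ?_, ?_⟩
  · intro i j hij hadj
    rw [hb, Kill59.e, if_pos ⟨hij, hadj⟩]
  · intro i j hij hadj
    rw [hb, Kill59.e, if_neg (fun hc => hadj hc.2), if_neg (fun hc => not_lt.2 hij.le hc.1)]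
  · intro a i j hai _ _ haj
    exact le_trans haj (hh.1 hai.le)
  · intro a i j _ hja hia _
    exact le_trans (Nat.succ_le_succ (Fin.lt_def.1 hja).le) hia

theorem ux_inj' (i : Fin n) : Function.Injective (fun k : ℕ => k • (ux i : Fin n →₀ ℕ)) := by
  apply nsmul_inj
  intro hc
  have := DFunLike.congr_fun hc i
  rw [ux_apply, if_pos le_rfl] at this
  exact absurd this one_ne_zero

variable (R)

/-- `Ψ = P(x_1) ⋯ P(x_n)`. -/
noncomputable def PsiK (h : Fin n → ℕ) : TPS (tw R (form h)) :=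
  Psi (tw R (form h)) ux (List.finRange n)

/-- the character `q^{udeg}`, `q = τ² = v⁻²`. -/
noncomputable def chiQ (h : Fin n → ℕ) : Multiplicative (Fin n →₀ ℕ) →* R :=
  chiN (((tw R (form h)).v ^ (-2 : ℤ) : Rˣ) : R) (udeg n)

theorem chiQ_apply (h : Fin n → ℕ) (d : Fin n →₀ ℕ) :
    chiQ R h (Multiplicative.ofAdd d) =
      (((tw R (form h)).v ^ (-2 : ℤ) : Rˣ) : R) ^ (udeg n d) := rfl

theorem EI_eq_EE (h : Fin n → ℕ) :
    EI (tw R (form h)) (adjH h) ux (List.finRange n) = EE R h 1 := by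
  classical
  unfold EI Es EE XI
  rw [tw_v_neg, mul_one]
  apply Finset.sum_congr
  · ext S
    simp only [Finset.mem_filter, Finset.mem_powerset, indep, List.toFinset_finRange,
      Finset.subset_univ, true_and, Ind, adjH]
  · intro S _
    rfl

theorem finRange_lt (n : ℕ) : (List.finRange n).Pairwise (· < ·) :=
  List.pairwise_lt_finRange n

/-- **`σ(Ψ) = Ψ E`** in the frozen language. -/
theorem sig_Psi (h : Fin n → ℕ) (hh : IsHessenberg h) :
    scale (chiQ R h) (PsiK R h) = PsiK R h * EE R h 1 := by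
  rw [← EI_eq_EE]
  exact scale_Psi_right (cls h hh) (qreg_tw R (form h)) (fun i => ux_inj' i) (chiQ R h)
    (fun i => by rw [chiQ_apply, udeg_ux, pow_one]) _ (finRange_lt n)

/-- **`σ(Ψ) = E Ψ`** in the frozen language. -/
theorem sig_Psi' (h : Fin n → ℕ) (hh : IsHessenberg h) :
    scale (chiQ R h) (PsiK R h) = EE R h 1 * PsiK R h := by
  rw [← EI_eq_EE]
  exact scale_Psi_left (cls h hh) (qreg_tw R (form h)) (fun i => ux_inj' i) (chiQ R h)
    (fun i => by rw [chiQ_apply, udeg_ux, pow_one]) _ (finRange_lt n)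

/-- `E(z) = S_z E(1)`. -/
theorem EE_scale (h : Fin n → ℕ) (z : R) :
    EE R h z = scale (chiN z (udeg n)) (EE R h 1) := by
  unfold EE
  rw [map_sum]
  apply Finset.sum_congr rfl
  intro S _
  rw [scale_mono, chiN_apply, udeg_sum_ux, mul_one, mul_pow, mul_comm]

/-- a product of series supported on `{0} ∪ P`. -/
theorem in1_list_prod {P : (Fin n →₀ ℕ) → Prop} (hadd : ∀ a b, P a → P b → P (a + b))
    {T : Tw (Fin n →₀ ℕ) R} (L : List (TPS T)) (hL : ∀ f ∈ L, In1 P f) : In1 P L.prod := by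
  induction L with
  | nil => rw [List.prod_nil]; exact in1_one P
  | cons f L ih =>
    rw [List.prod_cons]
    exact (hL f (by simp)).mul hadd (ih (fun g hg => hL g (by simp [hg])))

theorem in1_PsiK (h : Fin n → ℕ) : In1 (fun d => 0 < udeg n d) (PsiK R h) := by
  unfold PsiK Psi
  apply in1_list_prod R (fun a b ha hb => by rw [map_add]; omega)
  intro f hf
  rw [List.mem_map] at hf
  obtain ⟨i, _, rfl⟩ := hf
  refine ⟨co_dil_zero (ux_inj' i) _ _, ?_⟩
  intro d hd hP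
  by_contra hc
  obtain ⟨k, rfl⟩ := exists_of_co_ev_ne hc
  rw [map_nsmul, udeg_ux, smul_eq_mul, mul_one] at hP
  have hk : k = 0 := by omega
  exact hd (by rw [hk, zero_nsmul])

end K

end Crest.Agent.R059.EPsi998
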