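import Crest.Agent.R059.ChainA_231
import Crest.Agent.R059.EPsiK_998

set_option autoImplicit false

/-!
Row 59 (S0081), leaf 18 (CHAIN) in the frozen language (helper231):
`A' = Ψ A_W`, `Ψ = PsiK R h = P(x_0) ⋯ P(x_{n-1})`, `A_W` = zero part of `A'` for the `u`-degree.
`Pl T A` ("`A` is plain for all nodes of `T`") is abstract, stable under mutation (`hM`).
-/

namespace Crest.Agent.R059.Seeds231

open Finset Crest.CombinatoricsR.UnitInterval MutIso TPS Dilog344 EPsi998

variable {n : ℕ} {R : Type*} [CommRing R]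

/-- the mutation lemma as a hypothesis on a predicate `Pl`. -/
def MutStable (v : Rˣ) (Pl : ∀ T : Tw (Fin n →₀ ℕ) R, TPS T → Prop) : Prop :=
  ∀ T : Tw (Fin n →₀ ℕ) R, T.v = v → (∀ a b, T.β a b = - T.β b a) →
    ∀ (k : Fin n) (A : TPS T), Pl T A → ∃ B : TPS T, Capped (capOf T.β k) k B ∧
      A = dil T (Finsupp.single k 1) true 1 * B ∧
      Pl (mutTw T (capOf T.β k) k)
        (tilS (capOf T.β k) k (mutTw T (capOf T.β k) k) B *
          dil (mutTw T (capOf T.β k) k) (Finsupp.single k 1) true 1)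

theorem finRange_map_eq_ofFn {α : Type*} (f : Fin n → α) :
    (List.finRange n).map f = List.ofFn f := by
  rw [List.ofFn_eq_map]

variable [Algebra KK R]

/-- **CHAIN**: `A' = Ψ A_W`. -/
theorem chain_Psi (h : Fin n → ℕ) (hh : IsHessenberg h)
    (hconn : ∀ i : Fin n, (i : ℕ) + 1 < n → (i : ℕ) + 2 ≤ h i)
    (Pl : ∀ T : Tw (Fin n →₀ ℕ) R, TPS T → Prop)
    (hM : MutStable (tw R (form h)).v Pl) (A : TPS (tw R (form h))) (hA : Pl _ A)
    (hA1 : A.co 0 = 1) :
    ∃ Z : TPS (tw R (form h)), In1 (fun d => udeg n d = 0) Z ∧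
      (∀ m, udeg n m = 0 → Z.co m = A.co m) ∧ A = PsiK R h * Z := by
  rcases Nat.eq_zero_or_pos n with hn | hn
  · subst hn
    refine ⟨A, ⟨hA1, fun d hd => absurd (Subsingleton.elim d 0) hd⟩, fun m _ => rfl, ?_⟩
    have : PsiK R h = 1 := by
      unfold PsiK Psi
      simp
    rw [this, one_mul]
  · obtain ⟨Z, h1, h2, h3⟩ := chain h hh hconn (tw R (form h)).v (Dilog344.EE (tw R (form h)).v true 1)
      (constantCoeff_EE _ _) Pl (fun T hv hs k A hA => by
        obtain ⟨B, hB1, hB2, hB3⟩ := hM T hv hs k A hA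
        refine ⟨B, hB1, ?_, ?_⟩
        · rw [← hv]; exact hB2
        · rw [← hv]; exact hB3) hn (tw R (form h)) rfl rfl A hA
    refine ⟨Z, ⟨?_, ?_⟩, ?_, ?_⟩
    · rw [h2 0 rfl, hA1]
    · intro d _ hd
      by_contra hne
      apply hd
      rw [udeg_apply hn]
      exact h1 d hne
    · intro m hm
      rw [udeg_apply hn] at hm
      exact h2 m hm
    · rw [h3]
      congr 1
      unfold PsiK Psi
      rw [finRange_map_eq_ofFn]
      rfl

/-- **CHAIN**, with the parts: `Ψ` and `A_W` are the positive and the zero part of `A'` for every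
functional that is positive on `u`-degree `> 0` and zero on `u`-degree `0`. -/
theorem chain_parts (h : Fin n → ℕ) (hh : IsHessenberg h)
    (hconn : ∀ i : Fin n, (i : ℕ) + 1 < n → (i : ℕ) + 2 ≤ h i)
    (Pl : ∀ T : Tw (Fin n →₀ ℕ) R, TPS T → Prop)
    (hM : MutStable (tw R (form h)).v Pl) (A : TPS (tw R (form h))) (hA : Pl _ A)
    (hA1 : A.co 0 = 1) {V : Type*} [AddCommGroup V] [LinearOrder V] [IsOrderedAddMonoid V]
    (x : (Fin n →₀ ℕ) →+ V) (hx0 : ∀ m, udeg n m = 0 → x m = 0)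
    (hx1 : ∀ m, 0 < udeg n m → 0 < x m) :
    pos x A = PsiK R h ∧ neg x A = 1 ∧ In1 (fun d => udeg n d = 0) (zer x A) ∧
      (∀ m, udeg n m = 0 → (zer x A).co m = A.co m) ∧ A = PsiK R h * zer x A := by
  obtain ⟨Z, h1, h2, h3⟩ := chain_Psi h hh hconn Pl hM A hA hA1
  have hp : In1 (fun d => 0 < x d) (PsiK R h) := (in1_PsiK R h).mono (fun d _ hd => hx1 d hd)
  have hz : In1 (fun d => x d = 0) Z := h1.mono (fun d _ hd => hx0 d hd)
  obtain ⟨e1, e2, e3⟩ := pzn_unique' x (a := A) hp hz (in1_one (fun d => x d < 0))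
    (by rw [mul_one, ← h3])
  refine ⟨e1, e3, ?_, ?_, ?_⟩
  · rw [e2]; exact h1
  · rw [e2]; exact h2
  · rw [e2]; exact h3

end Crest.Agent.R059.Seeds231
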