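import Crest.Agent.R059.Clo_987

set_option autoImplicit false

/-!
Row 59 (S0081).  Laurent series topology by coefficients; closures in `TPS T` over Laurent series
are described by finitely many degrees and finitely many (lower) coefficients.
-/

namespace Crest.Agent.R059

open Finset Topology LaurentSeries

section laurent

variable {F : Type*} [Field F]

theorem isOpen_coeff_lt (y : LaurentSeries F) (n : ℤ) :
    IsOpen {x : LaurentSeries F | ∀ j < n, x.coeff j = y.coeff j} := by
  have h1 : {x : LaurentSeries F | ∀ j < n, x.coeff j = y.coeff j} =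
      (fun x : LaurentSeries F => (x - y) * HahnSeries.single (-n) (1 : F)) ⁻¹'
        ((Valued.v (R := LaurentSeries F)).integer : Set (LaurentSeries F)) := by
    ext x
    simp only [Set.mem_ofPred_eq, Set.mem_preimage, SetLike.mem_coe, Valuation.mem_integer_iff,
      map_mul, LaurentSeries.valuation_single_zpow]
    have h2 : (Valued.v (x - y) : WithZero (Multiplicative ℤ)) * WithZero.exp (- -n) ≤ 1 ↔
        Valued.v (x - y) ≤ WithZero.exp (-n) := by
      rw [← le_mul_inv_iff₀ (by simp), ← WithZero.exp_neg, one_mul]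
      simp
    rw [h2, LaurentSeries.valuation_le_iff_coeff_lt_eq_zero]
    simp only [HahnSeries.coeff_sub, sub_eq_zero]
  rw [h1]
  exact (Valued.isOpen_integer (LaurentSeries F)).preimage
    ((continuous_id.sub continuous_const).mul continuous_const)

theorem mem_nhds_iff_coeff (y : LaurentSeries F) (U : Set (LaurentSeries F)) :
    U ∈ 𝓝 y ↔ ∃ n : ℤ, ∀ x : LaurentSeries F, (∀ j < n, x.coeff j = y.coeff j) → x ∈ U := by
  constructor
  · intro hU
    obtain ⟨γ, hU₁⟩ := Valued.mem_nhds.mp hU
    set D := -(WithZero.log (MonoidWithZeroHom.ValueGroup₀.embedding γ.1) - 1) with hD₀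
    have hD : WithZero.exp (-D) < MonoidWithZeroHom.ValueGroup₀.embedding γ.1 := by
      rw [← WithZero.lt_log_iff_exp_lt (by simp), hD₀]
      simp
    refine ⟨D, fun x hx => hU₁ ?_⟩
    rw [Set.mem_ofPred_eq, Valued.v.restrict_lt_iff_lt_embedding]
    refine lt_of_le_of_lt (LaurentSeries.valuation_le_iff_coeff_lt_eq_zero F |>.mpr ?_) hD
    intro n hn
    rw [HahnSeries.coeff_sub, sub_eq_zero]
    exact hx n hn
  · rintro ⟨n, hn⟩
    exact Filter.mem_of_superset ((isOpen_coeff_lt y n).mem_nhds (fun j _ => rfl)) hn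

variable {M : Type*} [AddCommMonoid M] {T : Tw M (LaurentSeries F)}

/-- **Closure criterion**: finitely many degrees, coefficients below `n`. -/
theorem mem_closure_iff_coeff (D : Set (TPS T)) (f : TPS T) :
    f ∈ closure D ↔ ∀ (S : Finset M) (n : ℤ), ∃ g ∈ D, ∀ d ∈ S, ∀ j < n,
      (g.co d).coeff j = (f.co d).coeff j := by
  constructor
  · intro hf S n
    rw [mem_closure_iff] at hf
    have ho : IsOpen (⋂ d ∈ S, {g : TPS T | ∀ j < n, (g.co d).coeff j = (f.co d).coeff j}) :=
      isOpen_biInter_finset fun d _ =>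
        (isOpen_coeff_lt (f.co d) n).preimage (TPS.continuous_co (T := T) d)
    obtain ⟨g, hg, hgD⟩ := hf _ ho (by simp)
    refine ⟨g, hgD, fun d hd => ?_⟩
    simp only [Set.mem_iInter] at hg
    exact hg d hd
  · intro h
    rw [mem_closure_iff_nhds]
    intro U hU
    rw [nhds_induced, Filter.mem_comap] at hU
    obtain ⟨W, hW, hWU⟩ := hU
    rw [nhds_pi, Filter.mem_pi] at hW
    obtain ⟨I, hI, t, ht, htW⟩ := hW
    choose n hn using fun i => (mem_nhds_iff_coeff (f.co i) (t i)).1 (ht i)
    obtain ⟨N, hN⟩ : ∃ N : ℤ, ∀ i ∈ I, n i ≤ N := by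
      obtain ⟨N, hN⟩ := (hI.image n).bddAbove
      exact ⟨N, fun i hi => hN (Set.mem_image_of_mem n hi)⟩
    obtain ⟨g, hgD, hg⟩ := h hI.toFinset N
    refine ⟨g, hWU (htW fun i hi => hn i _ fun j hj => ?_), hgD⟩
    exact hg i (hI.mem_toFinset.2 hi) j (lt_of_lt_of_le hj (hN i hi))

/-- series all of whose coefficients have all their Laurent coefficients in `S` form a closed
set. -/
theorem isClosed_coeff_mem (S : Set F) :
    IsClosed {f : TPS T | ∀ d n, (f.co d).coeff n ∈ S} := by
  have : {f : TPS T | ∀ d n, (f.co d).coeff n ∈ S} =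
      ⋂ d, {f : TPS T | f.co d ∈ {x : LaurentSeries F | ∀ n, x.coeff n ∈ S}} := by
    ext f; simp
  rw [this]
  exact isClosed_iInter fun d => TPS.isClosed_co_mem d (isClosed_lcoeff_all F fun _ => S)

end laurent

end Crest.Agent.R059
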