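import Crest.Agent.R059.CloB_987
import Crest.Agent.R059.Fac_150

set_option autoImplicit false

/-!
Row 59 (S0081).  The factors `lft P a`, `rgt P a` and the inverse of Fac_150 are continuous
functions of `a` (every coefficient is a polynomial in finitely many coefficients of `a`).
-/

namespace Crest.Agent.R059

open Finset Topology HasAntidiagonal

namespace TPS

section cont

variable {M : Type*} [AddCommMonoid M] [PartialOrder M] [IsOrderedCancelAddMonoid M]
  [CanonicallyOrderedAdd M] [WellFoundedLT M] [HasAntidiagonal M]
variable {R : Type*} [CommRing R] [TopologicalSpace R] [IsTopologicalRing R] {T : Tw M R}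

theorem continuous_unk (P : M → Prop) (d : M) : Continuous (fun a : TPS T => unk P a d) := by
  classical
  induction d using WellFoundedLT.induction with
  | ind d ih =>
    simp only [unk_eq P _ d]
    refine (continuous_co d).sub (continuous_finsetSum _ fun p hp => ?_)
    by_cases h : p.1 ≠ 0 ∧ p.2 ≠ 0
    · simp only [if_pos h]
      refine continuous_const.mul (Continuous.mul ?_ ?_)
      · by_cases hP : P p.1
        · simp only [if_pos hP]
          exact ih _ (fst_lt_of_mem hp h.2)
        · simp only [if_neg hP]
          exact continuous_const
      · by_cases hP : P p.2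
        · simp only [if_pos hP]
          exact continuous_const
        · simp only [if_neg hP]
          exact ih _ (snd_lt_of_mem hp h.1)
    · simp only [if_neg h]
      exact continuous_const

theorem continuous_lft (P : M → Prop) : Continuous (lft P : TPS T → TPS T) := by
  classical
  refine continuous_iff_co.2 fun d => ?_
  simp only [lft]
  by_cases h0 : d = 0
  · simp only [if_pos h0]; exact continuous_const
  · simp only [if_neg h0]
    by_cases hP : P d
    · simp only [if_pos hP]; exact continuous_unk P d
    · simp only [if_neg hP]; exact continuous_const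

theorem continuous_rgt (P : M → Prop) : Continuous (rgt P : TPS T → TPS T) := by
  classical
  refine continuous_iff_co.2 fun d => ?_
  simp only [rgt]
  by_cases h0 : d = 0
  · simp only [if_pos h0]; exact continuous_const
  · simp only [if_neg h0]
    by_cases hP : P d
    · simp only [if_pos hP]; exact continuous_const
    · simp only [if_neg hP]; exact continuous_unk P d

theorem continuous_inv : Continuous (inv : TPS T → TPS T) := by
  classical
  refine continuous_iff_co.2 fun d => ?_
  induction d using WellFoundedLT.induction with
  | ind d ih =>
    change Continuous (fun a : TPS T => invCo a d)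
    simp only [invCo_eq _ d]
    by_cases h0 : d = 0
    · simp only [if_pos h0]; exact continuous_const
    · simp only [if_neg h0]
      refine (continuous_finsetSum _ fun p hp => ?_).neg
      by_cases h : p.1 ≠ 0
      · simp only [if_pos h]
        exact continuous_const.mul ((continuous_co _).mul (ih _ (snd_lt_of_mem hp h)))
      · simp only [if_neg h]
        exact continuous_const

omit [PartialOrder M] [IsOrderedCancelAddMonoid M] [CanonicallyOrderedAdd M] [WellFoundedLT M] in
/-- ordered products of finitely many series are continuous. -/
theorem continuous_prod_ofFn {n : ℕ} : Continuous (fun u : Fin n → TPS T => (List.ofFn u).prod) := by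
  induction n with
  | zero => simp only [List.ofFn_zero, List.prod_nil]; exact continuous_const
  | succ n ih =>
    simp only [List.ofFn_succ, List.prod_cons]
    exact (continuous_apply 0).mul (ih.comp (continuous_pi fun i => continuous_apply i.succ))

omit [PartialOrder M] [IsOrderedCancelAddMonoid M] [CanonicallyOrderedAdd M] [WellFoundedLT M] in
theorem continuous_prod_map {ι : Type*} (l : List ι) :
    Continuous (fun u : ι → TPS T => (l.map u).prod) := by
  induction l with
  | nil => simp only [List.map_nil, List.prod_nil]; exact continuous_const
  | cons i l ih =>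
    simp only [List.map_cons, List.prod_cons]
    exact (continuous_apply i).mul ih

omit [PartialOrder M] [IsOrderedCancelAddMonoid M] [CanonicallyOrderedAdd M] [WellFoundedLT M] in
/-- closures of submonoids are closed under products. -/
theorem mul_mem_closure (D : Submonoid (TPS T)) {f g : TPS T} (hf : f ∈ closure (D : Set (TPS T)))
    (hg : g ∈ closure (D : Set (TPS T))) : f * g ∈ closure (D : Set (TPS T)) :=
  D.topologicalClosure.mul_mem hf hg

omit [PartialOrder M] [IsOrderedCancelAddMonoid M] [CanonicallyOrderedAdd M] [WellFoundedLT M] in
theorem one_mem_closure (D : Submonoid (TPS T)) : (1 : TPS T) ∈ closure (D : Set (TPS T)) :=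
  D.topologicalClosure.one_mem

omit [PartialOrder M] [IsOrderedCancelAddMonoid M] [CanonicallyOrderedAdd M] [WellFoundedLT M]
  [HasAntidiagonal M] [IsTopologicalRing R] in
/-- supports and constant terms pass to closures. -/
theorem closure_co_eq [T1Space R] {D : Set (TPS T)} {d : M} {r : R} (h : ∀ g ∈ D, g.co d = r)
    {f : TPS T} (hf : f ∈ closure D) : f.co d = r :=
  (closure_minimal h (isClosed_co_eq d r)) hf

omit [PartialOrder M] [IsOrderedCancelAddMonoid M] [CanonicallyOrderedAdd M] [WellFoundedLT M] in
/-- **Limit principle for ordered products**: if a continuous `Φ` (for instance `zer x`) sends the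
ordered product of elements of the sets `D i` into `closure E`, the same holds for ordered products
of elements of the closures. -/
theorem map_prod_closure {ι : Type*} (l : List ι) {D : ι → Set (TPS T)} {E : Set (TPS T)}
    {Φ : TPS T → TPS T} (hΦ : Continuous Φ)
    (h : ∀ u : ι → TPS T, (∀ i, u i ∈ D i) → Φ (l.map u).prod ∈ closure E) (u : ι → TPS T)
    (hu : ∀ i, u i ∈ closure (D i)) : Φ (l.map u).prod ∈ closure E :=
  map_closure_pi (Φ := fun u : ι → TPS T => Φ (l.map u).prod)
    (hΦ.comp (continuous_prod_map l)) h u hu

omit [PartialOrder M] [IsOrderedCancelAddMonoid M] [CanonicallyOrderedAdd M] [WellFoundedLT M] in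
theorem map_prod_closure_ofFn {n : ℕ} {D : Fin n → Set (TPS T)} {E : Set (TPS T)}
    {Φ : TPS T → TPS T} (hΦ : Continuous Φ)
    (h : ∀ u : Fin n → TPS T, (∀ i, u i ∈ D i) → Φ (List.ofFn u).prod ∈ closure E)
    (u : Fin n → TPS T)
    (hu : ∀ i, u i ∈ closure (D i)) : Φ (List.ofFn u).prod ∈ closure E :=
  map_closure_pi (Φ := fun u : Fin n → TPS T => Φ (List.ofFn u).prod)
    (hΦ.comp continuous_prod_ofFn) h u hu

end cont

end TPS

end Crest.Agent.R059
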