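import Mathlib

set_option autoImplicit false
set_option linter.unusedSectionVars false

/-!
Row 59 (S0081), block TRANS (FL4), abstract part: transport along a line without paths, times or
reals (755's form).  Functionals `x : M →+ V`, `V` any linearly ordered additive group, `M = ι →₀ ℕ`.
-/

namespace Crest.Agent.R059.Trans569

open Finset

section order

variable {M : Type*} [AddCommMonoid M]
variable {V W : Type} [AddCommGroup V] [LinearOrder V] [IsOrderedAddMonoid V]
  [AddCommGroup W] [LinearOrder W] [IsOrderedAddMonoid W]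

/-- lexicographic pair of functionals. -/
def lexF (x : M →+ V) (y : M →+ W) : M →+ V ×ₗ W where
  toFun e := toLex (x e, y e)
  map_zero' := by rw [map_zero, map_zero]; rfl
  map_add' a b := by rw [map_add, map_add]; rfl

theorem lexF_apply (x : M →+ V) (y : M →+ W) (e : M) : lexF x y e = toLex (x e, y e) := rfl

theorem lexF_pos {x : M →+ V} {y : M →+ W} {e : M} :
    0 < lexF x y e ↔ 0 < x e ∨ (x e = 0 ∧ 0 < y e) := by
  rw [lexF_apply, Prod.Lex.lt_iff]
  constructor
  · rintro (h | ⟨h, h'⟩)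
    · exact Or.inl h
    · exact Or.inr ⟨h.symm, h'⟩
  · rintro (h | ⟨h, h'⟩)
    · exact Or.inl h
    · exact Or.inr ⟨h.symm, h'⟩

theorem lexF_neg {x : M →+ V} {y : M →+ W} {e : M} :
    lexF x y e < 0 ↔ x e < 0 ∨ (x e = 0 ∧ y e < 0) := by
  rw [lexF_apply, Prod.Lex.lt_iff]
  rfl

theorem lexF_inj {x : M →+ V} {y : M →+ W} {a b : M} :
    lexF x y a = lexF x y b ↔ x a = x b ∧ y a = y b := by
  rw [lexF_apply, lexF_apply, EmbeddingLike.apply_eq_iff_eq, Prod.mk.injEq]

theorem abs_fst (z : V ×ₗ W) : (ofLex |z|).1 = |(ofLex z).1| := by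
  rcases le_total 0 z with h | h
  · have h1 : 0 ≤ (ofLex z).1 := by
      rcases Prod.Lex.le_iff.1 h with h | h
      · exact h.le
      · exact h.1.le
    rw [abs_of_nonneg h, abs_of_nonneg h1]
  · have h1 : (ofLex z).1 ≤ 0 := by
      rcases Prod.Lex.le_iff.1 h with h | h
      · exact h.le
      · exact h.1.le
    rw [abs_of_nonpos h, abs_of_nonpos h1]
    rfl

theorem fst_le {z w : V ×ₗ W} (h : z ≤ w) : (ofLex z).1 ≤ (ofLex w).1 := by
  rcases Prod.Lex.le_iff.1 h with h | h
  · exact h.le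
  · exact h.1.le

theorem fst_nsmul (n : ℕ) (z : V ×ₗ W) : (ofLex (n • z)).1 = n • (ofLex z).1 := rfl

/-- the kernel of `x` (on the group of differences) is the line of `c`. -/
def KerRay (x : M →+ V) (c : M) : Prop :=
  c ≠ 0 ∧ x c = 0 ∧ ∀ a b : M, x a = x b →
    ∃ k i j : ℕ, 0 < k ∧ k • a + i • c = k • b + j • c

/-- same signs at `e`. -/
def SameSign (x : M →+ V) (y : M →+ W) (e : M) : Prop :=
  (0 < x e ↔ 0 < y e) ∧ (x e < 0 ↔ y e < 0)

theorem SameSign.symm {x : M →+ V} {y : M →+ W} {e : M} (h : SameSign x y e) :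
    SameSign y x e := ⟨h.1.symm, h.2.symm⟩

theorem SameSign.trans {U : Type} [AddCommGroup U] [LinearOrder U] [IsOrderedAddMonoid U]
    {x : M →+ V} {y : M →+ W} {z : M →+ U} {e : M}
    (h : SameSign x y e) (h' : SameSign y z e) :
    SameSign x z e := ⟨h.1.trans h'.1, h.2.trans h'.2⟩

theorem sameSign_iff_sign {x : M →+ V} {y : M →+ W} {e : M} :
    SameSign x y e ↔ SignType.sign (x e) = SignType.sign (y e) := by
  constructor
  · rintro ⟨h1, h2⟩
    rcases lt_trichotomy (x e) 0 with h | h | h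
    · rw [sign_neg h, sign_neg (h2.1 h)]
    · have h3 : y e = 0 := by
        rcases lt_trichotomy (y e) 0 with h' | h' | h'
        · exact absurd (h2.2 h') (by rw [h]; exact lt_irrefl _)
        · exact h'
        · exact absurd (h1.2 h') (by rw [h]; exact lt_irrefl _)
      rw [h, h3, sign_zero, sign_zero]
    · rw [sign_pos h, sign_pos (h1.1 h)]
  · intro h
    refine ⟨?_, ?_⟩
    · rw [← sign_eq_one_iff, ← sign_eq_one_iff, h]
    · rw [← sign_eq_neg_one_iff, ← sign_eq_neg_one_iff, h]

/-- opposite strict signs. -/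
def Opp (x : M →+ V) (s : M →+ ℤ) (e : M) : Prop :=
  (0 < x e ∧ s e < 0) ∨ (x e < 0 ∧ 0 < s e)

/-- the functional at the first crossing. -/
def thet (x : M →+ V) (s : M →+ ℤ) (g : M) : M →+ V :=
  (s g).natAbs • x + (zmultiplesHom V |x g|).comp s

theorem thet_apply (x : M →+ V) (s : M →+ ℤ) (g e : M) :
    thet x s g e = (s g).natAbs • x e + s e • |x g| := rfl

theorem zsmul_neg' {v : V} {t : ℤ} (h : t ≤ 0) : t • v = -(t.natAbs • v) := by
  have ht : t = -(t.natAbs : ℤ) := by omega
  conv_lhs => rw [ht]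
  rw [neg_zsmul, natCast_zsmul]

theorem zsmul_pos' {v : V} {t : ℤ} (h : 0 ≤ t) : t • v = t.natAbs • v := by
  have ht : t = (t.natAbs : ℤ) := by omega
  conv_lhs => rw [ht]
  rw [natCast_zsmul]

theorem Opp.ne_zero {x : M →+ V} {s : M →+ ℤ} {e : M} (h : Opp x s e) : s e ≠ 0 := by
  rcases h with h | h
  · exact h.2.ne
  · exact h.2.ne'

theorem Opp.natAbs_pos {x : M →+ V} {s : M →+ ℤ} {e : M} (h : Opp x s e) :
    0 < (s e).natAbs := Int.natAbs_pos.2 h.ne_zero

theorem Opp.class_ne_zero {x : M →+ V} {s : M →+ ℤ} {e : M} (h : Opp x s e) : e ≠ 0 := by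
  rintro rfl; exact h.ne_zero (map_zero s)

theorem thet_opp {x : M →+ V} {s : M →+ ℤ} {g e : M} (he : Opp x s e) :
    (0 < x e ∧ thet x s g e = (s g).natAbs • |x e| - (s e).natAbs • |x g|) ∨
      (x e < 0 ∧ thet x s g e = -((s g).natAbs • |x e| - (s e).natAbs • |x g|)) := by
  rcases he with ⟨h1, h2⟩ | ⟨h1, h2⟩
  · left
    refine ⟨h1, ?_⟩
    rw [thet_apply, zsmul_neg' h2.le, abs_of_pos h1, sub_eq_add_neg]
  · right
    refine ⟨h1, ?_⟩
    rw [thet_apply, zsmul_pos' h2.le, abs_of_neg h1, smul_neg]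
    abel

theorem thet_self {x : M →+ V} {s : M →+ ℤ} {g : M} (hg : Opp x s g) : thet x s g g = 0 := by
  rcases thet_opp (g := g) hg with ⟨_, h⟩ | ⟨_, h⟩ <;> rw [h] <;> simp

theorem thet_kerRay {x : M →+ V} {s : M →+ ℤ} {g : M} (hx : Function.Injective x)
    (hg : Opp x s g) : KerRay (thet x s g) g := by
  refine ⟨hg.class_ne_zero, thet_self hg, ?_⟩
  intro a b hab
  rw [thet_apply, thet_apply] at hab
  -- n • (x a - x b) = (s b - s a) • |x g|
  have h1 : (s g).natAbs • x a = (s g).natAbs • x b + (s b - s a) • |x g| := by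
    rw [sub_zsmul]
    have := hab
    calc (s g).natAbs • x a = ((s g).natAbs • x a + s a • |x g|) - s a • |x g| := by abel
      _ = ((s g).natAbs • x b + s b • |x g|) - s a • |x g| := by rw [this]
      _ = _ := by abel
  rcases hg with ⟨h2, h3⟩ | ⟨h2, h3⟩
  · rw [abs_of_pos h2] at h1
    refine ⟨(s g).natAbs, (s a - s b).toNat, (s b - s a).toNat, by omega, hx ?_⟩
    simp only [map_add, map_nsmul]
    rw [h1, add_assoc]
    congr 1
    rw [← natCast_zsmul, ← natCast_zsmul, ← add_zsmul]
    congr 1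
    omega
  · rw [abs_of_neg h2] at h1
    refine ⟨(s g).natAbs, (s b - s a).toNat, (s a - s b).toNat, by omega, hx ?_⟩
    simp only [map_add, map_nsmul]
    rw [h1, add_assoc]
    congr 1
    rw [smul_neg, ← neg_zsmul, ← natCast_zsmul, ← natCast_zsmul, ← add_zsmul]
    congr 1
    omega

theorem thet_lex_inj {x : M →+ V} {s : M →+ ℤ} {g : M} (hx : Function.Injective x)
    (hg : Opp x s g) {t : M →+ ℤ} (ht : ∀ a b, t a = t b → s a = s b) :
    Function.Injective (lexF (thet x s g) t) := by
  intro a b hab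
  rw [lexF_inj] at hab
  have h2 := ht _ _ hab.2
  have h1 := hab.1
  rw [thet_apply, thet_apply, h2, add_left_inj] at h1
  exact hx ((nsmul_right_injective (Nat.pos_iff_ne_zero.1 hg.natAbs_pos)) h1)

theorem thet_pos_of_not_opp {x : M →+ V} {s : M →+ ℤ} {g e : M} (hg : Opp x s g)
    (he : ¬ Opp x s e) (h : 0 < x e) : 0 < thet x s g e := by
  have h1 : 0 ≤ s e := by
    by_contra h1
    exact he (Or.inl ⟨h, not_le.1 h1⟩)
  rw [thet_apply, zsmul_pos' h1]
  exact add_pos_of_pos_of_nonneg (nsmul_pos h (Nat.pos_iff_ne_zero.1 hg.natAbs_pos))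
    (nsmul_nonneg (abs_nonneg _) _)

theorem thet_neg_of_not_opp {x : M →+ V} {s : M →+ ℤ} {g e : M} (hg : Opp x s g)
    (he : ¬ Opp x s e) (h : x e < 0) : thet x s g e < 0 := by
  have h1 : s e ≤ 0 := by
    by_contra h1
    exact he (Or.inr ⟨h, not_le.1 h1⟩)
  rw [thet_apply, zsmul_neg' h1]
  have h2 : (s g).natAbs • x e < 0 := by
    have := nsmul_pos (neg_pos.2 h) (Nat.pos_iff_ne_zero.1 hg.natAbs_pos)
    rw [smul_neg] at this
    exact neg_pos.1 this
  have h3 : 0 ≤ (s e).natAbs • |x g| := nsmul_nonneg (abs_nonneg _) _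
  calc _ < (0 : V) + -((s e).natAbs • |x g|) := by gcongr
    _ ≤ 0 := by rw [zero_add]; exact neg_nonpos.2 h3

/-- the comparison of crossing times `time a ≤ time b`. -/
def Le (x : M →+ V) (s : M →+ ℤ) (a b : M) : Prop :=
  (s b).natAbs • |x a| ≤ (s a).natAbs • |x b|

theorem Le.trans' {x : M →+ V} {s : M →+ ℤ} {a b c : M} (hb : Opp x s b)
    (h1 : Le x s a b) (h2 : Le x s b c) : Le x s a c := by
  unfold Le at *
  have h3 : (s b).natAbs • ((s c).natAbs • |x a|) ≤ (s b).natAbs • ((s a).natAbs • |x c|) := by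
    calc (s b).natAbs • ((s c).natAbs • |x a|) = (s c).natAbs • ((s b).natAbs • |x a|) := by
          rw [smul_comm]
      _ ≤ (s c).natAbs • ((s a).natAbs • |x b|) := nsmul_le_nsmul_right h1 _
      _ = (s a).natAbs • ((s c).natAbs • |x b|) := by rw [smul_comm]
      _ ≤ (s a).natAbs • ((s b).natAbs • |x c|) := nsmul_le_nsmul_right h2 _
      _ = _ := by rw [smul_comm]
  exact le_of_nsmul_le_nsmul_right (Nat.pos_iff_ne_zero.1 hb.natAbs_pos) h3

theorem exists_least {α : Type*} (r : α → α → Prop) (p : α → Prop) (E : Finset α)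
    (hE : E.Nonempty) (hp : ∀ a ∈ E, p a)
    (htot : ∀ a b, p a → p b → r a b ∨ r b a)
    (htr : ∀ a b c, p b → r a b → r b c → r a c) :
    ∃ g ∈ E, ∀ e ∈ E, r g e := by
  classical
  induction hE using Finset.Nonempty.cons_induction with
  | singleton a =>
    refine ⟨a, mem_singleton_self a, ?_⟩
    intro e he
    rw [mem_singleton] at he
    subst he
    rcases htot e e (hp _ (mem_singleton_self _)) (hp _ (mem_singleton_self _)) with h | h
    · exact h
    · exact h
  | cons a E ha hE ih =>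
    obtain ⟨g, hg, hg'⟩ := ih (fun a ha => hp a (mem_cons_of_mem ha))
    rcases htot a g (hp _ (mem_cons_self _ _)) (hp _ (mem_cons_of_mem hg)) with h | h
    · refine ⟨a, mem_cons_self _ _, ?_⟩
      intro e he
      rw [mem_cons] at he
      rcases he with rfl | he
      · rcases htot e e (hp _ (mem_cons_self _ _)) (hp _ (mem_cons_self _ _)) with h | h <;> exact h
      · exact htr _ _ _ (hp _ (mem_cons_of_mem hg)) h (hg' e he)
    · refine ⟨g, mem_cons_of_mem hg, ?_⟩
      intro e he
      rw [mem_cons] at he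
      rcases he with rfl | he
      · exact h
      · exact hg' e he

/-- at the first crossing: signs of `lex (theta, -s)` are those of `x`. -/
theorem sameSign_before {x : M →+ V} {s : M →+ ℤ} {g e : M} (hg : Opp x s g)
    (hx0 : x e = 0 → e = 0)
    (hle : Opp x s e → Le x s g e) : SameSign (lexF (thet x s g) (-s)) x e := by
  by_cases he0 : e = 0
  · subst he0
    simp [SameSign]
  by_cases he : Opp x s e
  · have h1 := hle he
    unfold Le at h1
    rcases thet_opp (g := g) he with ⟨h2, h3⟩ | ⟨h2, h3⟩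
    · have h4 : 0 ≤ thet x s g e := by rw [h3]; exact sub_nonneg.2 h1
      have h5 : 0 < lexF (thet x s g) (-s) e := by
        rw [lexF_pos]
        rcases h4.lt_or_eq with h | h
        · exact Or.inl h
        · refine Or.inr ⟨h.symm, ?_⟩
          rcases he with h6 | h6
          · simpa using h6.2
          · exact absurd h2 (not_lt.2 h6.1.le)
      exact ⟨⟨fun _ => h2, fun _ => h5⟩,
        ⟨fun h => absurd h (not_lt.2 h5.le), fun h => absurd h (not_lt.2 h2.le)⟩⟩
    · have h4 : thet x s g e ≤ 0 := by rw [h3]; exact neg_nonpos.2 (sub_nonneg.2 h1)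
      have h5 : lexF (thet x s g) (-s) e < 0 := by
        rw [lexF_neg]
        rcases h4.lt_or_eq with h | h
        · exact Or.inl h
        · refine Or.inr ⟨h, ?_⟩
          rcases he with h6 | h6
          · exact absurd h2 (not_lt.2 h6.1.le)
          · simpa using h6.2
      exact ⟨⟨fun h => absurd h (not_lt.2 h5.le), fun h => absurd h (not_lt.2 h2.le)⟩,
        ⟨fun _ => h2, fun _ => h5⟩⟩
  · rcases lt_trichotomy (x e) 0 with h | h | h
    · have h1 := thet_neg_of_not_opp hg he h
      have h5 : lexF (thet x s g) (-s) e < 0 := lexF_neg.2 (Or.inl h1)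
      exact ⟨⟨fun h' => absurd h' (not_lt.2 h5.le), fun h' => absurd h' (not_lt.2 h.le)⟩,
        ⟨fun _ => h, fun _ => h5⟩⟩
    · exact absurd (hx0 h) he0
    · have h1 := thet_pos_of_not_opp hg he h
      have h5 : 0 < lexF (thet x s g) (-s) e := lexF_pos.2 (Or.inl h1)
      exact ⟨⟨fun _ => h, fun _ => h5⟩,
        ⟨fun h' => absurd h' (not_lt.2 h5.le), fun h' => absurd h' (not_lt.2 h.le)⟩⟩

theorem Le.total (x : M →+ V) (s : M →+ ℤ) (a b : M) : Le x s a b ∨ Le x s b a :=
  le_total _ _

/-- `|theta e|` for a class of opposite signs with later crossing time. -/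
theorem abs_thet {x : M →+ V} {s : M →+ ℤ} {g e : M} (he : Opp x s e) (hle : Le x s g e) :
    |thet x s g e| = (s g).natAbs • |x e| - (s e).natAbs • |x g| := by
  have h1 : 0 ≤ (s g).natAbs • |x e| - (s e).natAbs • |x g| := sub_nonneg.2 hle
  rcases thet_opp (g := g) he with ⟨_, h3⟩ | ⟨_, h3⟩
  · rw [h3, abs_of_nonneg h1]
  · rw [h3, abs_neg, abs_of_nonneg h1]

/-- a class whose sign for `lex (theta, s)` is opposite to that of `s` was already so for `x`. -/
theorem opp_of_opp_after {x : M →+ V} {s : M →+ ℤ} {g e : M} (hg : Opp x s g)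
    (he : Opp (lexF (thet x s g) s) s e) : Opp x s e ∧ thet x s g e ≠ 0 := by
  rcases he with ⟨h1, h2⟩ | ⟨h1, h2⟩
  · rw [lexF_pos] at h1
    rcases h1 with h1 | h1
    · refine ⟨Or.inl ⟨?_, h2⟩, h1.ne'⟩
      by_contra h3
      rw [not_lt] at h3
      rw [thet_apply, zsmul_neg' h2.le] at h1
      have h4 : (s g).natAbs • x e ≤ 0 := by
        have := nsmul_nonneg (neg_nonneg.2 h3) (s g).natAbs
        rw [smul_neg] at this
        exact neg_nonneg.1 this
      have h5 : 0 ≤ (s e).natAbs • |x g| := nsmul_nonneg (abs_nonneg _) _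
      exact absurd h1 (not_lt.2 (add_nonpos h4 (neg_nonpos.2 h5)))
    · exact absurd h1.2 (not_lt.2 h2.le)
  · rw [lexF_neg] at h1
    rcases h1 with h1 | h1
    · refine ⟨Or.inr ⟨?_, h2⟩, h1.ne⟩
      by_contra h3
      rw [not_lt] at h3
      rw [thet_apply, zsmul_pos' h2.le] at h1
      exact absurd h1 (not_lt.2 (add_nonneg (nsmul_nonneg h3 _) (nsmul_nonneg (abs_nonneg _) _)))
    · exact absurd h1.2 (not_lt.2 h2.le)

/-- comparison of crossing times is the same before and after the first crossing. -/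
theorem Le.of_after {x : M →+ V} {s : M →+ ℤ} {g a b : M} (hg : Opp x s g)
    (ha : Opp x s a) (hb : Opp x s b) (hla : Le x s g a) (hlb : Le x s g b)
    (h : Le (lexF (thet x s g) s) s a b) : Le x s a b := by
  unfold Le at h
  have h1 := fst_le h
  rw [fst_nsmul, fst_nsmul, abs_fst, abs_fst] at h1
  change (s b).natAbs • |thet x s g a| ≤ (s a).natAbs • |thet x s g b| at h1
  rw [abs_thet ha hla, abs_thet hb hlb, smul_sub, smul_sub] at h1
  have h2 : (s b).natAbs • (s g).natAbs • |x a| ≤ (s a).natAbs • (s g).natAbs • |x b| := by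
    have e1 : (s b).natAbs • (s a).natAbs • |x g| = (s a).natAbs • (s b).natAbs • |x g| :=
      smul_comm _ _ _
    rw [e1] at h1
    exact (sub_le_sub_iff_right _).1 h1
  have h3 : (s g).natAbs • (s b).natAbs • |x a| ≤ (s g).natAbs • (s a).natAbs • |x b| := by
    rw [smul_comm (s g).natAbs (s b).natAbs, smul_comm (s g).natAbs (s a).natAbs]
    exact h2
  exact le_of_nsmul_le_nsmul_right (Nat.pos_iff_ne_zero.1 hg.natAbs_pos) h3

end order

section data

variable {ι : Type} [DecidableEq ι] {R : Type*} [CommRing R]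

/-- Abstract transport data: `c x m = F_m(x)`. -/
structure TData (s : (ι →₀ ℕ) →+ (ι →₀ ℕ) →+ ℤ) (P : Subsemiring R) where
  /-- the coefficient `F_m(x)`. -/
  c : ∀ {V : Type} [AddCommGroup V] [LinearOrder V] [IsOrderedAddMonoid V],
    ((ι →₀ ℕ) →+ V) → (ι →₀ ℕ) → R
  loc : ∀ {V W : Type} [AddCommGroup V] [LinearOrder V] [IsOrderedAddMonoid V]
    [AddCommGroup W] [LinearOrder W] [IsOrderedAddMonoid W]
    (x : (ι →₀ ℕ) →+ V) (y : (ι →₀ ℕ) →+ W) (m : ι →₀ ℕ),
    (∀ e ≤ m, SameSign x y e) → c x m = c y m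
  cross : ∀ {V : Type} [AddCommGroup V] [LinearOrder V] [IsOrderedAddMonoid V]
    (p : (ι →₀ ℕ) →+ V) (g : ι →₀ ℕ), KerRay p g → ∀ m : ι →₀ ℕ, s m g ≠ 0 →
    ∃ κ : (ι →₀ ℕ) → R, (∀ e, κ e ∈ P) ∧ κ m = 1 ∧
      c (lexF p (-(s m))) m = ∑ e ∈ Finset.Iic m, κ e * c (lexF p (s m)) e

variable {s : (ι →₀ ℕ) →+ (ι →₀ ℕ) →+ ℤ} {P : Subsemiring R}

/-- (TR1) monotonicity along a line. -/
theorem TData.mono (D : TData s P) (C : AddSubmonoid R)
    (hPC : ∀ p ∈ P, ∀ a ∈ C, p * a ∈ C) (m : ι →₀ ℕ)
    (hlow : ∀ e < m, ∀ {V : Type} [AddCommGroup V] [LinearOrder V] [IsOrderedAddMonoid V]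
      (x : (ι →₀ ℕ) →+ V), Function.Injective x → D.c x e ∈ C)
    {W : Type} [AddCommGroup W] [LinearOrder W] [IsOrderedAddMonoid W] (y : (ι →₀ ℕ) →+ W) :
    ∀ (n : ℕ) {V : Type} [AddCommGroup V] [LinearOrder V] [IsOrderedAddMonoid V]
      (x : (ι →₀ ℕ) →+ V) (E : Finset (ι →₀ ℕ)), E.card = n → Function.Injective x →
      (∀ e ∈ E, e ≤ m ∧ Opp x (s m) e) →
      (∀ a ∈ E, ∀ b, b ≤ m → Opp x (s m) b → Le x (s m) b a → b ∈ E) →
      (∀ e ≤ m, e ∉ E → SameSign x y e) →
      (∀ e ∈ E, (0 < y e ↔ x e < 0) ∧ (y e < 0 ↔ 0 < x e)) →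
      D.c x m - D.c y m ∈ C := by
  intro n
  induction n using Nat.strong_induction_on with
  | _ n ih =>
  intro V _ _ _ x E hcard hx hE hinit hsame hflip
  rcases E.eq_empty_or_nonempty with rfl | hne
  · have h1 : D.c x m = D.c y m := D.loc x y m (fun e he => hsame e he (by simp))
    rw [h1, sub_self]
    exact C.zero_mem
  obtain ⟨g, hgE, hg⟩ := exists_least (Le x (s m)) (Opp x (s m)) E hne (fun a ha => (hE a ha).2)
    (fun a b _ _ => Le.total x (s m) a b) (fun a b c hb h1 h2 => Le.trans' hb h1 h2)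
  have hgO : Opp x (s m) g := (hE g hgE).2
  have hx0 : ∀ e, x e = 0 → e = 0 := fun e he => hx (by rw [he, map_zero])
  -- later crossing for every opposite class
  have hlate : ∀ e ≤ m, Opp x (s m) e → Le x (s m) g e := by
    intro e he ho
    by_cases heE : e ∈ E
    · exact hg e heE
    · rcases Le.total x (s m) g e with h | h
      · exact h
      · exact absurd (hinit g hgE e he ho h) heE
  set p := thet x (s m) g with hp
  have hker : KerRay p g := thet_kerRay hx hgO
  obtain ⟨κ, hκP, hκm, hκ⟩ := D.cross p g hker m hgO.ne_zero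
  have h0 : D.c x m = D.c (lexF p (-(s m))) m :=
    D.loc _ _ m (fun e he => (sameSign_before hgO (hx0 e) (hlate e he)).symm)
  have hx1 : Function.Injective (lexF p (s m)) := thet_lex_inj hx hgO (fun _ _ h => h)
  -- split the sum
  have h1 : D.c x m - D.c (lexF p (s m)) m ∈ C := by
    rw [h0, hκ, ← Finset.sum_erase_add _ _ (Finset.mem_Iic.2 le_rfl), hκm, one_mul,
      add_sub_cancel_right]
    apply C.sum_mem
    intro e he
    rw [Finset.mem_erase, Finset.mem_Iic] at he
    exact hPC _ (hκP e) _ (hlow e (lt_of_le_of_ne he.2 he.1) _ hx1)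
  have h2 : D.c (lexF p (s m)) m - D.c y m ∈ C := by
    refine ih (E.filter (fun e => p e ≠ 0)).card ?_ (lexF p (s m)) (E.filter (fun e => p e ≠ 0))
      rfl hx1 ?_ ?_ ?_ ?_
    · rw [← hcard]
      apply Finset.card_lt_card
      rw [Finset.filter_ssubset]
      exact ⟨g, hgE, by rw [not_not]; exact hker.2.1⟩
    · intro e he
      rw [Finset.mem_filter] at he
      obtain ⟨he1, he2⟩ := he
      obtain ⟨he3, he4⟩ := hE e he1
      refine ⟨he3, ?_⟩
      have h5 := sameSign_before hgO (hx0 e) (fun _ => hlate e he3 he4)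
      rcases he4 with ⟨h6, h7⟩ | ⟨h6, h7⟩
      · left
        refine ⟨?_, h7⟩
        rw [lexF_pos]
        rcases lexF_pos.1 (h5.1.2 h6) with h8 | h8
        · exact Or.inl h8
        · exact absurd h8.1 he2
      · right
        refine ⟨?_, h7⟩
        rw [lexF_neg]
        rcases lexF_neg.1 (h5.2.2 h6) with h8 | h8
        · exact Or.inl h8
        · exact absurd h8.1 he2
    · intro a ha b hb hbo hble
      rw [Finset.mem_filter] at ha ⊢
      obtain ⟨hbo', hb0⟩ := opp_of_opp_after hgO hbo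
      have hao := (hE a ha.1)
      exact ⟨hinit a ha.1 b hb hbo' (Le.of_after hgO hbo' hao.2 (hlate b hb hbo')
        (hlate a hao.1 hao.2) hble), hb0⟩
    · intro e he heF
      by_cases heE : e ∈ E
      · -- crossing class
        have hpe : p e = 0 := by
          by_contra hpe
          exact heF (Finset.mem_filter.2 ⟨heE, hpe⟩)
        obtain ⟨hf1, hf2⟩ := hflip e heE
        rcases (hE e heE).2 with ⟨h6, h7⟩ | ⟨h6, h7⟩
        · have h8 : lexF p (s m) e < 0 := lexF_neg.2 (Or.inr ⟨hpe, h7⟩)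
          have h9 : y e < 0 := hf2.2 h6
          exact ⟨⟨fun h => absurd h (not_lt.2 h8.le), fun h => absurd h (not_lt.2 h9.le)⟩,
            ⟨fun _ => h9, fun _ => h8⟩⟩
        · have h8 : 0 < lexF p (s m) e := lexF_pos.2 (Or.inr ⟨hpe, h7⟩)
          have h9 : 0 < y e := hf1.2 h6
          exact ⟨⟨fun _ => h9, fun _ => h8⟩,
            ⟨fun h => absurd h (not_lt.2 h8.le), fun h => absurd h (not_lt.2 h9.le)⟩⟩
      · -- sign unchanged
        have h5 := sameSign_before hgO (hx0 e) (hlate e he)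
        have h6 := hsame e he heE
        by_cases he0 : e = 0
        · subst he0; simp [SameSign]
        have hpe : p e ≠ 0 := by
          intro hpe
          by_cases ho : Opp x (s m) e
          · -- then e would be in E
            apply heE
            refine hinit g hgE e he ho ?_
            have h7 := abs_thet ho (hlate e he ho)
            rw [← hp, hpe, abs_zero] at h7
            exact (sub_eq_zero.1 h7.symm).le
          · rcases lt_trichotomy (x e) 0 with h | h | h
            · exact absurd hpe (thet_neg_of_not_opp hgO ho h).ne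
            · exact he0 (hx0 e h)
            · exact absurd hpe (thet_pos_of_not_opp hgO ho h).ne'
        refine SameSign.trans ?_ (SameSign.trans h5 h6)
        refine ⟨?_, ?_⟩
        · rw [lexF_pos, lexF_pos]
          constructor
          · rintro (h | h)
            · exact Or.inl h
            · exact absurd h.1 hpe
          · rintro (h | h)
            · exact Or.inl h
            · exact absurd h.1 hpe
        · rw [lexF_neg, lexF_neg]
          constructor
          · rintro (h | h)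
            · exact Or.inl h
            · exact absurd h.1 hpe
          · rintro (h | h)
            · exact Or.inl h
            · exact absurd h.1 hpe
    · intro e he
      rw [Finset.mem_filter] at he
      obtain ⟨he1, he2⟩ := he
      obtain ⟨he3, he4⟩ := hE e he1
      have h5 := sameSign_before hgO (hx0 e) (fun _ => hlate e he3 he4)
      have h6 : SameSign (lexF p (s m)) x e := by
        refine SameSign.trans ?_ h5
        refine ⟨?_, ?_⟩
        · rw [lexF_pos, lexF_pos]
          constructor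
          · rintro (h | h)
            · exact Or.inl h
            · exact absurd h.1 he2
          · rintro (h | h)
            · exact Or.inl h
            · exact absurd h.1 he2
        · rw [lexF_neg, lexF_neg]
          constructor
          · rintro (h | h)
            · exact Or.inl h
            · exact absurd h.1 he2
          · rintro (h | h)
            · exact Or.inl h
            · exact absurd h.1 he2
      obtain ⟨hf1, hf2⟩ := hflip e he1
      exact ⟨hf1.trans h6.2.symm, hf2.trans h6.1.symm⟩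
  have h3 := C.add_mem h1 h2
  rwa [sub_add_sub_cancel] at h3

/-- (TR2) the difference with the terminal value. -/
theorem TData.terminal (D : TData s P) (C : AddSubmonoid R)
    (hPC : ∀ p ∈ P, ∀ a ∈ C, p * a ∈ C) (m : ι →₀ ℕ)
    (hlow : ∀ e < m, ∀ {V : Type} [AddCommGroup V] [LinearOrder V] [IsOrderedAddMonoid V]
      (x : (ι →₀ ℕ) →+ V), Function.Injective x → D.c x e ∈ C)
    {V : Type} [AddCommGroup V] [LinearOrder V] [IsOrderedAddMonoid V]
    (x : (ι →₀ ℕ) →+ V) (hx : Function.Injective x) :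
    D.c x m - D.c (lexF (s m) x) m ∈ C := by
  classical
  refine D.mono C hPC m hlow (lexF (s m) x) _ x ((Finset.Iic m).filter (fun e => Opp x (s m) e))
    rfl hx ?_ ?_ ?_ ?_
  · intro e he
    rw [Finset.mem_filter, Finset.mem_Iic] at he
    exact he
  · intro a _ b hb hbo _
    rw [Finset.mem_filter, Finset.mem_Iic]
    exact ⟨hb, hbo⟩
  · intro e he heF
    have ho : ¬ Opp x (s m) e := fun ho => heF (by rw [Finset.mem_filter, Finset.mem_Iic]; exact ⟨he, ho⟩)
    by_cases he0 : e = 0
    · subst he0; simp [SameSign]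
    have hx0 : x e ≠ 0 := fun h => he0 (hx (by rw [h, map_zero]))
    rcases lt_or_gt_of_ne hx0 with h | h
    · have h1 : s m e ≤ 0 := by
        by_contra h1; exact ho (Or.inr ⟨h, not_le.1 h1⟩)
      have h2 : lexF (s m) x e < 0 := by
        rw [lexF_neg]
        rcases h1.lt_or_eq with h1 | h1
        · exact Or.inl h1
        · exact Or.inr ⟨h1, h⟩
      exact ⟨⟨fun h' => absurd h' (not_lt.2 h.le), fun h' => absurd h' (not_lt.2 h2.le)⟩,
        ⟨fun _ => h2, fun _ => h⟩⟩
    · have h1 : 0 ≤ s m e := by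
        by_contra h1; exact ho (Or.inl ⟨h, not_le.1 h1⟩)
      have h2 : 0 < lexF (s m) x e := by
        rw [lexF_pos]
        rcases h1.lt_or_eq with h1 | h1
        · exact Or.inl h1
        · exact Or.inr ⟨h1.symm, h⟩
      exact ⟨⟨fun _ => h2, fun _ => h⟩,
        ⟨fun h' => absurd h' (not_lt.2 h.le), fun h' => absurd h' (not_lt.2 h2.le)⟩⟩
  · intro e he
    rw [Finset.mem_filter] at he
    rcases he.2 with ⟨h6, h7⟩ | ⟨h6, h7⟩
    · have h2 : lexF (s m) x e < 0 := lexF_neg.2 (Or.inl h7)
      exact ⟨⟨fun h => absurd h (not_lt.2 h2.le), fun h => absurd h (not_lt.2 h6.le)⟩,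
        ⟨fun _ => h6, fun _ => h2⟩⟩
    · have h2 : 0 < lexF (s m) x e := lexF_pos.2 (Or.inl h7)
      exact ⟨⟨fun _ => h6, fun _ => h2⟩,
        ⟨fun h => absurd h (not_lt.2 h2.le), fun h => absurd h (not_lt.2 h6.le)⟩⟩

/-- (TR2) positivity of all `F_m(x)` from positivity of the terminal values `T_g`, `g ≤ m`. -/
theorem TData.pos_of_terminal (D : TData s P) (C : AddSubmonoid R)
    (hPC : ∀ p ∈ P, ∀ a ∈ C, p * a ∈ C) (T : (ι →₀ ℕ) → R)
    (hT : ∀ g, ∀ {V : Type} [AddCommGroup V] [LinearOrder V] [IsOrderedAddMonoid V]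
      (x : (ι →₀ ℕ) →+ V), D.c (lexF (s g) x) g = T g) :
    ∀ m : ι →₀ ℕ, (∀ g ≤ m, T g ∈ C) →
      ∀ {V : Type} [AddCommGroup V] [LinearOrder V] [IsOrderedAddMonoid V]
      (x : (ι →₀ ℕ) →+ V), Function.Injective x → D.c x m ∈ C ∧ D.c x m - T m ∈ C := by
  intro m
  induction hn : m.degree using Nat.strong_induction_on generalizing m with
  | _ n ih =>
  intro hTm V _ _ _ x hx
  have hlow : ∀ e < m, ∀ {V : Type} [AddCommGroup V] [LinearOrder V] [IsOrderedAddMonoid V]
      (x : (ι →₀ ℕ) →+ V), Function.Injective x → D.c x e ∈ C := by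
    intro e he V _ _ _ x hx
    refine (ih e.degree ?_ e rfl (fun g hg => hTm g (hg.trans he.le)) x hx).1
    rw [← hn]
    obtain ⟨r, rfl⟩ := exists_add_of_le he.le
    have hr : r ≠ 0 := by rintro rfl; simp at he
    rw [map_add]
    have : 0 < r.degree := Nat.pos_of_ne_zero (fun h => hr ((Finsupp.degree_eq_zero_iff r).1 h))
    omega
  have h1 := D.terminal C hPC m hlow x hx
  rw [hT] at h1
  refine ⟨?_, h1⟩
  have h2 := C.add_mem h1 (hTm m le_rfl)
  rwa [sub_add_cancel] at h2

end data

end Crest.Agent.R059.Trans569
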