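import Crest.Agent.R059.CloC_987
import Crest.Agent.R059.Dilog_344
import Crest.Agent.R059.TransA_569
import Crest.Agent.R059.Grnd_883

set_option autoImplicit false
set_option linter.unusedSectionVars false

/-!
Row 59 (S0081).  Crossing positivity passes to limits of finite products of dilogarithm factors
(C3), in the form `CrossPos` consumed by TRANS (569).
-/

namespace Crest.Agent.R059

open Finset Topology HasAntidiagonal

namespace TPS

section abstract

variable {M : Type*} [AddCommMonoid M] [PartialOrder M] [IsOrderedCancelAddMonoid M]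
  [CanonicallyOrderedAdd M] [WellFoundedLT M] [HasAntidiagonal M]
variable {R : Type*} [CommRing R] {T : Tw M R}

/-- conjugation by a finite product: a property of `h` stable under `h ↦ e h e⁻¹` for all
generators `e` is stable under conjugation by the submonoid. -/
theorem conj_submonoid {Gen : Set (TPS T)} {Fam : TPS T → Prop}
    (hG : ∀ e ∈ Gen, e.co 0 = 1 ∧ ∀ h, Fam h → Fam (e * h * inv e)) {f : TPS T}
    (hf : f ∈ Submonoid.closure Gen) : f.co 0 = 1 ∧ ∀ h, Fam h → Fam (f * h * inv f) := by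
  induction hf using Submonoid.closure_induction with
  | mem e he => exact hG e he
  | one =>
    refine ⟨co_one_zero, fun h hh => ?_⟩
    rw [one_mul, inv_one, mul_one]; exact hh
  | mul f g _ _ ihf ihg =>
    refine ⟨by rw [co_mul_zero', ihf.1, ihg.1, one_mul], fun h hh => ?_⟩
    rw [inv_mul_rev ihf.1 ihg.1]
    have := ihf.2 _ (ihg.2 h hh)
    simpa only [mul_assoc] using this

/-- the same for `h ↦ e⁻¹ h e`. -/
theorem conj_submonoid' {Gen : Set (TPS T)} {Fam : TPS T → Prop}
    (hG : ∀ e ∈ Gen, e.co 0 = 1 ∧ ∀ h, Fam h → Fam (inv e * h * e)) {f : TPS T}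
    (hf : f ∈ Submonoid.closure Gen) : f.co 0 = 1 ∧ ∀ h, Fam h → Fam (inv f * h * f) := by
  induction hf using Submonoid.closure_induction with
  | mem e he => exact hG e he
  | one =>
    refine ⟨co_one_zero, fun h hh => ?_⟩
    rw [mul_one, inv_one, one_mul]; exact hh
  | mul f g _ _ ihf ihg =>
    refine ⟨by rw [co_mul_zero', ihf.1, ihg.1, one_mul], fun h hh => ?_⟩
    rw [inv_mul_rev ihf.1 ihg.1]
    have := ihg.2 _ (ihf.2 h hh)
    simpa only [mul_assoc] using this

variable [TopologicalSpace R] [IsTopologicalRing R]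

/-- coefficientwise closed conditions pass to the closure. -/
theorem closure_conj_mem {D : Set (TPS T)} {S : Set R} (hS : IsClosed S) {h : TPS T}
    (hD : ∀ f ∈ D, ∀ d, (f * h * inv f).co d ∈ S) {f : TPS T} (hf : f ∈ closure D) :
    ∀ d, (f * h * inv f).co d ∈ S := by
  intro d
  have hc : IsClosed {f : TPS T | (f * h * inv f).co d ∈ S} :=
    hS.preimage ((continuous_co (T := T) d).comp
      ((continuous_id.mul continuous_const).mul continuous_inv))
  exact closure_minimal (fun f hf => hD f hf d) hc hf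

theorem closure_conj_mem' {D : Set (TPS T)} {S : Set R} (hS : IsClosed S) {h : TPS T}
    (hD : ∀ f ∈ D, ∀ d, (inv f * h * f).co d ∈ S) {f : TPS T} (hf : f ∈ closure D) :
    ∀ d, (inv f * h * f).co d ∈ S := by
  intro d
  have hc : IsClosed {f : TPS T | (inv f * h * f).co d ∈ S} :=
    hS.preimage ((continuous_co (T := T) d).comp
      ((continuous_inv.mul continuous_const).mul continuous_id))
  exact closure_minimal (fun f hf => hD f hf d) hc hf

section parts

variable {V : Type*} [AddCommGroup V] [LinearOrder V] [IsOrderedAddMonoid V]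

omit [IsOrderedAddMonoid V] in
theorem continuous_pos (x : M →+ V) : Continuous (pos x : TPS T → TPS T) := continuous_lft _

omit [IsOrderedAddMonoid V] in
theorem continuous_npos (x : M →+ V) : Continuous (npos x : TPS T → TPS T) := continuous_rgt _

omit [IsOrderedAddMonoid V] in
theorem continuous_zer (x : M →+ V) : Continuous (zer x : TPS T → TPS T) :=
  (continuous_lft _).comp (continuous_npos x)

omit [IsOrderedAddMonoid V] in
theorem continuous_neg (x : M →+ V) : Continuous (neg x : TPS T → TPS T) :=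
  (continuous_rgt _).comp (continuous_npos x)

theorem continuous_cj (F : TPS T) : Continuous (fun g : TPS T => cj g F) :=
  (continuous_inv.mul continuous_const).mul continuous_id

omit [IsOrderedAddMonoid V] in
theorem continuous_conj (x : M →+ V) (F : TPS T) : Continuous (fun a : TPS T => conj x a F) :=
  (continuous_cj F).comp (continuous_pos x)

end parts

end abstract

/-! ### families of dilogarithm factors -/

section dilog

open Dilog344

variable {M : Type*} [AddCommMonoid M] [PartialOrder M] [IsOrderedCancelAddMonoid M]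
  [CanonicallyOrderedAdd M] [WellFoundedLT M] [HasAntidiagonal M]
variable {R : Type*} [CommRing R] {T : Tw M R}

variable (T) in
/-- dilogarithm factors (both parities, all shifts) of the classes in `Cl`. -/
def CGen (Cl : M → Prop) : Set (TPS T) :=
  {f | ∃ (c : M) (p : Bool) (a : ℤ), Cl c ∧ f = dil T c p a}

theorem inv_dil {c : M} (hc : Function.Injective (fun k : ℕ => k • c))
    (hq : QReg ((T.v : R) ^ 2)) (p : Bool) (a : ℤ) : inv (dil T c p a) = dili T c p a :=
  inv_eq_of_mul (co_dil_zero hc p a) (dil_mul_dili hc hq p a)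

omit [PartialOrder M] [IsOrderedCancelAddMonoid M] [CanonicallyOrderedAdd M]
  [WellFoundedLT M] in
/-- supports of `g * f(Y_c)`. -/
theorem supp_mul_ev {c : M} {g : TPS T} {f : PowerSeries R} {a : M}
    (h : (g * ev T c f).co a ≠ 0) : ∃ (b : M) (k : ℕ), g.co b ≠ 0 ∧ a = b + k • c := by
  classical
  by_contra hcon
  push Not at hcon
  apply h
  rw [co_mul]
  apply Finset.sum_eq_zero
  rintro ⟨x, y⟩ hxy
  rw [HasAntidiagonal.mem_antidiagonal] at hxy
  by_contra hne
  have h1 : g.co x ≠ 0 := fun h => hne (by simp [h])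
  have h2 : (ev T c f).co y ≠ 0 := fun h => hne (by simp [h])
  obtain ⟨k, rfl⟩ := exists_of_co_ev_ne h2
  exact hcon x k h1 hxy.symm

variable {Cl : M → Prop}

/-- **(C3), finite products, `K ≥ 0`.** -/
theorem cgen_conj {S : Subsemiring R} (h1 : (T.v : R) ∈ S) (h2 : ((T.v⁻¹ : Rˣ) : R) ∈ S)
    (hq : QReg ((T.v : R) ^ 2)) (hcl : ∀ c, Cl c → Function.Injective (fun k : ℕ => k • c))
    (hcc : ∀ c c', Cl c → Cl c' → T.β c c' = T.β c' c) {m : M}
    (hK : ∀ c, Cl c → ∃ K : ℕ, T.β m c - T.β c m = 2 * K) {f : TPS T}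
    (hf : f ∈ Submonoid.closure (CGen T Cl)) (r : R) (hr : r ∈ S) :
    ∀ d, (f * mono T m r * inv f).co d ∈ S := by
  classical
  have key := conj_submonoid (T := T) (Gen := CGen T Cl)
    (Fam := fun h => (∀ d, h.co d ∈ S) ∧ ∀ a, h.co a ≠ 0 → ∀ c, Cl c →
      T.β a c - T.β c a = T.β m c - T.β c m) (fun e he => ?_) hf
  · refine (key.2 (mono T m r) ⟨fun d => ?_, fun a ha c _ => ?_⟩).1
    · rw [co_mono]; split_ifs
      · exact hr
      · exact S.zero_mem
    · by_cases h : a = m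
      · rw [h]
      · exact absurd (co_mono_ne h r) ha
  · obtain ⟨c, p, a, hc, rfl⟩ := he
    refine ⟨co_dil_zero (hcl c hc) p a, fun h hh => ?_⟩
    obtain ⟨K, hKc⟩ := hK c hc
    have hs : ∀ b, h.co b ≠ 0 → T.β b c - T.β c b = 2 * K := fun b hb => by
      rw [hh.2 b hb c hc, hKc]
    rw [inv_dil (hcl c hc) hq]
    refine ⟨dil_conj_mem (h1 := h1) (h2 := h2) (hcl c hc) hq p a hh.1 hs, fun b hb c' hc' => ?_⟩
    rw [dil_mul_mul_dili (hcl c hc) hq p a hs] at hb
    obtain ⟨b', k, hb', rfl⟩ := supp_mul_ev hb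
    have e := hh.2 b' hb' c' hc'
    simp only [map_add, map_nsmul, AddMonoidHom.add_apply, AddMonoidHom.nsmul_apply,
      hcc c c' hc hc']
    linarith

/-- **(C3), finite products, `K ≤ 0`.** -/
theorem cgen_conj' {S : Subsemiring R} (h1 : (T.v : R) ∈ S) (h2 : ((T.v⁻¹ : Rˣ) : R) ∈ S)
    (hq : QReg ((T.v : R) ^ 2)) (hcl : ∀ c, Cl c → Function.Injective (fun k : ℕ => k • c))
    (hcc : ∀ c c', Cl c → Cl c' → T.β c c' = T.β c' c) {m : M}
    (hK : ∀ c, Cl c → ∃ K : ℕ, T.β m c - T.β c m = -(2 * K)) {f : TPS T}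
    (hf : f ∈ Submonoid.closure (CGen T Cl)) (r : R) (hr : r ∈ S) :
    ∀ d, (inv f * mono T m r * f).co d ∈ S := by
  classical
  have key := conj_submonoid' (T := T) (Gen := CGen T Cl)
    (Fam := fun h => (∀ d, h.co d ∈ S) ∧ ∀ a, h.co a ≠ 0 → ∀ c, Cl c →
      T.β a c - T.β c a = T.β m c - T.β c m) (fun e he => ?_) hf
  · refine (key.2 (mono T m r) ⟨fun d => ?_, fun a ha c _ => ?_⟩).1
    · rw [co_mono]; split_ifs
      · exact hr
      · exact S.zero_mem
    · by_cases h : a = m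
      · rw [h]
      · exact absurd (co_mono_ne h r) ha
  · obtain ⟨c, p, a, hc, rfl⟩ := he
    refine ⟨co_dil_zero (hcl c hc) p a, fun h hh => ?_⟩
    obtain ⟨K, hKc⟩ := hK c hc
    have hs : ∀ b, h.co b ≠ 0 → T.β b c - T.β c b = -(2 * K) := fun b hb => by
      rw [hh.2 b hb c hc, hKc]
    rw [inv_dil (hcl c hc) hq]
    refine ⟨dili_conj_mem (h1 := h1) (h2 := h2) (hcl c hc) hq p a hh.1 hs, fun b hb c' hc' => ?_⟩
    rw [dili_mul_mul_dil' (hcl c hc) hq p a hs] at hb
    obtain ⟨b', k, hb', rfl⟩ := supp_mul_ev hb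
    have e := hh.2 b' hb' c' hc'
    simp only [map_add, map_nsmul, AddMonoidHom.add_apply, AddMonoidHom.nsmul_apply,
      hcc c c' hc hc']
    linarith

variable [TopologicalSpace R] [IsTopologicalRing R]

variable (T) in
/-- the positive ray elements: limits of finite products of dilogarithm factors. -/
def CDT (Cl : M → Prop) : Set (TPS T) := closure (Submonoid.closure (CGen T Cl) : Set (TPS T))

theorem CDT_conj {S : Subsemiring R} (hS : IsClosed (S : Set R)) (h1 : (T.v : R) ∈ S)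
    (h2 : ((T.v⁻¹ : Rˣ) : R) ∈ S)
    (hq : QReg ((T.v : R) ^ 2)) (hcl : ∀ c, Cl c → Function.Injective (fun k : ℕ => k • c))
    (hcc : ∀ c c', Cl c → Cl c' → T.β c c' = T.β c' c) {m : M}
    (hK : ∀ c, Cl c → ∃ K : ℕ, T.β m c - T.β c m = 2 * K) {f : TPS T}
    (hf : f ∈ CDT T Cl) (r : R) (hr : r ∈ S) :
    ∀ d, (f * mono T m r * inv f).co d ∈ S :=
  closure_conj_mem hS (fun _ hg => cgen_conj h1 h2 hq hcl hcc hK hg r hr) hf

theorem CDT_conj' {S : Subsemiring R} (hS : IsClosed (S : Set R)) (h1 : (T.v : R) ∈ S)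
    (h2 : ((T.v⁻¹ : Rˣ) : R) ∈ S)
    (hq : QReg ((T.v : R) ^ 2)) (hcl : ∀ c, Cl c → Function.Injective (fun k : ℕ => k • c))
    (hcc : ∀ c c', Cl c → Cl c' → T.β c c' = T.β c' c) {m : M}
    (hK : ∀ c, Cl c → ∃ K : ℕ, T.β m c - T.β c m = -(2 * K)) {f : TPS T}
    (hf : f ∈ CDT T Cl) (r : R) (hr : r ∈ S) :
    ∀ d, (inv f * mono T m r * f).co d ∈ S :=
  closure_conj_mem' hS (fun _ hg => cgen_conj' h1 h2 hq hcl hcc hK hg r hr) hf

omit [IsTopologicalRing R] in
theorem CDT_co_zero [T1Space R] (hcl : ∀ c, Cl c → Function.Injective (fun k : ℕ => k • c))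
    {f : TPS T} (hf : f ∈ CDT T Cl) : f.co 0 = 1 := by
  refine closure_co_eq (fun g hg => ?_) hf
  exact (conj_submonoid (Gen := CGen T Cl) (Fam := fun _ => True) (fun e he => by
    obtain ⟨c, p, a, hc, rfl⟩ := he
    exact ⟨co_dil_zero (hcl c hc) p a, fun _ _ => trivial⟩) hg).1

omit [IsTopologicalRing R] in
/-- supports of positive ray elements. -/
theorem CDT_in1 [T1Space R] {P : M → Prop} (hP : ∀ a b, P a → P b → P (a + b)) (hP0 : P 0)
    (hClP : ∀ c, Cl c → P c)
    (hcl : ∀ c, Cl c → Function.Injective (fun k : ℕ => k • c))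
    {f : TPS T} (hf : f ∈ CDT T Cl) : In1 P f := by
  refine ⟨CDT_co_zero hcl hf, fun d hd hPd => ?_⟩
  refine closure_co_eq (fun g hg => ?_) hf
  have h1 : In1 P g := by
    induction hg using Submonoid.closure_induction with
    | mem e he =>
      obtain ⟨c, p, a, hc, rfl⟩ := he
      refine ⟨co_dil_zero (hcl c hc) p a, fun d _ hPd => ?_⟩
      by_contra hne
      obtain ⟨k, rfl⟩ := exists_of_co_ev_ne hne
      have hk : ∀ k : ℕ, P (k • c) := fun k => by
        induction k with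
        | zero => simpa using hP0
        | succ k ih => rw [add_nsmul, one_nsmul]; exact hP _ _ ih (hClP c hc)
      exact hPd (hk k)
    | one => exact in1_one P
    | mul f g _ _ ihf ihg => exact ihf.mul hP ihg
  exact h1.supp d hd hPd

end dilog

/-! ### `CrossPos` -/

section cross

open Trans569

variable {ι : Type} [DecidableEq ι] {R : Type*} [CommRing R] {T : Tw (ι →₀ ℕ) R}

/-- nonzero classes on the ray of `d`. -/
def PRay (d c : ι →₀ ℕ) : Prop := c ≠ 0 ∧ ∃ i j : ℕ, 0 < i ∧ i • c = j • d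

/-- classes (zero allowed) on the ray of `d`. -/
def ORay (d c : ι →₀ ℕ) : Prop := ∃ i j : ℕ, 0 < i ∧ i • c = j • d

theorem ORay.add {d a b : ι →₀ ℕ} (ha : ORay d a) (hb : ORay d b) : ORay d (a + b) := by
  obtain ⟨i, j, hi, h⟩ := ha
  obtain ⟨i', j', hi', h'⟩ := hb
  refine ⟨i * i', i' * j + i * j', Nat.mul_pos hi hi', ?_⟩
  calc (i * i') • (a + b) = i' • (i • a) + i • (i' • b) := by
        rw [smul_add, smul_smul, smul_smul, mul_comm i' i]
    _ = _ := by rw [h, h', smul_smul, smul_smul, add_smul]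

theorem ORay.zero (d : ι →₀ ℕ) : ORay d 0 := ⟨1, 0, one_pos, by simp⟩

theorem PRay.oRay {d c : ι →₀ ℕ} (h : PRay d c) : ORay d c := h.2

theorem ORay.trans_smul {c e : ι →₀ ℕ} {N : ℕ} (h : ORay (N • c) e) : ORay c e := by
  obtain ⟨i, j, hi, h⟩ := h
  exact ⟨i, j * N, hi, by rw [h, smul_smul]⟩

theorem ORay.le {c e e' : ι →₀ ℕ} (h : ORay c e') (he : e' ≤ e) {N : ℕ}
    (hN : ∀ t, e t ≤ N) : e' ≤ N • c := by
  obtain ⟨i, j, hi, h⟩ := h
  intro t
  rw [Finsupp.smul_apply, smul_eq_mul]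
  by_cases h0 : e' t = 0
  · rw [h0]; exact Nat.zero_le _
  · have h1 := DFunLike.congr_fun h t
    rw [Finsupp.smul_apply, Finsupp.smul_apply, smul_eq_mul, smul_eq_mul] at h1
    have h2 : 1 ≤ c t := by
      rw [Nat.one_le_iff_ne_zero]
      intro h2
      rw [h2, mul_zero] at h1
      rcases Nat.mul_eq_zero.1 h1 with h3 | h3
      · omega
      · exact h0 h3
    calc e' t ≤ e t := he t
      _ ≤ N * 1 := by rw [mul_one]; exact hN t
      _ ≤ N * c t := Nat.mul_le_mul_left _ h2

variable {V : Type} [AddCommGroup V] [LinearOrder V] [IsOrderedAddMonoid V]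

theorem kerRay_oRay {x : (ι →₀ ℕ) →+ V} {c e : ι →₀ ℕ} (hx : KerRay x c) (he : x e = 0) :
    ORay c e := by
  obtain ⟨k, i, j, hk, h⟩ := hx.2.2 e 0 (by rw [he, map_zero])
  rw [smul_zero, zero_add] at h
  have hij : i ≤ j ∨ c = 0 := by
    by_contra hcon
    push Not at hcon
    obtain ⟨h1, h2⟩ := hcon
    apply h2
    ext t
    have h3 := DFunLike.congr_fun h t
    rw [Finsupp.add_apply, Finsupp.smul_apply, Finsupp.smul_apply, Finsupp.smul_apply,
      smul_eq_mul, smul_eq_mul, smul_eq_mul] at h3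
    by_contra h4
    have h5 : 0 < c t := Nat.pos_of_ne_zero h4
    have : j * c t < i * c t := Nat.mul_lt_mul_of_pos_right h1 h5
    omega
  rcases hij with hij | hc
  · refine ⟨k, j - i, hk, ?_⟩
    have h4 : k • e + i • c = (j - i) • c + i • c := by
      rw [← add_smul, Nat.sub_add_cancel hij, h]
    exact add_right_cancel h4
  · exact absurd hc hx.1

theorem kerRay_smul {x : (ι →₀ ℕ) →+ V} {c : ι →₀ ℕ} (hx : KerRay x c) {N : ℕ} (hN : 0 < N) :
    KerRay x (N • c) := by
  refine ⟨?_, by rw [map_nsmul, hx.2.1, smul_zero], fun a b hab => ?_⟩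
  · intro h
    apply hx.1
    ext t
    have h3 := DFunLike.congr_fun h t
    rw [Finsupp.smul_apply, smul_eq_mul, Finsupp.zero_apply] at h3
    rcases Nat.mul_eq_zero.1 h3 with h4 | h4
    · omega
    · simpa using h4
  · obtain ⟨k, i, j, hk, h⟩ := hx.2.2 a b hab
    refine ⟨N * k, i, j, Nat.mul_pos hN hk, ?_⟩
    calc (N * k) • a + i • N • c = N • (k • a + i • c) := by
          simp only [smul_add, smul_smul, mul_comm]
      _ = _ := by rw [h]; simp only [smul_add, smul_smul, mul_comm]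

/-- the pairing with classes of the ray. -/
theorem ORay.pair {φ : (ι →₀ ℕ) →+ ℤ} {c e : ι →₀ ℕ} (h : ORay c e) :
    ∃ i j : ℕ, 0 < i ∧ (i : ℤ) * φ e = j * φ c := by
  obtain ⟨i, j, hi, h⟩ := h
  refine ⟨i, j, hi, ?_⟩
  have := congrArg φ h
  rwa [map_nsmul, map_nsmul, nsmul_eq_mul, nsmul_eq_mul] at this

theorem ORay.pair_nonneg {φ : (ι →₀ ℕ) →+ ℤ} {c e : ι →₀ ℕ} (h : ORay c e) (hc : 0 ≤ φ c) :
    0 ≤ φ e := by
  obtain ⟨i, j, hi, h⟩ := h.pair (φ := φ)
  by_contra hcon
  push Not at hcon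
  have h1 : (i : ℤ) * φ e < 0 := mul_neg_of_pos_of_neg (by exact_mod_cast hi) hcon
  have h2 : (0 : ℤ) ≤ j * φ c := mul_nonneg (by positivity) hc
  omega

theorem ORay.pair_nonpos {φ : (ι →₀ ℕ) →+ ℤ} {c e : ι →₀ ℕ} (h : ORay c e) (hc : φ c ≤ 0) :
    φ e ≤ 0 := by
  have := ORay.pair_nonneg (φ := -φ) h (by simpa using hc)
  simpa using this

theorem ORay.pair_zero {φ : (ι →₀ ℕ) →+ ℤ} {c e : ι →₀ ℕ} (h : ORay c e) (hc : φ c = 0) :
    φ e = 0 := le_antisymm (h.pair_nonpos hc.le) (h.pair_nonneg hc.ge)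

theorem pray_orth (hskew : ∀ a b, T.β a b = - T.β b a) {c a b : ι →₀ ℕ} (ha : ORay c a)
    (hb : ORay c b) : T.β a b = 0 := by
  have hcc : T.β c c = 0 := by have := hskew c c; omega
  have h1 : T.β c b = 0 := hb.pair_zero (φ := T.β c) hcc
  have h2 : T.β b a = 0 := ha.pair_zero (φ := T.β b) (by rw [hskew, h1, neg_zero])
  rw [hskew, h2, neg_zero]

variable [TopologicalSpace R] [IsTopologicalRing R] [T1Space R]

/-- the wall element of `KerRay x c` agrees up to any degree with a positive ray element. -/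
theorem wall_approx {a : TPS T} {x : (ι →₀ ℕ) →+ V} {c : ι →₀ ℕ} (hx : KerRay x c)
    (hW : ∀ d : ι →₀ ℕ, KerRay x d → ∃ f ∈ CDT T (PRay d), ∀ e ≤ d, (zer x a).co e = f.co e)
    (e : ι →₀ ℕ) : ∃ N : ℕ, 0 < N ∧ ∃ f ∈ CDT T (PRay (N • c)),
      ∀ e' ≤ e, (zer x a).co e' = f.co e' := by
  classical
  set N := e.degree + 1 with hNdef
  have hN : ∀ t, e t ≤ N := fun t => (Finsupp.le_degree t e).trans (Nat.le_succ _)
  have hN0 : 0 < N := Nat.succ_pos _
  obtain ⟨f, hf, hfe⟩ := hW (N • c) (kerRay_smul hx hN0)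
  refine ⟨N, hN0, f, hf, fun e' he' => ?_⟩
  by_cases h : e' ≤ N • c
  · exact hfe e' h
  · have h0 : e' ≠ 0 := fun h0 => h (by rw [h0]; exact zero_le)
    have h1 : (zer x a).co e' = 0 := by
      refine (in1_zer x a).supp e' h0 fun hxe => h ?_
      exact (kerRay_oRay hx hxe).le he' hN
    have h2 : In1 (ORay (N • c)) f := CDT_in1 (fun _ _ h h' => h.add h') (ORay.zero _)
      (fun _ h => h.oRay) (fun c' hc' => nsmul_inj hc'.1) hf
    rw [h1, h2.supp e' h0 fun h' => h (h'.trans_smul.le he' hN)]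

/-- **CrossPos** (the input of TRANS_569) from WALL. -/
theorem crossPos_of_CDT (hskew : ∀ a b, T.β a b = - T.β b a) {S : Subsemiring R}
    (hS : IsClosed (S : Set R)) (h1 : (T.v : R) ∈ S) (h2 : ((T.v⁻¹ : Rˣ) : R) ∈ S)
    (hq : Dilog344.QReg ((T.v : R) ^ 2)) {a : TPS T} {x : (ι →₀ ℕ) →+ V} {c : ι →₀ ℕ}
    (hx : KerRay x c)
    (hW : ∀ d : ι →₀ ℕ, KerRay x d → ∃ f ∈ CDT T (PRay d), ∀ e ≤ d, (zer x a).co e = f.co e)
    (m : ι →₀ ℕ) (r : R) (hr : r ∈ S) :
    (0 ≤ T.β m c → ∃ U : TPS T, (∀ d, U.co d ∈ S) ∧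
      zer x a * mono T m r = U * zer x a) ∧
    (T.β m c ≤ 0 → ∃ U : TPS T, (∀ d, U.co d ∈ S) ∧
      mono T m r * zer x a = zer x a * U) := by
  have hz := zer_co_zero x a
  constructor
  · intro hm
    refine ⟨zer x a * mono T m r * inv (zer x a), fun e => ?_, ?_⟩
    · obtain ⟨N, hN0, f, hf, hfe⟩ := wall_approx hx hW e
      have h3 := CDT_conj (m := m) hS h1 h2 hq (fun c' hc' => nsmul_inj hc'.1)
        (fun c' c'' hc' hc'' => by
          rw [pray_orth hskew hc'.oRay.trans_smul hc''.oRay.trans_smul,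
            pray_orth hskew hc''.oRay.trans_smul hc'.oRay.trans_smul])
        (fun c' hc' => by
          refine ⟨(T.β m c').toNat, ?_⟩
          have h4 : 0 ≤ T.β m c' := hc'.oRay.trans_smul.pair_nonneg (φ := T.β m) hm
          rw [Int.toNat_of_nonneg h4, hskew c' m]; ring) hf r hr e
      have h5 : (zer x a * mono T m r * inv (zer x a)).co e =
          (f * mono T m r * inv f).co e :=
        co_mul_congr_le e (fun e' he' => co_mul_congr_le e' (fun e'' he'' =>
          hfe e'' (he''.trans he')) (fun _ _ => rfl))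
          (fun e' he' => co_inv_congr_le e' fun e'' he'' => hfe e'' (he''.trans he'))
      rw [h5]; exact h3
    · rw [mul_assoc _ (inv _), inv_mul hz, mul_one]
  · intro hm
    refine ⟨inv (zer x a) * mono T m r * zer x a, fun e => ?_, ?_⟩
    · obtain ⟨N, hN0, f, hf, hfe⟩ := wall_approx hx hW e
      have h3 := CDT_conj' (m := m) hS h1 h2 hq (fun c' hc' => nsmul_inj hc'.1)
        (fun c' c'' hc' hc'' => by
          rw [pray_orth hskew hc'.oRay.trans_smul hc''.oRay.trans_smul,
            pray_orth hskew hc''.oRay.trans_smul hc'.oRay.trans_smul])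
        (fun c' hc' => by
          refine ⟨(-(T.β m c')).toNat, ?_⟩
          have h4 : T.β m c' ≤ 0 := hc'.oRay.trans_smul.pair_nonpos (φ := T.β m) hm
          rw [Int.toNat_of_nonneg (by omega), hskew c' m]; ring) hf r hr e
      have h5 : (inv (zer x a) * mono T m r * zer x a).co e =
          (inv f * mono T m r * f).co e :=
        co_mul_congr_le e (fun e' he' => co_mul_congr_le e'
          (fun e'' he'' => co_inv_congr_le e'' fun e₃ he₃ =>
            hfe e₃ (he₃.trans (he''.trans he'))) (fun _ _ => rfl))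
          (fun e' he' => hfe e' he')
      rw [h5]; exact h3
    · rw [← mul_assoc, ← mul_assoc, mul_inv hz, one_mul]

theorem CDT_mono {Gen : Set (TPS T)} {Cl : (ι →₀ ℕ) → Prop} (hG : Gen ⊆ CGen T Cl) :
    closure (Submonoid.closure Gen : Set (TPS T)) ⊆ CDT T Cl :=
  closure_mono (Submonoid.closure_mono hG)

/-- **CrossPos** for a series `z` which is a limit of finite products of dilogarithm factors of
classes on the ray of `c`. -/
theorem crossPos_of_mem (hskew : ∀ a b, T.β a b = - T.β b a) {S : Subsemiring R}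
    (hS : IsClosed (S : Set R)) (h1 : (T.v : R) ∈ S) (h2 : ((T.v⁻¹ : Rˣ) : R) ∈ S)
    (hq : Dilog344.QReg ((T.v : R) ^ 2)) {c : ι →₀ ℕ} {Gen : Set (TPS T)}
    (hG : Gen ⊆ CGen T (PRay c)) {z : TPS T}
    (hzG : z ∈ closure (Submonoid.closure Gen : Set (TPS T)))
    (m : ι →₀ ℕ) (r : R) (hr : r ∈ S) :
    (0 ≤ T.β m c → ∃ U : TPS T, (∀ d, U.co d ∈ S) ∧ z * mono T m r = U * z) ∧
    (T.β m c ≤ 0 → ∃ U : TPS T, (∀ d, U.co d ∈ S) ∧ mono T m r * z = z * U) := by
  have hzD := CDT_mono hG hzG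
  have hz : z.co 0 = 1 := CDT_co_zero (fun c' hc' => nsmul_inj hc'.1) hzD
  constructor
  · intro hm
    refine ⟨z * mono T m r * inv z, CDT_conj (m := m) hS h1 h2 hq
      (fun c' hc' => nsmul_inj hc'.1)
        (fun c' c'' hc' hc'' => by
          rw [pray_orth hskew hc'.oRay hc''.oRay, pray_orth hskew hc''.oRay hc'.oRay])
        (fun c' hc' => by
          refine ⟨(T.β m c').toNat, ?_⟩
          have h4 : 0 ≤ T.β m c' := hc'.oRay.pair_nonneg (φ := T.β m) hm
          rw [Int.toNat_of_nonneg h4, hskew c' m]; ring) hzD r hr, ?_⟩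
    rw [mul_assoc _ (inv _), inv_mul hz, mul_one]
  · intro hm
    refine ⟨inv z * mono T m r * z, CDT_conj' (m := m) hS h1 h2 hq
      (fun c' hc' => nsmul_inj hc'.1)
        (fun c' c'' hc' hc'' => by
          rw [pray_orth hskew hc'.oRay hc''.oRay, pray_orth hskew hc''.oRay hc'.oRay])
        (fun c' hc' => by
          refine ⟨(-(T.β m c')).toNat, ?_⟩
          have h4 : T.β m c' ≤ 0 := hc'.oRay.pair_nonpos (φ := T.β m) hm
          rw [Int.toNat_of_nonneg (by omega), hskew c' m]; ring) hzD r hr, ?_⟩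
    rw [← mul_assoc, ← mul_assoc, mul_inv hz, one_mul]

end cross

end TPS

/-! ### `KK` -/

theorem isClosed_Kpos : IsClosed (Kpos : Set KK) :=
  isClosed_lcoeff_all ℚ fun _ => Set.Ici 0

theorem qreg_vv : Dilog344.QReg (((vv : KKˣ) : KK) ^ 2) := by
  intro k
  apply isUnit_iff_ne_zero.2
  rw [← pow_mul, vv_pow, sub_ne_zero]
  intro h
  have h1 := congrArg (fun f : KK => HahnSeries.coeff f 0) h
  rw [HahnSeries.coeff_single_of_ne, HahnSeries.coeff_one, if_pos rfl] at h1
  · exact zero_ne_one h1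
  · intro h0
    push_cast at h0
    omega

end Crest.Agent.R059
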