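import Crest.Agent.R059.TPS_883

set_option autoImplicit false

/-!
Row 59 (S0081).  Topology on twisted power series (product topology over a topological ring `R`),
continuity of the factorisations, and closure ("t-adic limit") lemmas.
-/

namespace Crest.Agent.R059

open Finset Topology

namespace TPS

section top

variable {M : Type*} [AddCommMonoid M] {R : Type*} [CommRing R] {T : Tw M R}
variable [TopologicalSpace R]

/-- product topology (coefficientwise). -/
instance : TopologicalSpace (TPS T) := TopologicalSpace.induced TPS.co inferInstance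

theorem continuous_co (d : M) : Continuous (fun f : TPS T => f.co d) :=
  (continuous_apply d).comp continuous_induced_dom

theorem continuous_iff_co {X : Type*} [TopologicalSpace X] {F : X → TPS T} :
    Continuous F ↔ ∀ d, Continuous (fun x => (F x).co d) := by
  rw [continuous_induced_rng, continuous_pi_iff]
  rfl

theorem isClosed_co_eq [T1Space R] (d : M) (r : R) : IsClosed {f : TPS T | f.co d = r} :=
  isClosed_singleton.preimage (continuous_co (T := T) d)

theorem isClosed_co_mem (d : M) {S : Set R} (hS : IsClosed S) : IsClosed {f : TPS T | f.co d ∈ S} :=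
  hS.preimage (continuous_co (T := T) d)

variable [IsTopologicalRing R]

instance : ContinuousAdd (TPS T) :=
  ⟨continuous_iff_co.2 fun d => by
    simp only [co_add]
    exact ((continuous_co d).comp continuous_fst).add ((continuous_co d).comp continuous_snd)⟩

instance : ContinuousNeg (TPS T) :=
  ⟨continuous_iff_co.2 fun d => by
    simp only [co_neg]
    exact (continuous_co d).neg⟩

variable [HasAntidiagonal M]

instance : ContinuousMul (TPS T) :=
  ⟨continuous_iff_co.2 fun d => by
    simp only [co_mul]
    exact continuous_finsetSum _ fun p _ => continuous_const.mul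
      (((continuous_co p.1).comp continuous_fst).mul ((continuous_co p.2).comp continuous_snd))⟩

instance : IsTopologicalRing (TPS T) where

end top

section factor

variable {M : Type*} [AddCommMonoid M] [HasAntidiagonal M] {R : Type*} [CommRing R] {T : Tw M R}
variable [TopologicalSpace R] [IsTopologicalRing R]
variable {X : Type*} [TopologicalSpace X]

omit [TopologicalSpace R] [IsTopologicalRing R] in
/-- the top coefficient of a product of two series with constant term one. -/
theorem co_mul_top [DecidableEq M]
    (f g : TPS T) (hf : f.co 0 = 1) (hg : g.co 0 = 1) (d : M) (hd : d ≠ 0) :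
    (f * g).co d = f.co d + g.co d + ∑ p ∈ ((HasAntidiagonal.antidiagonal d).erase (d, 0)).erase (0, d),
      wt T p.1 p.2 * (f.co p.1 * g.co p.2) := by
  rw [co_mul]
  have h1 : ((d, 0) : M × M) ∈ HasAntidiagonal.antidiagonal d := by
    simp [HasAntidiagonal.mem_antidiagonal]
  have h2 : ((0, d) : M × M) ∈ (HasAntidiagonal.antidiagonal d).erase (d, 0) := by
    simp [HasAntidiagonal.mem_antidiagonal, hd.symm]
  rw [← Finset.add_sum_erase _ _ h1, ← Finset.add_sum_erase _ _ h2]
  simp only [wt_zero_left, wt_zero_right, hf, hg]
  ring

/-- **Continuity of a two factor decomposition**: `F * G = H`, `F` supported on `S`, `G` on the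
complement (apart from the constant terms one), `H` continuous: `F` and `G` are continuous. -/
theorem continuous_factor (ht : M → ℕ) (ht0 : ∀ a, ht a = 0 → a = 0)
    (hta : ∀ a b, ht (a + b) = ht a + ht b)
    (S : M → Prop) {F G H : X → TPS T} (hFG : ∀ x, F x * G x = H x)
    (hF0 : ∀ x, (F x).co 0 = 1) (hG0 : ∀ x, (G x).co 0 = 1)
    (hFS : ∀ x d, d ≠ 0 → ¬ S d → (F x).co d = 0) (hGS : ∀ x d, d ≠ 0 → S d → (G x).co d = 0)
    (hH : Continuous H) : Continuous F ∧ Continuous G := by
  classical
  have key : ∀ n : ℕ, ∀ d : M, ht d = n →
      Continuous (fun x => (F x).co d) ∧ Continuous (fun x => (G x).co d) := by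
    intro n
    induction n using Nat.strong_induction_on with
    | _ n IH =>
      intro d hdn
      by_cases hd : d = 0
      · subst hd
        simp only [hF0, hG0]
        exact ⟨continuous_const, continuous_const⟩
      have hrest : Continuous (fun x => ∑ p ∈ ((HasAntidiagonal.antidiagonal d).erase (d, 0)).erase (0, d),
          wt T p.1 p.2 * ((F x).co p.1 * (G x).co p.2)) := by
        refine continuous_finsetSum _ fun p hp => ?_
        rw [Finset.mem_erase, Finset.mem_erase, HasAntidiagonal.mem_antidiagonal] at hp
        obtain ⟨h1, h2, h3⟩ := hp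
        have hs := hta p.1 p.2
        rw [h3, hdn] at hs
        have hp1 : ht p.1 ≠ 0 := fun h => h1 (by
          have := ht0 _ h
          rw [this, zero_add] at h3
          exact Prod.ext this h3)
        have hp2 : ht p.2 ≠ 0 := fun h => h2 (by
          have := ht0 _ h
          rw [this, add_zero] at h3
          exact Prod.ext h3 this)
        exact continuous_const.mul ((IH (ht p.1) (by omega) p.1 rfl).1.mul
          (IH (ht p.2) (by omega) p.2 rfl).2)
      have heq : ∀ x, (F x).co d + (G x).co d = (H x).co d -
          ∑ p ∈ ((HasAntidiagonal.antidiagonal d).erase (d, 0)).erase (0, d),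
          wt T p.1 p.2 * ((F x).co p.1 * (G x).co p.2) := by
        intro x
        rw [← hFG x, co_mul_top _ _ (hF0 x) (hG0 x) d hd]
        ring
      have hsum : Continuous (fun x => (F x).co d + (G x).co d) := by
        simp only [heq]
        exact ((continuous_co d).comp hH).sub hrest
      by_cases hSd : S d
      · have hg : (fun x => (G x).co d) = fun _ => 0 := funext fun x => hGS x d hd hSd
        have hf : (fun x => (F x).co d) = fun x => (F x).co d + (G x).co d :=
          funext fun x => by rw [hGS x d hd hSd, add_zero]
        exact ⟨hf ▸ hsum, hg ▸ continuous_const⟩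
      · have hf : (fun x => (F x).co d) = fun _ => 0 := funext fun x => hFS x d hd hSd
        have hg : (fun x => (G x).co d) = fun x => (F x).co d + (G x).co d :=
          funext fun x => by rw [hFS x d hd hSd, zero_add]
        exact ⟨hf ▸ continuous_const, hg ▸ hsum⟩
  exact ⟨continuous_iff_co.2 fun d => (key _ d rfl).1, continuous_iff_co.2 fun d => (key _ d rfl).2⟩

/-- continuity of a three factor decomposition `P Z N = A` with respect to the sign of `x`. -/
theorem continuous_factor3 (ht : M → ℕ) (ht0 : ∀ a, ht a = 0 → a = 0)
    (hta : ∀ a b, ht (a + b) = ht a + ht b)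
    {V : Type*} [AddCommGroup V] [LinearOrder V] [IsOrderedAddMonoid V] (x : M →+ V)
    {P Z N A : X → TPS T} (hA : ∀ u, P u * Z u * N u = A u)
    (hP0 : ∀ u, (P u).co 0 = 1) (hZ0 : ∀ u, (Z u).co 0 = 1) (hN0 : ∀ u, (N u).co 0 = 1)
    (hP : ∀ u d, (P u).co d ≠ 0 → d = 0 ∨ 0 < x d) (hZ : ∀ u d, (Z u).co d ≠ 0 → d = 0 ∨ x d = 0)
    (hN : ∀ u d, (N u).co d ≠ 0 → d = 0 ∨ x d < 0) (hc : Continuous A) :
    Continuous P ∧ Continuous Z ∧ Continuous N := by
  classical
  have h0 : ∀ a b : M, a + b = 0 → a = 0 ∧ b = 0 := by
    intro a b hab
    have h := hta a b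
    have h00 : ht (0 : M) = 0 := by have := hta 0 0; simp at this; exact this
    rw [hab, h00] at h
    exact ⟨ht0 _ (by omega), ht0 _ (by omega)⟩
  have hPZ0 : ∀ u, (P u * Z u).co 0 = 1 := fun u => by
    rw [co_mul_zero h0, hP0, hZ0, one_mul]
  have hPZ : ∀ u d, d ≠ 0 → ¬ (0 ≤ x d) → (P u * Z u).co d = 0 := by
    intro u d hd hx
    rw [co_mul]
    refine Finset.sum_eq_zero fun p hp => ?_
    rw [HasAntidiagonal.mem_antidiagonal] at hp
    by_contra hne
    have h1 : (P u).co p.1 ≠ 0 := fun h => hne (by rw [h]; ring)
    have h2 : (Z u).co p.2 ≠ 0 := fun h => hne (by rw [h]; ring)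
    apply hx
    rw [← hp, map_add]
    refine add_nonneg ?_ ?_
    · rcases hP u _ h1 with h | h
      · rw [h, map_zero]
      · exact h.le
    · rcases hZ u _ h2 with h | h
      · rw [h, map_zero]
      · exact h.ge
  have s1 := continuous_factor ht ht0 hta (fun d => 0 ≤ x d) hA hPZ0 hN0 hPZ
    (fun u d hd hx => by
      by_contra hne
      rcases hN u d hne with h | h
      · exact hd h
      · exact absurd hx (not_le.2 h)) hc
  have s2 := continuous_factor ht ht0 hta (fun d => 0 < x d) (fun _ => rfl) hP0 hZ0
    (fun u d hd hx => by
      by_contra hne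
      rcases hP u d hne with h | h
      · exact hd h
      · exact hx h)
    (fun u d hd hx => by
      by_contra hne
      rcases hZ u d hne with h | h
      · exact hd h
      · exact absurd h hx.ne') s1.1
  exact ⟨s2.1, s2.2, s1.2⟩

end factor

end TPS

section closure

variable {ι : Type*} {X Y : Type*} [TopologicalSpace X] [TopologicalSpace Y]

/-- limits in several variables. -/
theorem map_closure_pi {X : ι → Type*} [∀ i, TopologicalSpace (X i)] {D : ∀ i, Set (X i)}
    {E : Set Y} {Φ : (∀ i, X i) → Y}
    (hΦ : Continuous Φ) (h : ∀ u, (∀ i, u i ∈ D i) → Φ u ∈ closure E) :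
    ∀ u, (∀ i, u i ∈ closure (D i)) → Φ u ∈ closure E := by
  intro u hu
  have hmem : u ∈ closure (Set.univ.pi D) := by
    rw [closure_pi_set]
    exact fun i _ => hu i
  have hm : Set.MapsTo Φ (Set.univ.pi D) (closure E) := fun w hw => h w fun i => hw i trivial
  have := hm.closure hΦ hmem
  rwa [closure_closure] at this

end closure

section laurent

open LaurentSeries

/-- the coefficients of Laurent series are continuous (also for the discrete topology). -/
theorem continuous_lcoeff (F : Type*) [Field F] [TopologicalSpace F] (n : ℤ) :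
    Continuous (fun f : LaurentSeries F => f.coeff n) := by
  let _ : UniformSpace F := ⊥
  have h1 : @Continuous (LaurentSeries F) F _ ⊥ (fun f : LaurentSeries F => f.coeff n) := by
    have := (LaurentSeries.uniformContinuous_coeff (K := F) n).continuous
    exact this
  exact continuous_le_dom le_rfl (continuous_le_rng bot_le h1)

/-- a condition on one coefficient is closed. -/
theorem isClosed_lcoeff (F : Type*) [Field F] (n : ℤ) (S : Set F) :
    IsClosed {f : LaurentSeries F | f.coeff n ∈ S} := by
  let _ : TopologicalSpace F := ⊥
  have : DiscreteTopology F := ⟨rfl⟩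
  exact (isClosed_discrete S).preimage (continuous_lcoeff F n)

/-- conditions on all coefficients are closed. -/
theorem isClosed_lcoeff_all (F : Type*) [Field F] (S : ℤ → Set F) :
    IsClosed {f : LaurentSeries F | ∀ n, f.coeff n ∈ S n} := by
  have : {f : LaurentSeries F | ∀ n, f.coeff n ∈ S n} = ⋂ n, {f | f.coeff n ∈ S n} := by
    ext f; simp
  rw [this]
  exact isClosed_iInter fun n => isClosed_lcoeff F n (S n)

end laurent

end Crest.Agent.R059
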