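import Crest.Agent.R059.NumOut_469
import Crest.Agent.R059.ABNum_217

set_option autoImplicit false

/-!
Row 59 (S0081), leaf NUM, part 6: the literal numeric Prop `ABNum` (naturals only, 217) gives
`ABOut`.
-/

namespace Crest.Agent.R059.Num469

open Finset PowerSeries HasAntidiagonal

variable {I : Type} [Fintype I]

theorem kkN_eq (k : I → I → ℕ) (d e : I →₀ ℕ) : NumA217.kkN k d e = kkN k d e := rfl

theorem par_iff (k : I → I → ℕ) (c : I →₀ ℕ) :
    par k c = true ↔ Odd ((∑ i, c i) + NumA217.kkN k c c) := by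
  rw [par, decide_eq_true_iff, ABOut.par, kk_eq, kkN_eq, ← ZMod.natCast_eq_one_iff_odd]
  push_cast
  rfl

theorem sm_eq (k : I → I → ℕ) {Λ : Type} [DecidableEq Λ] (cL : Λ → (I →₀ ℕ)) (pL : Λ → ℕ)
    (d : I →₀ ℕ) (n : ℕ) :
    SM k cL pL d n = NumForm217.SMm (A := Λ × ℕ)
      (fun x => Odd ((∑ i, cL x.1 i) + NumA217.kkN k (cL x.1) (cL x.1)))
      (fun x => cL x.1)
      (fun x => NumA217.kkN k (cL x.1) (cL x.1))
      (fun x => pL x.1 + x.2)
      (NumA217.kkN k d d) d n := by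
  ext s
  constructor
  · rintro ⟨h1, h2, h3⟩
    exact ⟨fun x _ hx => h1 x ((par_iff k _).2 hx), h2, h3⟩
  · rintro ⟨h1, h2, h3⟩
    refine ⟨fun x hx => ?_, h2, h3⟩
    by_cases hm : x ∈ s
    · exact h1 x hm ((par_iff k _).1 hx)
    · rw [Multiset.count_eq_zero_of_notMem hm]; exact Nat.zero_le _

/-- **the numeric output of Theorems A + B gives `ABOut`**. -/
theorem abOut_of_abNum (h : ABNum) : ABOut := by
  classical
  refine abOut_of fun I _ _ k θ hsym => ?_
  obtain ⟨D⟩ := h I k θ hsym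
  refine ⟨fun d => NumA217.hs (D.h d), fun d => NumA217.hs (D.hg d),
    fun d => NumA217.hs (D.hl d), D.hilb, ⟨?_, ?_, ?_, ?_, ?_⟩, ?_⟩
  · intro d
    exact NumA217.hs_of_thA (fun a b => NumA217.kkN k a b) D.h D.hg D.hl d (D.thA d)
  · exact NumA217.hs_eq_one D.hg_zero
  · exact NumA217.hs_eq_one D.hl_zero
  · intro a ha
    by_contra hcon
    rw [not_or, not_lt] at hcon
    exact ha (NumA217.hs_eq_zero (D.hg_supp a hcon.1 hcon.2))
  · intro b hb
    by_contra hcon
    rw [not_le] at hcon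
    exact hb (NumA217.hs_eq_zero (D.hl_supp b hcon))
  · refine ⟨D.Lam, Classical.decEq _, D.cL, D.pL, fun b => ⟨D.cL_ne b, D.cL_th b⟩, D.fin, ?_⟩
    intro d hd n
    rw [NumA217.coeff_hs, D.thB _ d hd n, sm_eq]

end Crest.Agent.R059.Num469
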