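import Crest.Agent.R059.Cnt_231
import Crest.Agent.R059.NumBind_469

/-!
# Row 59 (helper231): `ABOut` from the basis theorem (Theorem B in basis form)
-/

set_option autoImplicit false

namespace Crest.Agent.R059.Cnt231

open MvPolynomial Finset PL547

/-- the basis theorem: one global choice of letters, the admissible words are a basis of the
alternating polynomials modulo `J0` for every `d` of weight zero. -/
def BasisThm : Prop :=
  ∀ (I : Type) [Fintype I] [DecidableEq I] (k : I → I → ℕ) (θ : I → ℤ),
    (∀ c e : I → ℕ, thc θ c = 0 → thc θ e = 0 → kk k c e = kk k e c) →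
    ∃ 𝓖 : GLet k θ, ∀ d : I → ℕ, thc θ d = 0 → ∃ pt : ∀ t : TT θ d, Vt (TT.cl t),
      LinearIndependent ℚ (fun x : AW 𝓖 d => (J0s k θ (colV d)).mkQ (x.2.1.el pt)) ∧
      Anti (colV d) ≤ J0s k θ (colV d) ⊔
        Submodule.span ℚ (Set.range fun x : AW 𝓖 d => x.2.1.el pt)

theorem abOut_of_basis (h : BasisThm) : ABOut :=
  Num469.abOut_of_abNum (abNum_of_basis h)

end Crest.Agent.R059.Cnt231
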