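import Mathlib

/-!
# Row 59: dimension count from a homogeneous basis modulo a homogeneous subspace (helper830)

`A`, `J` subspaces of `MvPolynomial V F`, `J` homogeneous, `e t ∈ A` homogeneous of degree `deg t`,
independent modulo `J` and `A ≤ J ⊔ span (range e)`. Then
`finrank (homog n ⊓ A) = finrank (homog n ⊓ A ⊓ J) + #{t | deg t = n}`.
-/

set_option autoImplicit false

namespace Crest.Agent.R059.DimCount830

open MvPolynomial Submodule Module

variable {V F : Type*} [Finite V] [Field F]

instance finiteDimensional_homog (n : ℕ) :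
    FiniteDimensional F (homogeneousSubmodule V F n) :=
  Module.Finite.iff_fg.2 (homogeneousSubmodule_fg V F n)

instance finiteDimensional_homog_inf (n : ℕ) (A : Submodule F (MvPolynomial V F)) :
    FiniteDimensional F ↥(homogeneousSubmodule V F n ⊓ A) :=
  Submodule.finiteDimensional_of_le (inf_le_left : homogeneousSubmodule V F n ⊓ A ≤ _)

variable (A J : Submodule F (MvPolynomial V F)) {T : Type*}
  (e : T → MvPolynomial V F) (deg : T → ℕ)

/-- the degree `n` part, mapped to the quotient -/
noncomputable def toQ (n : ℕ) : ↥(homogeneousSubmodule V F n ⊓ A) →ₗ[F] (MvPolynomial V F ⧸ J) :=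
  J.mkQ.comp (homogeneousSubmodule V F n ⊓ A).subtype

omit [Finite V] in
theorem range_toQ (hJ : ∀ f ∈ J, ∀ n, homogeneousComponent n f ∈ J)
    (he : ∀ t, e t ∈ A) (hd : ∀ t, (e t).IsHomogeneous (deg t))
    (sp : A ≤ J ⊔ span F (Set.range e)) (n : ℕ) :
    LinearMap.range (toQ A J n) =
      span F (Set.range fun t : {t // deg t = n} => J.mkQ (e t.1)) := by
  apply le_antisymm
  · rintro _ ⟨⟨f, hf⟩, rfl⟩
    obtain ⟨hfn, hfA⟩ := hf
    obtain ⟨j, hj, g, hg, hjg⟩ := Submodule.mem_sup.1 (sp hfA)
    have h1 : homogeneousComponent n f = f := homogeneousComponent_eq_self hfn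
    have h2 : f = homogeneousComponent n j + homogeneousComponent n g := by
      rw [← map_add, hjg, h1]
    have h3 : homogeneousComponent n g ∈ span F (Set.range fun t : {t // deg t = n} => e t.1) := by
      have hle : span F (Set.range e) ≤
          (span F (Set.range fun t : {t // deg t = n} => e t.1)).comap
            (homogeneousComponent n) := by
        rw [Submodule.span_le]
        rintro _ ⟨t, rfl⟩
        rw [SetLike.mem_coe, Submodule.mem_comap,
          homogeneousComponent_of_mem ((mem_homogeneousSubmodule _ _).2 (hd t))]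
        split_ifs with h
        · exact Submodule.subset_span ⟨⟨t, h.symm⟩, rfl⟩
        · exact zero_mem _
      exact hle hg
    have h4 : toQ A J n ⟨f, hfn, hfA⟩ = J.mkQ (homogeneousComponent n g) := by
      change J.mkQ f = _
      conv_lhs => rw [h2]
      rw [map_add]
      have : J.mkQ (homogeneousComponent n j) = 0 := by
        rw [Submodule.mkQ_apply, Submodule.Quotient.mk_eq_zero]
        exact hJ j hj n
      rw [this, zero_add]
    rw [h4]
    have h5 : J.mkQ (homogeneousComponent n g) ∈
        (span F (Set.range fun t : {t // deg t = n} => e t.1)).map J.mkQ :=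
      Submodule.mem_map_of_mem h3
    rw [Submodule.map_span, ← Set.range_comp] at h5
    exact h5
  · rw [Submodule.span_le]
    rintro _ ⟨t, rfl⟩
    refine ⟨⟨e t.1, ?_, he t.1⟩, rfl⟩
    have := hd t.1
    rw [t.2] at this
    exact (mem_homogeneousSubmodule _ _).2 this

theorem finite_deg (he : ∀ t, e t ∈ A) (hd : ∀ t, (e t).IsHomogeneous (deg t))
    (ind : LinearIndependent F fun t => J.mkQ (e t)) (n : ℕ) : Finite {t // deg t = n} := by
  -- the members of degree `n` are independent in a finite-dimensional space
  have hind : LinearIndependent F e := LinearIndependent.of_comp J.mkQ ind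
  have h1 : LinearIndependent F
      (fun t : {t // deg t = n} => (⟨e t.1, by
        refine ⟨?_, he t.1⟩
        have := hd t.1
        rw [t.2] at this
        exact (mem_homogeneousSubmodule _ _).2 this⟩ : ↥(homogeneousSubmodule V F n ⊓ A))) := by
    apply LinearIndependent.of_comp (homogeneousSubmodule V F n ⊓ A).subtype
    exact hind.comp _ Subtype.val_injective
  exact h1.finite

/-- **the count** -/
theorem count (hJ : ∀ f ∈ J, ∀ n, homogeneousComponent n f ∈ J)
    (he : ∀ t, e t ∈ A) (hd : ∀ t, (e t).IsHomogeneous (deg t))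
    (ind : LinearIndependent F fun t => J.mkQ (e t))
    (sp : A ≤ J ⊔ span F (Set.range e)) (n : ℕ) :
    finrank F ↥(homogeneousSubmodule V F n ⊓ A) =
      finrank F ↥(homogeneousSubmodule V F n ⊓ A ⊓ J) + Nat.card {t // deg t = n} := by
  classical
  haveI := finite_deg A J e deg he hd ind n
  haveI : Fintype {t // deg t = n} := Fintype.ofFinite _
  have h1 := LinearMap.finrank_range_add_finrank_ker (toQ A J n)
  have h2 : finrank F (LinearMap.range (toQ A J n)) = Nat.card {t // deg t = n} := by
    rw [range_toQ A J e deg hJ he hd sp n, finrank_span_eq_card, Nat.card_eq_fintype_card]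
    exact ind.comp _ Subtype.val_injective
  have h3 : finrank F (LinearMap.ker (toQ A J n)) =
      finrank F ↥(homogeneousSubmodule V F n ⊓ A ⊓ J) := by
    have hmap : (LinearMap.ker (toQ A J n)).map (homogeneousSubmodule V F n ⊓ A).subtype =
        homogeneousSubmodule V F n ⊓ A ⊓ J := by
      ext f
      constructor
      · rintro ⟨⟨g, hg⟩, hk, rfl⟩
        refine ⟨hg, ?_⟩
        have : J.mkQ g = 0 := hk
        rwa [Submodule.mkQ_apply, Submodule.Quotient.mk_eq_zero] at this
      · rintro ⟨hg, hJf⟩
        refine ⟨⟨f, hg⟩, ?_, rfl⟩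
        change J.mkQ f = 0
        rwa [Submodule.mkQ_apply, Submodule.Quotient.mk_eq_zero]
    rw [← hmap]
    exact (LinearEquiv.finrank_eq (Submodule.equivMapOfInjective _
      (Submodule.subtype_injective _) _))
  rw [← h1, h2, h3, add_comm]

/-- subtraction form -/
theorem count_sub (hJ : ∀ f ∈ J, ∀ n, homogeneousComponent n f ∈ J)
    (he : ∀ t, e t ∈ A) (hd : ∀ t, (e t).IsHomogeneous (deg t))
    (ind : LinearIndependent F fun t => J.mkQ (e t))
    (sp : A ≤ J ⊔ span F (Set.range e)) (n : ℕ) :
    finrank F ↥(homogeneousSubmodule V F n ⊓ A) -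
      finrank F ↥(homogeneousSubmodule V F n ⊓ A ⊓ J) = Nat.card {t // deg t = n} := by
  rw [count A J e deg hJ he hd ind sp n, Nat.add_sub_cancel_left]


section Homog

attribute [local instance] MvPolynomial.gradedAlgebra

omit [Finite V] in
/-- an ideal generated by homogeneous elements contains the homogeneous components of its members -/
theorem component_mem_span (S : Set (MvPolynomial V F)) (hS : ∀ g ∈ S, ∃ m, g.IsHomogeneous m) :
    ∀ f ∈ Ideal.span S, ∀ n, homogeneousComponent n f ∈ Ideal.span S := by
  intro f hf n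
  refine homogeneousComponent_mem_of_mem ?_ hf n
  refine Ideal.homogeneous_span _ _ ?_
  intro g hg
  obtain ⟨m, hm⟩ := hS g hg
  exact ⟨m, hm⟩

omit [Finite V] in
theorem isHomogeneous_KK [DecidableEq V] (arr : V → V → ℕ) (S T : Finset V) :
    (∏ a ∈ S, ∏ b ∈ T, (X b - X a : MvPolynomial V F) ^ arr a b).IsHomogeneous
      (∑ a ∈ S, ∑ b ∈ T, arr a b) := by
  refine IsHomogeneous.prod _ _ _ fun a _ => IsHomogeneous.prod _ _ _ fun b _ => ?_
  have h : (X b - X a : MvPolynomial V F).IsHomogeneous 1 := (isHomogeneous_X _ _).sub (isHomogeneous_X _ _)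
  simpa using h.pow (arr a b)

end Homog

end Crest.Agent.R059.DimCount830
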