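import Mathlib

/-!
# Row 59, Theorem B: the abstract filtration engine (helper830)

A family `e t` (`t : T`) with level `k t : ℕ` and place `p t : Q` (`Q` finite, `card : Q → ℕ`), and
for every place `σ` an increasing family of submodules `Gr σ g` (`g : ℤ`).
`e t ∈ Gr σ (k t)` for all `σ`, and `e t ∈ Gr σ (k t - 1)` if `card (p t) ≤ card σ`, `σ ≠ p t`.
The family is independent modulo `I` / spans modulo `I` as soon as this holds locally at every
`(place, level)`.
-/

set_option autoImplicit false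

namespace Crest.Agent.R059.Eng830

open Finset Submodule

variable {F M : Type*} [Field F] [AddCommGroup M] [Module F M]
variable {Q T : Type*} [Fintype Q]

/-- the growth data -/
structure Growth (F M Q : Type*) [Field F] [AddCommGroup M] [Module F M] where
  card : Q → ℕ
  Gr : Q → ℤ → Submodule F M
  mono : ∀ σ, Monotone (Gr σ)

/-- a family adapted to the growth data -/
structure Fam (D : Growth F M Q) (T : Type*) where
  e : T → M
  k : T → ℕ
  p : T → Q
  mem : ∀ t σ, e t ∈ D.Gr σ (k t)
  memlt : ∀ t σ, σ ≠ p t → D.card (p t) ≤ D.card σ → e t ∈ D.Gr σ ((k t : ℤ) - 1)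

variable {D : Growth F M Q} (E : Fam D T)

omit [Fintype Q] in
/-- **independence**: local independence at every (place, level) implies independence modulo `I`. -/
theorem ind (I : Submodule F M) (hI : ∀ σ g, I ≤ D.Gr σ g)
    (loc : ∀ (q : Q) (g : ℕ) (c : T →₀ F), (∀ t ∈ c.support, E.p t = q ∧ E.k t = g) →
      (c.sum fun t a => a • E.e t) ∈ D.Gr q ((g : ℤ) - 1) → c = 0) :
    ∀ c : T →₀ F, (c.sum fun t a => a • E.e t) ∈ I → c = 0 := by
  classical
  intro c hc
  by_contra hne
  have hS : c.support.Nonempty := Finsupp.support_nonempty_iff.2 hne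
  obtain ⟨t1, ht1, hmax1⟩ := c.support.exists_max_image E.k hS
  set S2 := c.support.filter (fun t => E.k t = E.k t1) with hS2
  have hS2n : S2.Nonempty := ⟨t1, by simp [hS2, Finsupp.mem_support_iff.1 ht1]⟩
  obtain ⟨t0, ht0, hmax0⟩ := S2.exists_max_image (fun t => D.card (E.p t)) hS2n
  have ht0' : t0 ∈ c.support ∧ E.k t0 = E.k t1 := by simpa [hS2] using ht0
  set q := E.p t0 with hq
  set g := E.k t1 with hg
  set P : T → Prop := fun t => E.p t = q ∧ E.k t = g with hP
  have hsplit : (c.filter P) + (c.filter (fun t => ¬ P t)) = c := Finsupp.filter_pos_add_filter_neg c P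
  have hsum : (c.sum fun t a => a • E.e t) =
      ((c.filter P).sum fun t a => a • E.e t) +
      ((c.filter (fun t => ¬ P t)).sum fun t a => a • E.e t) := by
    conv_lhs => rw [← hsplit]
    rw [Finsupp.sum_add_index']
    · intro t; simp
    · intro t a b; rw [add_smul]
  have h2 : ((c.filter (fun t => ¬ P t)).sum fun t a => a • E.e t) ∈ D.Gr q ((g : ℤ) - 1) := by
    rw [Finsupp.sum]
    apply Submodule.sum_mem
    intro t ht
    apply Submodule.smul_mem
    have ht' : t ∈ c.support ∧ ¬ P t := by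
      rw [Finsupp.support_filter, Finset.mem_filter] at ht
      exact ht
    have hkt : E.k t ≤ g := hmax1 t ht'.1
    rcases Nat.lt_or_eq_of_le hkt with hlt | heq
    · exact D.mono q (by omega) (E.mem t q)
    · have hpne : q ≠ E.p t := by
        intro h
        exact ht'.2 ⟨h.symm, heq⟩
      have hcard : D.card (E.p t) ≤ D.card q := by
        apply hmax0 t
        simp only [hS2, Finset.mem_filter]
        exact ⟨ht'.1, heq⟩
      have := E.memlt t q hpne hcard
      rwa [heq] at this
  have h1 : ((c.filter P).sum fun t a => a • E.e t) ∈ D.Gr q ((g : ℤ) - 1) := by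
    have h3 := hI q ((g : ℤ) - 1) hc
    rw [hsum] at h3
    have := Submodule.sub_mem _ h3 h2
    simpa using this
  have h0 := loc q g (c.filter P) (by
    intro t ht
    rw [Finsupp.support_filter, Finset.mem_filter] at ht
    exact ht.2) h1
  have : (c.filter P) t0 = 0 := by rw [h0]; rfl
  rw [Finsupp.filter_apply_pos P c ⟨rfl, ht0'.2⟩] at this
  exact (Finsupp.mem_support_iff.1 ht0'.1) this

omit [Fintype Q] in
/-- the same as linear independence in the quotient -/
theorem ind_quot (I : Submodule F M) (hI : ∀ σ g, I ≤ D.Gr σ g)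
    (loc : ∀ (q : Q) (g : ℕ) (c : T →₀ F), (∀ t ∈ c.support, E.p t = q ∧ E.k t = g) →
      (c.sum fun t a => a • E.e t) ∈ D.Gr q ((g : ℤ) - 1) → c = 0) :
    LinearIndependent F (fun t => I.mkQ (E.e t)) := by
  rw [linearIndependent_iff]
  intro c hc
  apply ind E I hI loc c
  rw [Finsupp.linearCombination_apply] at hc
  have : I.mkQ (c.sum fun t a => a • E.e t) = 0 := by
    rw [← hc, Finsupp.sum, Finsupp.sum, map_sum]
    simp
  rwa [Submodule.mkQ_apply, Submodule.Quotient.mk_eq_zero] at this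

/-- the span of the members of level `< (g, s)` -/
def lev (g s : ℕ) : Submodule F M :=
  span F (E.e '' {t | E.k t < g ∨ (E.k t = g ∧ D.card (E.p t) < s)})

omit [Fintype Q] in
theorem lev_mono {g s g' s' : ℕ} (h : g < g' ∨ (g = g' ∧ s ≤ s')) : lev E g s ≤ lev E g' s' := by
  apply span_mono
  apply Set.image_mono
  intro t ht
  simp only [Set.mem_setOf_eq] at ht ⊢
  omega

/-- **spanning**, filtered form. -/
theorem span_lev (RX I : Submodule F M) (he : ∀ t, E.e t ∈ RX)
    (zero : ∀ f ∈ RX, (∀ σ, f ∈ D.Gr σ (-1)) → f ∈ I)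
    (loc : ∀ (q : Q) (g : ℕ), ∀ f ∈ RX, (∀ σ, f ∈ D.Gr σ g) →
      (∀ σ, D.card q < D.card σ → f ∈ D.Gr σ ((g : ℤ) - 1)) →
      ∃ h ∈ span F (E.e '' {t | E.p t = q ∧ E.k t = g}), f - h ∈ D.Gr q ((g : ℤ) - 1)) :
    ∀ (g s : ℕ), ∀ f ∈ RX, (∀ σ, f ∈ D.Gr σ g) →
      (∀ σ, s ≤ D.card σ → f ∈ D.Gr σ ((g : ℤ) - 1)) → f ∈ I ⊔ lev E g s := by
  classical
  -- the subtraction step
  have step : ∀ g s : ℕ, (∀ f ∈ RX, (∀ σ, f ∈ D.Gr σ g) →
      (∀ σ, s ≤ D.card σ → f ∈ D.Gr σ ((g : ℤ) - 1)) → f ∈ I ⊔ lev E g s) →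
      (∀ f ∈ RX, (∀ σ, f ∈ D.Gr σ g) →
      (∀ σ, s + 1 ≤ D.card σ → f ∈ D.Gr σ ((g : ℤ) - 1)) → f ∈ I ⊔ lev E g (s + 1)) := by
    intro g s ih f hf hg hs
    set A := (univ : Finset Q).filter (fun σ => D.card σ = s) with hA
    have hex : ∀ σ : Q, ∃ h ∈ span F (E.e '' {t | E.p t = σ ∧ E.k t = g}),
        D.card σ = s → f - h ∈ D.Gr σ ((g : ℤ) - 1) := by
      intro σ
      by_cases hσ : D.card σ = s
      · obtain ⟨h, h1, h2⟩ := loc σ g f hf hg (by
          intro τ hτ
          apply hs τ
          omega)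
        exact ⟨h, h1, fun _ => h2⟩
      · exact ⟨0, zero_mem _, fun h => absurd h hσ⟩
    choose h hspan hsub using hex
    -- membership of the elements of the local span
    have hh1 : ∀ σ τ, h σ ∈ D.Gr τ g := by
      intro σ τ
      refine (span_le.2 ?_) (hspan σ)
      rintro _ ⟨t, ht, rfl⟩
      have := E.mem t τ
      rw [ht.2] at this
      exact this
    have hh2 : ∀ σ τ, τ ≠ σ → D.card σ ≤ D.card τ → h σ ∈ D.Gr τ ((g : ℤ) - 1) := by
      intro σ τ hne hc
      refine (span_le.2 ?_) (hspan σ)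
      rintro _ ⟨t, ht, rfl⟩
      have := E.memlt t τ (by rw [ht.1]; exact hne) (by rw [ht.1]; exact hc)
      rw [ht.2] at this
      exact this
    have hh3 : ∀ σ, h σ ∈ RX := by
      intro σ
      refine (span_le.2 ?_) (hspan σ)
      rintro _ ⟨t, _, rfl⟩
      exact he t
    have hh4 : ∀ σ ∈ A, h σ ∈ lev E g (s + 1) := by
      intro σ hσ
      have hσ' : D.card σ = s := by simpa [hA] using hσ
      refine (span_mono ?_) (hspan σ)
      apply Set.image_mono
      intro t ht
      right
      refine ⟨ht.2, ?_⟩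
      rw [ht.1]
      omega
    have key : f - ∑ σ ∈ A, h σ ∈ I ⊔ lev E g s := by
      apply ih
      · exact sub_mem hf (Submodule.sum_mem _ fun σ _ => hh3 σ)
      · intro τ
        exact sub_mem (hg τ) (Submodule.sum_mem _ fun σ _ => hh1 σ τ)
      · intro τ hτ
        by_cases hτs : D.card τ = s
        · have hτA : τ ∈ A := by simp [hA, hτs]
          rw [← Finset.add_sum_erase A h hτA, ← sub_sub]
          apply sub_mem (hsub τ hτs)
          apply Submodule.sum_mem
          intro σ hσ
          have hσ1 := Finset.ne_of_mem_erase hσ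
          have hσ2 : D.card σ = s := by simpa [hA] using Finset.mem_of_mem_erase hσ
          exact hh2 σ τ hσ1.symm (by omega)
        · apply sub_mem (hs τ (by omega))
          apply Submodule.sum_mem
          intro σ hσ
          have hσ2 : D.card σ = s := by simpa [hA] using hσ
          exact hh2 σ τ (by rintro rfl; exact hτs hσ2) (by omega)
    have h5 : f = (f - ∑ σ ∈ A, h σ) + ∑ σ ∈ A, h σ := by abel
    rw [h5]
    apply add_mem
    · refine (sup_le_sup_left (lev_mono E (Or.inr ⟨rfl, ?_⟩)) I) key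
      omega
    · exact (le_sup_right : lev E g (s + 1) ≤ I ⊔ lev E g (s + 1))
        (Submodule.sum_mem _ fun σ hσ => hh4 σ hσ)
  intro g
  induction g with
  | zero =>
    intro s
    induction s with
    | zero =>
      intro f hf _ hs
      refine (le_sup_left : I ≤ _) (zero f hf fun σ => ?_)
      have := hs σ (Nat.zero_le _)
      simpa using this
    | succ s ih => exact step 0 s ih
  | succ g ihg =>
    intro s
    induction s with
    | zero =>
      intro f hf _ hs
      have h1 := ihg ((univ.sup D.card) + 1) f hf (by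
        intro σ
        have := hs σ (Nat.zero_le _)
        have e1 : (((g + 1 : ℕ) : ℤ) - 1) = (g : ℤ) := by push_cast; ring
        rwa [e1] at this) (by
        intro σ hσ
        have : D.card σ ≤ univ.sup D.card := Finset.le_sup (Finset.mem_univ σ)
        omega)
      exact (sup_le_sup_left (lev_mono E (Or.inl (Nat.lt_succ_self g))) I) h1
    | succ s ih => exact step (g + 1) s ih

/-- **spanning**. -/
theorem span_all (RX I : Submodule F M) (he : ∀ t, E.e t ∈ RX)
    (exh : ∀ f ∈ RX, ∃ g : ℕ, ∀ σ, f ∈ D.Gr σ g)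
    (zero : ∀ f ∈ RX, (∀ σ, f ∈ D.Gr σ (-1)) → f ∈ I)
    (loc : ∀ (q : Q) (g : ℕ), ∀ f ∈ RX, (∀ σ, f ∈ D.Gr σ g) →
      (∀ σ, D.card q < D.card σ → f ∈ D.Gr σ ((g : ℤ) - 1)) →
      ∃ h ∈ span F (E.e '' {t | E.p t = q ∧ E.k t = g}), f - h ∈ D.Gr q ((g : ℤ) - 1)) :
    RX ≤ I ⊔ span F (Set.range E.e) := by
  intro f hf
  obtain ⟨g, hg⟩ := exh f hf
  have h1 := span_lev E RX I he zero loc g ((univ.sup D.card) + 1) f hf hg (by
    intro σ hσ
    have : D.card σ ≤ univ.sup D.card := Finset.le_sup (Finset.mem_univ σ)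
    omega)
  refine (sup_le_sup_left ?_ I) h1
  apply span_mono
  rintro _ ⟨t, _, rfl⟩
  exact ⟨t, rfl⟩

end Crest.Agent.R059.Eng830
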