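/-
Row 59, TEAM THIN, leaf AB4 (helper613): the key estimate
(growth of `K_{f'} w` at an arbitrary labelling `f`).
-/
import Mathlib
import Crest.Agent.R059.Thin0_613

set_option autoImplicit false
set_option linter.unusedSectionVars false

namespace Crest.Agent.R059.Thin613

open MvPolynomial Finset

variable {P : Type*} [Fintype P] [DecidableEq P]
variable {F : Type*} [CommRing F]
variable {V : Type*} [AddCommGroup V] [LinearOrder V] [IsOrderedAddMonoid V]
variable {L : Type*} {L' : Type*}

/-! ### products over relations -/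

open scoped Classical in
/-- product of the factors over the pairs satisfying a relation -/
noncomputable def KR (F : Type*) [CommRing F] (arr : P → P → ℕ) (R : P → P → Prop) :
    MvPolynomial P F :=
  ∏ x ∈ (univ : Finset (P × P)).filter (fun x => R x.1 x.2), (X x.2 - X x.1) ^ arr x.1 x.2

lemma KL_eq_KR [LinearOrder L'] (arr : P → P → ℕ) (f : P → L') :
    KL F arr f = KR F arr (fun a b => f a < f b) := by
  classical
  unfold KL KR
  rw [Finset.prod_filter, ← Finset.univ_product_univ, Finset.prod_product]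
  refine Finset.prod_congr rfl fun a _ => Finset.prod_congr rfl fun b _ => ?_
  by_cases h : f a < f b <;> simp [h]

lemma KK_eq_prod (arr : P → P → ℕ) (S T : Finset P) :
    KK F arr S T = ∏ x ∈ S ×ˢ T, (X x.2 - X x.1 : MvPolynomial P F) ^ arr x.1 x.2 := by
  unfold KK
  rw [Finset.prod_product]

lemma KK_dvd_KR (arr : P → P → ℕ) {S T : Finset P} {R : P → P → Prop}
    (h : ∀ a ∈ S, ∀ b ∈ T, R a b) : KK F arr S T ∣ KR F arr R := by
  classical
  rw [KK_eq_prod]
  unfold KR
  refine Finset.prod_dvd_prod_of_subset _ _ _ ?_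
  rintro ⟨a, b⟩ hx
  rw [Finset.mem_product] at hx
  simp only [Finset.mem_filter, Finset.mem_univ, true_and]
  exact h a hx.1 b hx.2

/-- a rectangle `T' × C` divides `(T × D) * R` if all pairs are in `T × D` or in `R`. -/
lemma KK_dvd_mul (arr : P → P → ℕ) {S T S' T' : Finset P} {R : P → P → Prop}
    (h : ∀ a ∈ S', ∀ b ∈ T', (a ∈ S ∧ b ∈ T) ∨ R a b) :
    KK F arr S' T' ∣ KK F arr S T * KR F arr R := by
  classical
  rw [KK_eq_prod, KK_eq_prod]
  have hsplit := Finset.prod_filter_mul_prod_filter_not (S' ×ˢ T')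
    (fun x => x ∈ S ×ˢ T) (fun x => (X x.2 - X x.1 : MvPolynomial P F) ^ arr x.1 x.2)
  rw [← hsplit]
  refine mul_dvd_mul ?_ ?_
  · refine Finset.prod_dvd_prod_of_subset _ _ _ ?_
    intro x hx
    exact (Finset.mem_filter.1 hx).2
  · unfold KR
    refine Finset.prod_dvd_prod_of_subset _ _ _ ?_
    rintro ⟨a, b⟩ hx
    rw [Finset.mem_filter, Finset.mem_product] at hx
    simp only [Finset.mem_filter, Finset.mem_univ, true_and]
    rcases h a hx.1.1 b hx.1.2 with h1 | h1
    · exact absurd (Finset.mem_product.2 h1) hx.2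
    · exact h1

lemma KR_mul_KR (arr : P → P → ℕ) (R R₁ R₂ : P → P → Prop)
    (h : ∀ a b, R a b ↔ (R₁ a b ∨ R₂ a b)) (hd : ∀ a b, ¬ (R₁ a b ∧ R₂ a b)) :
    KR F arr R = KR F arr R₁ * KR F arr R₂ := by
  classical
  unfold KR
  rw [← Finset.prod_union]
  · refine Finset.prod_congr ?_ fun _ _ => rfl
    ext ⟨a, b⟩
    simp [h a b]
  · rw [Finset.disjoint_left]
    rintro ⟨a, b⟩ h1 h2
    simp only [Finset.mem_filter, Finset.mem_univ, true_and] at h1 h2
    exact hd a b ⟨h1, h2⟩

/-! ### AB4-zero -/

section zero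
variable [LinearOrder L']

/-- weight of `{f a = l, p (f' a)}` -/
lemma wt_filter_eq_zero {th : P → V} {f' : P → L'} (hf' : Good th f') (p : L' → Prop)
    [DecidablePred p] : wt th (univ.filter fun a => p (f' a)) = 0 := by
  classical
  unfold wt
  rw [← Finset.sum_fiberwise_of_maps_to (s := univ.filter fun a => p (f' a))
    (t := univ.image f') (g := f')
    (fun a _ => Finset.mem_image_of_mem _ (Finset.mem_univ a)) th]
  refine Finset.sum_eq_zero fun m _ => ?_
  by_cases hp : p m
  · have := hf' m
    unfold wt at this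
    rw [← this]
    refine Finset.sum_congr ?_ fun _ _ => rfl
    ext a
    simp only [Finset.mem_filter, Finset.mem_univ, true_and, mem_fib]
    constructor
    · rintro ⟨_, h⟩; exact h
    · intro h; exact ⟨h ▸ hp, h⟩
  · rw [Finset.filter_eq_empty_iff.2]
    · simp
    · intro a ha h
      simp only [Finset.mem_filter, Finset.mem_univ, true_and] at ha
      exact hp (h ▸ ha)

lemma wt_eq_sum_image (th : P → V) (f : P → L) [DecidableEq L] (S : Finset P) :
    wt th S = ∑ l ∈ univ.image f, wt th (S.filter fun a => f a = l) := by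
  classical
  unfold wt
  rw [← Finset.sum_fiberwise_of_maps_to (s := S) (t := univ.image f) (g := f)
    (fun a _ => Finset.mem_image_of_mem _ (Finset.mem_univ a)) th]

/-- AB4-zero: if `f`, `f'` are good but `(f, f')` is not, then `K_{f'} ∈ JJ f`. -/
theorem KL_mem_JJ_of_not_good (arr : P → P → ℕ) {th : P → V} {f : P → L} {f' : P → L'}
    (hf : Good th f) (hf' : Good th f') (hρ : ¬ Good th (fun a => (f a, f' a))) :
    KL F arr f' ∈ JJ F arr th f := by
  classical
  -- it suffices to find `l` and a down-closed `p` with positive weight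
  suffices h : ∃ (l : L) (p : L' → Prop), (∀ x y, x ≤ y → p y → p x) ∧
      0 < wt th (univ.filter fun a => f a = l ∧ p (f' a)) by
    obtain ⟨l, p, hp, hw⟩ := h
    rw [KL_eq_KR]
    have hsub : (univ.filter fun a => f a = l ∧ p (f' a)) ⊆ fib f l := by
      intro a ha
      simp only [Finset.mem_filter, Finset.mem_univ, true_and] at ha
      simp [ha.1]
    refine Ideal.mem_of_dvd _ ?_ (KK_mem_JJ arr f l hsub hw)
    refine KK_dvd_KR arr ?_
    intro a ha b hb
    simp only [Finset.mem_filter, Finset.mem_univ, true_and, Finset.mem_sdiff, mem_fib,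
      not_and] at ha hb
    by_contra hlt
    exact hb.2 hb.1 (hp _ _ (not_lt.1 hlt) ha.2)
  by_contra hcon
  push Not at hcon
  -- all such weights vanish
  have hzero : ∀ (l : L) (p : L' → Prop), (∀ x y, x ≤ y → p y → p x) →
      wt th (univ.filter fun a => f a = l ∧ p (f' a)) = 0 := by
    intro l p hp
    have hle : ∀ l, wt th (univ.filter fun a => f a = l ∧ p (f' a)) ≤ 0 := fun l => hcon l p hp
    have hsum : ∑ l ∈ univ.image f, wt th (univ.filter fun a => f a = l ∧ p (f' a)) = 0 := by
      rw [← wt_filter_eq_zero hf' p, wt_eq_sum_image th f]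
      refine Finset.sum_congr rfl fun l _ => ?_
      congr 1
      ext a
      simp [and_comm]
    by_cases hl : l ∈ univ.image f
    · exact (Finset.sum_eq_zero_iff_of_nonpos fun l _ => hle l).1 hsum l hl
    · rw [Finset.filter_eq_empty_iff.2]
      · simp
      · rintro a _ ⟨h1, _⟩
        exact hl (h1 ▸ Finset.mem_image_of_mem _ (Finset.mem_univ a))
  apply hρ
  rintro ⟨l, l'⟩
  have h1 : wt th (univ.filter fun a => f a = l ∧ f' a ≤ l') = 0 := by
    convert hzero l (fun x => x ≤ l') (fun x y h1 h2 => h1.trans h2)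
  have h2 : wt th (univ.filter fun a => f a = l ∧ f' a < l') = 0 := by
    convert hzero l (fun x => x < l') (fun x y h1 h2 => lt_of_le_of_lt h1 h2)
  have h3 : (univ.filter fun a => f a = l ∧ f' a ≤ l') =
      (univ.filter fun a => f a = l ∧ f' a < l') ∪ fib (fun a => (f a, f' a)) (l, l') := by
    ext a
    simp only [Finset.mem_filter, Finset.mem_univ, true_and, Finset.mem_union, mem_fib,
      Prod.mk.injEq]
    rw [le_iff_lt_or_eq]
    tauto
  rw [h3, wt_union, h2, zero_add] at h1
  · exact h1
  · rw [Finset.disjoint_left]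
    intro a ha hb
    simp only [Finset.mem_filter, Finset.mem_univ, true_and, mem_fib, Prod.mk.injEq] at ha hb
    exact absurd hb.2 ha.2.ne

/-- the in-block part of `K_{f'}` maps `JJ (f, f')` into `JJ f`. -/
theorem KRin_mul_mem (arr : P → P → ℕ) {th : P → V} {f : P → L} {f' : P → L'}
    (hρ : Good th (fun a => (f a, f' a))) {y : MvPolynomial P F}
    (hy : y ∈ JJ F arr th (fun a => (f a, f' a))) :
    KR F arr (fun a b => f a = f b ∧ f' a < f' b) * y ∈ JJ F arr th f := by
  classical
  -- the set of such `y` is an ideal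
  let I : Ideal (MvPolynomial P F) :=
    Submodule.comap (LinearMap.mulLeft (MvPolynomial P F)
      (KR F arr (fun a b => f a = f b ∧ f' a < f' b))) (JJ F arr th f)
  have hI : ∀ z, z ∈ I ↔ KR F arr (fun a b => f a = f b ∧ f' a < f' b) * z ∈ JJ F arr th f :=
    fun z => Iff.rfl
  rw [← hI]
  revert hy
  apply SetLike.le_def.1
  rw [JJ_le_iff]
  rintro ⟨l, l'⟩ T hT hw
  rw [hI]
  -- the larger set `T'`
  set T₀ : Finset P := univ.filter (fun a => f a = l ∧ f' a < l') with hT₀
  have hwt₀ : wt th T₀ = 0 := by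
    rw [wt_eq_sum_image th f']
    refine Finset.sum_eq_zero fun m _ => ?_
    by_cases hm : m < l'
    · rw [← hρ (l, m)]
      congr 1
      ext a
      simp only [hT₀, Finset.mem_filter, Finset.mem_univ, true_and, mem_fib, Prod.mk.injEq]
      constructor
      · rintro ⟨⟨h1, _⟩, h3⟩; exact ⟨h1, h3⟩
      · rintro ⟨h1, h3⟩; exact ⟨⟨h1, h3 ▸ hm⟩, h3⟩
    · rw [Finset.filter_eq_empty_iff.2]
      · simp
      · intro a ha h
        simp only [hT₀, Finset.mem_filter, Finset.mem_univ, true_and] at ha
        exact hm (h ▸ ha.2)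
  have hTl : ∀ a ∈ T, f a = l ∧ f' a = l' := by
    intro a ha
    have := hT ha
    simpa using this
  have hdisj : Disjoint T₀ T := by
    rw [Finset.disjoint_left]
    intro a ha hb
    simp only [hT₀, Finset.mem_filter, Finset.mem_univ, true_and] at ha
    exact absurd (hTl a hb).2 ha.2.ne
  have hwT' : 0 < wt th (T₀ ∪ T) := by
    rw [wt_union hdisj, hwt₀, zero_add]; exact hw
  have hT'sub : T₀ ∪ T ⊆ fib f l := by
    intro a ha
    rw [Finset.mem_union] at ha
    rcases ha with ha | ha
    · simp only [hT₀, Finset.mem_filter, Finset.mem_univ, true_and] at ha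
      simp [ha.1]
    · simp [(hTl a ha).1]
  rw [mul_comm]
  refine Ideal.mem_of_dvd _ ?_ (KK_mem_JJ arr f l hT'sub hwT')
  refine KK_dvd_mul arr ?_
  intro a ha b hb
  simp only [Finset.mem_sdiff, mem_fib, Finset.mem_union, not_or] at hb
  rw [Finset.mem_union] at ha
  have hb1 : ¬ f' b < l' := by
    intro h
    exact hb.2.1 (by simp [hT₀, hb.1, h])
  rcases ha with ha | ha
  · right
    simp only [hT₀, Finset.mem_filter, Finset.mem_univ, true_and] at ha
    exact ⟨by rw [ha.1, hb.1], lt_of_lt_of_le ha.2 (not_lt.1 hb1)⟩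
  · by_cases hbl : f' b = l'
    · left
      refine ⟨ha, ?_⟩
      simp only [Finset.mem_sdiff, mem_fib, Prod.mk.injEq]
      exact ⟨⟨hb.1, hbl⟩, hb.2.2⟩
    · right
      refine ⟨by rw [(hTl a ha).1, hb.1], ?_⟩
      rw [(hTl a ha).2]
      exact lt_of_le_of_ne (not_lt.1 hb1) (Ne.symm hbl)

end zero

end Crest.Agent.R059.Thin613
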