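/-
Row 59, TEAM THIN, leaf AB4 (helper613), second half: the degree estimate for `K_{f'} w` at `f`
and the count of arrows.
-/
import Mathlib
import Crest.Agent.R059.Deg_359
import Crest.Agent.R059.Thin0_613
import Crest.Agent.R059.Thin4_613

set_option autoImplicit false
set_option linter.unusedSectionVars false

namespace Crest.Agent.R059.Thin613

open MvPolynomial Finset Deg359

variable {P : Type*} [Fintype P] [DecidableEq P]
variable {F : Type*} [CommRing F]
variable {V : Type*} [AddCommGroup V] [LinearOrder V] [IsOrderedAddMonoid V]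
variable {L : Type*} {L' : Type*} {L'' : Type*}

/-! ### the unreduced shift -/

/-- the unreduced block shift `X a ↦ C (X a) + X (f a)`. -/
noncomputable def tsh (F : Type*) [CommRing F] (f : P → L) :
    MvPolynomial P F →+* MvPolynomial L (MvPolynomial P F) :=
  MvPolynomial.eval₂Hom ((C : MvPolynomial P F →+* _).comp C) (fun a => C (X a) + X (f a))

@[simp] lemma tsh_C (f : P → L) (r : F) : tsh F f (C r) = C (C r) := by
  simp [tsh]

@[simp] lemma tsh_X (f : P → L) (a : P) : tsh F f (X a) = C (X a) + X (f a) := by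
  simp [tsh]

@[simp] lemma sh_C (arr : P → P → ℕ) (th : P → V) (f : P → L) (r : F) :
    sh F arr th f (C r) = C (Ideal.Quotient.mk _ (C r)) := by
  simp [sh]

@[simp] lemma sh_X (arr : P → P → ℕ) (th : P → V) (f : P → L) (a : P) :
    sh F arr th f (X a) = C (Ideal.Quotient.mk _ (X a)) + X (f a) := by
  simp [sh]

lemma sh_eq (arr : P → P → ℕ) (th : P → V) (f : P → L) (x : MvPolynomial P F) :
    sh F arr th f x = MvPolynomial.map (Ideal.Quotient.mk (JJ F arr th f)) (tsh F f x) := by
  have h : sh F arr th f =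
      (MvPolynomial.map (Ideal.Quotient.mk (JJ F arr th f))).comp (tsh F f) := by
    apply MvPolynomial.ringHom_ext
    · intro r; simp
    · intro a; simp
  rw [h]; rfl

lemma coeff_sh (arr : P → P → ℕ) (th : P → V) (f : P → L) (x : MvPolynomial P F)
    (α : L →₀ ℕ) :
    coeff α (sh F arr th f x) = Ideal.Quotient.mk (JJ F arr th f) (coeff α (tsh F f x)) := by
  rw [sh_eq, MvPolynomial.coeff_map]

/-- shifting with coarser labels = renaming the shift variables -/
lemma tsh_comp (f : P → L) (g : L → L') (x : MvPolynomial P F) :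
    tsh F (g ∘ f) x = rename g (tsh F f x) := by
  have h : tsh F (g ∘ f) = ((rename g : MvPolynomial L (MvPolynomial P F) →ₐ[_] _) :
      MvPolynomial L (MvPolynomial P F) →+* MvPolynomial L' (MvPolynomial P F)).comp
        (tsh F f) := by
    apply MvPolynomial.ringHom_ext
    · intro r
      rw [RingHom.comp_apply, tsh_C, tsh_C]
      change _ = rename g (C (C r))
      rw [rename_C]
    · intro a
      rw [RingHom.comp_apply, tsh_X, tsh_X]
      change _ = rename g (C (X a) + X (f a))
      rw [map_add, rename_C, rename_X]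
      rfl
  rw [h]; rfl

/-- factors inside a block are not moved -/
lemma tsh_sub_of_eq (f : P → L) {a b : P} (h : f a = f b) :
    tsh F f (X b - X a) = C (X b - X a) := by
  rw [map_sub, tsh_X, tsh_X, h, map_sub]; ring

lemma tsh_KR_of_eq (arr : P → P → ℕ) (f : P → L) {R : P → P → Prop}
    (h : ∀ a b, R a b → f a = f b) : tsh F f (KR F arr R) = C (KR F arr R) := by
  classical
  unfold KR
  rw [map_prod, map_prod]
  refine Finset.prod_congr rfl fun x hx => ?_
  rw [Finset.mem_filter] at hx
  rw [map_pow, tsh_sub_of_eq f (h _ _ hx.2), map_pow]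

/-- number of arrows in a relation -/
noncomputable def NR (arr : P → P → ℕ) (R : P → P → Prop) : ℕ := by
  classical exact ∑ x ∈ (univ : Finset (P × P)).filter (fun x => R x.1 x.2), arr x.1 x.2

lemma TD_sh_sub (arr : P → P → ℕ) (th : P → V) (f : P → L) (a b : P) :
    TD 1 (sh F arr th f (X b - X a)) := by
  rw [map_sub, sh_X, sh_X]
  exact (((TD_C _).mono (by norm_num)).add (TD_X _)).sub
    (((TD_C _).mono (by norm_num)).add (TD_X _))

lemma TD_sh_KR (arr : P → P → ℕ) (th : P → V) (f : P → L) (R : P → P → Prop) :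
    TD (NR arr R) (sh F arr th f (KR F arr R)) := by
  classical
  unfold KR NR
  rw [map_prod]
  push_cast
  refine TD.prod _ _ _ fun x _ => ?_
  rw [map_pow]
  have := (TD_sh_sub (F := F) arr th f x.1 x.2).pow (arr x.1 x.2)
  simpa using this

/-- comparison of `ud` along a kernel element `k` that maps `JJ ρ` into `JJ (g ∘ ρ)` and is not
moved by the coarse shift. -/
lemma ud_mul_of_fixed (arr : P → P → ℕ) (th : P → V) (ρ : P → L) (g : L → L')
    {k : MvPolynomial P F} (hk : tsh F (g ∘ ρ) k = C k)
    (hJ : ∀ y ∈ JJ F arr th ρ, k * y ∈ JJ F arr th (g ∘ ρ)) {m : ℤ} {y : MvPolynomial P F}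
    (hy : ud F arr th ρ m y) : ud F arr th (g ∘ ρ) m (k * y) := by
  classical
  intro α hα
  rw [coeff_sh, map_mul, hk, coeff_C_mul, tsh_comp] at hα
  by_contra hlt
  apply hα
  rw [Ideal.Quotient.eq_zero_iff_mem]
  apply hJ
  rw [← Ideal.Quotient.eq_zero_iff_mem, ← MvPolynomial.coeff_map, MvPolynomial.map_rename]
  have h1 : TD m (MvPolynomial.rename g (MvPolynomial.map (Ideal.Quotient.mk (JJ F arr th ρ))
      (tsh F ρ y))) := by
    rw [← sh_eq]
    exact TD.rename hy g
  exact h1.coeff_eq_zero (not_le.1 hlt)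

/-- the coarse degree is bounded by the fine one -/
lemma ud_coarse_of_fine (arr : P → P → ℕ) (th : P → V) (ρ : P → L) (g : L → L')
    (x : MvPolynomial P F) (m : ℤ)
    (h : ∀ α : L' →₀ ℕ, m < α.degree → coeff α (tsh F (g ∘ ρ) x) ∈ JJ F arr th (g ∘ ρ)) :
    ud F arr th (g ∘ ρ) m x := by
  intro α hα
  rw [coeff_sh] at hα
  by_contra hlt
  exact hα (Ideal.Quotient.eq_zero_iff_mem.2 (h α (not_le.1 hlt)))

section est
variable [LinearOrder L']

/-- cross part: pairs in different `f`-blocks, increasing for `f'`. -/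
def Cross (f : P → L) (f' : P → L') (a b : P) : Prop := f a ≠ f b ∧ f' a < f' b

/-- AB4: the key estimate. -/
theorem ud_KL_mul (arr : P → P → ℕ) {th : P → V} {f : P → L} {f' : P → L'}
    (hρ : Good th (fun a => (f a, f' a))) {m : ℤ} {w : MvPolynomial P F}
    (hw : ud F arr th (fun a => (f a, f' a)) m w) :
    ud F arr th f (NR arr (Cross f f') + m) (KL F arr f' * w) := by
  classical
  have hsplit : KL F arr f' = KR F arr (fun a b => f a = f b ∧ f' a < f' b) *
      KR F arr (Cross f f') := by
    rw [KL_eq_KR]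
    refine KR_mul_KR arr _ _ _ (fun a b => ?_) (fun a b => ?_)
    · unfold Cross; tauto
    · unfold Cross; tauto
  rw [hsplit, mul_assoc]
  have h1 : ud F arr th (fun a => (f a, f' a)) (NR arr (Cross f f') + m)
      (KR F arr (Cross f f') * w) := by
    unfold ud
    rw [map_mul]
    exact (TD_sh_KR arr th _ _).mul hw
  have hcomp : f = Prod.fst ∘ (fun a => (f a, f' a)) := rfl
  have := ud_mul_of_fixed (L := L × L') (L' := L) arr th (fun a => (f a, f' a)) Prod.fst
    (k := KR F arr (fun a b => f a = f b ∧ f' a < f' b))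
    (by
      rw [← hcomp]
      exact tsh_KR_of_eq arr f (fun a b h => h.1))
    (by
      intro y hy
      rw [← hcomp]
      exact KRin_mul_mem arr hρ hy) h1
  rw [← hcomp] at this
  exact this

end est

/-! ### counting -/

open scoped Classical in
lemma N2_eq (arr : P → P → ℕ) (f : P → L) : N2 arr f = NR arr (fun a b => f a ≠ f b) := by
  classical
  unfold N2 NR
  rw [Finset.sum_filter, ← Finset.univ_product_univ, Finset.sum_product]
  refine Finset.sum_congr rfl fun a _ => Finset.sum_congr rfl fun b _ => ?_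
  by_cases h : f a = f b <;> simp [h]

lemma NR_add (arr : P → P → ℕ) (R R₁ R₂ : P → P → Prop)
    (h : ∀ a b, R a b ↔ (R₁ a b ∨ R₂ a b)) (hd : ∀ a b, ¬ (R₁ a b ∧ R₂ a b)) :
    NR arr R = NR arr R₁ + NR arr R₂ := by
  classical
  unfold NR
  rw [← Finset.sum_union]
  · refine Finset.sum_congr ?_ fun _ _ => rfl
    ext ⟨a, b⟩
    simp [h a b]
  · rw [Finset.disjoint_left]
    rintro ⟨a, b⟩ h1 h2
    simp only [Finset.mem_filter, Finset.mem_univ, true_and] at h1 h2
    exact hd a b ⟨h1, h2⟩

lemma NR_swap (arr : P → P → ℕ) (R : P → P → Prop) :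
    NR arr (fun a b => R b a) = NR (fun a b => arr b a) R := by
  classical
  unfold NR
  refine Finset.sum_bij' (fun x _ => (x.2, x.1)) (fun x _ => (x.2, x.1)) ?_ ?_ ?_ ?_ ?_
  all_goals simp

/-- symmetry of the arrow count for a relation which depends only on the label of a good
labelling and is irreflexive on labels. -/
lemma NR_symm (arr : P → P → ℕ) {th : P → V} (hs : Sym arr th) {ρ : P → L''} (hρ : Good th ρ)
    (Q : L'' → L'' → Prop) (hQ : ∀ l, ¬ Q l l) :
    NR arr (fun a b => Q (ρ a) (ρ b)) = NR (fun a b => arr b a) (fun a b => Q (ρ a) (ρ b)) := by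
  classical
  have key : ∀ (c : P → P → ℕ), NR c (fun a b => Q (ρ a) (ρ b)) =
      ∑ p ∈ (univ.image ρ ×ˢ univ.image ρ).filter (fun p => Q p.1 p.2),
        ∑ a ∈ fib ρ p.1, ∑ b ∈ fib ρ p.2, c a b := by
    intro c
    unfold NR
    rw [← Finset.sum_fiberwise_of_maps_to
      (s := (univ : Finset (P × P)).filter (fun x => Q (ρ x.1) (ρ x.2)))
      (t := (univ.image ρ ×ˢ univ.image ρ).filter (fun p => Q p.1 p.2))
      (g := fun x => (ρ x.1, ρ x.2))]
    · refine Finset.sum_congr rfl fun p hp => ?_
      rw [← Finset.sum_product']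
      refine Finset.sum_congr ?_ fun _ _ => rfl
      ext ⟨a, b⟩
      rw [Finset.mem_filter] at hp
      simp only [Finset.mem_filter, Finset.mem_univ, true_and, Finset.mem_product, mem_fib,
        Prod.ext_iff]
      constructor
      · rintro ⟨_, h1, h2⟩; exact ⟨h1, h2⟩
      · rintro ⟨h1, h2⟩
        refine ⟨?_, h1, h2⟩
        rw [h1, h2]; exact hp.2
    · rintro ⟨a, b⟩ hx
      simp only [Finset.mem_filter, Finset.mem_univ, true_and] at hx
      simp only [Finset.mem_filter, Finset.mem_product]
      exact ⟨⟨Finset.mem_image_of_mem _ (Finset.mem_univ a),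
        Finset.mem_image_of_mem _ (Finset.mem_univ b)⟩, hx⟩
  rw [key arr, key (fun a b => arr b a)]
  refine Finset.sum_congr rfl fun p hp => ?_
  rw [Finset.mem_filter] at hp
  have hne : p.1 ≠ p.2 := by
    intro h
    exact hQ p.1 (by have := hp.2; rwa [← h] at this)
  refine hs _ _ ?_ (hρ p.1) (hρ p.2)
  rw [Finset.disjoint_left]
  intro a ha hb
  rw [mem_fib] at ha hb
  exact hne (ha ▸ hb)

section count
variable [LinearOrder L']

/-- the arithmetic of the key estimate -/
theorem N2_identity (arr : P → P → ℕ) {th : P → V} (hs : Sym arr th) {f : P → L} {f' : P → L'}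
    (hρ : Good th (fun a => (f a, f' a))) :
    N2 arr (fun a => (f a, f' a)) + 2 * NR arr (Cross f f') = N2 arr f + N2 arr f' := by
  classical
  have h0 : NR arr (Cross f f') = NR arr (fun a b => f a ≠ f b ∧ f' b < f' a) := by
    have h1 := NR_symm arr hs hρ (fun p q => p.1 ≠ q.1 ∧ p.2 < q.2) (fun l h => h.1 rfl)
    have h2 := NR_swap arr (fun a b => f a ≠ f b ∧ f' a < f' b)
    rw [show Cross f f' = fun a b => f a ≠ f b ∧ f' a < f' b from rfl]
    calc _ = NR (fun a b => arr b a) (fun a b => f a ≠ f b ∧ f' a < f' b) := h1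
      _ = NR arr (fun a b => f b ≠ f a ∧ f' b < f' a) := h2.symm
      _ = _ := by simp only [ne_comm]
  have h3 : NR arr (fun a b => f a ≠ f b ∧ f' a ≠ f' b) = 2 * NR arr (Cross f f') := by
    rw [two_mul]
    nth_rw 2 [h0]
    refine NR_add arr _ _ _ (fun a b => ?_) (fun a b => ?_)
    · unfold Cross
      have := @ne_iff_lt_or_gt _ _ (f' a) (f' b)
      tauto
    · unfold Cross
      rintro ⟨⟨_, h1⟩, _, h2⟩
      exact absurd h2 (not_lt.2 h1.le)
  have h4 : N2 arr f = NR arr (fun a b => f a ≠ f b ∧ f' a = f' b) +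
      NR arr (fun a b => f a ≠ f b ∧ f' a ≠ f' b) := by
    rw [N2_eq]
    exact NR_add arr _ _ _ (fun a b => by tauto) (fun a b => by tauto)
  have h5 : N2 arr (fun a => (f a, f' a)) = N2 arr f' +
      NR arr (fun a b => f a ≠ f b ∧ f' a = f' b) := by
    rw [N2_eq, N2_eq]
    refine NR_add arr _ _ _ (fun a b => ?_) (fun a b => ?_)
    · simp only [ne_eq, Prod.mk.injEq]; tauto
    · tauto
  omega

end count

end Crest.Agent.R059.Thin613
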