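/-
Row 59, TEAM THIN, leaf AB4 (helper613), third part: invariance under relabelling, canonical
labellings, the key estimate in final form, the top part of the family elements.
-/
import Mathlib
import Crest.Agent.R059.Deg_359
import Crest.Agent.R059.Thin0_613
import Crest.Agent.R059.Thin4_613
import Crest.Agent.R059.Thin4b_613

set_option autoImplicit false
set_option linter.unusedSectionVars false

namespace Crest.Agent.R059.Thin613

open MvPolynomial Finset Deg359

variable {P : Type*} [Fintype P] [DecidableEq P]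
variable {F : Type*} [CommRing F]
variable {V : Type*} [AddCommGroup V] [LinearOrder V] [IsOrderedAddMonoid V]
variable {L : Type*} {L' : Type*} {L'' : Type*}

/-! ### `ud` in terms of the unreduced shift -/

lemma ud_iff (arr : P → P → ℕ) (th : P → V) (f : P → L) (m : ℤ) (x : MvPolynomial P F) :
    ud F arr th f m x ↔ ∀ α : L →₀ ℕ, m < ((α.degree : ℕ) : ℤ) →
      coeff α (tsh F f x) ∈ JJ F arr th f := by
  unfold ud TD
  constructor
  · intro h α hα
    by_contra hc
    have := h α (by
      rw [coeff_sh]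
      exact fun h0 => hc (Ideal.Quotient.eq_zero_iff_mem.1 h0))
    omega
  · intro h α hα
    by_contra hc
    rw [coeff_sh] at hα
    exact hα (Ideal.Quotient.eq_zero_iff_mem.2 (h α (not_le.1 hc)))

lemma ud_mono (arr : P → P → ℕ) (th : P → V) (f : P → L) {m n : ℤ} (hmn : m ≤ n)
    {x : MvPolynomial P F} (h : ud F arr th f m x) : ud F arr th f n x :=
  TD.mono h hmn

lemma ud_zero (arr : P → P → ℕ) (th : P → V) (f : P → L) (m : ℤ) :
    ud F arr th f m 0 := by
  unfold ud; rw [map_zero]; exact TD_zero m

lemma ud_add (arr : P → P → ℕ) (th : P → V) (f : P → L) {m : ℤ}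
    {x y : MvPolynomial P F} (h : ud F arr th f m x) (h' : ud F arr th f m y) :
    ud F arr th f m (x + y) := by
  unfold ud at *; rw [map_add]; exact h.add h'

lemma ud_mul (arr : P → P → ℕ) (th : P → V) (f : P → L) {m n : ℤ}
    {x y : MvPolynomial P F} (h : ud F arr th f m x) (h' : ud F arr th f n y) :
    ud F arr th f (m + n) (x * y) := by
  unfold ud at *; rw [map_mul]; exact h.mul h'

lemma ud_X (arr : P → P → ℕ) (th : P → V) (f : P → L) (a : P) :
    ud F arr th f 1 (X a) := by
  unfold ud
  rw [sh_X]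
  exact ((TD_C _).mono (by norm_num)).add (TD_X _)

lemma ud_C (arr : P → P → ℕ) (th : P → V) (f : P → L) (r : F) :
    ud F arr th f 0 (C r) := by
  unfold ud
  rw [sh_C]
  exact TD_C _

/-- the shift kills the ideal `JJ` (elements of the ideal have coefficients in the ideal) -/
lemma tsh_mem (arr : P → P → ℕ) (th : P → V) (f : P → L) {x : MvPolynomial P F}
    (hx : x ∈ JJ F arr th f) (α : L →₀ ℕ) : coeff α (tsh F f x) ∈ JJ F arr th f := by
  classical
  suffices h : JJ F arr th f ≤ Ideal.comap (tsh F f)
      (Ideal.map (C : MvPolynomial P F →+* MvPolynomial L (MvPolynomial P F))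
        (JJ F arr th f)) by
    exact (MvPolynomial.mem_map_C_iff.1 (h hx)) α
  rw [JJ_le_iff]
  intro l T hT hw
  rw [Ideal.mem_comap]
  have h1 : tsh F f (KK F arr T (fib f l \ T)) = C (KK F arr T (fib f l \ T)) := by
    unfold KK
    rw [map_prod, map_prod]
    refine Finset.prod_congr rfl fun a ha => ?_
    rw [map_prod, map_prod]
    refine Finset.prod_congr rfl fun b hb => ?_
    rw [map_pow, map_pow, tsh_sub_of_eq]
    have ha' := hT ha
    rw [Finset.mem_sdiff] at hb
    rw [mem_fib] at ha'
    rw [mem_fib] at hb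
    rw [ha', hb.1]
  rw [h1]
  exact Ideal.mem_map_of_mem _ (KK_mem_JJ arr f l hT hw)

lemma sh_eq_zero (arr : P → P → ℕ) (th : P → V) (f : P → L) {x : MvPolynomial P F}
    (hx : x ∈ JJ F arr th f) : sh F arr th f x = 0 := by
  ext α
  rw [coeff_sh, coeff_zero, Ideal.Quotient.eq_zero_iff_mem]
  exact tsh_mem arr th f hx α

lemma ud_of_mem (arr : P → P → ℕ) (th : P → V) (f : P → L) (m : ℤ) {x : MvPolynomial P F}
    (hx : x ∈ JJ F arr th f) : ud F arr th f m x := by
  unfold ud; rw [sh_eq_zero arr th f hx]; exact TD_zero m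

/-- evaluating the shift variables at zero gives back the class -/
lemma sh_eval_zero (arr : P → P → ℕ) (th : P → V) (f : P → L) (x : MvPolynomial P F) :
    MvPolynomial.eval (fun _ => 0) (sh F arr th f x) = Ideal.Quotient.mk _ x := by
  have h : (MvPolynomial.eval (fun _ => 0)).comp (sh F arr th f) =
      Ideal.Quotient.mk (JJ F arr th f) := by
    apply MvPolynomial.ringHom_ext
    · intro r; simp
    · intro a; simp
  rw [← h]; rfl

lemma mem_of_sh_eq_zero (arr : P → P → ℕ) (th : P → V) (f : P → L) {x : MvPolynomial P F}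
    (h : sh F arr th f x = 0) : x ∈ JJ F arr th f := by
  rw [← Ideal.Quotient.eq_zero_iff_mem, ← sh_eval_zero, h, map_zero]

/-- growth `-1` means membership -/
lemma ud_neg_iff (arr : P → P → ℕ) (th : P → V) (f : P → L) {m : ℤ} (hm : m < 0)
    {x : MvPolynomial P F} : ud F arr th f m x ↔ x ∈ JJ F arr th f :=
  ⟨fun h => mem_of_sh_eq_zero arr th f (eq_zero_of_TD hm h), fun h => ud_of_mem arr th f m h⟩

/-! ### relabelling -/

/-- `f` is at least as fine as `g` -/
def Fine (f : P → L) (g : P → L') : Prop := ∀ a b, f a = f b → g a = g b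

/-- two labellings define the same partition -/
def Same (f : P → L) (g : P → L') : Prop := ∀ a b, f a = f b ↔ g a = g b

lemma Same.symm {f : P → L} {g : P → L'} (h : Same f g) : Same g f := fun a b => (h a b).symm

lemma Same.fine {f : P → L} {g : P → L'} (h : Same f g) : Fine f g := fun a b => (h a b).1

lemma Same.fine' {f : P → L} {g : P → L'} (h : Same f g) : Fine g f := fun a b => (h a b).2

lemma fib_eq_of_same {f : P → L} {g : P → L'} (h : Same f g) (a : P) :
    fib f (f a) = fib g (g a) := by
  ext b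
  rw [mem_fib, mem_fib]
  exact h b a

lemma fib_eq_empty {f : P → L} {l : L} (h : ∀ a, f a ≠ l) : fib f l = ∅ := by
  ext b; simp [h b]

lemma Good.congr {th : P → V} {f : P → L} {g : P → L'} (h : Same f g) (hf : Good th f) :
    Good th g := by
  intro l
  by_cases hl : ∃ a, g a = l
  · obtain ⟨a, rfl⟩ := hl
    rw [← fib_eq_of_same h a]; exact hf _
  · push Not at hl
    rw [fib_eq_empty hl, wt_empty]

lemma JJ_le_congr (arr : P → P → ℕ) (th : P → V) {f : P → L} {g : P → L'} (h : Same f g) :
    JJ F arr th f ≤ JJ F arr th g := by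
  rw [JJ_le_iff]
  intro l T hT hw
  have hne : T.Nonempty := by
    rw [Finset.nonempty_iff_ne_empty]
    intro h0; rw [h0] at hw; simp at hw
  obtain ⟨a, ha⟩ := hne
  have hal : f a = l := by simpa using hT ha
  have : fib f l = fib g (g a) := by rw [← hal]; exact fib_eq_of_same h a
  rw [this]
  exact KK_mem_JJ arr g (g a) (by rw [← this]; exact hT) hw

lemma JJ_congr (arr : P → P → ℕ) (th : P → V) {f : P → L} {g : P → L'} (h : Same f g) :
    JJ F arr th f = JJ F arr th g :=
  le_antisymm (JJ_le_congr arr th h) (JJ_le_congr arr th h.symm)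

lemma N2_congr (arr : P → P → ℕ) {f : P → L} {g : P → L'} (h : Same f g) :
    N2 arr f = N2 arr g := by
  unfold N2
  refine Finset.sum_congr rfl fun a _ => Finset.sum_congr rfl fun b _ => ?_
  have := h a b
  by_cases h1 : f a = f b
  · rw [if_neg (by simpa using h1), if_neg (by simpa using this.1 h1)]
  · rw [if_pos h1, if_pos (fun h2 => h1 (this.2 h2))]

/-- a coarser labelling factors -/
lemma Fine.factor [Nonempty L'] {f : P → L} {g : P → L'} (h : Fine f g) :
    ∃ i : L → L', g = i ∘ f := by
  classical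
  refine ⟨fun l => if hl : ∃ a, f a = l then g hl.choose else Classical.arbitrary L', ?_⟩
  funext a
  have hl : ∃ b, f b = f a := ⟨a, rfl⟩
  simp only [Function.comp_apply, dif_pos hl]
  exact (h _ _ hl.choose_spec).symm

/-- refinement without a map -/
lemma JJ_le_of_fine (arr : P → P → ℕ) {th : P → V} {f : P → L} {g : P → L'} (h : Fine f g)
    (hf : Good th f) : JJ F arr th g ≤ JJ F arr th f := by
  rcases isEmpty_or_nonempty P with hP | hP
  · exact JJ_le_congr arr th (fun a => hP.elim a)
  · have : Nonempty L' := ⟨g (Classical.arbitrary P)⟩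
    obtain ⟨i, rfl⟩ := h.factor
    exact JJ_le_of_refine arr f i hf

lemma ud_congr_aux (arr : P → P → ℕ) (th : P → V) {f : P → L} {g : P → L'} (h : Same f g)
    {m : ℤ} {x : MvPolynomial P F} (hx : ud F arr th f m x) : ud F arr th g m x := by
  classical
  rcases isEmpty_or_nonempty P with hP | hP
  · -- `P` empty: only constants
    obtain ⟨r, rfl⟩ := MvPolynomial.C_surjective P x
    by_cases hm : 0 ≤ m
    · exact ud_mono arr th g hm (ud_C arr th g r)
    · rw [ud_neg_iff arr th _ (not_le.1 hm)] at hx ⊢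
      exact JJ_le_congr arr th h hx
  · have : Nonempty L' := ⟨g (Classical.arbitrary P)⟩
    obtain ⟨i, rfl⟩ := h.fine.factor
    rw [← one_mul x]
    refine ud_mul_of_fixed arr th f i (k := 1) (by rw [map_one, map_one]) ?_ hx
    intro y hy
    rw [one_mul]
    exact JJ_le_congr arr th h hy

lemma ud_congr (arr : P → P → ℕ) (th : P → V) {f : P → L} {g : P → L'} (h : Same f g)
    {m : ℤ} {x : MvPolynomial P F} : ud F arr th f m x ↔ ud F arr th g m x :=
  ⟨ud_congr_aux arr th h, ud_congr_aux arr th h.symm⟩

/-- every labelling is equivalent to a canonical one with labels in `P` -/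
lemma exists_same_P (f : P → L) : ∃ g : P → P, Same f g := by
  classical
  refine ⟨fun a => (⟨a, rfl⟩ : ∃ b, f b = f a).choose, fun a b => ⟨fun h => ?_, fun h => ?_⟩⟩
  · simp only [h]
  · have h1 := (⟨a, rfl⟩ : ∃ c, f c = f a).choose_spec
    have h2 := (⟨b, rfl⟩ : ∃ c, f c = f b).choose_spec
    rw [← h1, ← h2]
    simp only at h
    rw [h]

/-- every labelling is equivalent to a surjective one with labels in `Fin s` -/
lemma exists_same_Fin (f : P → L) : ∃ (s : ℕ) (g : P → Fin s), Function.Surjective g ∧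
    Same f g := by
  classical
  obtain ⟨g, hg⟩ := exists_same_P f
  let e := (univ.image g).equivFin
  refine ⟨(univ.image g).card, fun a => e ⟨g a, Finset.mem_image_of_mem _ (Finset.mem_univ a)⟩,
    ?_, ?_⟩
  · intro i
    obtain ⟨⟨y, hy⟩, hi⟩ := e.surjective i
    obtain ⟨a, _, ha⟩ := Finset.mem_image.1 hy
    refine ⟨a, ?_⟩
    rw [← hi]
    exact congrArg e (Subtype.ext ha)
  · intro a b
    rw [hg a b]
    simp only [EmbeddingLike.apply_eq_iff_eq, Subtype.mk.injEq]

/-! ### arrows: evenness -/

/-- arrows between different blocks (`= ∑_{i<j} arr(A_i, A_j)` for good labellings) -/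
noncomputable def NF (arr : P → P → ℕ) (f : P → L) : ℕ := N2 arr f / 2

lemma NF_congr (arr : P → P → ℕ) {f : P → L} {g : P → L'} (h : Same f g) :
    NF arr f = NF arr g := by
  unfold NF; rw [N2_congr arr h]

lemma N2_eq_two_mul [LinearOrder L'] (arr : P → P → ℕ) {th : P → V} (hs : Sym arr th)
    {f : P → L'} (hf : Good th f) : N2 arr f = 2 * NR arr (fun a b => f a < f b) := by
  classical
  have h0 : NR arr (fun a b => f a < f b) = NR arr (fun a b => f b < f a) := by
    have h1 := NR_symm arr hs hf (fun p q => p < q) (fun l h => lt_irrefl l h)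
    have h2 := NR_swap arr (fun a b => f a < f b)
    rw [h1]; exact h2.symm
  rw [N2_eq, two_mul]
  nth_rw 2 [h0]
  exact NR_add arr _ _ _ (fun a b => ne_iff_lt_or_gt) (fun a b h => lt_asymm h.1 h.2)

lemma NF_eq [LinearOrder L'] (arr : P → P → ℕ) {th : P → V} (hs : Sym arr th)
    {f : P → L'} (hf : Good th f) : NF arr f = NR arr (fun a b => f a < f b) := by
  unfold NF; rw [N2_eq_two_mul arr hs hf]; omega

lemma two_mul_NF (arr : P → P → ℕ) {th : P → V} (hs : Sym arr th)
    {f : P → L} (hf : Good th f) : 2 * NF arr f = N2 arr f := by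
  obtain ⟨s, g, _, hg⟩ := exists_same_Fin f
  rw [NF_congr arr hg, N2_congr arr hg, NF_eq arr hs (hf.congr hg),
    N2_eq_two_mul arr hs (hf.congr hg)]

lemma NF_const [Subsingleton L] (arr : P → P → ℕ) (f : P → L) : NF arr f = 0 := by
  have h : N2 arr f = 0 := by
    unfold N2
    refine Finset.sum_eq_zero fun a _ => Finset.sum_eq_zero fun b _ => ?_
    rw [if_neg (by simpa using Subsingleton.elim _ _)]
  unfold NF
  rw [h]

section key
variable [LinearOrder L']

/-- the arithmetic, with halves removed -/
theorem NF_identity (arr : P → P → ℕ) {th : P → V} (hs : Sym arr th) {f : P → L} {f' : P → L'}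
    (hf : Good th f) (hf' : Good th f') (hρ : Good th (fun a => (f a, f' a))) :
    NF arr (fun a => (f a, f' a)) + NR arr (Cross f f') = NF arr f + NF arr f' := by
  have h := N2_identity arr hs (f := f) (f' := f') hρ
  have h1 := two_mul_NF arr hs hρ
  have h2 := two_mul_NF arr hs hf
  have h3 := two_mul_NF arr hs hf'
  omega

/-- KEY ESTIMATE, final form: `K_{f'} w` at an arbitrary good `f` (no case distinction). -/
theorem ud_KL_mul_final (arr : P → P → ℕ) {th : P → V} (hs : Sym arr th) {f : P → L}
    {f' : P → L'} (hf : Good th f) (hf' : Good th f') {c : ℤ} {w : MvPolynomial P F}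
    (hw : Good th (fun a => (f a, f' a)) →
      ud F arr th (fun a => (f a, f' a)) ((NF arr (fun a => (f a, f' a)) : ℤ) - NF arr f' + c)
        w) :
    ud F arr th f ((NF arr f : ℤ) + c) (KL F arr f' * w) := by
  classical
  by_cases hρ : Good th (fun a => (f a, f' a))
  · have h1 := ud_KL_mul arr hρ (hw hρ)
    have h2 := NF_identity arr hs hf hf' hρ
    refine ud_mono arr th f ?_ h1
    omega
  · exact ud_of_mem arr th f _ (Ideal.mul_mem_right _ _ (KL_mem_JJ_of_not_good arr hf hf' hρ))

/-- `V_{f'}`: bounded at `f'` and all its refinements, strictly at strict refinements -/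
def InV (F : Type*) [CommRing F] (arr : P → P → ℕ) (th : P → V) (f : P → L)
    (w : MvPolynomial P F) : Prop :=
  ∀ g : P → P, Good th g → Fine g f →
    ud F arr th g ((NF arr g : ℤ) - NF arr f) w ∧
    (¬ Fine f g → ud F arr th g ((NF arr g : ℤ) - NF arr f - 1) w)

lemma InV.ud_le {arr : P → P → ℕ} {th : P → V} {f : P → L} {w : MvPolynomial P F}
    (h : InV F arr th f w) {g : P → L''} (hg : Good th g) (hgf : Fine g f) :
    ud F arr th g ((NF arr g : ℤ) - NF arr f) w := by
  obtain ⟨g', hg'⟩ := exists_same_P g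
  rw [ud_congr arr th hg', NF_congr arr hg']
  exact (h g' (hg.congr hg') (fun a b hab => hgf a b ((hg' a b).2 hab))).1

lemma InV.ud_lt {arr : P → P → ℕ} {th : P → V} {f : P → L} {w : MvPolynomial P F}
    (h : InV F arr th f w) {g : P → L''} (hg : Good th g) (hgf : Fine g f) (hfg : ¬ Fine f g) :
    ud F arr th g ((NF arr g : ℤ) - NF arr f - 1) w := by
  obtain ⟨g', hg'⟩ := exists_same_P g
  rw [ud_congr arr th hg', NF_congr arr hg']
  refine (h g' (hg.congr hg') (fun a b hab => hgf a b ((hg' a b).2 hab))).2 ?_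
  intro hf
  exact hfg fun a b hab => (hg' a b).2 (hf a b hab)

/-- the family element `K_{f'} w M` at an arbitrary good `f`, `w ∈ V_{f'}`, `M` of degree `k`. -/
theorem ud_family (arr : P → P → ℕ) {th : P → V} (hs : Sym arr th) {f : P → L}
    {f' : P → L'} (hf : Good th f) (hf' : Good th f') {k : ℤ} {w M : MvPolynomial P F}
    (hw : InV F arr th f' w)
    (hM : Good th (fun a => (f a, f' a)) → ud F arr th (fun a => (f a, f' a)) k M) :
    ud F arr th f ((NF arr f : ℤ) + k) (KL F arr f' * (w * M)) := by
  refine ud_KL_mul_final arr hs hf hf' fun hρ => ?_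
  exact ud_mul arr th _ (hw.ud_le hρ (fun a b hab => (Prod.ext_iff.1 hab).2)) (hM hρ)

/-- strictness: if `f` is not coarser than `f'` the bound is strict -/
theorem ud_family_strict (arr : P → P → ℕ) {th : P → V} (hs : Sym arr th) {f : P → L}
    {f' : P → L'} (hf : Good th f) (hf' : Good th f') (hne : ¬ Fine f' f) {k : ℤ}
    {w M : MvPolynomial P F} (hw : InV F arr th f' w)
    (hM : Good th (fun a => (f a, f' a)) → ud F arr th (fun a => (f a, f' a)) k M) :
    ud F arr th f ((NF arr f : ℤ) + k - 1) (KL F arr f' * (w * M)) := by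
  rw [show (NF arr f : ℤ) + k - 1 = NF arr f + (k - 1) by ring]
  refine ud_KL_mul_final arr hs hf hf' fun hρ => ?_
  have h1 : ¬ Fine f' (fun a => (f a, f' a)) := fun h =>
    hne fun a b hab => (Prod.ext_iff.1 (h a b hab)).1
  have := ud_mul arr th _ (hw.ud_lt hρ (fun a b hab => (Prod.ext_iff.1 hab).2) h1) (hM hρ)
  refine ud_mono arr th _ ?_ this
  omega

end key

/-! ### the constant labelling -/

lemma fib_const (c : L) : fib (fun _ : P => c) c = univ := by
  ext a; simp

lemma JJ_const (arr : P → P → ℕ) (th : P → V) (c : L) :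
    JJ F arr th (fun _ => c) = J0 F arr th univ := by
  classical
  apply le_antisymm
  · unfold JJ
    refine iSup_le fun l => ?_
    by_cases hl : l = c
    · rw [hl, fib_const]
    · rw [fib_eq_empty (fun a => Ne.symm hl)]
      unfold J0
      rw [Ideal.span_le]
      rintro q ⟨T, hT, hw, _⟩
      rw [Finset.subset_empty] at hT
      rw [hT] at hw; simp at hw
  · unfold JJ
    refine le_trans ?_ (le_iSup _ c)
    rw [fib_const]

/-- `K_{f'} JJ f' ⊆ J0 univ`. -/
theorem KL_mul_mem_J0 [LinearOrder L'] (arr : P → P → ℕ) {th : P → V} {f' : P → L'}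
    (hf' : Good th f') {y : MvPolynomial P F} (hy : y ∈ JJ F arr th f') :
    KL F arr f' * y ∈ J0 F arr th univ := by
  have hsame : Same f' (fun a => ((), f' a)) := fun a b => by simp
  have h := KRin_mul_mem (F := F) arr (f := fun _ : P => ()) (f' := f') (hf'.congr hsame)
    (y := y) (by rwa [← JJ_congr arr th hsame])
  rw [JJ_const] at h
  rw [KL_eq_KR]
  simpa using h

/-! ### top parts -/

/-- the difference product `∏_{f a < f b} (X (f b) - X (f a))^{arr a b}` in the shift variables -/
noncomputable def DP (A : Type*) [CommRing A] [LinearOrder L'] (arr : P → P → ℕ) (f : P → L') :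
    MvPolynomial L' A :=
  ∏ x ∈ (univ : Finset (P × P)).filter (fun x => f x.1 < f x.2),
    (X (f x.2) - X (f x.1)) ^ arr x.1 x.2

lemma top_sh_sub (arr : P → P → ℕ) (th : P → V) (f : P → L) (a b : P) :
    top 1 (sh F arr th f (X b - X a)) = X (f b) - X (f a) := by
  apply top_eq_of
  · exact (Hom_X _).sub (Hom_X _)
  · rw [map_sub, sh_X, sh_X]
    rw [show (C (Ideal.Quotient.mk (JJ F arr th f) (X b)) + X (f b) -
      (C (Ideal.Quotient.mk (JJ F arr th f) (X a)) + X (f a)) - (X (f b) - X (f a)) :
        MvPolynomial L (MvPolynomial P F ⧸ JJ F arr th f)) =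
        C (Ideal.Quotient.mk (JJ F arr th f) (X b)) - C (Ideal.Quotient.mk (JJ F arr th f) (X a))
        by ring]
    exact (TD_C _).sub (TD_C _)

lemma top_sh_KL [LinearOrder L'] (arr : P → P → ℕ) (th : P → V) (f : P → L') :
    top (NR arr (fun a b => f a < f b)) (sh F arr th f (KL F arr f)) =
      DP (MvPolynomial P F ⧸ JJ F arr th f) arr f := by
  classical
  rw [KL_eq_KR]
  unfold KR NR DP
  rw [map_prod]
  push_cast
  rw [top_prod]
  · refine Finset.prod_congr rfl fun x _ => ?_
    rw [map_pow]
    have := top_pow (TD_sh_sub (F := F) arr th f x.1 x.2) (arr x.1 x.2)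
    rw [mul_one] at this
    rw [this, top_sh_sub]
  · intro x _
    rw [map_pow]
    have := (TD_sh_sub (F := F) arr th f x.1 x.2).pow (arr x.1 x.2)
    simpa using this

lemma top_sh_X (arr : P → P → ℕ) (th : P → V) (f : P → L) (a : P) :
    top 1 (sh F arr th f (X a)) = X (f a) := by
  apply top_eq_of (Hom_X _)
  rw [sh_X, add_sub_cancel_right]
  exact TD_C _

lemma top_sh_zero (arr : P → P → ℕ) (th : P → V) (f : P → L) {w : MvPolynomial P F}
    (hw : ud F arr th f 0 w) : top 0 (sh F arr th f w) = C (Ideal.Quotient.mk _ w) := by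
  classical
  have h : sh F arr th f w = C (coeff 0 (sh F arr th f w)) := by
    ext α
    rw [coeff_C]
    split_ifs with h0
    · rw [h0]
    · apply TD.coeff_eq_zero hw
      have : α.degree ≠ 0 := by
        intro h1
        rw [Finsupp.degree_eq_zero_iff] at h1
        exact h0 h1.symm
      omega
  have h2 := sh_eval_zero arr th f w
  rw [h, MvPolynomial.eval_C] at h2
  rw [h, h2]
  exact top_of_Hom (Hom_C _)

/-- top part of the family element at its own labelling; `M = ∏ X (a l)^{α l}` -/
theorem top_family [LinearOrder L'] [Fintype L'] (arr : P → P → ℕ) {th : P → V}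
    (hs : Sym arr th) {f : P → L'} (hf : Good th f) {w : MvPolynomial P F}
    (hw : ud F arr th f 0 w) (a : L' → P) (ha : ∀ l, f (a l) = l) (α : L' → ℕ) :
    top ((NF arr f : ℤ) + ∑ l, α l) (sh F arr th f (KL F arr f * (w * ∏ l, X (a l) ^ α l))) =
      DP _ arr f * (C (Ideal.Quotient.mk _ w) * ∏ l, X l ^ α l) := by
  classical
  have hM : ∀ l, TD (α l : ℤ) (sh F arr th f (X (a l)) ^ α l) := by
    intro l
    have := (show TD 1 (sh F arr th f (X (a l))) from ud_X arr th f (a l)).pow (α l)
    simpa using this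
  have hM2 : TD (∑ l, α l : ℤ) (∏ l, sh F arr th f (X (a l)) ^ α l) :=
    TD.prod _ _ _ fun l _ => hM l
  rw [map_mul, map_mul, map_prod]
  simp only [map_pow]
  rw [NF_eq arr hs hf]
  push_cast
  have hK : TD (NR arr (fun a b => f a < f b) : ℤ) (sh F arr th f (KL F arr f)) := by
    rw [KL_eq_KR]; exact TD_sh_KR arr th f _
  have hwM : TD (∑ l, (α l : ℤ)) (sh F arr th f w * ∏ l, sh F arr th f (X (a l)) ^ α l) := by
    have := TD.mul (show TD 0 (sh F arr th f w) from hw) hM2
    rwa [zero_add] at this
  rw [top_mul hK hwM, top_sh_KL]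
  congr 1
  have h0 : (∑ l, (α l : ℤ)) = 0 + ∑ l, (α l : ℤ) := by ring
  rw [h0, top_mul (show TD 0 (sh F arr th f w) from hw) hM2, top_sh_zero arr th f hw]
  congr 1
  rw [top_prod _ _ _ fun l _ => hM l]
  refine Finset.prod_congr rfl fun l _ => ?_
  have := top_pow (show TD 1 (sh F arr th f (X (a l))) from ud_X arr th f (a l)) (α l)
  rw [mul_one] at this
  rw [this, top_sh_X, ha]

end Crest.Agent.R059.Thin613
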