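import Mathlib
import Crest.Agent.R059.Deg_359
import Crest.Agent.R059.Thin0_613
import Crest.Agent.R059.Thin4_613
import Crest.Agent.R059.Thin4b_613
import Crest.Agent.R059.Thin4c_613
import Crest.Agent.R059.ThinEq_494
import Crest.Agent.R059.Eng_830
import Crest.Agent.R059.PL1_547

/-!
# Row 59, Theorem B, half 2 (helper547): definitions

places, words, the family `e_φ`, the growth data on `MvPolynomial (Vt d) ℚ`.
-/

set_option autoImplicit false
set_option linter.unusedSectionVars false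

namespace Crest.Agent.R059.PL547

open MvPolynomial Finset Thin613 Deg359

section defs

variable {I : Type} [Fintype I] [DecidableEq I] (k : I → I → ℕ) (θ : I → ℤ)

/-- arrows of a coloured set -/
def ar {P : Type*} (c : P → I) : P → P → ℕ := fun a b => k (c a) (c b)

/-- weights of a coloured set -/
def tw {P : Type*} (c : P → I) : P → ℤ := fun a => θ (c a)

/-- colour of the standard coloured set -/
def colV (c : I → ℕ) : Vt c → I := Sigma.fst

/-- bilinear extension of `k` -/
def kk (c e : I → ℕ) : ℕ := ∑ i, ∑ j, k i j * c i * e j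

/-- linear extension of `θ` -/
def thc (c : I → ℕ) : ℤ := ∑ i, θ i * c i

/-- the letters space of type `c`: alternating, growth `≤ 0` and `≤ -1` at all proper splits -/
def Wt (c : I → ℕ) : Submodule ℚ (MvPolynomial (Vt c) ℚ) where
  carrier := {w | w ∈ Anti (colV c) ∧
    InV ℚ (ar k (colV c)) (tw θ (colV c)) (fun _ => ()) w}
  add_mem' := by
    rintro a b ⟨ha, ha'⟩ ⟨hb, hb'⟩
    refine ⟨add_mem ha hb, fun g hg hf => ⟨?_, fun hc => ?_⟩⟩
    · exact ud_add _ _ _ (ha' g hg hf).1 (hb' g hg hf).1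
    · exact ud_add _ _ _ ((ha' g hg hf).2 hc) ((hb' g hg hf).2 hc)
  zero_mem' := ⟨zero_mem _, fun g _ _ => ⟨ud_zero _ _ _ _, fun _ => ud_zero _ _ _ _⟩⟩
  smul_mem' := by
    rintro r a ⟨ha, ha'⟩
    refine ⟨Submodule.smul_mem _ _ ha, fun g hg hf => ⟨?_, fun hc => ?_⟩⟩
    · have := ud_mul _ _ _ (ud_C (F := ℚ) (ar k (colV c)) (tw θ (colV c)) g r) (ha' g hg hf).1
      rwa [zero_add, ← smul_eq_C_mul] at this
    · have := ud_mul _ _ _ (ud_C (F := ℚ) (ar k (colV c)) (tw θ (colV c)) g r)
        ((ha' g hg hf).2 hc)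
      rwa [zero_add, ← smul_eq_C_mul] at this

/-- the ideal `J0 univ` of a coloured set as a rational subspace -/
noncomputable def J0s {P : Type*} [Fintype P] [DecidableEq P] (c : P → I) : Submodule ℚ (MvPolynomial P ℚ) :=
  (J0 ℚ (ar k c) (tw θ c) univ).restrictScalars ℚ

/-- the ideal of a labelling as a rational subspace -/
noncomputable def JJs {P L : Type*} [Fintype P] [DecidableEq P] (c : P → I) (f : P → L) :
    Submodule ℚ (MvPolynomial P ℚ) :=
  (JJ ℚ (ar k c) (tw θ c) f).restrictScalars ℚ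

/-- a choice of homogeneous letters for the types `cl t`, `t : T` -/
structure Letters {T : Type} (cl : T → I → ℕ) where
  L : T → Type
  lo : ∀ t, LinearOrder (L t)
  pol : ∀ t, L t → MvPolynomial (Vt (cl t)) ℚ
  deg : ∀ t, L t → ℕ
  hom : ∀ t l, (pol t l).IsHomogeneous (deg t l)
  mem : ∀ t l, pol t l ∈ Wt k θ (cl t)
  indep : ∀ t (x : L t →₀ ℚ), (x.sum fun l a => a • pol t l) ∈ J0s k θ (colV (cl t)) → x = 0
  span : ∀ t, Wt k θ (cl t) ≤ J0s k θ (colV (cl t)) ⊔ Submodule.span ℚ (Set.range (pol t))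
  fin : ∀ t n, {l | deg t l = n}.Finite

end defs

/-- a letter with an exponent -/
structure Al (L : Type) where
  l : L
  a : ℕ

theorem Al.ext' {L : Type} {x y : Al L} (h : x.l = y.l) (h' : x.a = y.a) : x = y := by
  cases x; cases y; simp_all

/-- lexicographic order on letters with exponents -/
noncomputable instance {L : Type} [LinearOrder L] : LinearOrder (Al L) :=
  LinearOrder.lift' (fun x => toLex (x.l, x.a)) (by
    intro x y h
    have := toLex.injective h
    exact Al.ext' (congrArg Prod.fst this) (congrArg Prod.snd this))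

section place

variable {I : Type} [Fintype I] [DecidableEq I] {T : Type} [Fintype T] [LinearOrder T]
  (cl : T → I → ℕ) (d : I → ℕ)

/-- linear order of the blocks: type first -/
noncomputable instance ordJ (m : T → ℕ) : LinearOrder (Jm m) :=
  LinearOrder.lift' (fun j : Jm m => (toLex j : Σₗ t, Fin (m t))) toLex.injective

/-- places: multiplicity functions of total type `d` -/
def Pl := {m : T → ℕ // ∀ i, ∑ t, m t * cl t i = d i}

/-- number of blocks of a place -/
def Pl.card {cl : T → I → ℕ} {d : I → ℕ} (m : Pl cl d) : ℕ := ∑ t, m.1 t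

theorem exists_Em (m : Pl cl d) :
    ∃ E : Sm cl m.1 ≃ Vt d, ∀ x, colV d (E x) = colS cl m.1 x := by
  apply exists_placement (colV d)
  intro i
  rw [m.2 i]
  exact card_Vt d i

/-- the standard placement of a place -/
noncomputable def Em (m : Pl cl d) : Sm cl m.1 ≃ Vt d := (exists_Em cl d m).choose

theorem Em_col (m : Pl cl d) (x : Sm cl m.1) : colV d (Em cl d m x) = colS cl m.1 x :=
  (exists_Em cl d m).choose_spec x

/-- the standard labelling of a place -/
noncomputable def lab (m : Pl cl d) : Vt d → Jm m.1 := fun a => blk cl m.1 ((Em cl d m).symm a)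

end place

section words

variable {I : Type} [Fintype I] [DecidableEq I] {k : I → I → ℕ} {θ : I → ℤ}
  {T : Type} [Fintype T] [LinearOrder T] {cl : T → I → ℕ} (𝓛 : Letters k θ cl)

/-- words of a place -/
def Wd (m : T → ℕ) := ∀ t, Fin (m t) → Al (𝓛.L t)

variable {𝓛}

/-- letter of a block -/
def Wd.at {m : T → ℕ} (φ : Wd 𝓛 m) (j : Jm m) : Al (𝓛.L j.1) := φ j.1 j.2

/-- total exponent -/
def Wd.tot {m : T → ℕ} (φ : Wd 𝓛 m) : ℕ := ∑ j : Jm m, (φ.at j).a

/-- permuted word -/
def Wd.perm {m : T → ℕ} (φ : Wd 𝓛 m) (ρ : ∀ t, Equiv.Perm (Fin (m t))) : Wd 𝓛 m :=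
  fun t => φ t ∘ ρ t

/-- product of the placed letters of a word, in the model -/
noncomputable def Wd.lp {m : T → ℕ} (φ : Wd 𝓛 m) : MvPolynomial (Sm cl m) ℚ :=
  ∏ j : Jm m, rename (Sigma.mk j) (𝓛.pol j.1 (φ.at j).l)

variable (pt : ∀ t, Vt (cl t))

/-- the model polynomial of a word: `KL * (∏ letters * ∏ X^a)` -/
noncomputable def Wd.Kh {m : T → ℕ} (φ : Wd 𝓛 m) : MvPolynomial (Sm cl m) ℚ :=
  KL ℚ (ar k (colS cl m)) (blk cl m) *
    (φ.lp * ∏ j : Jm m, X (⟨j, pt j.1⟩ : Sm cl m) ^ (φ.at j).a)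

variable {d : I → ℕ}

/-- the family element of a word -/
noncomputable def Wd.el {m : Pl cl d} (φ : Wd 𝓛 m.1) : MvPolynomial (Vt d) ℚ :=
  alt (colV d) (rename (Em cl d m) (φ.Kh pt))

/-- parity of a type -/
def par (k : I → I → ℕ) (c : I → ℕ) : ℕ := (∑ i, c i) + kk k c c

open scoped Classical in
/-- admissible words: sorted, odd letters not repeated -/
def Wd.Adm {m : T → ℕ} (φ : Wd 𝓛 m) : Prop :=
  ∀ t, @Monotone _ _ _ (@instLinearOrderAl _ (𝓛.lo t)).toPartialOrder.toPreorder (φ t) ∧
    (Odd (par k (cl t)) → Function.Injective (φ t))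

end words

end Crest.Agent.R059.PL547
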