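import Mathlib
import Crest.Agent.R059.PL2_547

/-!
# Row 59, Theorem B, half 2 (helper547): growth submodules, degrees, the group
-/

set_option autoImplicit false
set_option linter.unusedSectionVars false

namespace Crest.Agent.R059.PL547

open MvPolynomial Finset Thin613 Deg359

section gr

variable {I : Type} [Fintype I] [DecidableEq I] (k : I → I → ℕ) (θ : I → ℤ)
variable {P : Type} [Fintype P] [DecidableEq P] {L : Type}

/-- growth submodule: shift degree at `b` at most `NF b + g` -/
noncomputable def Gr (c : P → I) (b : P → L) (g : ℤ) : Submodule ℚ (MvPolynomial P ℚ) where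
  carrier := {x | ud ℚ (ar k c) (tw θ c) b ((NF (ar k c) b : ℤ) + g) x}
  add_mem' := fun ha hb => ud_add _ _ _ ha hb
  zero_mem' := ud_zero _ _ _ _
  smul_mem' := by
    intro r a ha
    have := ud_mul _ _ _ (ud_C (F := ℚ) (ar k c) (tw θ c) b r) ha
    rwa [zero_add, ← smul_eq_C_mul] at this

variable {k θ}

theorem mem_Gr {c : P → I} {b : P → L} {g : ℤ} {x : MvPolynomial P ℚ} :
    x ∈ Gr k θ c b g ↔ ud ℚ (ar k c) (tw θ c) b ((NF (ar k c) b : ℤ) + g) x := Iff.rfl

theorem Gr_mono (c : P → I) (b : P → L) : Monotone (Gr k θ c b) := by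
  intro g g' h x hx
  exact ud_mono _ _ _ (by omega) hx

theorem J0s_le_Gr (c : P → I) (b : P → L) (hb : Good (tw θ c) b) (g : ℤ) :
    J0s k θ c ≤ Gr k θ c b g := by
  intro x hx
  rw [mem_Gr]
  apply ud_of_mem
  have h1 : x ∈ J0 ℚ (ar k c) (tw θ c) univ := hx
  rw [← JJ_const (ar k c) (tw θ c) ()] at h1
  exact JJ_le_of_fine (ar k c) (f := b) (g := fun _ => ()) (fun _ _ _ => rfl) hb h1

/-- the colour preserving permutations as a group -/
def GS (c : P → I) : Subgroup (Equiv.Perm P) where
  carrier := {w | ∀ a, c (w a) = c a}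
  mul_mem' := by
    intro a b ha hb x
    rw [Equiv.Perm.mul_apply, ha, hb]
  one_mem' := fun _ => rfl
  inv_mem' := by
    intro a ha x
    have := ha (a⁻¹ x)
    rw [← Equiv.Perm.mul_apply, mul_inv_cancel, Equiv.Perm.one_apply] at this
    exact this.symm

theorem mem_GS {c : P → I} {w : Equiv.Perm P} : w ∈ GS c ↔ ∀ a, c (w a) = c a := Iff.rfl

noncomputable instance (c : P → I) : Fintype (GS c) := by
  classical exact Fintype.ofFinite _

theorem ar_perm {c : P → I} {w : Equiv.Perm P} (hw : ∀ a, c (w a) = c a) (a b : P) :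
    ar k c a b = ar k c (w a) (w b) := by simp [ar, hw]

theorem tw_perm {c : P → I} {w : Equiv.Perm P} (hw : ∀ a, c (w a) = c a) (a : P) :
    tw θ c a = tw θ c (w a) := by simp [tw, hw]

end gr

section degs

variable {I : Type} [Fintype I] [DecidableEq I] {k : I → I → ℕ} {θ : I → ℤ}
  {T : Type} [Fintype T] [LinearOrder T] {cl : T → I → ℕ} {𝓛 : Letters k θ cl}

/-- degree of the letters of a word, with the exponents -/
def Wd.dg {m : T → ℕ} (φ : Wd 𝓛 m) : ℕ := ∑ j : Jm m, (𝓛.deg j.1 (φ.at j).l + (φ.at j).a)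

/-- degree of the family element of a word -/
noncomputable def Wd.dn {m : T → ℕ} (φ : Wd 𝓛 m) : ℕ :=
  NF (ar k (colS cl m)) (blk cl m) + φ.dg

end degs

end Crest.Agent.R059.PL547
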