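import Crest.Agent.R059.PL1_547
import Crest.Agent.R059.Thin4c_613
import Crest.Agent.R059.ThinEq_494

/-!
# Row 59, Theorem B, half 2, piece (S4) of helper547 #22735 (helper494)

Every good labelling of a coloured set is, up to a colour preserving permutation, the block labelling
of a place; hence growth conditions for alternating polynomials need only be checked at places.
-/

set_option autoImplicit false
set_option linter.unusedSectionVars false

namespace Crest.Agent.R059.Places494

open MvPolynomial Finset Crest.Agent.R059.Thin613 Crest.Agent.R059.PL547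

variable {I : Type*} [Fintype I] [DecidableEq I] {T : Type*} [Fintype T] [DecidableEq T]
variable {cl : T → I → ℕ}
variable {P : Type*} [Fintype P] [DecidableEq P]
variable {L L' : Type*}

open scoped Classical in
/-- the number of elements of colour `i` in the block of `a` -/
noncomputable def cnt (c : P → I) (g : P → L) (a : P) (i : I) : ℕ :=
  (univ.filter fun b => g b = g a ∧ c b = i).card

open scoped Classical in
/-- number of blocks -/
noncomputable def nblk (g : P → L) : ℕ := (univ.image g).card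

/-- the partition of a labelling whose blocks have types in the range of `cl` is a place -/
theorem exists_place_equiv (c : P → I) (g : P → L) (hT : ∀ a : P, ∃ t : T, cl t = cnt c g a) :
    ∃ (m : T → ℕ) (e : Sm cl m ≃ P), (∀ x, c (e x) = colS cl m x) ∧
      (∀ x y, g (e x) = g (e y) ↔ x.1 = y.1) ∧ nblk g = ∑ t, m t := by
  classical
  rcases isEmpty_or_nonempty P with hP | hP
  · refine ⟨fun _ => 0, ?_, ?_, ?_, ?_⟩
    · have : IsEmpty (Sm cl (fun _ : T => 0)) := ⟨fun x => x.1.2.elim0⟩
      exact Equiv.equivOfIsEmpty _ _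
    · intro x; exact x.1.2.elim0
    · intro x; exact x.1.2.elim0
    · unfold nblk
      rw [Finset.univ_eq_empty, Finset.image_empty]
      simp
  have hTne : Nonempty T := ⟨(hT (Classical.arbitrary P)).choose⟩
  -- types of the labels
  have hτ : ∃ τ : L → T, ∀ a, cl (τ (g a)) = cnt c g a := by
    refine ⟨fun l => if hl : ∃ a, g a = l then (hT hl.choose).choose else
      Classical.arbitrary T, fun a => ?_⟩
    have hl : ∃ b, g b = g a := ⟨a, rfl⟩
    simp only [dif_pos hl]
    rw [(hT hl.choose).choose_spec]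
    funext i
    unfold cnt
    rw [hl.choose_spec]
  obtain ⟨τ, hτ⟩ := hτ
  let B : T → Finset L := fun t => (univ.image g).filter fun l => τ l = t
  let m : T → ℕ := fun t => (B t).card
  let lab : Jm m → L := fun j => ((B j.1).equivFin.symm j.2 : L)
  have hlab : ∀ j : Jm m, lab j ∈ B j.1 := fun j => ((B j.1).equivFin.symm j.2).2
  have hlabτ : ∀ j : Jm m, τ (lab j) = j.1 := fun j => (Finset.mem_filter.1 (hlab j)).2
  have hlabi : ∀ j : Jm m, lab j ∈ univ.image g := fun j => (Finset.mem_filter.1 (hlab j)).1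
  have hinj : Function.Injective lab := by
    rintro ⟨t, r⟩ ⟨t', r'⟩ h
    have h1 : t = t' := by
      have e1 := hlabτ ⟨t, r⟩
      have e2 := hlabτ ⟨t', r'⟩
      rw [h] at e1
      exact e1.symm.trans e2
    subst h1
    have h2 : (B t).equivFin.symm r = (B t).equivFin.symm r' := Subtype.ext h
    have h3 := (B t).equivFin.symm.injective h2
    rw [h3]
  have hsurj : ∀ a : P, ∃ j : Jm m, lab j = g a := by
    intro a
    have h1 : g a ∈ B (τ (g a)) :=
      Finset.mem_filter.2 ⟨Finset.mem_image_of_mem _ (Finset.mem_univ a), rfl⟩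
    refine ⟨⟨τ (g a), (B (τ (g a))).equivFin ⟨g a, h1⟩⟩, ?_⟩
    change (((B (τ (g a))).equivFin.symm ((B (τ (g a))).equivFin ⟨g a, h1⟩)) : L) = g a
    rw [Equiv.symm_apply_apply]
  -- bijections of the blocks
  have hψ : ∀ j : Jm m, ∃ ψ : Vt (cl j.1) ≃ {a : P // g a = lab j}, ∀ v, c (ψ v).1 = v.1 := by
    intro j
    obtain ⟨a, _, ha⟩ := Finset.mem_image.1 (hlabi j)
    have h := exists_colour_equiv (P := Vt (cl j.1)) (Q := {a : P // g a = lab j})
      (fun v => v.1) (fun b => c b.1) ?_
    · exact h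
    · intro i
      rw [card_Vt]
      have h1 : cl j.1 = cnt c g a := by rw [← hτ a, ha, hlabτ]
      rw [h1]
      unfold cnt
      rw [ha, ← Fintype.card_subtype, ← Fintype.card_subtype]
      refine Fintype.card_congr ?_
      exact
        { toFun := fun x => ⟨⟨x.1, x.2.1⟩, x.2.2⟩
          invFun := fun x => ⟨x.1.1, x.1.2, x.2⟩
          left_inv := fun x => rfl
          right_inv := fun x => rfl }
  choose ψ hψ using hψ
  let e0 : Sm cl m → P := fun x => (ψ x.1 x.2).1
  have he0 : ∀ x, g (e0 x) = lab x.1 := fun x => (ψ x.1 x.2).2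
  have hbij : Function.Bijective e0 := by
    constructor
    · rintro ⟨j, v⟩ ⟨j', v'⟩ h
      have h1 : j = j' := by
        apply hinj
        rw [← he0 ⟨j, v⟩, ← he0 ⟨j', v'⟩, h]
      subst h1
      have h2 : ψ j v = ψ j v' := Subtype.ext h
      rw [(ψ j).injective h2]
    · intro a
      obtain ⟨j, hj⟩ := hsurj a
      refine ⟨⟨j, (ψ j).symm ⟨a, hj.symm⟩⟩, ?_⟩
      change (ψ j ((ψ j).symm ⟨a, hj.symm⟩)).1 = a
      rw [Equiv.apply_symm_apply]
  refine ⟨m, Equiv.ofBijective e0 hbij, fun x => ?_, fun x y => ?_, ?_⟩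
  · rw [Equiv.ofBijective_apply]
    exact hψ x.1 x.2
  · rw [Equiv.ofBijective_apply, Equiv.ofBijective_apply, he0, he0]
    exact hinj.eq_iff
  · unfold nblk
    have h1 : (univ.image g) = univ.image lab := by
      ext l
      simp only [Finset.mem_image, Finset.mem_univ, true_and]
      constructor
      · rintro ⟨a, rfl⟩
        exact hsurj a
      · rintro ⟨j, rfl⟩
        obtain ⟨a, _, ha⟩ := Finset.mem_image.1 (hlabi j)
        exact ⟨a, ha⟩
    rw [h1, Finset.card_image_of_injective _ hinj, Finset.card_univ, Fintype.card_sigma]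
    simp

/-- the multiplicities of `exists_place_equiv` are a place of the given coloured set -/
theorem place_sum (c : P → I) {m : T → ℕ} (e : Sm cl m ≃ P) (he : ∀ x, c (e x) = colS cl m x)
    (i : I) : ∑ t, m t * cl t i = (univ.filter fun a => c a = i).card := by
  classical
  rw [← card_colS, ← Fintype.card_subtype, ← Fintype.card_subtype]
  refine Fintype.card_congr (e.subtypeEquiv fun x => ?_)
  rw [he]

section growth

variable (k : I → I → ℕ) (θ : I → ℤ)

/-- arrows of coloured particles -/
def arrC (c : P → I) : P → P → ℕ := fun a b => k (c a) (c b)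

/-- weights of coloured particles -/
def thC (c : P → I) : P → ℤ := fun a => θ (c a)

theorem wt_fib_eq (c : P → I) (g : P → L) (a : P) :
    wt (thC θ c) (fib g (g a)) = ∑ i, θ i * (cnt c g a i : ℤ) := by
  classical
  unfold wt thC cnt
  rw [← Finset.sum_fiberwise (fib g (g a)) c (fun b => θ (c b))]
  refine Finset.sum_congr rfl fun i _ => ?_
  rw [Finset.sum_congr rfl (g := fun _ => θ i)
    (fun b hb => by rw [(Finset.mem_filter.1 hb).2])]
  rw [Finset.sum_const, nsmul_eq_mul, mul_comm]
  congr 2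
  congr 1
  ext b
  simp

/-- **(P1)** every good labelling is a place up to a colour preserving equivalence -/
theorem exists_place (c : P → I)
    (hcl : ∀ c' : I → ℕ, c' ≠ 0 → ∑ i, θ i * (c' i : ℤ) = 0 →
      (∀ i, c' i ≤ (univ.filter fun a => c a = i).card) → ∃ t, cl t = c')
    (g : P → L) (hg : Good (thC θ c) g) :
    ∃ (m : T → ℕ) (e : Sm cl m ≃ P), (∀ i, ∑ t, m t * cl t i = (univ.filter fun a => c a = i).card)
      ∧ (∀ x, c (e x) = colS cl m x) ∧ Same g (blk cl m ∘ e.symm) ∧ nblk g = ∑ t, m t := by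
  classical
  obtain ⟨m, e, h1, h2, h3⟩ := exists_place_equiv (cl := cl) c g (fun a => by
    apply hcl
    · intro h0
      have h4 : cnt c g a (c a) = 0 := by rw [h0]; rfl
      unfold cnt at h4
      rw [Finset.card_eq_zero] at h4
      have h5 : a ∈ univ.filter fun b => g b = g a ∧ c b = c a := by simp
      rw [h4] at h5
      simp at h5
    · rw [← wt_fib_eq]
      exact hg _
    · intro i
      unfold cnt
      refine Finset.card_le_card fun b hb => ?_
      rw [Finset.mem_filter] at hb ⊢
      exact ⟨hb.1, hb.2.2⟩)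
  refine ⟨m, e, fun i => place_sum c e h1 i, h1, fun a b => ?_, h3⟩
  have := h2 (e.symm a) (e.symm b)
  rw [Equiv.apply_symm_apply, Equiv.apply_symm_apply] at this
  exact this

variable {k θ}

theorem ud_smul_iff {arr : P → P → ℕ} {th : P → ℤ} (g : P → L) (n : ℤ)
    (w : Equiv.Perm P) (x : MvPolynomial P ℚ) :
    ud ℚ arr th g n (sg w • x) ↔ ud ℚ arr th g n x := by
  have key : ∀ y : MvPolynomial P ℚ, ud ℚ arr th g n y → ud ℚ arr th g n (sg w • y) := by
    intro y hy
    have h1 := ud_mul arr th g (ud_C arr th g (sg w)) hy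
    rw [zero_add] at h1
    rwa [smul_eq_C_mul]
  constructor
  · intro h
    have h1 := key _ h
    rwa [smul_smul, sg_mul_self, one_smul] at h1
  · exact key x

/-- **(P2)** for alternating `x` the growth at a labelling depends only on the colour preserving
orbit of its partition -/
theorem ud_iff_of_equiv {c : P → I} {x : MvPolynomial P ℚ} (hx : x ∈ Anti c) {g : P → L}
    {g' : P → L'} (w : Equiv.Perm P) (hw : ∀ a, c (w a) = c a) (hs : Same g (g' ∘ w.symm)) (n : ℤ) :
    ud ℚ (arrC k c) (thC θ c) g n x ↔ ud ℚ (arrC k c) (thC θ c) g' n x := by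
  have hm : ThinEq494.Mor (arrC k c) (thC θ c) g' (arrC k c) (thC θ c) (g' ∘ w.symm) w id :=
    ThinEq494.mor_equiv w (fun a b => by unfold arrC; rw [hw, hw])
      (fun a => by unfold thC; rw [hw]) g'
  rw [ud_congr (arrC k c) (thC θ c) hs, ← ThinEq494.ud_equiv hm n x, hx w hw, ud_smul_iff]

theorem NF_eq_of_equiv {c : P → I} {g : P → L} {g' : P → L'} (w : Equiv.Perm P)
    (hw : ∀ a, c (w a) = c a) (hs : Same g (g' ∘ w.symm)) :
    NF (arrC k c) g = NF (arrC k c) g' := by
  have hm : ThinEq494.Mor (arrC k c) (thC (fun _ => 0) c) g' (arrC k c) (thC (fun _ => 0) c) (g' ∘ w.symm) w id :=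
    ThinEq494.mor_equiv w (fun a b => by unfold arrC; rw [hw, hw])
      (fun a => by unfold thC; rw [hw]) g'
  rw [NF_congr (arrC k c) hs]
  unfold NF
  rw [ThinEq494.N2_equiv hm]

/-- **(P1')** the same with given placements `E m` -/
theorem exists_place' (c : P → I)
    (hcl : ∀ c' : I → ℕ, c' ≠ 0 → ∑ i, θ i * (c' i : ℤ) = 0 →
      (∀ i, c' i ≤ (univ.filter fun a => c a = i).card) → ∃ t, cl t = c')
    (E : ∀ m : T → ℕ, (∀ i, ∑ t, m t * cl t i = (univ.filter fun a => c a = i).card) →
      (Sm cl m ≃ P))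
    (hE : ∀ m hm x, c (E m hm x) = colS cl m x)
    (g : P → L) (hg : Good (thC θ c) g) :
    ∃ (m : T → ℕ) (hm : ∀ i, ∑ t, m t * cl t i = (univ.filter fun a => c a = i).card)
      (w : Equiv.Perm P), (∀ a, c (w a) = c a) ∧ Same g ((blk cl m ∘ (E m hm).symm) ∘ w.symm) ∧
        nblk g = ∑ t, m t := by
  obtain ⟨m, e, h1, h2, h3, h4⟩ := exists_place θ c hcl g hg
  refine ⟨m, h1, (E m h1).symm.trans e, fun a => ?_, ?_, h4⟩
  · rw [Equiv.trans_apply, h2, ← hE m h1, Equiv.apply_symm_apply]
  · have : (blk cl m ∘ (E m h1).symm) ∘ ((E m h1).symm.trans e).symm = blk cl m ∘ e.symm := by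
      funext a
      simp
    rw [this]
    exact h3

/-- **(P3)** growth at all places implies growth at all good labellings -/
theorem ud_of_places {c : P → I}
    (hcl : ∀ c' : I → ℕ, c' ≠ 0 → ∑ i, θ i * (c' i : ℤ) = 0 →
      (∀ i, c' i ≤ (univ.filter fun a => c a = i).card) → ∃ t, cl t = c')
    (E : ∀ m : T → ℕ, (∀ i, ∑ t, m t * cl t i = (univ.filter fun a => c a = i).card) →
      (Sm cl m ≃ P))
    (hE : ∀ m hm x, c (E m hm x) = colS cl m x)
    {x : MvPolynomial P ℚ} (hx : x ∈ Anti c) {g : ℤ}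
    (H : ∀ m hm, ud ℚ (arrC k c) (thC θ c) (blk cl m ∘ (E m hm).symm)
      ((NF (arrC k c) (blk cl m ∘ (E m hm).symm) : ℤ) + g) x)
    (g' : P → L) (hg' : Good (thC θ c) g') :
    ud ℚ (arrC k c) (thC θ c) g' ((NF (arrC k c) g' : ℤ) + g) x := by
  obtain ⟨m, hm, w, hw, hs, _⟩ := exists_place' (cl := cl) c hcl E hE g' hg'
  rw [ud_iff_of_equiv hx w hw hs, NF_eq_of_equiv w hw hs]
  exact H m hm

/-- **(P4)** the same for the labellings with more than `s` blocks -/
theorem ud_of_places_lt {c : P → I}
    (hcl : ∀ c' : I → ℕ, c' ≠ 0 → ∑ i, θ i * (c' i : ℤ) = 0 →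
      (∀ i, c' i ≤ (univ.filter fun a => c a = i).card) → ∃ t, cl t = c')
    (E : ∀ m : T → ℕ, (∀ i, ∑ t, m t * cl t i = (univ.filter fun a => c a = i).card) →
      (Sm cl m ≃ P))
    (hE : ∀ m hm x, c (E m hm x) = colS cl m x)
    {x : MvPolynomial P ℚ} (hx : x ∈ Anti c) {g : ℤ} {s : ℕ}
    (H : ∀ m hm, s < ∑ t, m t → ud ℚ (arrC k c) (thC θ c) (blk cl m ∘ (E m hm).symm)
      ((NF (arrC k c) (blk cl m ∘ (E m hm).symm) : ℤ) + g) x)
    (g' : P → L) (hg' : Good (thC θ c) g') (hs' : s < nblk g') :
    ud ℚ (arrC k c) (thC θ c) g' ((NF (arrC k c) g' : ℤ) + g) x := by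
  obtain ⟨m, hm, w, hw, hs, hn⟩ := exists_place' (cl := cl) c hcl E hE g' hg'
  rw [ud_iff_of_equiv hx w hw hs, NF_eq_of_equiv w hw hs]
  exact H m hm (by rw [← hn]; exact hs')

/-- a finer labelling has at least as many blocks -/
theorem nblk_le_of_fine {g : P → L} {g' : P → L'} (h : Fine g' g) : nblk g ≤ nblk g' := by
  classical
  unfold nblk
  rcases isEmpty_or_nonempty P with hP | hP
  · rw [Finset.univ_eq_empty, Finset.image_empty, Finset.card_empty]
    exact Nat.zero_le _
  · have : Nonempty L := ⟨g (Classical.arbitrary P)⟩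
    obtain ⟨i, rfl⟩ := h.factor
    rw [← Finset.image_image]
    exact Finset.card_image_le

/-- number of blocks of labellings with the same partition -/
theorem nblk_congr {g : P → L} {g' : P → L'} (h : Same g g') : nblk g = nblk g' :=
  le_antisymm (nblk_le_of_fine h.fine') (nblk_le_of_fine h.fine)

/-- number of blocks of a place -/
theorem nblk_place {m : T → ℕ} (hcl0 : ∀ t, cl t ≠ 0) (e : Sm cl m ≃ P) :
    nblk (blk cl m ∘ e.symm) = ∑ t, m t := by
  classical
  unfold nblk
  refine Eq.trans (congrArg Finset.card (a₂ := (univ : Finset (Jm m))) ?_) ?_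
  · ext j
    simp only [Finset.mem_image, Finset.mem_univ, true_and, iff_true]
    have h2 : ∃ i, cl j.1 i ≠ 0 := by
      by_contra hcon
      push Not at hcon
      exact hcl0 j.1 (funext hcon)
    obtain ⟨i, hi⟩ := h2
    refine ⟨e ⟨j, ⟨i, ⟨0, Nat.pos_of_ne_zero hi⟩⟩⟩, ?_⟩
    rw [Function.comp_apply, Equiv.symm_apply_apply]
    rfl
  · rw [Finset.card_univ, Fintype.card_sigma]
    simp

/-- blocks: a strictly finer labelling has more blocks -/
theorem nblk_lt_of_fine {g : P → L} {g' : P → L'} (h : Fine g' g) (hne : ¬ Fine g g') :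
    nblk g < nblk g' := by
  classical
  rcases isEmpty_or_nonempty P with hP | hP
  · exact absurd (fun a => hP.elim a) hne
  · have : Nonempty L := ⟨g (Classical.arbitrary P)⟩
    obtain ⟨i, rfl⟩ := h.factor
    unfold nblk
    rw [← Finset.image_image]
    refine lt_of_le_of_ne Finset.card_image_le fun heq => hne ?_
    have hinj := Finset.card_image_iff.1 heq
    intro a b hab
    exact hinj (Finset.mem_coe.2 (Finset.mem_image_of_mem _ (Finset.mem_univ a)))
      (Finset.mem_coe.2 (Finset.mem_image_of_mem _ (Finset.mem_univ b))) hab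

/-- if `f'` is finer than `f` (as partitions) and `f` has at least as many blocks, they are the same -/
theorem same_of_fine_of_nblk_le {g : P → L} {g' : P → L'} (h : Fine g' g)
    (hn : nblk g' ≤ nblk g) : Same g g' := by
  intro a b
  refine ⟨?_, h a b⟩
  by_contra hcon
  have hne : ¬ Fine g g' := fun hf => hcon (hf a b)
  exact absurd (nblk_lt_of_fine h hne) (not_lt.2 hn)

end growth

end Crest.Agent.R059.Places494
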