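import Crest.Agent.R059.PL2_547
import Crest.Agent.R059.Places_494

/-!
# Row 59, Theorem B, half 2 (helper494): places in the language of `PL2_547`

* `good_lab`, `nblk_lab`;
* `ud_of_Pl`, `ud_of_Pl_lt` : growth of alternating polynomials at all places implies growth at all
  good labellings;
* `mem_J0s_of_Pl` (growth `-1` at all places), `exists_growth_Pl`;
* `not_fine_of_ne` : a placed labelling does not refine another place with at least as many blocks.
-/

set_option autoImplicit false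
set_option linter.unusedSectionVars false

namespace Crest.Agent.R059.Places494

open MvPolynomial Finset Crest.Agent.R059.Thin613 Crest.Agent.R059.PL547

variable {I : Type} [Fintype I] [DecidableEq I] {k : I → I → ℕ} {θ : I → ℤ}
  {T : Type} [Fintype T] [LinearOrder T] {cl : T → I → ℕ} {d : I → ℕ} {L L' : Type*}

/-- all nonzero types `≤ d` of weight zero occur among the `cl t` -/
def AllTypes (θ : I → ℤ) (cl : T → I → ℕ) (d : I → ℕ) : Prop :=
  ∀ c' : I → ℕ, c' ≠ 0 → thc θ c' = 0 → (∀ i, c' i ≤ d i) → ∃ t, cl t = c'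

theorem card_colV (i : I) : (univ.filter fun a : Vt d => colV d a = i).card = d i := card_Vt d i

theorem hcl_of_AllTypes (h : AllTypes θ cl d) :
    ∀ c' : I → ℕ, c' ≠ 0 → ∑ i, θ i * (c' i : ℤ) = 0 →
      (∀ i, c' i ≤ (univ.filter fun a : Vt d => colV d a = i).card) → ∃ t, cl t = c' := by
  intro c' h0 h1 h2
  exact h c' h0 h1 fun i => by rw [← card_colV (d := d) i]; exact h2 i

/-- every good labelling is the standard labelling of a place, up to a colour preserving
permutation -/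
theorem exists_Pl (hT : AllTypes θ cl d) (g : Vt d → L) (hg : Good (tw θ (colV d)) g) :
    ∃ (m : Pl cl d) (w : Equiv.Perm (Vt d)), (∀ a, colV d (w a) = colV d a) ∧
      Same g (lab cl d m ∘ w.symm) ∧ nblk g = m.card := by
  obtain ⟨m, e, h1, h2, h3, h4⟩ := exists_place (cl := cl) θ (colV d) (hcl_of_AllTypes hT) g hg
  have hm : ∀ i, ∑ t, m t * cl t i = d i := fun i => by rw [h1 i, card_colV]
  refine ⟨⟨m, hm⟩, (Em cl d ⟨m, hm⟩).symm.trans e, fun a => ?_, ?_, h4⟩
  · rw [Equiv.trans_apply, h2, ← Em_col cl d ⟨m, hm⟩, Equiv.apply_symm_apply]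
  · have h5 : lab cl d ⟨m, hm⟩ ∘ ((Em cl d ⟨m, hm⟩).symm.trans e).symm = blk cl m ∘ e.symm := by
      funext a
      simp [lab]
    rw [h5]
    exact h3

/-- **(P3)** in the language of `PL2_547` -/
theorem ud_of_Pl (hT : AllTypes θ cl d) {x : MvPolynomial (Vt d) ℚ} (hx : x ∈ Anti (colV d))
    {g : ℤ} (H : ∀ m : Pl cl d, ud ℚ (ar k (colV d)) (tw θ (colV d)) (lab cl d m)
      ((NF (ar k (colV d)) (lab cl d m) : ℤ) + g) x)
    (g' : Vt d → L) (hg' : Good (tw θ (colV d)) g') :
    ud ℚ (ar k (colV d)) (tw θ (colV d)) g' ((NF (ar k (colV d)) g' : ℤ) + g) x := by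
  obtain ⟨m, w, hw, hs, _⟩ := exists_Pl hT g' hg'
  have h1 := ud_iff_of_equiv (k := k) (θ := θ) hx w hw hs
    ((NF (ar k (colV d)) g' : ℤ) + g)
  have h2 : NF (ar k (colV d)) g' = NF (ar k (colV d)) (lab cl d m) :=
    NF_eq_of_equiv (k := k) w hw hs
  refine h1.2 ?_
  rw [h2]
  exact H m

/-- **(P4)** in the language of `PL2_547` -/
theorem ud_of_Pl_lt (hT : AllTypes θ cl d) {x : MvPolynomial (Vt d) ℚ} (hx : x ∈ Anti (colV d))
    {g : ℤ} {s : ℕ} (H : ∀ m : Pl cl d, s < m.card →
      ud ℚ (ar k (colV d)) (tw θ (colV d)) (lab cl d m)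
        ((NF (ar k (colV d)) (lab cl d m) : ℤ) + g) x)
    (g' : Vt d → L) (hg' : Good (tw θ (colV d)) g') (hs' : s < nblk g') :
    ud ℚ (ar k (colV d)) (tw θ (colV d)) g' ((NF (ar k (colV d)) g' : ℤ) + g) x := by
  obtain ⟨m, w, hw, hs, hn⟩ := exists_Pl hT g' hg'
  have h1 := ud_iff_of_equiv (k := k) (θ := θ) hx w hw hs
    ((NF (ar k (colV d)) g' : ℤ) + g)
  have h2 : NF (ar k (colV d)) g' = NF (ar k (colV d)) (lab cl d m) :=
    NF_eq_of_equiv (k := k) w hw hs
  refine h1.2 ?_
  rw [h2]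
  exact H m (by rw [← hn]; exact hs')

/-- weight of the whole standard set -/
theorem wt_univ (θ : I → ℤ) (d : I → ℕ) : wt (tw θ (colV d)) univ = thc θ d := by
  unfold wt tw thc colV
  rw [Fintype.sum_sigma]
  refine Finset.sum_congr rfl fun i _ => ?_
  simp [mul_comm]

theorem good_const (hd : thc θ d = 0) : Good (tw θ (colV d)) (fun _ : Vt d => ()) := by
  intro l
  have : fib (fun _ : Vt d => ()) l = univ := by
    ext a; simp
  rw [this, wt_univ, hd]

/-- **zero**: growth `-1` at all places means membership in the ideal -/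
theorem mem_J0s_of_Pl (hT : AllTypes θ cl d) (hd : thc θ d = 0) {x : MvPolynomial (Vt d) ℚ}
    (hx : x ∈ Anti (colV d))
    (H : ∀ m : Pl cl d, ud ℚ (ar k (colV d)) (tw θ (colV d)) (lab cl d m)
      ((NF (ar k (colV d)) (lab cl d m) : ℤ) + (-1)) x) :
    x ∈ J0s k θ (colV d) := by
  have h := ud_of_Pl (k := k) hT hx H (fun _ => ()) (good_const hd)
  rw [NF_const] at h
  have h1 := (ud_neg_iff (ar k (colV d)) (tw θ (colV d)) (fun _ : Vt d => ()) (by norm_num)).1 h
  rw [JJ_const] at h1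
  exact h1

/-- the growth of a polynomial is bounded by its degree -/
theorem ud_totalDegree {P : Type*} [Fintype P] [DecidableEq P] (arr : P → P → ℕ) (th : P → ℤ)
    (f : P → L) (x : MvPolynomial P ℚ) : ud ℚ arr th f (x.totalDegree : ℕ) x := by
  classical
  have key : ∀ n : ℕ, ∀ y : MvPolynomial P ℚ, y.totalDegree ≤ n → ud ℚ arr th f (n : ℕ) y := by
    intro n y hy
    rw [y.as_sum]
    unfold ud
    rw [map_sum]
    refine Deg359.TD.sum _ _ fun m hm => ?_
    have hmd : ∑ a ∈ m.support, m a ≤ n := by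
      have := le_totalDegree hm
      exact le_trans this hy
    rw [monomial_eq, map_mul, Finsupp.prod, map_prod]
    have h1 : Deg359.TD 0 (sh ℚ arr th f (C (coeff m y))) := ud_C arr th f _
    have h2 : Deg359.TD (∑ a ∈ m.support, ((m a : ℕ) : ℤ) * 1)
        (∏ a ∈ m.support, sh ℚ arr th f (X a ^ m a)) := by
      refine Deg359.TD.prod _ _ _ fun a _ => ?_
      rw [map_pow]
      exact Deg359.TD.pow (ud_X arr th f a) _
    refine (h1.mul h2).mono ?_
    have h3 : (∑ a ∈ m.support, ((m a : ℕ) : ℤ) * 1) = ((∑ a ∈ m.support, m a : ℕ) : ℤ) := by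
      push_cast; simp
    rw [zero_add, h3]
    exact_mod_cast hmd
  exact key _ x le_rfl

/-- **exh** -/
theorem exists_growth_Pl (x : MvPolynomial (Vt d) ℚ) :
    ∃ g : ℕ, ∀ m : Pl cl d, ud ℚ (ar k (colV d)) (tw θ (colV d)) (lab cl d m)
      ((NF (ar k (colV d)) (lab cl d m) : ℤ) + g) x := by
  refine ⟨x.totalDegree, fun m => ?_⟩
  refine ud_mono _ _ _ ?_ (ud_totalDegree _ _ _ x)
  omega

/-- number of blocks of a place -/
theorem nblk_lab (hcl0 : ∀ t, cl t ≠ 0) (m : Pl cl d) : nblk (lab cl d m) = m.card :=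
  nblk_place hcl0 (Em cl d m)

/-- content of a block of a place -/
theorem cnt_lab (m : Pl cl d) (a : Vt d) (i : I) :
    cnt (colV d) (lab cl d m) a i = cl (lab cl d m a).1 i := by
  classical
  unfold cnt
  rw [← card_Vt (cl (lab cl d m a).1) i, ← Fintype.card_subtype, ← Fintype.card_subtype]
  set j := lab cl d m a with hj
  refine Fintype.card_congr (Equiv.symm ?_)
  refine Equiv.ofBijective
    (fun v : {x : Vt (cl j.1) // x.1 = i} => (⟨Em cl d m ⟨j, v.1⟩, ?_⟩ :
      {b : Vt d // lab cl d m b = j ∧ colV d b = i})) ⟨?_, ?_⟩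
  · refine ⟨?_, ?_⟩
    · simp [lab, blk]
    · rw [Em_col]
      exact v.2
  · rintro ⟨v, hv⟩ ⟨v', hv'⟩ h
    have h1 := (Em cl d m).injective (congrArg Subtype.val h)
    have h2 : v = v' := by simpa using h1
    exact Subtype.ext h2
  · rintro ⟨b, hb1, hb2⟩
    have h3 : ((Em cl d m).symm b).1 = j := hb1
    have h4 : Em cl d m ((Em cl d m).symm b) = b := Equiv.apply_symm_apply _ _
    obtain ⟨x, hx⟩ : ∃ x, x = (Em cl d m).symm b := ⟨_, rfl⟩
    rw [← hx] at h3 h4
    obtain ⟨j', v⟩ := x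
    change j' = j at h3
    subst h3
    refine ⟨⟨v, ?_⟩, Subtype.ext h4⟩
    rw [← hb2, ← h4, Em_col]
    rfl

/-- blocks of places are good -/
theorem good_lab (hθ : ∀ t, thc θ (cl t) = 0) (m : Pl cl d) :
    Good (tw θ (colV d)) (lab cl d m) := by
  intro l
  by_cases hl : ∃ a, lab cl d m a = l
  · obtain ⟨a, rfl⟩ := hl
    have h := wt_fib_eq θ (colV d) (lab cl d m) a
    have h1 : wt (tw θ (colV d)) (fib (lab cl d m) (lab cl d m a))
        = wt (thC θ (colV d)) (fib (lab cl d m) (lab cl d m a)) := rfl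
    rw [h1, h, ← hθ (lab cl d m a).1]
    unfold thc
    exact Finset.sum_congr rfl fun i _ => by rw [cnt_lab]
  · push Not at hl
    rw [fib_eq_empty hl, wt_empty]

theorem cnt_congr {P : Type*} [Fintype P] [DecidableEq P] {c : P → I} {g : P → L} {g' : P → L'}
    (h : Same g g') (a : P) (i : I) : cnt c g a i = cnt c g' a i := by
  classical
  unfold cnt
  congr 1
  ext b
  simp only [Finset.mem_filter, Finset.mem_univ, true_and, h b a]

theorem cnt_comp_symm {P : Type*} [Fintype P] [DecidableEq P] {c : P → I} {g : P → L}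
    (w : Equiv.Perm P) (hw : ∀ a, c (w a) = c a) (a : P) (i : I) :
    cnt c (g ∘ w.symm) a i = cnt c g (w.symm a) i := by
  classical
  unfold cnt
  rw [← Fintype.card_subtype, ← Fintype.card_subtype]
  refine Fintype.card_congr (w.symm.subtypeEquiv fun b => ?_)
  have h1 : c (w.symm b) = c b := by
    have := hw (w.symm b)
    rw [Equiv.apply_symm_apply] at this
    exact this.symm
  simp only [Function.comp_apply, h1]

/-- multiplicity of a type as a number of blocks -/
theorem mult_eq (hcl : Function.Injective cl) (hcl0 : ∀ t, cl t ≠ 0) (m : Pl cl d) (t : T) :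
    m.1 t = Nat.card {S : Finset (Vt d) // ∃ a, S = fib (lab cl d m) (lab cl d m a) ∧
      cnt (colV d) (lab cl d m) a = cl t} := by
  classical
  have hex : ∀ j : Jm m.1, ∃ a, lab cl d m a = j := by
    intro j
    have h2 : ∃ i, cl j.1 i ≠ 0 := by
      by_contra hcon
      push Not at hcon
      exact hcl0 j.1 (funext hcon)
    obtain ⟨i, hi⟩ := h2
    refine ⟨Em cl d m ⟨j, ⟨i, ⟨0, Nat.pos_of_ne_zero hi⟩⟩⟩, ?_⟩
    simp [lab, blk]
  have h1 : Nat.card (Fin (m.1 t)) = m.1 t := by simp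
  conv_lhs => rw [← h1]
  refine Nat.card_congr (Equiv.ofBijective (fun r : Fin (m.1 t) =>
    (⟨fib (lab cl d m) (⟨t, r⟩ : Jm m.1), ?_⟩ : {S : Finset (Vt d) // ∃ a,
      S = fib (lab cl d m) (lab cl d m a) ∧ cnt (colV d) (lab cl d m) a = cl t})) ⟨?_, ?_⟩)
  · obtain ⟨a, ha⟩ := hex ⟨t, r⟩
    refine ⟨a, by rw [ha], ?_⟩
    funext i
    rw [cnt_lab, ha]
  · intro r r' h
    have h2 : fib (lab cl d m) (⟨t, r⟩ : Jm m.1) = fib (lab cl d m) (⟨t, r'⟩ : Jm m.1) :=
      congrArg Subtype.val h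
    obtain ⟨a, ha⟩ := hex ⟨t, r⟩
    have h3 : a ∈ fib (lab cl d m) (⟨t, r⟩ : Jm m.1) := by rw [mem_fib]; exact ha
    rw [h2, mem_fib, ha] at h3
    simpa using h3
  · rintro ⟨S, a, rfl, ha⟩
    have h3 : cl (lab cl d m a).1 = cl t := by
      rw [← ha]
      funext i
      rw [cnt_lab]
    have h4 : (lab cl d m a).1 = t := hcl h3
    obtain ⟨j, hj⟩ : ∃ j, j = lab cl d m a := ⟨_, rfl⟩
    rw [← hj] at h4
    obtain ⟨t1, r1⟩ := j
    change t1 = t at h4
    subst h4
    exact ⟨r1, Subtype.ext (congrArg (fib (lab cl d m)) hj)⟩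

/-- a place is determined by the orbit of its partition -/
theorem Pl_eq_of_same (hcl : Function.Injective cl) (hcl0 : ∀ t, cl t ≠ 0) {m σ : Pl cl d}
    (w : Equiv.Perm (Vt d)) (hw : ∀ a, colV d (w a) = colV d a)
    (h : Same (lab cl d m ∘ w.symm) (lab cl d σ)) : m = σ := by
  classical
  apply Subtype.ext
  funext t
  rw [mult_eq hcl hcl0 m t, mult_eq hcl hcl0 σ t]
  have hc : ∀ a i, cnt (colV d) (lab cl d m) (w.symm a) i = cnt (colV d) (lab cl d σ) a i := by
    intro a i
    rw [← cnt_comp_symm w hw a i, cnt_congr h]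
  have hf : ∀ a, (fib (lab cl d m) (lab cl d m (w.symm a))).image w
      = fib (lab cl d σ) (lab cl d σ a) := by
    intro a
    ext b
    simp only [Finset.mem_image, mem_fib]
    constructor
    · rintro ⟨b', hb', rfl⟩
      have := (h (w b') a).1 (by simpa using hb')
      exact this
    · intro hb
      refine ⟨w.symm b, ?_, by simp⟩
      have := (h b a).2 hb
      simpa using this
  refine Nat.card_congr (Equiv.ofBijective
    (fun S : {S : Finset (Vt d) // ∃ a, S = fib (lab cl d m) (lab cl d m a) ∧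
      cnt (colV d) (lab cl d m) a = cl t} =>
      (⟨S.1.image w, ?_⟩ : {S : Finset (Vt d) // ∃ a, S = fib (lab cl d σ) (lab cl d σ a) ∧
        cnt (colV d) (lab cl d σ) a = cl t})) ⟨?_, ?_⟩)
  · obtain ⟨a, ha, ha'⟩ := S.2
    refine ⟨w a, ?_, ?_⟩
    · rw [ha, ← hf (w a)]
      simp
    · funext i
      rw [← hc, ← ha']
      simp
  · intro S S' hSS
    have h1 : S.1.image w = S'.1.image w := congrArg Subtype.val hSS
    exact Subtype.ext (Finset.image_injective w.injective h1)
  · rintro ⟨S, a, rfl, ha⟩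
    refine ⟨⟨fib (lab cl d m) (lab cl d m (w.symm a)), w.symm a, rfl, ?_⟩, Subtype.ext (hf a)⟩
    funext i
    rw [hc, ha]

/-- **memlt, combinatorial part** -/
theorem not_fine_of_ne (hcl : Function.Injective cl) (hcl0 : ∀ t, cl t ≠ 0) {m σ : Pl cl d}
    (hne : m ≠ σ) (hcard : m.card ≤ σ.card) (w : Equiv.Perm (Vt d))
    (hw : ∀ a, colV d (w a) = colV d a) : ¬ Fine (lab cl d m ∘ w.symm) (lab cl d σ) := by
  intro hf
  apply hne
  have hn : nblk (lab cl d m ∘ w.symm) = m.card := by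
    rw [← nblk_lab hcl0 m]
    classical
    unfold nblk
    congr 1
    ext j
    simp only [Finset.mem_image, Finset.mem_univ, true_and, Function.comp_apply]
    constructor
    · rintro ⟨a, ha⟩
      exact ⟨_, ha⟩
    · rintro ⟨a, ha⟩
      exact ⟨w a, by simpa using ha⟩
  have hs := same_of_fine_of_nblk_le hf (by rw [hn, nblk_lab hcl0]; exact hcard)
  exact Pl_eq_of_same hcl hcl0 w hw hs.symm

end Crest.Agent.R059.Places494
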