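import Crest.Agent.R059.AltA_599
import Crest.Agent.R059.ABNum_217

/-!
# Theorem A'': all the fields of `ABNum.NumData` except the letters
-/

set_option autoImplicit false

open MvPolynomial

namespace Crest.Agent.R059.ThaBind599

open Alt599
open Hilb568 (dA Vars)

variable {I : Type} [Fintype I] [DecidableEq I] (k : I → I → ℕ) (θ : I → ℤ)

theorem dA_univ (d : I →₀ ℕ) (i : I) :
    dA (Sigma.fst : Vars (⇑d) → I) Finset.univ i = d i :=
  DFunLike.congr_fun (typ_univ d) i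

/-- **HILB** -/
theorem hilb (d : I →₀ ℕ) : (PowerSeries.mk fun n => ((hH d n : ℕ) : ℤ)) *
    ∏ i, ∏ r ∈ Finset.range (d i), (1 - PowerSeries.X ^ (r + 1))
      = PowerSeries.X ^ (∑ i, (d i).choose 2) := by
  have h := Hilb568.hilb_H (Sigma.fst : Vars (⇑d) → I) Finset.univ ℤ
  simp only [dA_univ] at h
  exact h

/-- **THA** -/
theorem thA (d : I →₀ ℕ) (n : ℕ) :
    hH d n = ∑ ab ∈ Finset.HasAntidiagonal.antidiagonal d,
      if NumA217.kkN k ab.1 ab.2 ≤ n then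
        ∑ pr ∈ Finset.HasAntidiagonal.antidiagonal (n - NumA217.kkN k ab.1 ab.2),
          hgt k θ ab.1 pr.1 * hle k θ ab.2 pr.2 else 0 :=
  thmA k θ d n

theorem hH_zero (n : ℕ) : hH (0 : I →₀ ℕ) n = if n = 0 then 1 else 0 := by
  have h := hilb (0 : I →₀ ℕ)
  simp only [Finsupp.coe_zero, Pi.zero_apply, Finset.range_zero, Finset.prod_empty,
    Finset.prod_const_one, mul_one, Nat.choose_zero_succ, Finset.sum_const_zero, pow_zero] at h
  have h1 := congrArg (PowerSeries.coeff n) h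
  rw [PowerSeries.coeff_mk, PowerSeries.coeff_one] at h1
  split_ifs at h1 ⊢ with hn
  · exact_mod_cast h1
  · exact_mod_cast h1

omit [DecidableEq I] in
theorem hd_bot {V : Type*} (n : ℕ) : hd (⊥ : Submodule ℚ (MvPolynomial V ℚ)) n = 0 := by
  unfold hd
  rw [bot_inf_eq, finrank_bot]

theorem hg_zero (n : ℕ) : hgt k θ (0 : I →₀ ℕ) n = if n = 0 then 1 else 0 := by
  have h : Igt k (Sigma.fst : Vars (⇑(0 : I →₀ ℕ)) → I) θ Finset.univ = ⊥ := by
    rw [eq_bot_iff]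
    refine iSup₂_le fun A h => ?_
    exfalso
    rw [Finset.mem_filter] at h
    obtain ⟨⟨i, x⟩, _⟩ := h.2.1
    exact Fin.elim0 x
  have h1 : hgt k θ (0 : I →₀ ℕ) n = hH (0 : I →₀ ℕ) n
    - hd (Igt k (Sigma.fst : Vars (⇑(0 : I →₀ ℕ)) → I) θ Finset.univ) n := rfl
  rw [h1, h, hd_bot, Nat.sub_zero, hH_zero]

theorem hl_zero (n : ℕ) : hle k θ (0 : I →₀ ℕ) n = if n = 0 then 1 else 0 := by
  have h : Ile k (Sigma.fst : Vars (⇑(0 : I →₀ ℕ)) → I) θ Finset.univ = ⊥ := by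
    rw [eq_bot_iff]
    refine iSup₂_le fun A h => ?_
    exfalso
    rw [Finset.mem_filter] at h
    obtain ⟨⟨i, x⟩, _⟩ := h.2.1
    exact Fin.elim0 x
  have h1 : hle k θ (0 : I →₀ ℕ) n = hH (0 : I →₀ ℕ) n
    - hd (Ile k (Sigma.fst : Vars (⇑(0 : I →₀ ℕ)) → I) θ Finset.univ) n := rfl
  rw [h1, h, hd_bot, Nat.sub_zero, hH_zero]

theorem wt_univ (d : I →₀ ℕ) :
    wt θ (Sigma.fst : Vars (⇑d) → I) Finset.univ = ABOut.th θ d := by
  rw [wt_typ, typ_univ, ABOut.th_apply]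

theorem hg_supp (a : I →₀ ℕ) (ha : a ≠ 0) (h : ABOut.th θ a ≤ 0) (n : ℕ) :
    hgt k θ a n = 0 := by
  have hne : (Finset.univ : Finset (Vars (⇑a))).Nonempty := by
    obtain ⟨i, hi⟩ := Finsupp.ne_iff.1 ha
    exact ⟨⟨i, ⟨0, Nat.pos_of_ne_zero hi⟩⟩, Finset.mem_univ _⟩
  have h1 : H (Sigma.fst : Vars (⇑a) → I) Finset.univ
      ≤ Igt k (Sigma.fst : Vars (⇑a) → I) θ Finset.univ := by
    refine le_iSup₂_of_le Finset.univ ?_ ?_
    · rw [Finset.mem_filter, wt_univ]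
      exact ⟨Finset.mem_powerset.2 (Finset.Subset.refl _), hne, h⟩
    · rintro _ ⟨r, _, rfl⟩
      refine ⟨r, ?_, ?_⟩
      · rw [Finset.sdiff_self, Finset.empty_union, RA_univ]; trivial
      · rw [Finset.sdiff_self, Finset.empty_union, LinearMap.comp_apply, LinearMap.mulLeft_apply]
        simp [K]
  have h2 : Igt k (Sigma.fst : Vars (⇑a) → I) θ Finset.univ
      = H (Sigma.fst : Vars (⇑a) → I) Finset.univ := le_antisymm (Igt_le_H _ _ _ _) h1
  unfold hgt
  rw [h2, Nat.sub_self]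

theorem hl_supp (b : I →₀ ℕ) (h : 0 < ABOut.th θ b) (n : ℕ) : hle k θ b n = 0 := by
  have hne : (Finset.univ : Finset (Vars (⇑b))).Nonempty := by
    by_contra hne
    rw [Finset.not_nonempty_iff_eq_empty] at hne
    rw [← wt_univ, hne] at h
    simp [wt] at h
  have h1 : H (Sigma.fst : Vars (⇑b) → I) Finset.univ
      ≤ Ile k (Sigma.fst : Vars (⇑b) → I) θ Finset.univ := by
    refine le_iSup₂_of_le Finset.univ ?_ ?_
    · rw [Finset.mem_filter, wt_univ]
      exact ⟨Finset.mem_powerset.2 (Finset.Subset.refl _), hne, h⟩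
    · rintro _ ⟨r, _, rfl⟩
      refine ⟨r, ?_, ?_⟩
      · rw [Finset.sdiff_self, Finset.union_empty, RA_univ]; trivial
      · rw [Finset.sdiff_self, Finset.union_empty, LinearMap.comp_apply, LinearMap.mulLeft_apply]
        simp [K]
  have h2 : Ile k (Sigma.fst : Vars (⇑b) → I) θ Finset.univ
      = H (Sigma.fst : Vars (⇑b) → I) Finset.univ := le_antisymm (Ile_le_H _ _ _ _) h1
  unfold hle
  rw [h2, Nat.sub_self]

/-- **`ABNum` from Theorem B only**: the letters and the count of `hle` in weight zero. -/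
theorem abNum_of_thB
    (hB : ∀ (I : Type) [Fintype I] [DecidableEq I] (k : I → I → ℕ) (θ : I → ℤ),
      (∀ d e : I →₀ ℕ, ABOut.th θ d = 0 → ABOut.th θ e = 0 → ABOut.kk k d e = ABOut.kk k e d) →
      ∃ (Lam : Type) (cL : Lam → (I →₀ ℕ)) (pL : Lam → ℕ),
        (∀ b, cL b ≠ 0) ∧ (∀ b, ABOut.th θ (cL b) = 0) ∧
        (∀ (c : I →₀ ℕ) (p : ℕ), {b | cL b = c ∧ pL b = p}.Finite) ∧
        ∀ (inst : DecidableEq (Lam × ℕ)) (d : I →₀ ℕ), ABOut.th θ d = 0 → ∀ n, hle k θ d n =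
          (NumForm217.SMm (A := Lam × ℕ)
            (fun x => Odd ((∑ i, cL x.1 i) + NumA217.kkN k (cL x.1) (cL x.1)))
            (fun x => cL x.1)
            (fun x => NumA217.kkN k (cL x.1) (cL x.1))
            (fun x => pL x.1 + x.2)
            (NumA217.kkN k d d) d n).ncard) : ABNum := by
  intro I _ _ k θ hsym
  obtain ⟨Lam, cL, pL, h1, h2, h3, h4⟩ := hB I k θ hsym
  exact ⟨{ h := hH, hg := hgt k θ, hl := hle k θ, Lam := Lam, cL := cL, pL := pL,
           hilb := hilb, thA := thA k θ, hg_zero := hg_zero k θ, hl_zero := hl_zero k θ,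
           hg_supp := fun a ha h n => hg_supp k θ a ha h n,
           hl_supp := fun b h n => hl_supp k θ b h n,
           cL_ne := h1, cL_th := h2, fin := h3, thB := h4 }⟩

end Crest.Agent.R059.ThaBind599
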