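import Mathlib
import Crest.Agent.R059.PL3_547
import Crest.Agent.R059.Places2_494
import Crest.Agent.R059.DimCount_830
import Crest.Agent.R059.Bridge_830
import Crest.Agent.R059.ThaBind_599

/-!
# Row 59, Theorem B: the count (CNT).

From the basis of words (547's shape) to the numeric form of Theorem B used in `ThaBind599.abNum_of_thB`.
-/

set_option autoImplicit false
set_option linter.unusedSectionVars false

namespace Crest.Agent.Cnt599

open MvPolynomial Finset Crest.Agent.R059.Thin613 Crest.Agent.R059.Deg359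
  Crest.Agent.R059.PL547

/-! ### monotone functions and multisets -/

section sorted

variable {A : Type*}

/-- the multiset of values -/
def mv {n : ℕ} (f : Fin n → A) : Multiset A := (List.ofFn f : Multiset A)

theorem card_mv {n : ℕ} (f : Fin n → A) : Multiset.card (mv f) = n := by
  simp [mv]

theorem mv_inj [LinearOrder A] {n : ℕ} {f g : Fin n → A} (hf : Monotone f) (hg : Monotone g)
    (h : mv f = mv g) : f = g := by
  have h1 : List.Perm (List.ofFn f) (List.ofFn g) := Multiset.coe_eq_coe.1 h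
  have h2 : List.ofFn f = List.ofFn g :=
    h1.eq_of_pairwise' hf.sortedLE_ofFn.pairwise hg.sortedLE_ofFn.pairwise
  exact List.ofFn_injective h2

theorem exists_mv [LinearOrder A] {n : ℕ} (s : Multiset A) (hs : Multiset.card s = n) :
    ∃ f : Fin n → A, Monotone f ∧ mv f = s := by
  subst hs
  have hl : (s.sort (· ≤ ·)).length = Multiset.card s := Multiset.length_sort _
  refine ⟨fun i => (s.sort (· ≤ ·)).get (Fin.cast hl.symm i), ?_, ?_⟩
  · intro i j hij
    have h1 : (s.sort (· ≤ ·)).SortedLE := (Multiset.pairwise_sort s (· ≤ ·)).sortedLE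
    exact h1.monotone_get (by simpa using hij)
  · have h1 : List.ofFn (fun i : Fin (Multiset.card s) =>
        (s.sort (· ≤ ·)).get (Fin.cast hl.symm i)) = s.sort (· ≤ ·) := by
      apply List.ext_get
      · simp [hl]
      · intro i h1 h2
        simp
    rw [mv, h1, Multiset.sort_eq]

theorem nodup_mv {n : ℕ} {f : Fin n → A} : (mv f).Nodup ↔ Function.Injective f := by
  rw [mv, Multiset.coe_nodup, List.nodup_ofFn]

theorem sum_map_mv {M : Type*} [AddCommMonoid M] {n : ℕ} (f : Fin n → A) (g : A → M) :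
    ((mv f).map g).sum = ∑ i, g (f i) := by
  rw [mv, Multiset.map_coe, Multiset.sum_coe, List.map_ofFn, List.sum_ofFn]
  rfl

theorem exists_map {B : Type*} (g : A → B) (s : Multiset B) (h : ∀ x ∈ s, ∃ a, g a = x) :
    ∃ s' : Multiset A, s'.map g = s := by
  induction s using Multiset.induction_on with
  | empty => exact ⟨0, rfl⟩
  | cons b s ih =>
    obtain ⟨s', hs'⟩ := ih fun x hx => h x (Multiset.mem_cons_of_mem hx)
    obtain ⟨a, ha⟩ := h b (Multiset.mem_cons_self b s)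
    exact ⟨a ::ₘ s', by rw [Multiset.map_cons, ha, hs']⟩

end sorted

/-! ### arrows between the blocks -/

section nf

variable {I : Type} [Fintype I] [DecidableEq I] {k : I → I → ℕ} {θ : I → ℤ}

/-- content of a set of particles -/
def cn {P : Type*} (c : P → I) (S : Finset P) (i : I) : ℕ := (S.filter fun a => c a = i).card

theorem sum_cn {P M : Type*} [AddCommMonoid M] (c : P → I) (S : Finset P) (F : I → M) :
    ∑ a ∈ S, F (c a) = ∑ i, cn c S i • F i := by
  rw [← Finset.sum_fiberwise S c]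
  refine Finset.sum_congr rfl fun i _ => ?_
  rw [Finset.sum_congr rfl (g := fun _ => F i)]
  · rw [Finset.sum_const]; rfl
  · intro a ha
    rw [(Finset.mem_filter.1 ha).2]

theorem sum_k {P Q : Type*} (c : P → I) (c' : Q → I) (S : Finset P) (T : Finset Q) :
    ∑ a ∈ S, ∑ b ∈ T, k (c a) (c' b) = kk k (cn c S) (cn c' T) := by
  have h1 : ∀ i, ∑ b ∈ T, k i (c' b) = ∑ j, cn c' T j • k i j := fun i => sum_cn c' T (k i)
  rw [Finset.sum_congr rfl fun a _ => h1 (c a), sum_cn c S (fun i => ∑ j, cn c' T j • k i j)]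
  unfold kk
  refine Finset.sum_congr rfl fun i _ => ?_
  rw [smul_eq_mul, Finset.mul_sum]
  refine Finset.sum_congr rfl fun j _ => ?_
  rw [smul_eq_mul]
  ring

theorem wt_cn {P : Type*} (c : P → I) (S : Finset P) : wt (tw θ c) S = thc θ (cn c S) := by
  unfold wt tw thc
  rw [sum_cn c S θ]
  refine Finset.sum_congr rfl fun i _ => ?_
  rw [nsmul_eq_mul, mul_comm]

theorem sym_col (hsym : ∀ c e : I → ℕ, thc θ c = 0 → thc θ e = 0 → kk k c e = kk k e c)
    {P : Type*} [Fintype P] [DecidableEq P] (c : P → I) : R059.Thin613.Sym (ar k c) (tw θ c) := by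
  intro S T _ hS hT
  rw [wt_cn] at hS hT
  have h1 : ∑ a ∈ S, ∑ b ∈ T, ar k c b a = ∑ b ∈ T, ∑ a ∈ S, ar k c b a := Finset.sum_comm
  rw [h1]
  unfold ar
  rw [sum_k, sum_k]
  exact hsym _ _ hS hT

theorem cn_univ_Vt (c : I → ℕ) : cn (Sigma.fst : Vt c → I) univ = c := by
  funext i
  exact card_Vt c i

variable {T : Type} [Fintype T] [DecidableEq T] {cl : T → I → ℕ}

theorem cn_univ_colS (m : T → ℕ) : cn (colS cl m) univ = fun i => ∑ t, m t * cl t i := by
  funext i
  exact card_colS i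

theorem good_blk (hth : ∀ t, thc θ (cl t) = 0) (m : T → ℕ) :
    Good (tw θ (colS cl m)) (blk cl m) := by
  classical
  intro j
  have h1 : wt (tw θ (colS cl m)) (fib (blk cl m) j) =
      ∑ a : Sm cl m, if a.1 = j then θ a.2.1 else 0 := by
    unfold wt fib
    rw [Finset.sum_filter]
    refine Finset.sum_congr rfl fun a _ => ?_
    by_cases h : a.1 = j
    · rw [if_pos h, if_pos (show blk cl m a = j from h)]; rfl
    · rw [if_neg h, if_neg (show ¬ blk cl m a = j from h)]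
  rw [h1, Fintype.sum_sigma]
  simp only []
  rw [Finset.sum_eq_single j]
  · simp only [if_true]
    have h2 := wt_cn (θ := θ) (Sigma.fst : Vt (cl j.1) → I) univ
    rw [cn_univ_Vt, hth] at h2
    exact h2
  · intro j' _ hj'
    simp [hj']
  · simp

theorem two_mul_NF_add (hsym : ∀ c e : I → ℕ, thc θ c = 0 → thc θ e = 0 → kk k c e = kk k e c)
    (hth : ∀ t, thc θ (cl t) = 0) (m : T → ℕ) :
    2 * NF (ar k (colS cl m)) (blk cl m) + ∑ t, m t * kk k (cl t) (cl t) =
      kk k (fun i => ∑ t, m t * cl t i) (fun i => ∑ t, m t * cl t i) := by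
  classical
  rw [two_mul_NF (ar k (colS cl m)) (sym_col hsym (colS cl m)) (good_blk hth m)]
  have h1 : ∑ a : Sm cl m, ∑ b : Sm cl m, (if a.1 = b.1 then ar k (colS cl m) a b else 0) =
      ∑ t, m t * kk k (cl t) (cl t) := by
    rw [Fintype.sum_sigma]
    have h2 : ∀ j : Jm m, ∑ x : Vt (cl j.1), ∑ b : Sm cl m,
        (if (⟨j, x⟩ : Sm cl m).1 = b.1 then ar k (colS cl m) ⟨j, x⟩ b else 0) =
        kk k (cl j.1) (cl j.1) := by
      intro j
      have h3 : ∀ x : Vt (cl j.1), ∑ b : Sm cl m,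
        (if (⟨j, x⟩ : Sm cl m).1 = b.1 then ar k (colS cl m) ⟨j, x⟩ b else 0) =
          ∑ y : Vt (cl j.1), k x.1 y.1 := by
        intro x
        rw [Fintype.sum_sigma, Finset.sum_eq_single j]
        · simp [ar, colS]
        · intro j' _ hj'
          have : ¬ (j = j') := fun h => hj' h.symm
          simp [this]
        · simp
      rw [Finset.sum_congr rfl fun x _ => h3 x, sum_k (k := k), cn_univ_Vt]
    rw [Finset.sum_congr rfl fun j _ => h2 j, Fintype.sum_sigma]
    simp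
  rw [← h1, N2, ← Finset.sum_add_distrib]
  have h5 := sum_k (k := k) (colS cl m) (colS cl m) univ univ
  rw [cn_univ_colS] at h5
  rw [← h5]
  refine Finset.sum_congr rfl fun a _ => ?_
  · rw [← Finset.sum_add_distrib]
    refine Finset.sum_congr rfl fun b _ => ?_
    by_cases h : a.1 = b.1
    · have h' : ¬ (blk cl m a ≠ blk cl m b) := fun hn => hn h
      rw [if_neg h', if_pos h, zero_add]; rfl
    · have h' : blk cl m a ≠ blk cl m b := h
      rw [if_pos h', if_neg h, add_zero]; rfl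

end nf

/-! ### words and supermonomials -/

section bij

variable {I : Type} [Fintype I] [DecidableEq I] {k : I → I → ℕ} {θ : I → ℤ}
  {T : Type} [Fintype T] [LinearOrder T] {cl : T → I → ℕ} (𝓛 : Letters k θ cl) (d : I → ℕ)

/-- index set of the basis of words -/
abbrev XX := Σ m : Pl cl d, {φ : Wd 𝓛 m.1 // φ.Adm}

variable {𝓛 d}
variable {B : Type} (g : ∀ t, Al (𝓛.L t) → B)

/-- the multiset of a word -/
def ms (x : XX 𝓛 d) : Multiset B := ∑ t, (mv (x.2.1 t)).map (g t)

theorem sum_map_ms {M : Type*} [AddCommMonoid M] (F : B → M) (x : XX 𝓛 d) :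
    ((ms g x).map F).sum = ∑ t, ∑ r, F (g t (x.2.1 t r)) := by
  have h : ((Multiset.sumAddMonoidHom : Multiset M →+ M).comp (Multiset.mapAddMonoidHom F)) (ms g x)
      = ∑ t, ∑ r, F (g t (x.2.1 t r)) := by
    rw [ms, map_sum]
    refine Finset.sum_congr rfl fun t _ => ?_
    change ((((mv (x.2.1 t)).map (g t)).map F).sum) = _
    rw [Multiset.map_map, sum_map_mv]
    rfl
  exact h

variable (cB : B → I → ℕ) (w : B → ℕ)

theorem ms_inj (hg : ∀ t a, cB (g t a) = cl t) (hginj : ∀ t, Function.Injective (g t))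
    (hinj : Function.Injective cl) : Function.Injective (ms (d := d) g) := by
  classical
  have key : ∀ (x : XX 𝓛 d) (t : T) (b : B), Multiset.count b ((mv (x.2.1 t)).map (g t)) =
      if cB b = cl t then Multiset.count b (ms g x) else 0 := by
    intro x t b
    have h0 : ∀ t', cB b ≠ cl t' → Multiset.count b ((mv (x.2.1 t')).map (g t')) = 0 := by
      intro t' h
      rw [Multiset.count_eq_zero, Multiset.mem_map]
      rintro ⟨a, _, ha⟩
      exact h (by rw [← ha, hg])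
    split_ifs with h
    · rw [ms, Multiset.count_sum', Finset.sum_eq_single t]
      · intro t' _ ht'
        exact h0 t' fun h' => ht' (hinj (h'.symm.trans h))
      · intro ht
        exact absurd (Finset.mem_univ t) ht
    · exact h0 t h
  rintro ⟨⟨m, hm⟩, ⟨φ, hφ⟩⟩ ⟨⟨m', hm'⟩, ⟨ψ, hψ⟩⟩ h
  have h1 : ∀ t, mv (φ t) = mv (ψ t) := by
    intro t
    apply Multiset.map_injective (hginj t)
    ext b
    have e1 := key ⟨⟨m, hm⟩, ⟨φ, hφ⟩⟩ t b
    have e2 := key ⟨⟨m', hm'⟩, ⟨ψ, hψ⟩⟩ t b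
    rw [h] at e1
    exact e1.trans e2.symm
  have h2 : m = m' := by
    funext t
    exact (card_mv (φ t)).symm.trans ((congrArg _ (h1 t)).trans (card_mv (ψ t)))
  subst h2
  have h3 : φ = ψ := by
    funext t
    let _ := 𝓛.lo t
    exact mv_inj (hφ t).1 (hψ t).1 (h1 t)
  subst h3
  rfl

theorem exists_ms (hg : ∀ t a, cB (g t a) = cl t)
    (hrg : ∀ t b, cB b = cl t → ∃ a, g t a = b)
    (hinj : Function.Injective cl) (s : Multiset B) (hs : ∀ b ∈ s, ∃ t, cB b = cl t)
    [DecidableEq B] (hodd : ∀ b ∈ s, Odd (par k (cB b)) → s.count b ≤ 1)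
    (hd : (s.map cB).sum = d) : ∃ x : XX 𝓛 d, ms g x = s := by
  classical
  have h1 : ∀ t, ∃ s' : Multiset (Al (𝓛.L t)), s'.map (g t) = s.filter fun b => cB b = cl t := by
    intro t
    apply exists_map
    intro b hb
    exact hrg t b (Multiset.mem_filter.1 hb).2
  choose S hS using h1
  have h2 : ∀ t, ∃ f : Fin (Multiset.card (S t)) → Al (𝓛.L t),
      @Monotone _ _ _ (@instLinearOrderAl _ (𝓛.lo t)).toPartialOrder.toPreorder f ∧
        mv f = S t := by
    intro t
    let _ := 𝓛.lo t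
    exact exists_mv (S t) rfl
  choose f hf1 hf2 using h2
  have h3 : ∑ t, (mv (f t)).map (g t) = s := by
    ext b
    rw [Multiset.count_sum']
    have h4 : ∀ t, Multiset.count b ((mv (f t)).map (g t)) =
        if cB b = cl t then Multiset.count b s else 0 := by
      intro t
      rw [hf2, hS, Multiset.count_filter]
    rw [Finset.sum_congr rfl fun t _ => h4 t]
    by_cases hb : b ∈ s
    · obtain ⟨t, ht⟩ := hs b hb
      rw [Finset.sum_eq_single t]
      · rw [if_pos ht]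
      · intro t' _ ht'
        rw [if_neg]
        intro h'
        exact ht' (hinj (h'.symm.trans ht))
      · intro ht
        exact absurd (Finset.mem_univ t) ht
    · rw [Multiset.count_eq_zero_of_notMem hb]
      simp
  have h5 : ∀ i, ∑ t, Multiset.card (S t) * cl t i = d i := by
    intro i
    have h6 : (((∑ t, (mv (f t)).map (g t)).map cB).sum) = ∑ t, Multiset.card (S t) • cl t := by
      have h : ((Multiset.sumAddMonoidHom : Multiset (I → ℕ) →+ (I → ℕ)).comp
          (Multiset.mapAddMonoidHom cB)) (∑ t, (mv (f t)).map (g t))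
          = ∑ t, Multiset.card (S t) • cl t := by
        rw [map_sum]
        refine Finset.sum_congr rfl fun t _ => ?_
        change ((((mv (f t)).map (g t)).map cB).sum) = _
        rw [Multiset.map_map, sum_map_mv]
        simp only [Function.comp_apply, hg, Finset.sum_const, Finset.card_univ, Fintype.card_fin]
      exact h
    rw [h3, hd] at h6
    rw [h6]
    simp
  refine ⟨⟨⟨fun t => Multiset.card (S t), h5⟩, ⟨f, fun t => ⟨hf1 t, fun ho => ?_⟩⟩⟩, h3⟩
  rw [← nodup_mv, hf2]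
  apply Multiset.Nodup.of_map (g t)
  rw [hS, Multiset.nodup_iff_count_le_one]
  intro b
  rw [Multiset.count_filter]
  split_ifs with hb
  · by_cases hbs : b ∈ s
    · exact hodd b hbs (by rw [hb]; exact ho)
    · rw [Multiset.count_eq_zero_of_notMem hbs]; exact Nat.zero_le _
  · exact Nat.zero_le _

theorem count_ms_le [DecidableEq B] (hg : ∀ t a, cB (g t a) = cl t)
    (hginj : ∀ t, Function.Injective (g t))
    (hinj : Function.Injective cl) (x : XX 𝓛 d) (b : B) (ho : Odd (par k (cB b))) :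
    (ms g x).count b ≤ 1 := by
  classical
  by_cases hb : ∃ t, cB b = cl t
  · obtain ⟨t, ht⟩ := hb
    have h0 : ∀ t', t' ≠ t → Multiset.count b ((mv (x.2.1 t')).map (g t')) = 0 := by
      intro t' h
      rw [Multiset.count_eq_zero, Multiset.mem_map]
      rintro ⟨a, _, ha⟩
      exact h (hinj (by rw [← ht, ← ha, hg]))
    rw [ms, Multiset.count_sum', Finset.sum_eq_single t]
    · have h1 : ((mv (x.2.1 t)).map (g t)).Nodup := by
        refine Multiset.Nodup.map (hginj t) (nodup_mv.2 ((x.2.2 t).2 ?_))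
        rw [← ht]; exact ho
      exact Multiset.nodup_iff_count_le_one.1 h1 b
    · intro t' _ ht'
      exact h0 t' ht'
    · intro ht
      exact absurd (Finset.mem_univ t) ht
  · rw [ms, Multiset.count_sum', Finset.sum_eq_zero]
    · exact Nat.zero_le _
    · intro t _
      rw [Multiset.count_eq_zero, Multiset.mem_map]
      rintro ⟨a, _, ha⟩
      exact hb ⟨t, by rw [← ha, hg]⟩

theorem sum_cB_ms (hg : ∀ t a, cB (g t a) = cl t) (x : XX 𝓛 d) : ((ms g x).map cB).sum = d := by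
  rw [sum_map_ms]
  funext i
  simp only [hg, Finset.sum_const, Finset.card_univ, Fintype.card_fin, Finset.sum_apply,
    Pi.smul_apply, smul_eq_mul]
  exact x.1.2 i

theorem dn_eq (hsym : ∀ c e : I → ℕ, thc θ c = 0 → thc θ e = 0 → kk k c e = kk k e c)
    (hth : ∀ t, thc θ (cl t) = 0) (hg : ∀ t a, cB (g t a) = cl t)
    (hw : ∀ t a, w (g t a) = 𝓛.deg t a.l + a.a) (x : XX 𝓛 d) (n : ℕ) :
    x.2.1.dn = n ↔ 2 * n + ((ms g x).map fun b => kk k (cB b) (cB b)).sum =
      2 * ((ms g x).map w).sum + kk k d d := by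
  rw [sum_map_ms, sum_map_ms]
  simp only [hg, hw, Finset.sum_const, Finset.card_univ, Fintype.card_fin, smul_eq_mul]
  have h1 := two_mul_NF_add hsym hth x.1.1
  have h2 : (fun i => ∑ t, x.1.1 t * cl t i) = d := funext x.1.2
  rw [h2] at h1
  have h3 : x.2.1.dg = ∑ t, ∑ r, (𝓛.deg t (x.2.1 t r).l + (x.2.1 t r).a) := by
    unfold Wd.dg
    rw [Fintype.sum_sigma]
    rfl
  have h4 : x.2.1.dn = NF (ar k (colS cl x.1.1)) (blk cl x.1.1) + x.2.1.dg := rfl
  rw [h4, ← h3, ← h1]
  constructor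
  · intro h; omega
  · intro h; omega

/-- **the count** -/
theorem card_eq (hsym : ∀ c e : I → ℕ, thc θ c = 0 → thc θ e = 0 → kk k c e = kk k e c)
    (hth : ∀ t, thc θ (cl t) = 0) (hinj : Function.Injective cl)
    (hg : ∀ t a, cB (g t a) = cl t) (hginj : ∀ t, Function.Injective (g t))
    (hrg : ∀ t b, cB b = cl t → ∃ a, g t a = b)
    (hall : ∀ b, cB b ≤ d → ∃ t, cB b = cl t)
    (hw : ∀ t a, w (g t a) = 𝓛.deg t a.l + a.a) [DecidableEq B] (n : ℕ) :
    Nat.card {x : XX 𝓛 d // x.2.1.dn = n} =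
      {s : Multiset B | (∀ b ∈ s, Odd (par k (cB b)) → s.count b ≤ 1) ∧ (s.map cB).sum = d ∧
        2 * n + (s.map fun b => kk k (cB b) (cB b)).sum = 2 * (s.map w).sum + kk k d d}.ncard := by
  have h1 : Function.Injective (fun x : {x : XX 𝓛 d // x.2.1.dn = n} => ms g x.1) :=
    (ms_inj g cB hg hginj hinj).comp Subtype.val_injective
  rw [← Nat.card_range_of_injective h1, Nat.card_coe_set_eq]
  congr 1
  ext s
  constructor
  · rintro ⟨x, rfl⟩
    exact ⟨fun b _ ho => count_ms_le g cB hg hginj hinj x.1 b ho, sum_cB_ms g cB hg x.1,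
      (dn_eq g cB w hsym hth hg hw x.1 n).1 x.2⟩
  · rintro ⟨h2, h3, h4⟩
    have h5 : ∀ b ∈ s, ∃ t, cB b = cl t := by
      intro b hb
      apply hall
      rw [← h3]
      exact Multiset.single_le_sum (fun _ _ => bot_le) _ (Multiset.mem_map_of_mem cB hb)
    obtain ⟨x, hx⟩ := exists_ms g cB hg hrg hinj s h5 h2 h3
    refine ⟨⟨x, ?_⟩, hx⟩
    rw [dn_eq g cB w hsym hth hg hw x n, hx]
    exact h4

end bij

/-! ### restriction of the letters to the types below `d` -/

section final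

variable {I : Type} [Fintype I] [DecidableEq I] {k : I → I → ℕ} {θ : I → ℤ}

/-- all types of weight zero -/
abbrev TA (θ : I → ℤ) := {c : I → ℕ // c ≠ 0 ∧ thc θ c = 0}

/-- the types below `d` -/
abbrev TB (θ : I → ℤ) (d : I → ℕ) := {c : TA θ // c.1 ≤ d}

noncomputable instance (d : I → ℕ) : Fintype (TB θ d) := by
  classical
  have h : Finite (TB θ d) := by
    have h1 : Finite (Set.Icc (0 : I → ℕ) d) := (Set.finite_Icc 0 d).to_subtype
    refine Finite.of_injective (fun c : TB θ d => (⟨c.1.1, by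
      exact ⟨fun i => Nat.zero_le _, c.2⟩⟩ : Set.Icc (0 : I → ℕ) d)) ?_
    intro a b h
    have h2 : a.1.1 = b.1.1 := congrArg (fun z : Set.Icc (0 : I → ℕ) d => z.1) h
    exact Subtype.ext (Subtype.ext h2)
  exact Fintype.ofFinite _

noncomputable instance (d : I → ℕ) : LinearOrder (TB θ d) :=
  LinearOrder.lift' (Fintype.equivFin (TB θ d)) (Equiv.injective _)

/-- the type as a function -/
def cd (θ : I → ℤ) (d : I → ℕ) : TB θ d → I → ℕ := fun t => t.1.1

theorem cd_inj (d : I → ℕ) : Function.Injective (cd θ d) :=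
  fun _ _ h => Subtype.ext (Subtype.ext h)

/-- restriction of letters -/
def res (𝓐 : Letters k θ (Subtype.val : TA θ → I → ℕ)) (d : I → ℕ) : Letters k θ (cd θ d) where
  L t := 𝓐.L t.1
  lo t := 𝓐.lo t.1
  pol t := 𝓐.pol t.1
  deg t := 𝓐.deg t.1
  hom t := 𝓐.hom t.1
  mem t := 𝓐.mem t.1
  indep t := 𝓐.indep t.1
  span t := 𝓐.span t.1
  fin t := 𝓐.fin t.1

theorem allTypes_cd (d : I → ℕ) (c : I → ℕ) (hc : c ≠ 0) (h0 : thc θ c = 0) (hle : c ≤ d) :
    ∃ t, cd θ d t = c := ⟨⟨⟨c, hc, h0⟩, hle⟩, rfl⟩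

/-- the letters of the output -/
abbrev LamT (𝓐 : Letters k θ (Subtype.val : TA θ → I → ℕ)) := Σ c : TA θ, 𝓐.L c

/-- class -/
noncomputable def cLT (𝓐 : Letters k θ (Subtype.val : TA θ → I → ℕ)) (b : LamT 𝓐) : I →₀ ℕ :=
  Finsupp.equivFunOnFinite.symm b.1.1

/-- degree -/
def pLT (𝓐 : Letters k θ (Subtype.val : TA θ → I → ℕ)) (b : LamT 𝓐) : ℕ := 𝓐.deg b.1 b.2

theorem th_eq (c : I →₀ ℕ) : R059.ABOut.th θ c = thc θ (⇑c) := rfl

theorem kkN_eq (c e : I →₀ ℕ) : R059.NumA217.kkN k c e = kk k (⇑c) (⇑e) := rfl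

theorem sym_of (hsym : ∀ d e : I →₀ ℕ, R059.ABOut.th θ d = 0 → R059.ABOut.th θ e = 0 →
    R059.ABOut.kk k d e = R059.ABOut.kk k e d) :
    ∀ c e : I → ℕ, thc θ c = 0 → thc θ e = 0 → kk k c e = kk k e c := by
  intro c e hc he
  have h := hsym (Finsupp.equivFunOnFinite.symm c) (Finsupp.equivFunOnFinite.symm e) hc he
  simp only [R059.ABOut.kk_apply, Finsupp.equivFunOnFinite_symm_apply_apply] at h
  unfold kk
  exact_mod_cast h

theorem card_SMm (𝓐 : Letters k θ (Subtype.val : TA θ → I → ℕ))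
    (hsym : ∀ c e : I → ℕ, thc θ c = 0 → thc θ e = 0 → kk k c e = kk k e c)
    (inst : DecidableEq (LamT 𝓐 × ℕ)) (d : I →₀ ℕ) (n : ℕ) :
    Nat.card {x : XX (res 𝓐 (⇑d)) (⇑d) // x.2.1.dn = n} =
      (R059.NumForm217.SMm (A := LamT 𝓐 × ℕ)
        (fun x => Odd ((∑ i, cLT 𝓐 x.1 i) + R059.NumA217.kkN k (cLT 𝓐 x.1) (cLT 𝓐 x.1)))
        (fun x => cLT 𝓐 x.1)
        (fun x => R059.NumA217.kkN k (cLT 𝓐 x.1) (cLT 𝓐 x.1))
        (fun x => pLT 𝓐 x.1 + x.2)
        (R059.NumA217.kkN k d d) d n).ncard := by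
  have h := card_eq (𝓛 := res 𝓐 (⇑d)) (d := ⇑d)
    (g := fun t a => ((⟨t.1, a.l⟩ : LamT 𝓐), a.a))
    (cB := fun b : LamT 𝓐 × ℕ => b.1.1.1) (w := fun b => pLT 𝓐 b.1 + b.2)
    hsym (fun t => t.1.2.2) (cd_inj _) (fun t a => rfl) ?_ ?_ ?_ (fun t a => rfl) n
  · rw [h]
    congr 1
    ext s
    have h1 : ((s.map fun b : LamT 𝓐 × ℕ => cLT 𝓐 b.1).sum = d) ↔
        (s.map fun b : LamT 𝓐 × ℕ => b.1.1.1).sum = ⇑d := by
      rw [← DFunLike.coe_fn_eq]
      have h2 : (⇑((s.map fun b : LamT 𝓐 × ℕ => cLT 𝓐 b.1).sum) : I → ℕ) =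
          (s.map fun b : LamT 𝓐 × ℕ => b.1.1.1).sum := by
        induction s using Multiset.induction_on with
        | empty => rfl
        | cons b s ih =>
          rw [Multiset.map_cons, Multiset.map_cons, Multiset.sum_cons, Multiset.sum_cons,
            Finsupp.coe_add, ih]
          rfl
      rw [h2]
    constructor
    · rintro ⟨h2, h3, h4⟩
      exact ⟨h2, h1.2 h3, h4⟩
    · rintro ⟨h2, h3, h4⟩
      exact ⟨h2, h1.1 h3, h4⟩
  · rintro t ⟨l, a⟩ ⟨l', a'⟩ h
    have h1 := (Prod.mk.injEq _ _ _ _ ▸ h)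
    obtain ⟨h1, h2⟩ := h1
    have h3 : l = l' := by
      have := (Sigma.mk.injEq _ _ _ _ ▸ h1)
      exact eq_of_heq this.2
    have h2' : a = a' := h2
    subst h3
    subst h2'
    rfl
  · rintro t ⟨⟨c, l⟩, a⟩ h
    have h1 : c = t.1 := Subtype.ext h
    subst h1
    exact ⟨⟨l, a⟩, rfl⟩
  · rintro ⟨⟨c, l⟩, a⟩ h
    exact ⟨⟨c, h⟩, rfl⟩

theorem J0s_eq (d : I → ℕ) : J0s k θ (colV d) =
    (R059.ThinA.Jid ℚ (fun i j => k (colV d i) (colV d j)) (fun i => θ (colV d i))
      (univ : Finset (Vt d))).restrictScalars ℚ := by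
  unfold J0s
  rw [R059.Bridge830.J0_eq_Jid]
  rfl

theorem Anti_eq (d : I → ℕ) : Anti (colV d) = R059.Bridge830.AltSub (colV d) := rfl

/-- `hle` as a difference of dimensions of `Anti` -/
theorem hle_eq (d : I →₀ ℕ) (n : ℕ) : R059.Alt599.hle k θ d n =
    Module.finrank ℚ ↥(homogeneousSubmodule (Vt (⇑d)) ℚ n ⊓ Anti (colV (⇑d))) -
      Module.finrank ℚ ↥(homogeneousSubmodule (Vt (⇑d)) ℚ n ⊓ Anti (colV (⇑d)) ⊓
        J0s k θ (colV (⇑d))) := by
  have h1 := R059.Bridge830.H_univ_eq (colV (⇑d))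
  have h2 := R059.Bridge830.Ile_univ_eq k (colV (⇑d)) θ
  rw [← J0s_eq, ← Anti_eq] at h2
  rw [← Anti_eq] at h1
  unfold R059.Alt599.hle R059.Alt599.hd
  change Module.finrank ℚ ↥(R059.Alt599.H (colV (⇑d)) univ ⊓ homogeneousSubmodule (Vt (⇑d)) ℚ n) -
    Module.finrank ℚ ↥(R059.Alt599.Ile k (colV (⇑d)) θ univ ⊓ homogeneousSubmodule (Vt (⇑d)) ℚ n) = _
  rw [h1, h2, inf_comm (Anti (colV (⇑d))) (homogeneousSubmodule (Vt (⇑d)) ℚ n),
    inf_comm (Anti (colV (⇑d)) ⊓ J0s k θ (colV (⇑d))), inf_assoc]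

/-- **Theorem B numeric from the letters and the basis of words** -/
theorem abNum_of_words
    (LET : ∀ (I : Type) [Fintype I] [DecidableEq I] (k : I → I → ℕ) (θ : I → ℤ),
      (∀ c e : I → ℕ, thc θ c = 0 → thc θ e = 0 → kk k c e = kk k e c) →
      Nonempty (Letters k θ (Subtype.val : TA θ → I → ℕ)))
    (FIN : ∀ (I : Type) [Fintype I] [DecidableEq I] (k : I → I → ℕ) (θ : I → ℤ),
      (∀ c e : I → ℕ, thc θ c = 0 → thc θ e = 0 → kk k c e = kk k e c) →
      ∀ (T : Type) [Fintype T] [LinearOrder T] (cl : T → I → ℕ) (𝓛 : Letters k θ cl) (d : I → ℕ),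
      Function.Injective cl → (∀ t, cl t ≠ 0) → (∀ t, thc θ (cl t) = 0) →
      (∀ c : I → ℕ, c ≠ 0 → thc θ c = 0 → c ≤ d → ∃ t, cl t = c) → thc θ d = 0 → ∀ n,
      Module.finrank ℚ ↥(homogeneousSubmodule (Vt d) ℚ n ⊓ Anti (colV d)) -
        Module.finrank ℚ ↥(homogeneousSubmodule (Vt d) ℚ n ⊓ Anti (colV d) ⊓
          J0s k θ (colV d)) = Nat.card {x : XX 𝓛 d // x.2.1.dn = n}) : R059.ABNum := by
  apply R059.ThaBind599.abNum_of_thB
  intro I _ _ k θ hsym
  have hs := sym_of hsym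
  obtain ⟨𝓐⟩ := LET I k θ hs
  refine ⟨LamT 𝓐, cLT 𝓐, pLT 𝓐, ?_, fun b => b.1.2.2, ?_, ?_⟩
  · intro b h
    apply b.1.2.1
    funext i
    exact DFunLike.congr_fun h i
  · intro c p
    by_cases hc : (⇑c : I → ℕ) ≠ 0 ∧ thc θ (⇑c) = 0
    · refine ((𝓐.fin ⟨⇑c, hc⟩ p).image fun l => (⟨⟨⇑c, hc⟩, l⟩ : LamT 𝓐)).subset ?_
      rintro ⟨⟨c', hc'⟩, l⟩ ⟨h1, h2⟩
      have h3 : c' = ⇑c := by
        funext i
        exact DFunLike.congr_fun h1 i
      subst h3
      exact ⟨l, h2, rfl⟩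
    · refine Set.Finite.subset Set.finite_empty ?_
      rintro ⟨⟨c', hc'⟩, l⟩ ⟨h1, h2⟩
      have h3 : c' = ⇑c := by
        funext i
        exact DFunLike.congr_fun h1 i
      subst h3
      exact absurd hc' hc
  · intro inst d hd n
    rw [hle_eq, FIN I k θ hs (TB θ (⇑d)) (cd θ (⇑d)) (res 𝓐 (⇑d)) (⇑d) (cd_inj _)
      (fun t => t.1.2.1) (fun t => t.1.2.2) (allTypes_cd (⇑d)) hd n]
    exact card_SMm 𝓐 hs inst d n

end final

end Crest.Agent.Cnt599
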