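/-
Row 59, TEAM THIN, (S5) of helper547's plan (helper613): existence of homogeneous letters.
-/
import Mathlib
import Crest.Agent.R059.Thin4c_613
import Crest.Agent.R059.ThinEq_494
import Crest.Agent.R059.DimCount_830
import Crest.Agent.R059.PL2_547

set_option autoImplicit false
set_option linter.unusedSectionVars false

namespace Crest.Agent.R059.Thin613

open MvPolynomial Finset Deg359

/-! ### homogeneous basis of a graded subspace modulo a graded subspace -/

theorem exb {σ F : Type*} [Finite σ] [Field F] (A J : Submodule F (MvPolynomial σ F))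
    (hA : ∀ f ∈ A, ∀ n, homogeneousComponent n f ∈ A)
    (hJ : ∀ f ∈ J, ∀ n, homogeneousComponent n f ∈ J) :
    ∃ (mult : ℕ → ℕ) (e : (Σ n, Fin (mult n)) → MvPolynomial σ F),
      (∀ i, (e i).IsHomogeneous i.1) ∧ (∀ i, e i ∈ A) ∧
      (∀ x : (Σ n, Fin (mult n)) →₀ F, (x.sum fun i a => a • e i) ∈ J → x = 0) ∧
      A ≤ J ⊔ Submodule.span F (Set.range e) := by
  classical
  let M : ℕ → Submodule F (MvPolynomial σ F) := fun n => homogeneousSubmodule σ F n ⊓ A
  let N : ∀ n, Submodule F (M n) := fun n => J.comap (M n).subtype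
  have hfd : ∀ n, FiniteDimensional F (M n) := fun n =>
    DimCount830.finiteDimensional_homog_inf n A
  let b : ∀ n, Module.Basis (Fin (Module.finrank F (M n ⧸ N n))) F (M n ⧸ N n) :=
    fun n => Module.finBasis F (M n ⧸ N n)
  have hlift : ∀ n (q : M n ⧸ N n), ∃ y : M n, (N n).mkQ y = q := fun n q =>
    Submodule.mkQ_surjective (N n) q
  choose lf hlf using hlift
  let e : (Σ n, Fin (Module.finrank F (M n ⧸ N n))) → MvPolynomial σ F :=
    fun i => (lf i.1 (b i.1 i.2) : MvPolynomial σ F)
  have hhom : ∀ i, (e i).IsHomogeneous i.1 := fun i =>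
    (mem_homogeneousSubmodule _ _).1 (lf i.1 (b i.1 i.2)).2.1
  refine ⟨fun n => Module.finrank F (M n ⧸ N n), e, hhom, fun i => (lf i.1 (b i.1 i.2)).2.2,
    ?_, ?_⟩
  · -- independence
    intro x hx
    -- the component of degree `n`
    have hcomp : ∀ n, (∑ i : Fin (Module.finrank F (M n ⧸ N n)), x ⟨n, i⟩ • e ⟨n, i⟩) ∈ J := by
      intro n
      have h1 := hJ _ hx n
      have h2 : homogeneousComponent n (x.sum fun i a => a • e i) =
          ∑ i : Fin (Module.finrank F (M n ⧸ N n)), x ⟨n, i⟩ • e ⟨n, i⟩ := by
        rw [Finsupp.sum, map_sum]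
        have h3 : ∀ i ∈ x.support, homogeneousComponent n (x i • e i) =
            if i.1 = n then x i • e i else 0 := by
          intro i _
          rw [map_smul, homogeneousComponent_of_mem
            ((mem_homogeneousSubmodule _ _).2 (hhom i))]
          by_cases h : n = i.1
          · rw [if_pos h, if_pos h.symm]
          · rw [if_neg h, if_neg (Ne.symm h), smul_zero]
        rw [Finset.sum_congr rfl h3]
        rw [← Finset.sum_filter]
        symm
        rw [← Finset.sum_subset (s₁ := (univ : Finset (Fin (Module.finrank F (M n ⧸ N n)))).filter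
          (fun i => x ⟨n, i⟩ ≠ 0)) (Finset.filter_subset _ _)]
        · refine Finset.sum_bij (fun i _ => (⟨n, i⟩ : Σ n, Fin (Module.finrank F (M n ⧸ N n))))
            ?_ ?_ ?_ ?_
          · intro i hi
            rw [Finset.mem_filter] at hi ⊢
            exact ⟨Finsupp.mem_support_iff.2 hi.2, rfl⟩
          · intro i _ j _ hij
            simpa using hij
          · rintro ⟨n', i⟩ hi
            rw [Finset.mem_filter] at hi
            obtain ⟨hi1, hi2⟩ := hi
            change n' = n at hi2
            subst hi2
            exact ⟨i, by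
              rw [Finset.mem_filter]
              exact ⟨mem_univ _, Finsupp.mem_support_iff.1 hi1⟩, rfl⟩
          · intro i _
            rfl
        · intro i _ hi
          rw [Finset.mem_filter, not_and, not_not] at hi
          rw [hi (mem_univ i), zero_smul]
      rw [← h2]; exact h1
    ext ⟨n, i⟩
    have h4 : (∑ i : Fin (Module.finrank F (M n ⧸ N n)), x ⟨n, i⟩ • lf n (b n i)) ∈ N n := by
      change (M n).subtype _ ∈ J
      rw [map_sum]
      convert hcomp n using 2
      rw [map_smul]
      rfl
    have h5 : ∑ i : Fin (Module.finrank F (M n ⧸ N n)), x ⟨n, i⟩ • b n i = 0 := by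
      have h6 : (N n).mkQ (∑ i : Fin (Module.finrank F (M n ⧸ N n)), x ⟨n, i⟩ • lf n (b n i)) = 0 := by
        rw [Submodule.mkQ_apply, Submodule.Quotient.mk_eq_zero]; exact h4
      rw [map_sum] at h6
      rw [← h6]
      refine Finset.sum_congr rfl fun i _ => ?_
      rw [map_smul, hlf]
    have h7 := Fintype.linearIndependent_iff.1 (b n).linearIndependent (fun i => x ⟨n, i⟩) h5 i
    simpa using h7
  · -- spanning
    intro f hf
    have h1 : f = ∑ n ∈ range (f.totalDegree + 1), homogeneousComponent n f :=
      (sum_homogeneousComponent f).symm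
    rw [h1]
    refine Submodule.sum_mem _ fun n _ => ?_
    have h2 : homogeneousComponent n f ∈ M n :=
      ⟨homogeneousComponent_mem n f, hA f hf n⟩
    set y : M n := ⟨homogeneousComponent n f, h2⟩ with hy
    have h3 : (N n).mkQ (y - ∑ i, (b n).repr ((N n).mkQ y) i • lf n (b n i)) = 0 := by
      rw [map_sub, map_sum]
      have h4 : ∑ i, (N n).mkQ ((b n).repr ((N n).mkQ y) i • lf n (b n i)) =
          ∑ i, (b n).repr ((N n).mkQ y) i • b n i := by
        refine Finset.sum_congr rfl fun i _ => ?_
        rw [map_smul, hlf]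
      rw [h4, (b n).sum_repr, sub_self]
    rw [Submodule.mkQ_apply, Submodule.Quotient.mk_eq_zero] at h3
    have h5 : (M n).subtype (y - ∑ i, (b n).repr ((N n).mkQ y) i • lf n (b n i)) ∈ J := h3
    rw [map_sub, map_sum] at h5
    have h6 : homogeneousComponent n f =
        ((M n).subtype y - ∑ i, (M n).subtype ((b n).repr ((N n).mkQ y) i • lf n (b n i))) +
          ∑ i, (M n).subtype ((b n).repr ((N n).mkQ y) i • lf n (b n i)) := by
      rw [sub_add_cancel]; rfl
    rw [h6]
    refine Submodule.add_mem_sup h5 (Submodule.sum_mem _ fun i _ => ?_)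
    rw [map_smul]
    exact Submodule.smul_mem _ _ (Submodule.subset_span ⟨⟨n, i⟩, rfl⟩)

/-! ### growth is graded -/

section graded

variable {P : Type*} [Fintype P] [DecidableEq P]
variable {F : Type*} [Field F]
variable {V : Type*} [AddCommGroup V] [LinearOrder V] [IsOrderedAddMonoid V]
variable {L : Type*}

theorem ud_homogeneousComponent (arr : P → P → ℕ) (th : P → V) (f : P → L) {m : ℤ}
    {x : MvPolynomial P F} (h : ud F arr th f m x) (n : ℕ) :
    ud F arr th f m (homogeneousComponent n x) := by
  classical
  by_cases hn : n < x.totalDegree + 1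
  swap
  · rw [homogeneousComponent_eq_zero _ _ (by omega)]
    exact ud_zero arr th f m
  intro α hα
  by_contra hlt
  apply hα
  have hlt' := not_le.1 hlt
  have hy := fun k => ThinEq494.HG_sh (F := F) (arr := arr) (th := th) f
    (homogeneousComponent_isHomogeneous k x) α
  choose y hy hy' using hy
  have hsum : (∑ k ∈ range (x.totalDegree + 1), y k) ∈ JJ F arr th f := by
    rw [← Ideal.Quotient.eq_zero_iff_mem, map_sum]
    rw [Finset.sum_congr rfl fun k _ => hy' k]
    rw [← coeff_sum, ← map_sum, sum_homogeneousComponent]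
    exact TD.coeff_eq_zero h hlt'
  have htop : top ((n : ℤ) - ((α.degree : ℕ) : ℤ)) (∑ k ∈ range (x.totalDegree + 1), y k) = y n := by
    rw [top_sum, Finset.sum_eq_single n]
    · exact top_of_Hom (hy n)
    · intro k _ hk
      ext β
      rw [coeff_top, coeff_zero]
      split_ifs with hβ
      · apply (hy k).coeff_eq_zero
        rw [hβ]
        intro h1
        apply hk
        omega
      · rfl
    · intro hk
      exact absurd (Finset.mem_range.2 hn) hk
  have hmem : y n ∈ JJ F arr th f := by
    rw [← htop]
    unfold top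
    split_ifs
    · exact ThinEq494.homogeneousComponent_mem_JJ f hsum _
    · exact zero_mem _
  rw [← hy' n, Ideal.Quotient.eq_zero_iff_mem]
  exact hmem

theorem InV_homogeneousComponent (arr : P → P → ℕ) (th : P → V) (f : P → L)
    {x : MvPolynomial P F} (h : InV F arr th f x) (n : ℕ) :
    InV F arr th f (homogeneousComponent n x) := fun g hg hgf =>
  ⟨ud_homogeneousComponent arr th g (h g hg hgf).1 n,
    fun hfg => ud_homogeneousComponent arr th g ((h g hg hgf).2 hfg) n⟩

end graded

/-! ### letters -/

section letters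

open PL547

theorem Anti_homogeneousComponent {I P : Type*} [Fintype P] [DecidableEq P] (c : P → I)
    {x : MvPolynomial P ℚ} (h : x ∈ Anti c) (n : ℕ) : homogeneousComponent n x ∈ Anti c := by
  intro w hw
  rw [rename_homogeneousComponent, h w hw, map_smul]

variable {I : Type} [Fintype I] [DecidableEq I] (k : I → I → ℕ) (θ : I → ℤ)

theorem Wt_homogeneousComponent (c : I → ℕ) {x : MvPolynomial (Vt c) ℚ} (h : x ∈ Wt k θ c)
    (n : ℕ) : homogeneousComponent n x ∈ Wt k θ c :=
  ⟨Anti_homogeneousComponent _ h.1 n, InV_homogeneousComponent _ _ _ h.2 n⟩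

theorem J0s_homogeneousComponent {P : Type*} [Fintype P] [DecidableEq P] (c : P → I)
    {x : MvPolynomial P ℚ} (h : x ∈ J0s k θ c) (n : ℕ) :
    homogeneousComponent n x ∈ J0s k θ c := by
  change homogeneousComponent n x ∈ J0 ℚ (ar k c) (tw θ c) univ
  have h' : x ∈ J0 ℚ (ar k c) (tw θ c) univ := h
  rw [← JJ_const (F := ℚ) (ar k c) (tw θ c) ()] at h' ⊢
  exact ThinEq494.homogeneousComponent_mem_JJ _ h' n

/-- **(S5)** letters exist -/
theorem exists_letters {T : Type} (cl : T → I → ℕ) : Nonempty (Letters k θ cl) := by
  classical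
  have h := fun t => exb (Wt k θ (cl t)) (J0s k θ (colV (cl t)))
    (fun f hf n => Wt_homogeneousComponent k θ (cl t) hf n)
    (fun f hf n => J0s_homogeneousComponent k θ (colV (cl t)) hf n)
  choose mult e he1 he2 he3 he4 using h
  exact ⟨{ L := fun t => Σ n, Fin (mult t n)
           lo := fun t => LinearOrder.lift'
             (toLex : (Σ n, Fin (mult t n)) → Σₗ n, Fin (mult t n)) toLex.injective
           pol := e
           deg := fun t l => l.1
           hom := he1
           mem := he2
           indep := he3
           span := he4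
           fin := fun t n => by
             refine (Set.finite_range (fun i : Fin (mult t n) => (⟨n, i⟩ : Σ n, Fin (mult t n)))).subset ?_
             rintro ⟨n', i⟩ hi
             change n' = n at hi
             subst hi
             exact ⟨i, rfl⟩ }⟩

end letters

end Crest.Agent.R059.Thin613
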