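import Mathlib
import Crest.Agent.R059.Cnt_599
import Crest.Agent.R059.Letters_613

/-!
# Row 59, Theorem B: from a homogeneous basis of words to FIN of `Cnt_599`
-/

set_option autoImplicit false
set_option linter.unusedSectionVars false

namespace Crest.Agent.Cnt599

open MvPolynomial Finset Crest.Agent.R059.Thin613 Crest.Agent.R059.Deg359
  Crest.Agent.R059.PL547

section hom

variable {I : Type} [Fintype I] [DecidableEq I] {k : I → I → ℕ} {θ : I → ℤ}

theorem J0s_graded {P : Type*} [Fintype P] [DecidableEq P] (c : P → I) :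
    ∀ f ∈ J0s k θ c, ∀ n, homogeneousComponent n f ∈ J0s k θ c := by
  intro f hf n
  refine R059.DimCount830.component_mem_span _ ?_ f hf n
  rintro g ⟨T, _, _, rfl⟩
  exact ⟨_, R059.DimCount830.isHomogeneous_KK _ _ _⟩

variable {T : Type} [Fintype T] [LinearOrder T] {cl : T → I → ℕ} {𝓛 : Letters k θ cl} {d : I → ℕ}

/-- FIN from a homogeneous basis of words modulo `J0s` -/
theorem fin_of_family (el : XX 𝓛 d → MvPolynomial (Vt d) ℚ)
    (he : ∀ x, el x ∈ Anti (colV d)) (hd : ∀ x, (el x).IsHomogeneous x.2.1.dn)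
    (ind : LinearIndependent ℚ fun x => (J0s k θ (colV d)).mkQ (el x))
    (sp : Anti (colV d) ≤ J0s k θ (colV d) ⊔ Submodule.span ℚ (Set.range el)) (n : ℕ) :
    Module.finrank ℚ ↥(homogeneousSubmodule (Vt d) ℚ n ⊓ Anti (colV d)) -
        Module.finrank ℚ ↥(homogeneousSubmodule (Vt d) ℚ n ⊓ Anti (colV d) ⊓
          J0s k θ (colV d)) = Nat.card {x : XX 𝓛 d // x.2.1.dn = n} :=
  R059.DimCount830.count_sub (Anti (colV d)) (J0s k θ (colV d)) el (fun x => x.2.1.dn)
    (J0s_graded (colV d)) he hd ind sp n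

theorem KL_hom {P : Type*} [Fintype P] [DecidableEq P] {L : Type*} [LinearOrder L]
    (arr : P → P → ℕ) (f : P → L) :
    (KL ℚ arr f).IsHomogeneous (NR arr (fun a b => f a < f b)) := by
  classical
  have h1 : NR arr (fun a b => f a < f b) = ∑ a, ∑ b, if f a < f b then arr a b else 0 := by
    unfold NR
    rw [Finset.sum_filter, ← Finset.univ_product_univ, Finset.sum_product]
    refine Finset.sum_congr rfl fun a _ => Finset.sum_congr rfl fun b _ => ?_
    by_cases h : f a < f b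
    · rw [if_pos h, if_pos h]
    · rw [if_neg h, if_neg h]
  rw [h1]
  unfold KL
  refine IsHomogeneous.prod _ _ _ fun a _ => IsHomogeneous.prod _ _ _ fun b _ => ?_
  split_ifs with h
  · have h : (X b - X a : MvPolynomial P ℚ).IsHomogeneous 1 :=
      (isHomogeneous_X _ _).sub (isHomogeneous_X _ _)
    simpa using h.pow (arr a b)
  · exact isHomogeneous_one _ _

variable (pt : ∀ t, Vt (cl t))

theorem Kh_hom (hsym : ∀ c e : I → ℕ, thc θ c = 0 → thc θ e = 0 → kk k c e = kk k e c)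
    (hth : ∀ t, thc θ (cl t) = 0) {m : T → ℕ} (φ : Wd 𝓛 m) :
    (φ.Kh pt).IsHomogeneous φ.dn := by
  have h1 : (KL ℚ (ar k (colS cl m)) (blk cl m)).IsHomogeneous
      (NF (ar k (colS cl m)) (blk cl m)) := by
    rw [NF_eq (ar k (colS cl m)) (sym_col hsym (colS cl m)) (good_blk hth m)]
    exact KL_hom _ _
  have h2 : φ.lp.IsHomogeneous (∑ j : Jm m, 𝓛.deg j.1 (φ.at j).l) := by
    refine IsHomogeneous.prod _ _ _ fun j _ => ?_
    exact (𝓛.hom j.1 (φ.at j).l).rename_isHomogeneous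
  have h3 : (∏ j : Jm m, X (⟨j, pt j.1⟩ : Sm cl m) ^ (φ.at j).a :
      MvPolynomial (Sm cl m) ℚ).IsHomogeneous (∑ j : Jm m, (φ.at j).a) := by
    refine IsHomogeneous.prod _ _ _ fun j _ => ?_
    simpa using (isHomogeneous_X ℚ (⟨j, pt j.1⟩ : Sm cl m)).pow (φ.at j).a
  have h4 := h1.mul (h2.mul h3)
  have h5 : NF (ar k (colS cl m)) (blk cl m) + (∑ j : Jm m, 𝓛.deg j.1 (φ.at j).l +
      ∑ j : Jm m, (φ.at j).a) = φ.dn := by
    unfold Wd.dn Wd.dg
    rw [Finset.sum_add_distrib]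
  rw [h5] at h4
  exact h4

theorem el_hom (hsym : ∀ c e : I → ℕ, thc θ c = 0 → thc θ e = 0 → kk k c e = kk k e c)
    (hth : ∀ t, thc θ (cl t) = 0) {m : Pl cl d} (φ : Wd 𝓛 m.1) :
    (φ.el pt).IsHomogeneous φ.dn :=
  isHomogeneous_alt ((Kh_hom pt hsym hth φ).rename_isHomogeneous)

theorem el_Anti {m : Pl cl d} (φ : Wd 𝓛 m.1) : φ.el pt ∈ Anti (colV d) := alt_mem _ _

/-- FIN of `Cnt_599` from independence and spanning of 547's family -/
theorem fin_of_el (hsym : ∀ c e : I → ℕ, thc θ c = 0 → thc θ e = 0 → kk k c e = kk k e c)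
    (hth : ∀ t, thc θ (cl t) = 0)
    (ind : LinearIndependent ℚ fun x : XX 𝓛 d => (J0s k θ (colV d)).mkQ (x.2.1.el pt))
    (sp : Anti (colV d) ≤ J0s k θ (colV d) ⊔
      Submodule.span ℚ (Set.range fun x : XX 𝓛 d => x.2.1.el pt)) (n : ℕ) :
    Module.finrank ℚ ↥(homogeneousSubmodule (Vt d) ℚ n ⊓ Anti (colV d)) -
        Module.finrank ℚ ↥(homogeneousSubmodule (Vt d) ℚ n ⊓ Anti (colV d) ⊓
          J0s k θ (colV d)) = Nat.card {x : XX 𝓛 d // x.2.1.dn = n} :=
  fin_of_family (fun x => x.2.1.el pt) (fun x => el_Anti pt x.2.1)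
    (fun x => el_hom pt hsym hth x.2.1) ind sp n

end hom

/-- **`ABNum` from independence and spanning of 547's family, every datum of weight zero** -/
theorem abNum_of_el
    (LIS : ∀ (I : Type) [Fintype I] [DecidableEq I] (k : I → I → ℕ) (θ : I → ℤ),
      (∀ c e : I → ℕ, thc θ c = 0 → thc θ e = 0 → kk k c e = kk k e c) →
      ∀ (T : Type) [Fintype T] [LinearOrder T] (cl : T → I → ℕ) (𝓛 : Letters k θ cl) (d : I → ℕ),
      Function.Injective cl → (∀ t, cl t ≠ 0) → (∀ t, thc θ (cl t) = 0) →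
      R059.Places494.AllTypes θ cl d → thc θ d = 0 → ∀ pt : ∀ t, Vt (cl t),
      LinearIndependent ℚ (fun x : XX 𝓛 d => (J0s k θ (colV d)).mkQ (x.2.1.el pt)) ∧
      Anti (colV d) ≤ J0s k θ (colV d) ⊔
        Submodule.span ℚ (Set.range fun x : XX 𝓛 d => x.2.1.el pt)) : R059.ABNum := by
  refine abNum_of_words (fun I _ _ k θ _ => R059.Thin613.exists_letters k θ _) ?_
  intro I _ _ k θ hs T _ _ cl 𝓛 d hinj h0 hth hall hd n
  have hpt : ∀ t, Nonempty (Vt (cl t)) := by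
    intro t
    obtain ⟨i, hi⟩ := Function.ne_iff.1 (h0 t)
    exact ⟨⟨i, ⟨0, Nat.pos_of_ne_zero hi⟩⟩⟩
  have h := LIS I k θ hs T cl 𝓛 d hinj h0 hth hall hd (fun t => (hpt t).some)
  exact fin_of_el (fun t => (hpt t).some) hs hth h.1 h.2 n

end Crest.Agent.Cnt599
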