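import Mathlib

/-!
# Row 59, Theorem B, CNT part 1 (helper231): sorted words and multisets
-/

set_option autoImplicit false
set_option linter.unusedSectionVars false

namespace Crest.Agent.R059.Cnt231

open Finset

section sorted

variable {α : Type*} [LinearOrder α]

theorem count_ofFn {m : ℕ} (φ : Fin m → α) (y : α) :
    (univ.val.map φ).count y = (univ.filter fun r => φ r = y).card := by
  rw [Multiset.count_map, Finset.card_def, Finset.filter_val]
  congr 1
  exact Multiset.filter_congr fun r _ => eq_comm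

/-- two sorted words with the same multiset are equal -/
theorem sorted_eq {m m' : ℕ} {φ : Fin m → α} {φ' : Fin m' → α} (h : Monotone φ)
    (h' : Monotone φ') (he : (univ.val.map φ) = (univ.val.map φ')) :
    (⟨m, φ⟩ : Σ m : ℕ, Fin m → α) = ⟨m', φ'⟩ := by
  have hm : m = m' := by
    have := congrArg Multiset.card he
    simpa using this
  subst hm
  have h1 : List.ofFn φ = List.ofFn φ' := by
    have hp : (List.ofFn φ).Perm (List.ofFn φ') := by
      rw [← Multiset.coe_eq_coe]
      have e1 : ∀ ψ : Fin m → α, ((List.ofFn ψ : List α) : Multiset α) = univ.val.map ψ := by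
        intro ψ
        rw [List.ofFn_eq_map, ← Multiset.map_coe]
        rfl
      rw [e1, e1, he]
    have hs : ∀ ψ : Fin m → α, Monotone ψ → (List.ofFn ψ).Pairwise (· ≤ ·) := by
      intro ψ hψ
      rw [List.pairwise_ofFn]
      intro i j hij
      exact hψ hij.le
    exact hp.eq_of_pairwise (fun a b _ _ h1 h2 => le_antisymm h1 h2) (hs _ h) (hs _ h')
  rw [List.ofFn_injective h1]

/-- every multiset is the multiset of a sorted word -/
theorem exists_sorted (M : Multiset α) :
    ∃ φ : Fin (Multiset.card M) → α, Monotone φ ∧ univ.val.map φ = M := by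
  let l := M.sort (· ≤ ·)
  have hl : l.length = Multiset.card M := Multiset.length_sort _
  refine ⟨fun r => l.get (r.cast hl.symm), ?_, ?_⟩
  · intro i j hij
    have hp : l.Pairwise (· ≤ ·) := Multiset.pairwise_sort M (· ≤ ·)
    rcases hij.eq_or_lt with h | h
    · rw [h]
    · exact List.pairwise_iff_get.1 hp _ _ h
  · have h2 : (univ : Finset (Fin (Multiset.card M))).val.map
        (fun r => l.get (r.cast hl.symm)) = ((List.ofFn l.get : List α) : Multiset α) := by
      rw [List.ofFn_eq_map, ← Multiset.map_coe]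
      have : ((List.finRange l.length : List (Fin l.length)) : Multiset (Fin l.length)) =
          (univ : Finset (Fin (Multiset.card M))).val.map (Fin.cast hl.symm) := by
        have h3 := Finset.map_univ_equiv (finCongr hl.symm)
        have h4 := congrArg Finset.val h3
        rw [Finset.map_val] at h4
        exact h4.symm
      rw [this, Multiset.map_map]
      rfl
    rw [h2, List.ofFn_get]
    exact Multiset.sort_eq M _

end sorted

section family

variable {T : Type*} [Fintype T] [DecidableEq T] {α : T → Type*} [∀ t, LinearOrder (α t)]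
  {B : Type*} [DecidableEq B]

/-- the multiset of a family of words -/
def ms (E : (Σ t, α t) → B) {m : T → ℕ} (φ : ∀ t, Fin (m t) → α t) : Multiset B :=
  (univ : Finset (Σ t, Fin (m t))).val.map fun j => E ⟨j.1, φ j.1 j.2⟩

variable {E : (Σ t, α t) → B}

omit [DecidableEq T] [∀ t, LinearOrder (α t)] [DecidableEq B] in
theorem sum_ms {M : Type*} [AddCommMonoid M] (f : B → M) {m : T → ℕ}
    (φ : ∀ t, Fin (m t) → α t) :
    ((ms E φ).map f).sum = ∑ j : Σ t, Fin (m t), f (E ⟨j.1, φ j.1 j.2⟩) := by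
  rw [ms, Multiset.map_map]
  rfl

omit [DecidableEq T] [∀ t, LinearOrder (α t)] [DecidableEq B] in
theorem mem_ms {m : T → ℕ} {φ : ∀ t, Fin (m t) → α t} {b : B} :
    b ∈ ms E φ ↔ ∃ j : Σ t, Fin (m t), E ⟨j.1, φ j.1 j.2⟩ = b := by
  rw [ms, Multiset.mem_map]
  constructor
  · rintro ⟨j, _, h⟩
    exact ⟨j, h⟩
  · rintro ⟨j, h⟩
    exact ⟨j, Finset.mem_univ _, h⟩

theorem count_ms (hE : Function.Injective E) {m : T → ℕ} (φ : ∀ t, Fin (m t) → α t) (t : T)
    (y : α t) : (ms E φ).count (E ⟨t, y⟩) = (univ.val.map (φ t)).count y := by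
  rw [count_ofFn, ms, Multiset.count_map]
  have h1 : Multiset.card (Multiset.filter (fun j : Σ t, Fin (m t) =>
      E ⟨t, y⟩ = E ⟨j.1, φ j.1 j.2⟩) univ.val) =
      (univ.filter fun j : Σ t, Fin (m t) => E ⟨t, y⟩ = E ⟨j.1, φ j.1 j.2⟩).card := rfl
  rw [h1]
  symm
  refine Finset.card_bij (fun r _ => ⟨t, r⟩) ?_ ?_ ?_
  · intro r hr
    rw [Finset.mem_filter] at hr ⊢
    refine ⟨Finset.mem_univ _, ?_⟩
    rw [hr.2]
  · intro a _ b _ h
    simpa using h
  · rintro ⟨t', r⟩ hr
    rw [Finset.mem_filter] at hr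
    have h2 := hE hr.2
    obtain ⟨rfl, h3⟩ := Sigma.mk.inj_iff.1 h2
    refine ⟨r, ?_, rfl⟩
    rw [Finset.mem_filter]
    exact ⟨Finset.mem_univ _, (eq_of_heq h3).symm⟩

theorem ms_inj (hE : Function.Injective E) {m m' : T → ℕ} {φ : ∀ t, Fin (m t) → α t}
    {φ' : ∀ t, Fin (m' t) → α t} (h : ∀ t, Monotone (φ t)) (h' : ∀ t, Monotone (φ' t))
    (he : ms E φ = ms E φ') :
    (⟨m, φ⟩ : Σ m : T → ℕ, ∀ t, Fin (m t) → α t) = ⟨m', φ'⟩ := by
  have h1 : ∀ t, (⟨m t, φ t⟩ : Σ m : ℕ, Fin m → α t) = ⟨m' t, φ' t⟩ := by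
    intro t
    apply sorted_eq (h t) (h' t)
    ext y
    rw [← count_ms hE, ← count_ms hE, he]
  have hm : m = m' := funext fun t => congrArg Sigma.fst (h1 t)
  subst hm
  congr 1
  funext t
  exact eq_of_heq (Sigma.mk.inj_iff.1 (h1 t)).2

theorem exists_multi (s : Multiset (Σ t, α t)) :
    ∃ M : ∀ t, Multiset (α t), ∀ t y, (M t).count y = s.count ⟨t, y⟩ := by
  induction s using Multiset.induction with
  | empty => exact ⟨fun _ => 0, fun t y => by simp⟩
  | cons x s ih =>
    obtain ⟨M, hM⟩ := ih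
    obtain ⟨t0, y0⟩ := x
    refine ⟨Function.update M t0 (y0 ::ₘ M t0), fun t y => ?_⟩
    by_cases ht : t = t0
    · subst ht
      rw [Function.update_self, Multiset.count_cons, Multiset.count_cons, hM]
      congr 1
      by_cases hy : y = y0
      · subst hy; simp
      · rw [if_neg hy, if_neg]
        intro h
        exact hy (eq_of_heq (Sigma.mk.inj_iff.1 h).2)
    · rw [Function.update_of_ne ht, Multiset.count_cons, hM, if_neg, Nat.add_zero]
      intro h
      exact ht (Sigma.mk.inj_iff.1 h).1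

theorem ms_surj (hE : Function.Injective E) (s : Multiset B) (hs : ∀ b ∈ s, ∃ x, E x = b) :
    ∃ (m : T → ℕ) (φ : ∀ t, Fin (m t) → α t), (∀ t, Monotone (φ t)) ∧ ms E φ = s := by
  classical
  obtain ⟨s', rfl⟩ : ∃ s' : Multiset (Σ t, α t), s'.map E = s := by
    clear hE
    induction s using Multiset.induction with
    | empty => exact ⟨0, rfl⟩
    | cons b s ih =>
      obtain ⟨s', h'⟩ := ih (fun b hb => hs b (Multiset.mem_cons_of_mem hb))
      obtain ⟨x, hx⟩ := hs b (Multiset.mem_cons_self b s)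
      exact ⟨x ::ₘ s', by rw [Multiset.map_cons, hx, h']⟩
  obtain ⟨M, hM⟩ := exists_multi s'
  choose φ h1 h2 using fun t => exists_sorted (M t)
  refine ⟨fun t => Multiset.card (M t), φ, h1, ?_⟩
  ext b
  by_cases hb : ∃ x, E x = b
  · obtain ⟨⟨t, y⟩, rfl⟩ := hb
    rw [count_ms hE, h2, hM, Multiset.count_map_eq_count' E s' hE]
  · rw [Multiset.count_eq_zero_of_notMem, Multiset.count_eq_zero_of_notMem]
    · intro h
      obtain ⟨x, _, hx⟩ := Multiset.mem_map.1 h
      exact hb ⟨x, hx⟩
    · intro h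
      obtain ⟨j, hj⟩ := mem_ms.1 h
      exact hb ⟨_, hj⟩

theorem inj_iff_count {α : Type*} [LinearOrder α] {m : ℕ} (φ : Fin m → α) :
    Function.Injective φ ↔ ∀ y, (univ.val.map φ).count y ≤ 1 := by
  constructor
  · intro h y
    rw [count_ofFn, Finset.card_le_one]
    intro a ha b hb
    rw [Finset.mem_filter] at ha hb
    exact h (ha.2.trans hb.2.symm)
  · intro h a b hab
    have := h (φ b)
    rw [count_ofFn, Finset.card_le_one] at this
    exact this a (by simp [hab]) b (by simp)

end family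

end Crest.Agent.R059.Cnt231
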