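import Mathlib
import Crest.Agent.R059.PL3_547
import Crest.Agent.R059.CntA_231
import Crest.Agent.R059.DimCount_830
import Crest.Agent.R059.Bridge_830
import Crest.Agent.R059.ThaBind_599

/-!
# Row 59, Theorem B, CNT (helper231): from a homogeneous basis to the count of supermonomials

Input: a global choice of letters `𝓖` and, for every `d` with `θ(d) = 0`, the family of the
admissible words at all places is a basis of the alternating polynomials modulo `J0`.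
Output: the hypothesis `hB` of `ThaBind599.abNum_of_thB`.
-/

set_option autoImplicit false
set_option linter.unusedSectionVars false

namespace Crest.Agent.R059.Cnt231

open MvPolynomial Finset Thin613 PL547

section sums

variable {I : Type} [Fintype I] [DecidableEq I] (k : I → I → ℕ) (θ : I → ℤ)

theorem sumVt {M : Type*} [AddCommMonoid M] (c : I → ℕ) (F : I → M) :
    ∑ x : Vt c, F x.1 = ∑ i, c i • F i := by
  rw [Fintype.sum_sigma]
  simp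

theorem sumVt2 (c e : I → ℕ) : ∑ x : Vt c, ∑ y : Vt e, k x.1 y.1 = kk k c e := by
  have h1 : ∀ x : Vt c, ∑ y : Vt e, k x.1 y.1 = ∑ j, e j • k x.1 j :=
    fun x => sumVt e (fun j => k x.1 j)
  rw [Finset.sum_congr rfl fun x _ => h1 x, sumVt c (fun i => ∑ j, e j • k i j)]
  unfold kk
  refine Finset.sum_congr rfl fun i _ => ?_
  rw [Finset.smul_sum]
  refine Finset.sum_congr rfl fun j _ => ?_
  simp only [smul_eq_mul]
  ring

theorem kk_eq (c e : I →₀ ℕ) : kk k ⇑c ⇑e = NumA217.kkN k c e := by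
  rfl

theorem thc_eq (c : I →₀ ℕ) : thc θ ⇑c = ABOut.th θ c := by
  rw [ABOut.th_apply]; rfl

end sums

section degree

variable {I : Type} [Fintype I] [DecidableEq I] {k : I → I → ℕ} {θ : I → ℤ}

/-- symmetry of the arrows of a coloured set -/
theorem sym_col (hsym : ∀ c e : I → ℕ, thc θ c = 0 → thc θ e = 0 → kk k c e = kk k e c)
    {P : Type} [Fintype P] [DecidableEq P] (c : P → I) : Thin613.Sym (PL547.ar k c) (PL547.tw θ c) := by
  intro S U _ hS hU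
  have hw : ∀ A : Finset P, thc θ ⇑(Alt599.typ c A) = Thin613.wt (PL547.tw θ c) A := by
    intro A
    have := Alt599.wt_typ c A θ
    exact this.symm
  have hk : ∀ A B : Finset P, ∑ a ∈ A, ∑ b ∈ B, ar k c a b =
      kk k ⇑(Alt599.typ c A) ⇑(Alt599.typ c B) := by
    intro A B
    exact Alt599.kd_typ c A k B
  rw [hk, hsym _ _ (by rw [hw, hS]) (by rw [hw, hU]), ← hk, Finset.sum_comm]

variable {T : Type} [Fintype T] [LinearOrder T] {cl : T → I → ℕ} {𝓛 : Letters k θ cl}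

theorem good_blk' (hcl : ∀ t, thc θ (cl t) = 0) (m : T → ℕ) :
    Good (PL547.tw θ (colS cl m)) (blk cl m) := by
  classical
  intro j
  have h1 : Thin613.wt (PL547.tw θ (colS cl m)) (fib (blk cl m) j) =
      ∑ x : Vt (cl j.1), θ x.1 := by
    unfold Thin613.wt
    refine (Finset.sum_bij (fun x _ => (⟨j, x⟩ : Sm cl m)) ?_ ?_ ?_ ?_).symm
    · intro x _
      rw [mem_fib]; rfl
    · intro x _ y _ h
      simpa using h
    · rintro ⟨j', x⟩ hx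
      rw [mem_fib] at hx
      change j' = j at hx
      subst hx
      exact ⟨x, mem_univ _, rfl⟩
    · intro x _
      rfl
  rw [h1, sumVt (cl j.1) θ]
  have h2 := hcl j.1
  unfold thc at h2
  rw [← h2]
  refine Finset.sum_congr rfl fun i _ => ?_
  rw [nsmul_eq_mul, mul_comm]

theorem KL_homog (hcl : ∀ t, thc θ (cl t) = 0)
    (hsym : ∀ c e : I → ℕ, thc θ c = 0 → thc θ e = 0 → kk k c e = kk k e c) (m : T → ℕ) :
    (KL ℚ (ar k (colS cl m)) (blk cl m)).IsHomogeneous (NF (ar k (colS cl m)) (blk cl m)) := by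
  classical
  rw [KL_eq_KR, NF_eq (ar k (colS cl m)) (sym_col hsym (colS cl m)) (good_blk' hcl m)]
  unfold KR NR
  refine IsHomogeneous.prod _ _ _ fun x _ => ?_
  have := ((isHomogeneous_X ℚ x.2).sub (isHomogeneous_X ℚ x.1)).pow (ar k (colS cl m) x.1 x.2)
  rwa [one_mul] at this

theorem Kh_homog (hcl : ∀ t, thc θ (cl t) = 0)
    (hsym : ∀ c e : I → ℕ, thc θ c = 0 → thc θ e = 0 → kk k c e = kk k e c)
    (pt : ∀ t, Vt (cl t)) {m : T → ℕ} (φ : Wd 𝓛 m) : (φ.Kh pt).IsHomogeneous φ.dn := by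
  unfold Wd.Kh Wd.dn
  refine (KL_homog hcl hsym m).mul ?_
  unfold Wd.dg
  rw [Finset.sum_add_distrib]
  refine IsHomogeneous.mul ?_ ?_
  · unfold Wd.lp
    refine IsHomogeneous.prod _ _ _ fun j _ => ?_
    exact (𝓛.hom j.1 (φ.at j).l).rename_isHomogeneous
  · refine IsHomogeneous.prod _ _ _ fun j _ => ?_
    have := (isHomogeneous_X ℚ (⟨j, pt j.1⟩ : Sm cl m)).pow (φ.at j).a
    rwa [one_mul] at this

theorem el_homog (hcl : ∀ t, thc θ (cl t) = 0)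
    (hsym : ∀ c e : I → ℕ, thc θ c = 0 → thc θ e = 0 → kk k c e = kk k e c)
    (pt : ∀ t, Vt (cl t)) {d : I → ℕ} {m : Pl cl d} (φ : Wd 𝓛 m.1) :
    (φ.el pt).IsHomogeneous φ.dn := by
  unfold Wd.el
  exact isHomogeneous_alt ((Kh_homog hcl hsym pt φ).rename_isHomogeneous)

/-- `2 NF + ∑_j kk(c_j, c_j) = kk(d, d)` -/
theorem two_NF (hcl : ∀ t, thc θ (cl t) = 0)
    (hsym : ∀ c e : I → ℕ, thc θ c = 0 → thc θ e = 0 → kk k c e = kk k e c)
    {d : I → ℕ} (m : Pl cl d) :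
    2 * NF (ar k (colS cl m.1)) (blk cl m.1) + ∑ j : Jm m.1, kk k (cl j.1) (cl j.1) =
      kk k d d := by
  classical
  rw [two_mul_NF (ar k (colS cl m.1)) (sym_col hsym (colS cl m.1)) (good_blk' hcl m.1)]
  have h1 : ∑ a : Sm cl m.1, ∑ b : Sm cl m.1,
      (if blk cl m.1 a ≠ blk cl m.1 b then 0 else ar k (colS cl m.1) a b) =
      ∑ j : Jm m.1, kk k (cl j.1) (cl j.1) := by
    rw [Fintype.sum_sigma]
    refine Finset.sum_congr rfl fun j _ => ?_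
    rw [← sumVt2 k]
    refine Finset.sum_congr rfl fun x _ => ?_
    rw [Fintype.sum_sigma, Finset.sum_eq_single j]
    · refine Finset.sum_congr rfl fun y _ => ?_
      rw [if_neg (by simp [blk])]
      rfl
    · intro j' _ hj'
      refine Finset.sum_eq_zero fun y _ => ?_
      rw [if_pos]
      exact fun h => hj' h.symm
    · intro h
      exact absurd (mem_univ _) h
  have h2 : ∑ a : Sm cl m.1, ∑ b : Sm cl m.1, ar k (colS cl m.1) a b = kk k d d := by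
    rw [← sumVt2 k d d]
    refine Fintype.sum_equiv (Em cl d m) _ _ fun a => ?_
    refine Fintype.sum_equiv (Em cl d m) _ _ fun b => ?_
    have e1 := Em_col cl d m a
    have e2 := Em_col cl d m b
    unfold colV at e1 e2
    rw [e1, e2]
    rfl
  rw [← h1, ← h2]
  unfold N2
  rw [← Finset.sum_add_distrib]
  refine Finset.sum_congr rfl fun a _ => ?_
  rw [← Finset.sum_add_distrib]
  refine Finset.sum_congr rfl fun b _ => ?_
  by_cases h : blk cl m.1 a ≠ blk cl m.1 b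
  · rw [if_pos h, if_pos h, Nat.add_zero]
  · rw [if_neg h, if_neg h, Nat.zero_add]

end degree

section letters

variable {I : Type} [Fintype I] [DecidableEq I] {k : I → I → ℕ} {θ : I → ℤ}

/-- a global choice of letters -/
abbrev GLet (k : I → I → ℕ) (θ : I → ℤ) := Letters k θ (fun c : I → ℕ => c)

/-- restriction of a global choice of letters -/
def res (𝓖 : GLet k θ) {T : Type} (cl : T → I → ℕ) : Letters k θ cl where
  L t := 𝓖.L (cl t)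
  lo t := 𝓖.lo (cl t)
  pol t := 𝓖.pol (cl t)
  deg t := 𝓖.deg (cl t)
  hom t := 𝓖.hom (cl t)
  mem t := 𝓖.mem (cl t)
  indep t := 𝓖.indep (cl t)
  span t := 𝓖.span (cl t)
  fin t := 𝓖.fin (cl t)

/-- the nonzero types of weight zero below `d` -/
def TT (θ : I → ℤ) (d : I → ℕ) : Type := {c : I → ℕ // c ≠ 0 ∧ thc θ c = 0 ∧ c ≤ d}

instance (d : I → ℕ) : Finite (TT θ d) := by
  have : Finite {c : I → ℕ // c ≤ d} := (Set.finite_Iic d).to_subtype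
  exact Finite.of_injective (fun t : TT θ d => (⟨t.1, t.2.2.2⟩ : {c : I → ℕ // c ≤ d}))
    (fun a b h => by
      have h' := congrArg (fun x : {c : I → ℕ // c ≤ d} => x.1) h
      exact Subtype.ext h')

noncomputable instance (d : I → ℕ) : Fintype (TT θ d) := Fintype.ofFinite _

noncomputable instance (d : I → ℕ) : LinearOrder (TT θ d) :=
  LinearOrder.lift' (Fintype.equivFin (TT θ d)) (Equiv.injective _)

/-- the class of a type -/
def TT.cl {d : I → ℕ} (t : TT θ d) : I → ℕ := t.1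

theorem TT.cl_inj {d : I → ℕ} : Function.Injective (TT.cl (θ := θ) (d := d)) :=
  Subtype.val_injective

theorem TT.cl_ne {d : I → ℕ} (t : TT θ d) : TT.cl t ≠ 0 := t.2.1

theorem TT.cl_th {d : I → ℕ} (t : TT θ d) : thc θ (TT.cl t) = 0 := t.2.2.1

theorem TT.cl_le {d : I → ℕ} (t : TT θ d) : TT.cl t ≤ d := t.2.2.2

theorem TT.all {d : I → ℕ} (c : I → ℕ) (h0 : c ≠ 0) (h1 : thc θ c = 0) (h2 : c ≤ d) :
    ∃ t : TT θ d, TT.cl t = c := ⟨⟨c, h0, h1, h2⟩, rfl⟩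

theorem TT.exists_pt (d : I → ℕ) : Nonempty (∀ t : TT θ d, Vt (TT.cl t)) := by
  have : ∀ t : TT θ d, Nonempty (Vt (TT.cl t)) := by
    intro t
    obtain ⟨i, hi⟩ := Function.ne_iff.1 t.cl_ne
    exact ⟨⟨i, ⟨0, Nat.pos_of_ne_zero hi⟩⟩⟩
  exact ⟨fun t => (this t).some⟩

/-- all the words: a place and an admissible word -/
abbrev AW (𝓖 : GLet k θ) (d : I → ℕ) : Type :=
  Σ m : Pl (TT.cl (θ := θ) (d := d)) d, {φ : Wd (res 𝓖 (TT.cl (θ := θ) (d := d))) m.1 // φ.Adm}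

/-- the letters -/
def Lam (𝓖 : GLet k θ) : Type := Σ c : {c : I → ℕ // c ≠ 0 ∧ thc θ c = 0}, 𝓖.L c.1

/-- class of a letter -/
noncomputable def cL {𝓖 : GLet k θ} (x : Lam 𝓖) : I →₀ ℕ := Finsupp.equivFunOnFinite.symm x.1.1

/-- degree of a letter -/
def pL {𝓖 : GLet k θ} (x : Lam 𝓖) : ℕ := 𝓖.deg x.1.1 x.2

theorem cL_coe {𝓖 : GLet k θ} (x : Lam 𝓖) : ⇑(cL x) = x.1.1 := rfl

theorem cL_ne {𝓖 : GLet k θ} (x : Lam 𝓖) : cL x ≠ 0 := by
  intro h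
  apply x.1.2.1
  rw [← cL_coe, h]
  rfl

theorem cL_th {𝓖 : GLet k θ} (x : Lam 𝓖) : ABOut.th θ (cL x) = 0 := by
  rw [← thc_eq, cL_coe]
  exact x.1.2.2

theorem fin_L (𝓖 : GLet k θ) (c : I →₀ ℕ) (p : ℕ) :
    {b : Lam 𝓖 | cL b = c ∧ pL b = p}.Finite := by
  by_cases hc : (⇑c : I → ℕ) ≠ 0 ∧ thc θ ⇑c = 0
  · refine ((𝓖.fin ⇑c p).image (fun l => (⟨⟨⇑c, hc⟩, l⟩ : Lam 𝓖))).subset ?_
    rintro ⟨⟨c', hc'⟩, l⟩ ⟨h1, h2⟩
    have h3 : c' = ⇑c := by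
      rw [← h1]; rfl
    subst h3
    exact ⟨l, h2, rfl⟩
  · convert Set.finite_empty
    rw [Set.eq_empty_iff_forall_notMem]
    rintro ⟨⟨c', hc'⟩, l⟩ ⟨h1, _⟩
    apply hc
    have h3 : c' = ⇑c := by
      rw [← h1]; rfl
    rw [← h3]
    exact hc'

/-- the letters with exponents of the types below `d` -/
def EE (𝓖 : GLet k θ) (d : I → ℕ) (x : Σ t : TT θ d, Al ((res 𝓖 (TT.cl (θ := θ) (d := d))).L t)) :
    Lam 𝓖 × ℕ :=
  (⟨⟨x.1.1, x.1.2.1, x.1.2.2.1⟩, x.2.l⟩, x.2.a)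

theorem EE_inj (𝓖 : GLet k θ) (d : I → ℕ) : Function.Injective (EE 𝓖 d) := by
  rintro ⟨⟨c, hc⟩, ⟨l, a⟩⟩ ⟨⟨c', hc'⟩, ⟨l', a'⟩⟩ h
  have h1 := congrArg Prod.fst h
  have h2 : a = a' := congrArg Prod.snd h
  have h3 : c = c' := congrArg (fun x : Lam 𝓖 => x.1.1) h1
  subst h3
  subst h2
  have h4 : l = l' := by
    have := (Sigma.mk.inj_iff.1 h1).2
    exact eq_of_heq this
  rw [h4]

theorem EE_range (𝓖 : GLet k θ) (d : I → ℕ) (b : Lam 𝓖 × ℕ) (h : b.1.1.1 ≤ d) :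
    ∃ x, EE 𝓖 d x = b := by
  obtain ⟨⟨⟨c, hc⟩, l⟩, a⟩ := b
  exact ⟨⟨⟨c, hc.1, hc.2, h⟩, ⟨l, a⟩⟩, rfl⟩

end letters

section count

variable {I : Type} [Fintype I] [DecidableEq I] {k : I → I → ℕ} {θ : I → ℤ}

/-- the multiset of letters of a word -/
noncomputable def toMs (𝓖 : GLet k θ) (d : I → ℕ) (x : AW 𝓖 d) : Multiset (Lam 𝓖 × ℕ) :=
  ms (EE 𝓖 d) x.2.1

theorem sum_toMs {M : Type*} [AddCommMonoid M] (𝓖 : GLet k θ) (d : I → ℕ)
    (f : Lam 𝓖 × ℕ → M) (x : AW 𝓖 d) :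
    ((toMs 𝓖 d x).map f).sum =
      ∑ j : Jm x.1.1, f (EE 𝓖 d ⟨j.1, x.2.1 j.1 j.2⟩) := sum_ms f x.2.1

theorem sum_cL (𝓖 : GLet k θ) (d : I →₀ ℕ) (m : TT θ ⇑d → ℕ)
    (φ : ∀ t, Fin (m t) → Al ((res 𝓖 (TT.cl (θ := θ) (d := ⇑d))).L t)) :
    ((ms (EE 𝓖 ⇑d) φ).map fun x => cL x.1).sum = d ↔ ∀ i, ∑ t, m t * TT.cl t i = d i := by
  rw [sum_ms, DFunLike.ext_iff]
  refine forall_congr' fun i => ?_
  rw [Finsupp.finsetSum_apply, Fintype.sum_sigma]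
  have h : ∀ t : TT θ ⇑d, ∑ r : Fin (m t), (cL (EE 𝓖 ⇑d ⟨t, φ t r⟩).1) i =
      m t * TT.cl t i := by
    intro t
    have h1 : ∀ r : Fin (m t), (cL (EE 𝓖 ⇑d ⟨t, φ t r⟩).1) i = TT.cl t i := fun r => rfl
    rw [Finset.sum_congr rfl fun r _ => h1 r, Finset.sum_const, Finset.card_univ,
      Fintype.card_fin, smul_eq_mul]
  rw [Finset.sum_congr rfl fun t _ => h t]

theorem deg_iff (hsym : ∀ c e : I → ℕ, thc θ c = 0 → thc θ e = 0 → kk k c e = kk k e c)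
    (𝓖 : GLet k θ) (d : I →₀ ℕ) (x : AW 𝓖 ⇑d) (n : ℕ) :
    (2 * n + ((toMs 𝓖 ⇑d x).map fun x => NumA217.kkN k (cL x.1) (cL x.1)).sum =
      2 * ((toMs 𝓖 ⇑d x).map fun x => pL x.1 + x.2).sum + NumA217.kkN k d d) ↔
      x.2.1.dn = n := by
  rw [sum_toMs, sum_toMs]
  have h1 := two_NF (k := k) (θ := θ) (cl := TT.cl (θ := θ) (d := ⇑d)) (fun t => t.cl_th)
    hsym x.1
  have h2 : ∑ j : Jm x.1.1, NumA217.kkN k (cL (EE 𝓖 ⇑d ⟨j.1, x.2.1 j.1 j.2⟩).1)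
      (cL (EE 𝓖 ⇑d ⟨j.1, x.2.1 j.1 j.2⟩).1) =
      ∑ j : Jm x.1.1, kk k (TT.cl j.1) (TT.cl j.1) := rfl
  have h3 : ∑ j : Jm x.1.1, (pL (EE 𝓖 ⇑d ⟨j.1, x.2.1 j.1 j.2⟩).1 +
      (EE 𝓖 ⇑d ⟨j.1, x.2.1 j.1 j.2⟩).2) = x.2.1.dg := rfl
  rw [h2, h3, ← kk_eq k d d]
  unfold Wd.dn
  omega

theorem card_words (hsym : ∀ c e : I → ℕ, thc θ c = 0 → thc θ e = 0 → kk k c e = kk k e c)
    (𝓖 : GLet k θ) (inst : DecidableEq (Lam 𝓖 × ℕ)) (d : I →₀ ℕ) (n : ℕ) :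
    Nat.card {x : AW 𝓖 ⇑d // x.2.1.dn = n} = (NumForm217.SMm (A := Lam 𝓖 × ℕ)
      (fun x => Odd ((∑ i, cL x.1 i) + NumA217.kkN k (cL x.1) (cL x.1)))
      (fun x => cL x.1)
      (fun x => NumA217.kkN k (cL x.1) (cL x.1))
      (fun x => pL x.1 + x.2)
      (NumA217.kkN k d d) d n).ncard := by
  let : ∀ t : TT θ ⇑d, LinearOrder (Al ((res 𝓖 (TT.cl (θ := θ) (d := ⇑d))).L t)) :=
    fun t => @instLinearOrderAl _ ((res 𝓖 (TT.cl (θ := θ) (d := ⇑d))).lo t)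
  rw [← Nat.card_coe_set_eq]
  have hmem : ∀ x : AW 𝓖 ⇑d, x.2.1.dn = n → toMs 𝓖 ⇑d x ∈ NumForm217.SMm (A := Lam 𝓖 × ℕ)
      (fun x => Odd ((∑ i, cL x.1 i) + NumA217.kkN k (cL x.1) (cL x.1)))
      (fun x => cL x.1)
      (fun x => NumA217.kkN k (cL x.1) (cL x.1))
      (fun x => pL x.1 + x.2)
      (NumA217.kkN k d d) d n := by
    intro x hx
    refine ⟨?_, (sum_cL 𝓖 d x.1.1 x.2.1).2 x.1.2, (deg_iff hsym 𝓖 d x n).2 hx⟩
    intro b hb hodd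
    obtain ⟨j, rfl⟩ := mem_ms.1 hb
    have h1 : Function.Injective (x.2.1 j.1) := (x.2.2 j.1).2 hodd
    have h2 := count_ms (EE_inj 𝓖 ⇑d) x.2.1 j.1 (x.2.1 j.1 j.2)
    unfold toMs
    rw [h2]
    exact (inj_iff_count (x.2.1 j.1)).1 h1 _
  refine Nat.card_congr (Equiv.ofBijective (fun x => ⟨toMs 𝓖 ⇑d x.1, hmem x.1 x.2⟩) ⟨?_, ?_⟩)
  · rintro ⟨⟨⟨m, hm⟩, ⟨φ, hφ⟩⟩, hx⟩ ⟨⟨⟨m', hm'⟩, ⟨φ', hφ'⟩⟩, hx'⟩ h
    have h1 : ms (EE 𝓖 ⇑d) φ = ms (EE 𝓖 ⇑d) φ' := congrArg Subtype.val h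
    have h2 := ms_inj (EE_inj 𝓖 ⇑d) (fun t => (hφ t).1) (fun t => (hφ' t).1) h1
    have hmm : m = m' := congrArg Sigma.fst h2
    subst hmm
    have h3 : φ = φ' := eq_of_heq (Sigma.mk.inj_iff.1 h2).2
    subst h3
    rfl
  · rintro ⟨s, hs1, hs2, hs3⟩
    have hr : ∀ b ∈ s, ∃ y, EE 𝓖 ⇑d y = b := by
      intro b hb
      apply EE_range
      have h1 : cL b.1 ≤ d := by
        have h2 : cL b.1 ∈ s.map (fun x => cL x.1) := Multiset.mem_map_of_mem _ hb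
        have h3 := Multiset.single_le_sum (s := s.map (fun x : Lam 𝓖 × ℕ => cL x.1))
          (fun x _ => zero_le) _ h2
        rw [hs2] at h3
        exact h3
      exact h1
    obtain ⟨m, φ, h1, h2⟩ := ms_surj (EE_inj 𝓖 ⇑d) s hr
    have hm : ∀ i, ∑ t, m t * TT.cl t i = d i := by
      rw [← sum_cL 𝓖 d m φ, h2]
      exact hs2
    have hadm : Wd.Adm (𝓛 := res 𝓖 (TT.cl (θ := θ) (d := ⇑d))) (m := m) φ := by
      intro t
      refine ⟨h1 t, fun hodd => ?_⟩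
      rw [inj_iff_count]
      intro y
      rw [← count_ms (EE_inj 𝓖 ⇑d) φ t y, h2]
      by_cases hy : EE 𝓖 ⇑d ⟨t, y⟩ ∈ s
      · exact hs1 _ hy hodd
      · rw [Multiset.count_eq_zero_of_notMem hy]
        exact Nat.zero_le _
    let x : AW 𝓖 ⇑d := ⟨⟨m, hm⟩, ⟨φ, hadm⟩⟩
    have hxs : toMs 𝓖 ⇑d x = s := h2
    refine ⟨⟨x, ?_⟩, Subtype.ext hxs⟩
    rw [← deg_iff hsym 𝓖 d x n, hxs]
    exact hs3

end count

section final

variable {I : Type} [Fintype I] [DecidableEq I] {k : I → I → ℕ} {θ : I → ℤ}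

theorem J0s_graded {P : Type} [Fintype P] [DecidableEq P] (c : P → I) :
    ∀ f ∈ J0s k θ c, ∀ n, homogeneousComponent n f ∈ J0s k θ c := by
  intro f hf n
  refine DimCount830.component_mem_span _ ?_ f hf n
  rintro g ⟨S, _, _, rfl⟩
  exact ⟨_, DimCount830.isHomogeneous_KK _ _ _⟩

theorem AltSub_eq {P : Type} [Fintype P] [DecidableEq P] (c : P → I) :
    Bridge830.AltSub c = Anti c := rfl

theorem Ile_eq {P : Type} [Fintype P] [DecidableEq P] (c : P → I) :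
    Alt599.Ile k c θ univ = Anti c ⊓ J0s k θ c := by
  rw [Bridge830.Ile_univ_eq, AltSub_eq, ← Bridge830.J0_eq_Jid]
  rfl

theorem hle_eq (hsym : ∀ c e : I → ℕ, thc θ c = 0 → thc θ e = 0 → kk k c e = kk k e c)
    (𝓖 : GLet k θ) (d : I →₀ ℕ) (pt : ∀ t : TT θ ⇑d, Vt (TT.cl t))
    (ind : LinearIndependent ℚ (fun x : AW 𝓖 ⇑d => (J0s k θ (colV ⇑d)).mkQ (x.2.1.el pt)))
    (sp : Anti (colV ⇑d) ≤ J0s k θ (colV ⇑d) ⊔
      Submodule.span ℚ (Set.range fun x : AW 𝓖 ⇑d => x.2.1.el pt)) (n : ℕ) :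
    Alt599.hle k θ d n = Nat.card {x : AW 𝓖 ⇑d // x.2.1.dn = n} := by
  have h1 := DimCount830.count_sub (Anti (colV ⇑d)) (J0s k θ (colV ⇑d))
    (fun x : AW 𝓖 ⇑d => x.2.1.el pt) (fun x => x.2.1.dn) (J0s_graded (colV ⇑d))
    (fun x => alt_mem _ _) (fun x => el_homog (fun t => t.cl_th) hsym pt x.2.1) ind sp n
  rw [← h1]
  unfold Alt599.hle Alt599.hd
  rw [Bridge830.H_univ_eq, Ile_eq, AltSub_eq, inf_comm (Anti _), inf_comm (Anti _ ⊓ _),
    ← inf_assoc]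
  rfl

/-- **Theorem B from the basis theorem** -/
theorem thB_of_basis
    (hs : ∀ d e : I →₀ ℕ, ABOut.th θ d = 0 → ABOut.th θ e = 0 → ABOut.kk k d e = ABOut.kk k e d)
    (𝓖 : GLet k θ)
    (hbas : ∀ d : I → ℕ, thc θ d = 0 → ∃ pt : ∀ t : TT θ d, Vt (TT.cl t),
      LinearIndependent ℚ (fun x : AW 𝓖 d => (J0s k θ (colV d)).mkQ (x.2.1.el pt)) ∧
      Anti (colV d) ≤ J0s k θ (colV d) ⊔
        Submodule.span ℚ (Set.range fun x : AW 𝓖 d => x.2.1.el pt)) :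
    ∃ (Lam : Type) (cL : Lam → (I →₀ ℕ)) (pL : Lam → ℕ),
        (∀ b, cL b ≠ 0) ∧ (∀ b, ABOut.th θ (cL b) = 0) ∧
        (∀ (c : I →₀ ℕ) (p : ℕ), {b | cL b = c ∧ pL b = p}.Finite) ∧
        ∀ (inst : DecidableEq (Lam × ℕ)) (d : I →₀ ℕ), ABOut.th θ d = 0 → ∀ n,
          Alt599.hle k θ d n = (NumForm217.SMm (A := Lam × ℕ)
            (fun x => Odd ((∑ i, cL x.1 i) + NumA217.kkN k (cL x.1) (cL x.1)))
            (fun x => cL x.1)
            (fun x => NumA217.kkN k (cL x.1) (cL x.1))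
            (fun x => pL x.1 + x.2)
            (NumA217.kkN k d d) d n).ncard := by
  have hsym : ∀ c e : I → ℕ, thc θ c = 0 → thc θ e = 0 → kk k c e = kk k e c := by
    intro c e hc he
    have h1 := hs (Finsupp.equivFunOnFinite.symm c) (Finsupp.equivFunOnFinite.symm e)
      (by rw [← thc_eq]; exact hc) (by rw [← thc_eq]; exact he)
    rw [ABOut.kk_apply, ABOut.kk_apply] at h1
    unfold kk
    exact_mod_cast h1
  refine ⟨Lam 𝓖, cL, pL, cL_ne, cL_th, fin_L 𝓖, fun inst d hd n => ?_⟩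
  obtain ⟨pt, ind, sp⟩ := hbas ⇑d (by rw [thc_eq]; exact hd)
  rw [hle_eq hsym 𝓖 d pt ind sp n, card_words hsym 𝓖 inst d n]

/-- **`ABNum` from the basis theorem** -/
theorem abNum_of_basis
    (h : ∀ (I : Type) [Fintype I] [DecidableEq I] (k : I → I → ℕ) (θ : I → ℤ),
      (∀ c e : I → ℕ, thc θ c = 0 → thc θ e = 0 → kk k c e = kk k e c) →
      ∃ 𝓖 : GLet k θ, ∀ d : I → ℕ, thc θ d = 0 → ∃ pt : ∀ t : TT θ d, Vt (TT.cl t),
        LinearIndependent ℚ (fun x : AW 𝓖 d => (J0s k θ (colV d)).mkQ (x.2.1.el pt)) ∧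
        Anti (colV d) ≤ J0s k θ (colV d) ⊔
          Submodule.span ℚ (Set.range fun x : AW 𝓖 d => x.2.1.el pt)) : ABNum := by
  refine ThaBind599.abNum_of_thB ?_
  intro I _ _ k θ hs
  have hsym : ∀ c e : I → ℕ, thc θ c = 0 → thc θ e = 0 → kk k c e = kk k e c := by
    intro c e hc he
    have h1 := hs (Finsupp.equivFunOnFinite.symm c) (Finsupp.equivFunOnFinite.symm e)
      (by rw [← thc_eq]; exact hc) (by rw [← thc_eq]; exact he)
    rw [ABOut.kk_apply, ABOut.kk_apply] at h1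
    unfold kk
    exact_mod_cast h1
  obtain ⟨𝓖, h𝓖⟩ := h I k θ hsym
  exact thB_of_basis hs 𝓖 h𝓖

end final

end Crest.Agent.R059.Cnt231
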