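import Crest.Agent.R059.Fac_150
import Crest.Agent.R059.Tr_201
import Crest.Agent.R059.TransA_569

set_option autoImplicit false
set_option linter.unusedSectionVars false

/-!
Row 59 (S0081), block TRANS (FL4), concrete part.  `F_m(x) = (conj x a F).co m`,
`T_g = (conj (s g) a F).co g`.
-/

namespace Crest.Agent.R059.Trans569

open Finset TPS

section
variable {ι : Type} [DecidableEq ι] {R : Type*} [CommRing R] {T : Tw (ι →₀ ℕ) R}

/-- all coefficients in `P`. -/
def NonnegOn (P : Subsemiring R) (f : TPS T) : Prop := ∀ d, f.co d ∈ P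

/-- positivity of all crossings of the walls of `a` (the form `s`). -/
def CrossPos (s : (ι →₀ ℕ) →+ (ι →₀ ℕ) →+ ℤ) (P : Subsemiring R) (a : TPS T) : Prop :=
  ∀ {V : Type} [AddCommGroup V] [LinearOrder V] [IsOrderedAddMonoid V]
    (p : (ι →₀ ℕ) →+ V) (c : ι →₀ ℕ), KerRay p c → ∀ m : ι →₀ ℕ,
    (0 < s m c → ∃ U : TPS T, NonnegOn P U ∧ zer p a * Y T m = U * zer p a) ∧
    (s m c < 0 → ∃ U : TPS T, NonnegOn P U ∧ Y T m * zer p a = zer p a * U)

/-- coefficients of a sandwich. -/
theorem co_sandwich (A G B : TPS T) (m : ι →₀ ℕ) :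
    (A * G * B).co m = ∑ e ∈ Finset.Iic m, G.co e * (A * Y T e * B).co m := by
  classical
  have h1 : (A * G * B).co m =
      (A * (∑ e ∈ Finset.Iic m, G.co e • Y T e) * B).co m := by
    refine co_mul_congr_le m (fun e he => ?_) (fun _ _ => rfl)
    refine co_mul_congr_le e (fun _ _ => rfl) (fun c hc => ?_)
    have h2 : ∀ (S : Finset (ι →₀ ℕ)), (∑ e ∈ S, G.co e • Y T e).co c
        = ∑ e ∈ S, (G.co e • Y T e).co c := by
      intro S
      induction S using Finset.induction_on with
      | empty => simp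
      | insert a S ha ih => rw [Finset.sum_insert ha, Finset.sum_insert ha, co_add, ih]
    rw [h2, Finset.sum_eq_single c]
    · rw [co_smul, Y, co_mono_self, mul_one]
    · intro b _ hb
      rw [co_smul, Y, co_mono_ne hb.symm, mul_zero]
    · intro h
      exact absurd (Finset.mem_Iic.2 (hc.trans he)) h
  rw [h1]
  have h3 : ∀ (S : Finset (ι →₀ ℕ)), (A * (∑ e ∈ S, G.co e • Y T e) * B).co m
      = ∑ e ∈ S, G.co e * (A * Y T e * B).co m := by
    intro S
    induction S using Finset.induction_on with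
    | empty => simp
    | insert a S ha ih =>
      rw [Finset.sum_insert ha, Finset.sum_insert ha, mul_add, add_mul, co_add, ih]
      congr 1
      rw [mul_smul'', TPS.smul_mul', co_smul]
  exact h3 _

/-- on the kernel of a ray functional `s m` is proportional. -/
theorem KerRay.sgn {V : Type} [AddCommGroup V] [LinearOrder V] [IsOrderedAddMonoid V]
    {p : (ι →₀ ℕ) →+ V} {c : ι →₀ ℕ} (h : KerRay p c) {e : ι →₀ ℕ} (he : p e = 0) (h0 : e ≠ 0) :
    ∃ k j : ℕ, 0 < k ∧ 0 < j ∧ k • e = j • c := by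
  obtain ⟨k, i, j, hk, hij⟩ := h.2.2 e 0 (by rw [he, map_zero])
  rw [smul_zero, zero_add] at hij
  have hle : i ≤ j := by
    by_contra hlt
    rw [not_le] at hlt
    obtain ⟨r, rfl⟩ := Nat.exists_eq_add_of_lt hlt
    obtain ⟨t, ht⟩ : ∃ t, c t ≠ 0 := by
      by_contra hc
      push Not at hc
      exact h.1 (Finsupp.ext hc)
    have := DFunLike.congr_fun hij t
    simp only [Finsupp.add_apply, Finsupp.smul_apply, smul_eq_mul] at this
    have hpos : 0 < c t := Nat.pos_of_ne_zero ht
    nlinarith [Nat.zero_le (k * e t), Nat.zero_le (r * c t)]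
  obtain ⟨r, rfl⟩ := Nat.exists_eq_add_of_le hle
  have h2 : k • e = r • c := by
    rw [add_smul, add_comm] at hij
    exact add_left_cancel hij
  refine ⟨k, r, hk, ?_, h2⟩
  rcases Nat.eq_zero_or_pos r with hr | hr
  · exfalso
    rw [hr, zero_smul] at h2
    apply h0
    ext t
    have := DFunLike.congr_fun h2 t
    simp only [Finsupp.smul_apply, smul_eq_mul, Finsupp.zero_apply, mul_eq_zero] at this
    rcases this with h | h
    · omega
    · exact h
  · exact hr

theorem KerRay.s_self {s : (ι →₀ ℕ) →+ (ι →₀ ℕ) →+ ℤ} (hs : ∀ a b, s a b = - s b a)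
    {V : Type} [AddCommGroup V] [LinearOrder V] [IsOrderedAddMonoid V]
    {p : (ι →₀ ℕ) →+ V} {c : ι →₀ ℕ} (h : KerRay p c) {e : ι →₀ ℕ} (he : p e = 0) :
    s e c = 0 := by
  by_cases h0 : e = 0
  · subst h0; simp
  obtain ⟨k, j, hk, hj, hkj⟩ := h.sgn he h0
  have h1 : s (k • e) c = 0 := by
    rw [hkj, map_nsmul, AddMonoidHom.nsmul_apply]
    have : s c c = 0 := by have := hs c c; omega
    rw [this, smul_zero]
  rw [map_nsmul, AddMonoidHom.nsmul_apply, smul_eq_zero] at h1
  rcases h1 with h1 | h1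
  · omega
  · exact h1

theorem KerRay.s_pos {s : (ι →₀ ℕ) →+ (ι →₀ ℕ) →+ ℤ}
    {V : Type} [AddCommGroup V] [LinearOrder V] [IsOrderedAddMonoid V]
    {p : (ι →₀ ℕ) →+ V} {c : ι →₀ ℕ} (h : KerRay p c) {e m : ι →₀ ℕ} (he : p e = 0)
    (h0 : e ≠ 0) : (0 < s m c → 0 < s m e) ∧ (s m c < 0 → s m e < 0) := by
  obtain ⟨k, j, hk, hj, hkj⟩ := h.sgn he h0
  have h1 : (k : ℤ) * s m e = (j : ℤ) * s m c := by
    have := congrArg (s m) hkj
    rw [map_nsmul, map_nsmul, nsmul_eq_mul, nsmul_eq_mul] at this
    exact this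
  have hk' : (0 : ℤ) < k := by exact_mod_cast hk
  have hj' : (0 : ℤ) < j := by exact_mod_cast hj
  constructor
  · intro h2
    have h3 : 0 < (k : ℤ) * s m e := h1 ▸ mul_pos hj' h2
    exact (mul_pos_iff_of_pos_left hk').1 h3
  · intro h2
    have h3 : (k : ℤ) * s m e < 0 := h1 ▸ mul_neg_of_pos_of_neg hj' h2
    by_contra h4
    rw [not_lt] at h4
    exact absurd h3 (not_lt.2 (mul_nonneg hk'.le h4))

/-- exponents of `z Y_e w` for `z, w` supported on a submonoid given by `p = 0`. -/
theorem co_sandwich_zero {V : Type} [AddCommGroup V] [LinearOrder V] [IsOrderedAddMonoid V]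
    {p : (ι →₀ ℕ) →+ V} {z w : TPS T} (hz : In1 (fun d => p d = 0) z)
    (hw : In1 (fun d => p d = 0) w) {e m : ι →₀ ℕ}
    (h : (z * Y T e * w).co m ≠ 0) : ∃ r, p r = 0 ∧ m = e + r := by
  have hz' : Supp (fun d => p d = 0) z := by
    intro d hd
    by_cases h0 : d = 0
    · subst h0; exact absurd (map_zero p) hd
    · exact hz.supp d h0 hd
  have hw' : Supp (fun d => p d = 0) w := by
    intro d hd
    by_cases h0 : d = 0
    · subst h0; exact absurd (map_zero p) hd
    · exact hw.supp d h0 hd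
  have hY : Supp (fun d => d = e) (Y T e) := fun d hd => co_mono_ne hd 1
  have h1 : Supp (fun d => ∃ r, p r = 0 ∧ d = e + r) (z * Y T e) := by
    refine hz'.mul hY ?_
    rintro a b ha rfl
    exact ⟨a, ha, add_comm _ _⟩
  have h2 : Supp (fun d => ∃ r, p r = 0 ∧ d = e + r) (z * Y T e * w) := by
    refine h1.mul hw' ?_
    rintro a b ⟨r, hr, rfl⟩ hb
    exact ⟨r + b, by rw [map_add, hr, hb, add_zero], add_assoc _ _ _⟩
  by_contra h3
  exact h (h2 m h3)

/-- the diagonal coefficient of a sandwich. -/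
theorem co_sandwich_self {z w : TPS T} (hz : z.co 0 = 1) (hw : w.co 0 = 1) (m : ι →₀ ℕ) :
    (z * Y T m * w).co m = 1 := by
  have key : ∀ (f g : TPS T) (m : ι →₀ ℕ), (∀ e, f.co e ≠ 0 → m ≤ e) → g.co 0 = 1 →
      (f * g).co m = f.co m := by
    intro f g m hf hg
    rw [co_mul, Finset.sum_eq_single (m, 0)]
    · simp [wt_zero_right, hg]
    · rintro ⟨a, b⟩ hp hne
      rw [HasAntidiagonal.mem_antidiagonal] at hp
      by_cases ha : f.co a = 0
      · simp [ha]
      · exfalso
        have h1 := hf a ha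
        simp only at hp
        have h2 : a ≤ m := hp ▸ le_self_add
        have h3 : a = m := le_antisymm h2 h1
        apply hne
        subst h3
        have h4 : b = 0 := by
          have : a + b = a + 0 := by rw [hp, add_zero]
          exact add_left_cancel this
        rw [h4]
    · intro h; exact absurd (by simp [HasAntidiagonal.mem_antidiagonal]) h
  have key2 : (z * Y T m).co m = 1 := by
    rw [co_mul, Finset.sum_eq_single (0, m)]
    · simp [wt_zero_left, hz, Y, co_mono_self]
    · rintro ⟨a, b⟩ hp hne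
      rw [HasAntidiagonal.mem_antidiagonal] at hp
      by_cases hb : b = m
      · exfalso
        apply hne
        subst hb
        have h4 : a = 0 := by
          have : a + b = 0 + b := by simp only at hp; rw [hp, zero_add]
          exact add_right_cancel this
        rw [h4]
      · simp [Y, co_mono_ne hb]
    · intro h; exact absurd (by simp [HasAntidiagonal.mem_antidiagonal]) h
  rw [key _ _ _ _ hw, key2]
  intro e he
  rw [co_mul] at he
  obtain ⟨p, hp, hne⟩ := Finset.exists_ne_zero_of_sum_ne_zero he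
  rw [HasAntidiagonal.mem_antidiagonal] at hp
  have hb : p.2 = m := by
    by_contra hb
    apply hne
    rw [Y, co_mono_ne hb]
    ring
  rw [← hp, hb]
  exact le_add_self

variable {s : (ι →₀ ℕ) →+ (ι →₀ ℕ) →+ ℤ} {P : Subsemiring R}

/-- signs of the kernel on both sides. -/
theorem cross_pos_side {a : TPS T} (ha : a.co 0 = 1) (F : TPS T)
    {V : Type} [AddCommGroup V] [LinearOrder V] [IsOrderedAddMonoid V]
    {p : (ι →₀ ℕ) →+ V} {g : ι →₀ ℕ} (hp : KerRay p g) {m : ι →₀ ℕ} (hm : 0 < s m g)
    (d : ι →₀ ℕ) :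
    (conj (lexF p (s m)) a F).co d = (cj (zer p a) (conj p a F)).co d ∧
    (conj (lexF p (-(s m))) a F).co d = (conj p a F).co d := by
  refine conj_cross p (s m) (lexF p (s m)) (lexF p (-(s m))) ha F d
    (fun e _ => lexF_pos) (fun e _ => ?_) (fun e _ h0 he => ?_)
  · rw [lexF_pos]; simp
  · rcases (in1_zer p a).eq_zero_or he with h | h
    · exact absurd h h0
    · exact (hp.s_pos h h0).1 hm

theorem cross_neg_side {a : TPS T} (ha : a.co 0 = 1) (F : TPS T)
    {V : Type} [AddCommGroup V] [LinearOrder V] [IsOrderedAddMonoid V]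
    {p : (ι →₀ ℕ) →+ V} {g : ι →₀ ℕ} (hp : KerRay p g) {m : ι →₀ ℕ} (hm : s m g < 0)
    (d : ι →₀ ℕ) :
    (conj (lexF p (-(s m))) a F).co d = (cj (zer p a) (conj p a F)).co d ∧
    (conj (lexF p (s m)) a F).co d = (conj p a F).co d := by
  refine conj_cross p (-(s m)) (lexF p (-(s m))) (lexF p (s m)) ha F d
    (fun e _ => lexF_pos) (fun e _ => ?_) (fun e _ h0 he => ?_)
  · rw [lexF_pos]; simp
  · rcases (in1_zer p a).eq_zero_or he with h | h
    · exact absurd h h0
    · have := (hp.s_pos h h0).2 hm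
      simpa using this

/-- the crossing coefficients, explicit. -/
theorem cross_explicit {a : TPS T} (ha : a.co 0 = 1) (F : TPS T)
    {V : Type} [AddCommGroup V] [LinearOrder V] [IsOrderedAddMonoid V]
    {p : (ι →₀ ℕ) →+ V} {g : ι →₀ ℕ} (hp : KerRay p g) {m : ι →₀ ℕ} (hm : 0 < s m g) :
    (conj (lexF p (-(s m))) a F).co m = ∑ e ∈ Finset.Iic m,
      (zer p a * Y T e * inv (zer p a)).co m * (conj (lexF p (s m)) a F).co e := by
  have h1 := (cross_pos_side (F := F) ha hp hm m).2
  have h2 : conj p a F = zer p a * cj (zer p a) (conj p a F) * inv (zer p a) := by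
    have h3 := cj_inv_cj (zer_co_zero p a) (conj p a F)
    conv_lhs => rw [← h3]
    rw [cj, TPS.inv_inv (zer_co_zero p a)]
  rw [h1, h2, co_sandwich]
  refine Finset.sum_congr rfl (fun e _ => ?_)
  rw [(cross_pos_side (F := F) ha hp hm e).1, mul_comm]

theorem cross_explicit_neg {a : TPS T} (ha : a.co 0 = 1) (F : TPS T)
    {V : Type} [AddCommGroup V] [LinearOrder V] [IsOrderedAddMonoid V]
    {p : (ι →₀ ℕ) →+ V} {g : ι →₀ ℕ} (hp : KerRay p g) {m : ι →₀ ℕ} (hm : s m g < 0) :
    (conj (lexF p (-(s m))) a F).co m = ∑ e ∈ Finset.Iic m,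
      (inv (zer p a) * Y T e * zer p a).co m * (conj (lexF p (s m)) a F).co e := by
  have h1 := (cross_neg_side (F := F) ha hp hm m).1
  rw [h1, cj, co_sandwich]
  refine Finset.sum_congr rfl (fun e _ => ?_)
  rw [(cross_neg_side (F := F) ha hp hm e).2, mul_comm]

/-- the transport data of `a`, `F`. -/
noncomputable def tdata (hs : ∀ a b, s a b = - s b a) {a : TPS T} (ha : a.co 0 = 1)
    (hcr : CrossPos s P a) (F : TPS T) : TData s P where
  c x m := (conj x a F).co m
  loc x y m h := conj_congr x y ha F m (fun e he => (h e he).1)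
  cross {V} _ _ _ p g hp m hm := by
    classical
    have hz1 := in1_zer p a
    have hz2 : In1 (fun d => p d = 0) (inv (zer p a)) := hz1.inv (closed_zero p)
    rcases lt_or_gt_of_ne hm with hm | hm
    · refine ⟨fun e => (inv (zer p a) * Y T e * zer p a).co m, ?_, ?_, ?_⟩
      · intro e
        show (inv (zer p a) * Y T e * zer p a).co m ∈ P
        by_cases h : (inv (zer p a) * Y T e * zer p a).co m = 0
        · rw [h]; exact P.zero_mem
        · obtain ⟨r, hr, hmr⟩ := co_sandwich_zero hz2 hz1 h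
          have he : s e g < 0 := by
            rw [hmr, map_add, AddMonoidHom.add_apply, hp.s_self hs hr, add_zero] at hm
            exact hm
          obtain ⟨U, hU, hUe⟩ := (hcr p g hp e).2 he
          have : inv (zer p a) * Y T e * zer p a = U := by
            rw [mul_assoc, hUe, ← mul_assoc, inv_mul (zer_co_zero p a), one_mul]
          rw [this]
          exact hU m
      · exact co_sandwich_self (TPS.inv_zero _) (zer_co_zero p a) m
      · exact cross_explicit_neg ha F hp hm
    · refine ⟨fun e => (zer p a * Y T e * inv (zer p a)).co m, ?_, ?_, ?_⟩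
      · intro e
        show (zer p a * Y T e * inv (zer p a)).co m ∈ P
        by_cases h : (zer p a * Y T e * inv (zer p a)).co m = 0
        · rw [h]; exact P.zero_mem
        · obtain ⟨r, hr, hmr⟩ := co_sandwich_zero hz1 hz2 h
          have he : 0 < s e g := by
            rw [hmr, map_add, AddMonoidHom.add_apply, hp.s_self hs hr, add_zero] at hm
            exact hm
          obtain ⟨U, hU, hUe⟩ := (hcr p g hp e).1 he
          have : zer p a * Y T e * inv (zer p a) = U := by
            rw [hUe, mul_assoc, mul_inv (zer_co_zero p a), mul_one]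
          rw [this]
          exact hU m
      · exact co_sandwich_self (zer_co_zero p a) (TPS.inv_zero _) m
      · exact cross_explicit ha F hp hm

theorem tdata_c (hs : ∀ a b, s a b = - s b a) {a : TPS T} (ha : a.co 0 = 1)
    (hcr : CrossPos s P a) (F : TPS T) {V : Type} [AddCommGroup V] [LinearOrder V]
    [IsOrderedAddMonoid V] (x : (ι →₀ ℕ) →+ V) (m : ι →₀ ℕ) :
    (tdata hs ha hcr F).c x m = (conj x a F).co m := rfl

/-- the terminal value does not depend on the perturbation. -/
theorem terminal_eq {a : TPS T} (ha : a.co 0 = 1) (F : TPS T)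
    (hβ : ∀ d e, s d e = 0 → T.β d e = T.β e d)
    {V : Type} [AddCommGroup V] [LinearOrder V] [IsOrderedAddMonoid V]
    (x : (ι →₀ ℕ) →+ V) (g : ι →₀ ℕ) :
    (conj (lexF (s g) x) a F).co g = (conj (s g) a F).co g := by
  rw [conj_refine (s g) x (lexF (s g) x) ha F g (fun e _ => lexF_pos)]
  set u := pos x (zer (s g) a) with hu
  have hu1 : u.co 0 = 1 := pos_co_zero _ _
  have hu0 : In1 (fun d => s g d = 0) u :=
    ((in1_zer (s g) a).pos (closed_zero (s g)) x).mono (fun d _ h => h.2)
  have hsupp : Tr201.SuppIn (Tr201.comKer T g) u := by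
    intro e he
    rw [Tr201.mem_comKer, Tr201.com_apply]
    rcases hu0.eq_zero_or he with h | h
    · subst h; simp
    · rw [hβ g e h, sub_self]
  exact Tr201.co_conj' hsupp (mul_inv hu1) _

/-- **(TR2)**: positivity of all `F_m(x)` from positivity of the terminal values. -/
theorem trans_pos (hs : ∀ a b, s a b = - s b a) (hβ : ∀ d e, s d e = 0 → T.β d e = T.β e d)
    {a : TPS T} (ha : a.co 0 = 1) (hcr : CrossPos s P a) (F : TPS T) (C : AddSubmonoid R)
    (hPC : ∀ p ∈ P, ∀ c ∈ C, p * c ∈ C) (m : ι →₀ ℕ)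
    (hT : ∀ g ≤ m, (conj (s g) a F).co g ∈ C)
    {V : Type} [AddCommGroup V] [LinearOrder V] [IsOrderedAddMonoid V]
    (x : (ι →₀ ℕ) →+ V) (hx : Function.Injective x) :
    (conj x a F).co m ∈ C ∧ (conj x a F).co m - (conj (s m) a F).co m ∈ C :=
  (tdata hs ha hcr F).pos_of_terminal C hPC (fun g => (conj (s g) a F).co g)
    (fun g {V} _ _ _ x => terminal_eq ha F hβ x g) m hT x hx

end

end Crest.Agent.R059.Trans569
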