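import Crest.Agent.R059.FMono_998
import Crest.Agent.R059.Trans_569

/-!
# Row 59, track T: transfers of `CrossPos`

* `crossPos_compat`, `crossPos_map` : coefficient change `KK → R`;
* `crossPos_zer` : from `a` to `zer x a` (used for `A_W = zer udeg A'`).
-/

set_option autoImplicit false

namespace Crest.Agent.R059.CrossGlue998

open Finset TPS FMono998 Trans569

section

variable {ι : Type} [DecidableEq ι] {R R' : Type*} [CommRing R] [CommRing R']
  {T : Tw (ι →₀ ℕ) R} {T' : Tw (ι →₀ ℕ) R'}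

/-- **(G1)** change of coefficients. -/
theorem crossPos_compat {s : (ι →₀ ℕ) →+ (ι →₀ ℕ) →+ ℤ} {P : Subsemiring R} {P' : Subsemiring R'}
    {a : TPS T} (ha : a.co 0 = 1) {Φ : TPS T →+* TPS T'} (hΦ : Compat Φ)
    (hY : ∀ m, Φ (Y T m) = Y T' m) (hP : ∀ f : TPS T, NonnegOn P f → NonnegOn P' (Φ f))
    (h : CrossPos s P a) : CrossPos s P' (Φ a) := by
  intro V _ _ _ p c hp m
  obtain ⟨h1, h2⟩ := h p c hp m
  rw [hΦ.zer p ha]
  refine ⟨fun hm => ?_, fun hm => ?_⟩
  · obtain ⟨U, hU, hUe⟩ := h1 hm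
    refine ⟨Φ U, hP U hU, ?_⟩
    rw [← hY, ← map_mul, hUe, map_mul]
  · obtain ⟨U, hU, hUe⟩ := h2 hm
    refine ⟨Φ U, hP U hU, ?_⟩
    rw [← hY, ← map_mul, hUe, map_mul]

/-- **(G1')** for 883's `TPS.map`. -/
theorem crossPos_map {s : (ι →₀ ℕ) →+ (ι →₀ ℕ) →+ ℤ} {P : Subsemiring R} {P' : Subsemiring R'}
    {a : TPS T} (ha : a.co 0 = 1) (φ : R →+* R') (hP : ∀ r ∈ P, φ r ∈ P')
    (h : CrossPos s P a) : CrossPos s P' (TPS.map T φ a) :=
  crossPos_compat ha (compat_map T φ) (fun m => by rw [Y, Y, map_mono, map_one])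
    (fun f hf d => by rw [co_map]; exact hP _ (hf d)) h

/-- a series all of whose nonzero exponents are excluded is `1`. -/
theorem eq_one_of_in1 {Q : (ι →₀ ℕ) → Prop} {f : TPS T} (hf : In1 Q f)
    (hQ : ∀ d, d ≠ 0 → ¬ Q d) : f = 1 := by
  ext d
  by_cases hd : d = 0
  · rw [hd, hf.one, co_one_zero]
  · rw [hf.supp d hd (hQ d hd), co_one_ne hd]

theorem nsmul_inj_of_ne {W : Type*} [AddCommGroup W] [LinearOrder W] [IsOrderedAddMonoid W]
    {w : W} (hw : w ≠ 0) {i j : ℕ} (h : i • w = j • w) : i = j := by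
  rcases lt_or_gt_of_ne hw with h1 | h1
  · have h2 : i • (-w) = j • (-w) := by rw [smul_neg, smul_neg, h]
    exact (nsmul_left_strictMono (neg_pos.2 h1)).injective h2
  · exact (nsmul_left_strictMono h1).injective h

/-- **(G2)** zero parts. -/
theorem crossPos_zer {s : (ι →₀ ℕ) →+ (ι →₀ ℕ) →+ ℤ} {P : Subsemiring R}
    {a : TPS T} (ha : a.co 0 = 1) {W : Type} [AddCommGroup W] [LinearOrder W]
    [IsOrderedAddMonoid W] (x : (ι →₀ ℕ) →+ W)
    (h : CrossPos s P a) : CrossPos s P (zer x a) := by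
  intro V _ _ _ p c hp m
  by_cases hc : x c = 0
  · have hk : KerRay (lexHom x p) c := by
      refine ⟨hp.1, ?_, ?_⟩
      · rw [lexHom_zero]; exact ⟨hc, hp.2.1⟩
      · intro a b hab
        apply hp.2.2 a b
        have h1 := congrArg (fun z => (ofLex z).2) hab
        exact h1
    have h1 := h (lexHom x p) c hk m
    rw [(parts_lex x p ha).2.1] at h1
    exact h1
  · have h1 : zer p (zer x a) = 1 := by
      apply eq_one_of_in1 ((in1_zer x a).zer (closed_zero x) p)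
      rintro d hd ⟨hpd, hxd⟩
      obtain ⟨k, i, j, hk, hr⟩ := hp.2.2 d 0 (by rw [hpd, map_zero])
      have h2 := congrArg x hr
      rw [map_add, map_add, map_nsmul, map_nsmul, map_nsmul, map_nsmul, map_zero, hxd, smul_zero,
        zero_add, zero_add] at h2
      have hij := nsmul_inj_of_ne hc h2
      subst hij
      rw [smul_zero, add_left_inj] at hr
      apply hd
      ext l
      have h3 := DFunLike.congr_fun hr l
      simp only [Finsupp.coe_smul, Pi.smul_apply, smul_eq_mul, Finsupp.coe_zero,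
        Pi.zero_apply, Nat.mul_eq_zero] at h3 ⊢
      rcases h3 with h3 | h3
      · omega
      · exact h3
    rw [h1]
    have hY : NonnegOn P (Y T m) := by
      intro d
      rw [Y, co_mono]
      split_ifs
      · exact P.one_mem
      · exact P.zero_mem
    exact ⟨fun _ => ⟨Y T m, hY, by rw [one_mul, mul_one]⟩,
      fun _ => ⟨Y T m, hY, by rw [one_mul, mul_one]⟩⟩

/-- **(G3)** `a = Ψ b` with `Ψ` in `{x > 0}`, `b` in `{x = 0}`: `b = zer x a`. -/
theorem zer_eq_of_mul {W : Type*} [AddCommGroup W] [LinearOrder W]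
    [IsOrderedAddMonoid W] (x : (ι →₀ ℕ) →+ W) {Ψ b : TPS T}
    (hΨ : In1 (fun d => 0 < x d) Ψ) (hb : In1 (fun d => x d = 0) b) :
    zer x (Ψ * b) = b ∧ pos x (Ψ * b) = Ψ := by
  have h1 := pzn_unique x (p := Ψ) (z := b) (n := 1) hΨ hb (in1_one _)
  rw [mul_one] at h1
  exact ⟨h1.2.1, h1.1⟩

end

section K

open EPsi998 Sc998 Dilog344 Crest.CombinatoricsR.UnitInterval

variable {n : ℕ}

/-- the `u`-degree as an integer functional. -/
noncomputable def udegZ (n : ℕ) : (Fin n →₀ ℕ) →+ ℤ := (Nat.castAddMonoidHom ℤ).comp (udeg n)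

theorem udegZ_apply (d : Fin n →₀ ℕ) : udegZ n d = (udeg n d : ℤ) := rfl

theorem udegZ_pos (d : Fin n →₀ ℕ) : 0 < udegZ n d ↔ 0 < udeg n d := by
  rw [udegZ_apply]; exact Nat.cast_pos

theorem udegZ_zero (d : Fin n →₀ ℕ) : udegZ n d = 0 ↔ udeg n d = 0 := by
  rw [udegZ_apply]; exact Nat.cast_eq_zero

section T

variable {R : Type*} [CommRing R] (T : Tw (Fin n →₀ ℕ) R)

/-- `Ψ = P(x_1) ⋯ P(x_n)` in `TPS T`. -/
noncomputable def PsiT : TPS T := Psi T ux (List.finRange n)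

theorem PsiT_ofFn :
    PsiT T = (List.ofFn (fun i : Fin n => ev T (ux i) (Dilog344.EE T.v true 1))).prod := by
  rw [List.ofFn_eq_map]
  rfl

theorem clsT {T : Tw (Fin n →₀ ℕ) R} (h : Fin n → ℕ) (hT : T.β = form h) (hh : IsHessenberg h) :
    Cls T (adjH h) (ux : Fin n → Fin n →₀ ℕ) := by
  have hb : ∀ i j : Fin n, T.β (ux i) (ux j) = Kill59.e h i j := by
    intro i j
    rw [hT, form_apply, uco_ux, uco_ux, Kill59.s_u_u]
  refine ⟨fun a b => by rw [hT]; exact form_skew h a b, ?_, ?_, ?_, ?_⟩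
  · intro i j hij hadj
    rw [hb, Kill59.e, if_pos ⟨hij, hadj⟩]
  · intro i j hij hadj
    rw [hb, Kill59.e, if_neg (fun hc => hadj hc.2), if_neg (fun hc => not_lt.2 hij.le hc.1)]
  · intro a i j hai _ _ haj
    exact le_trans haj (hh.1 hai.le)
  · intro a i j _ hja hia _
    exact le_trans (Nat.succ_le_succ (Fin.lt_def.1 hja).le) hia

/-- the character `q^{udeg}`, `q = v⁻²`. -/
noncomputable def chiT : Multiplicative (Fin n →₀ ℕ) →* R :=
  chiN (((T.v ^ (-2 : ℤ) : Rˣ)) : R) (udeg n)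

theorem chiT_apply (d : Fin n →₀ ℕ) :
    chiT T (Multiplicative.ofAdd d) = (((T.v ^ (-2 : ℤ) : Rˣ)) : R) ^ (udeg n d) := rfl

/-- **`σ(Ψ) = Ψ E`**. -/
theorem sig_PsiT {T : Tw (Fin n →₀ ℕ) R} (h : Fin n → ℕ) (hT : T.β = form h)
    (hh : IsHessenberg h) (hq : QReg ((T.v : R) ^ 2)) :
    scale (chiT T) (PsiT T) = PsiT T * EI T (adjH h) ux (List.finRange n) :=
  scale_Psi_right (clsT h hT hh) hq (fun i => ux_inj' i) (chiT T)
    (fun i => by rw [chiT_apply, udeg_ux, pow_one]) _ (finRange_lt n)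

theorem in1_PsiT : In1 (fun d => 0 < udeg n d) (PsiT T) := by
  unfold PsiT Psi
  have key : ∀ L : List (TPS T), (∀ f ∈ L, In1 (fun d => 0 < udeg n d) f) →
      In1 (fun d => 0 < udeg n d) L.prod := by
    intro L hL
    induction L with
    | nil => rw [List.prod_nil]; exact in1_one _
    | cons f L ih =>
      rw [List.prod_cons]
      exact (hL f (by simp)).mul (fun a b ha hb => by rw [map_add]; omega)
        (ih (fun g hg => hL g (by simp [hg])))
  apply key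
  intro f hf
  rw [List.mem_map] at hf
  obtain ⟨i, _, rfl⟩ := hf
  refine ⟨co_dil_zero (ux_inj' i) _ _, ?_⟩
  intro d hd hP
  by_contra hc
  obtain ⟨k, rfl⟩ := exists_of_co_ev_ne hc
  rw [map_nsmul, udeg_ux, smul_eq_mul, mul_one] at hP
  have hk : k = 0 := by omega
  exact hd (by rw [hk, zero_nsmul])

variable {V : Type*} [AddCommGroup V] [LinearOrder V] [IsOrderedAddMonoid V]

/-- `A' = Ψ A_W`, `x = (udeg, θ)`: `pos x A' = Ψ pos θ A_W` and `B⁻¹ σ(B) = conj θ A_W E`. -/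
theorem conj_PsiT {T : Tw (Fin n →₀ ℕ) R} (h : Fin n → ℕ) (hT : T.β = form h)
    (hh : IsHessenberg h) (hq : QReg ((T.v : R) ^ 2)) {AW : TPS T}
    (hAW : In1 (fun d => udeg n d = 0) AW) (θ : (Fin n →₀ ℕ) →+ V) :
    pos (lexHom (udegZ n) θ) (PsiT T * AW) = PsiT T * pos θ AW ∧
    inv (pos (lexHom (udegZ n) θ) (PsiT T * AW)) *
        scale (chiT T) (pos (lexHom (udegZ n) θ) (PsiT T * AW)) =
      conj θ AW (EI T (adjH h) ux (List.finRange n)) := by
  refine conj_form (deg := udeg n) (closed_pos (lexHom (udegZ n) θ)) ?_ ?_ ?_ (in1_PsiT T) hAW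
    (sig_PsiT h hT hh hq)
  · intro d hd
    exact (lexHom_pos _ _ d).2 (Or.inl ((udegZ_pos d).2 hd))
  · intro d hd
    rw [lexHom_pos, udegZ_pos, udegZ_zero]
    constructor
    · rintro (h1 | h1)
      · omega
      · exact h1.2
    · intro h1
      exact Or.inr ⟨hd, h1⟩
  · intro d hd
    rw [chiT_apply, hd, pow_zero]

/-- `A' = Ψ A_W`: `A_W = zer udegZ A'`. -/
theorem AW_eq_zer {T : Tw (Fin n →₀ ℕ) R} {A' AW : TPS T} (hA : A' = PsiT T * AW)
    (hAW : In1 (fun d => udeg n d = 0) AW) : AW = zer (udegZ n) A' := by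
  have h1 : In1 (fun d => 0 < udegZ n d) (PsiT T) :=
    (in1_PsiT T).mono (fun d _ hd => (udegZ_pos d).2 hd)
  have h2 : In1 (fun d => udegZ n d = 0) AW := hAW.mono (fun d _ hd => (udegZ_zero d).2 hd)
  rw [hA]
  exact ((zer_eq_of_mul (udegZ n) h1 h2).1).symm

theorem A'_one {T : Tw (Fin n →₀ ℕ) R} {A' AW : TPS T} (hA : A' = PsiT T * AW)
    (hAW : In1 (fun d => udeg n d = 0) AW) : A'.co 0 = 1 := by
  rw [hA, co_mul_zero', (in1_PsiT T).one, hAW.one, mul_one]

/-- **all together**: `CrossPos` of `A'` gives `CrossPos` of `A_W` over any `R'`. -/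
theorem crossPos_AW {T : Tw (Fin n →₀ ℕ) R} {A' AW : TPS T} (hA : A' = PsiT T * AW)
    (hAW : In1 (fun d => udeg n d = 0) AW) {s : (Fin n →₀ ℕ) →+ (Fin n →₀ ℕ) →+ ℤ}
    {P : Subsemiring R} (hcr : CrossPos s P A') {R' : Type*} [CommRing R'] (φ : R →+* R')
    {P' : Subsemiring R'} (hP : ∀ r ∈ P, φ r ∈ P') :
    CrossPos s P' (TPS.map T φ AW) := by
  rw [AW_eq_zer hA hAW]
  have h1 : CrossPos s P (zer (udegZ n) A') := crossPos_zer (A'_one hA hAW) (udegZ n) hcr
  intro V _ _ _ p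
  exact crossPos_map (zer_co_zero _ _) φ hP h1 p

end T

/-! ### over `KK` -/

theorem EI_twK (h : Fin n → ℕ) : EI (twK (form h)) (adjH h) ux (List.finRange n) = E1 h := by
  classical
  unfold EI Es E1 XI
  have h1 : ((((twK (form h)).v) ^ (-1 : ℤ) : KKˣ) : KK) = (tau : KK) := by
    have h2 : (twK (form h)).v = tau⁻¹ := rfl
    rw [h2]
    have h3 : (tau⁻¹ : KKˣ) ^ (-1 : ℤ) = tau := by simp
    rw [h3]
  rw [h1]
  apply Finset.sum_congr
  · ext S
    simp only [Finset.mem_filter, Finset.mem_powerset, indep, List.toFinset_finRange,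
      Finset.subset_univ, true_and, Ind, adjH]
  · intro S _
    rfl

theorem qreg_twK (h : Fin n → ℕ) : QReg (((twK (form h)).v : KK) ^ 2) := qreg_KK

/-- **FRAME ⇒ E-positivity**. -/
theorem hE_of_frame (h : Fin n → ℕ) (hh : IsHessenberg h) {A' AW : TPS (twK (form h))}
    (hA : A' = PsiT (twK (form h)) * AW) (hAW : In1 (fun d => udeg n d = 0) AW)
    {P : Subsemiring KK}
    {V : Type*} [AddCommGroup V] [LinearOrder V] [IsOrderedAddMonoid V]
    (θ : (Fin n →₀ ℕ) →+ V)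
    (hF : ∀ m, (inv (pos (lexHom (udegZ n) θ) A') *
      scale (chiT (twK (form h))) (pos (lexHom (udegZ n) θ) A')).co m ∈ P) (m : Fin n →₀ ℕ) :
    (conj θ AW (E1 h)).co m ∈ P := by
  have h1 := (conj_PsiT h rfl hh (qreg_twK h) hAW θ).2
  rw [EI_twK] at h1
  rw [← h1, ← hA]
  exact hF m

/-- **FRAME ⇒ monomial positivity of `F^x`**. -/
theorem F_pos_of_frame (h : Fin n → ℕ) (hh : IsHessenberg h) {A' AW : TPS (twK (form h))}
    (hA : A' = PsiT (twK (form h)) * AW) (hAW : In1 (fun d => udeg n d = 0) AW)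
    {V : Type*} [AddCommGroup V] [LinearOrder V] [IsOrderedAddMonoid V]
    (θ : (Fin n →₀ ℕ) →+ V)
    (hF : ∀ m, (inv (pos (lexHom (udegZ n) θ) A') *
      scale (chiT (twK (form h))) (pos (lexHom (udegZ n) θ) A')).co m ∈ Kpos)
    (N : ℕ) (m : Fin n →₀ ℕ) :
    (conj θ (TPS.map (twK (form h)) (algebraMap KK (MvPolynomial (Fin N) KK)) AW)
      (FF h N) : TPS (tw (MvPolynomial (Fin N) KK) (form h))).co m ∈ PM N :=
  F_pos_of_E_pos h AW hAW θ (hE_of_frame h hh hA hAW θ hF) N m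

end K

end Crest.Agent.R059.CrossGlue998
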