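import Mathlib

set_option autoImplicit false

/-!
Row 59 (S0081).  Crossing lemma, power series part.

`S : Subsemiring R` = the "positive" coefficients (think `ℕ[v, v⁻¹]`), `q ∈ S`.
`PosPS S` = power series with all coefficients in `S`.
`cross q f K = f⁻¹ * f(q^K X)`; the class `CP S q` of power series `f` with constant term `1` and
`f⁻¹ * f(q X)` positive is closed under products, contains the odd dilogarithms
(`f(qX) = (1 + r X) f(X)`) and the even ones (`(1 - r X) f(qX) = f(X)`) as well as their versions
in `X^k`, and every `f ∈ CP S q` has `cross q f K` positive for all `K : ℕ`.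
-/

namespace Crest.Agent.R059

open PowerSeries Finset

section PS

variable {R : Type*} [CommRing R]

/-- power series with all coefficients in the subsemiring `S`. -/
def PosPS (S : Subsemiring R) : Subsemiring (PowerSeries R) where
  carrier := {f | ∀ n, coeff n f ∈ S}
  mul_mem' := fun {f g} hf hg n => by
    rw [coeff_mul]
    exact Subsemiring.sum_mem _ fun p _ => S.mul_mem (hf _) (hg _)
  one_mem' := fun n => by
    rw [coeff_one]; split_ifs
    · exact S.one_mem
    · exact S.zero_mem
  add_mem' := fun {f g} hf hg n => by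
    rw [map_add]; exact S.add_mem (hf n) (hg n)
  zero_mem' := fun n => by rw [map_zero]; exact S.zero_mem

theorem mem_PosPS {S : Subsemiring R} {f : PowerSeries R} :
    f ∈ PosPS S ↔ ∀ n, coeff n f ∈ S := Iff.rfl

theorem PosPS_mono {S S' : Subsemiring R} (h : S ≤ S') : PosPS S ≤ PosPS S' :=
  fun _ hf n => h (hf n)

theorem C_mem_PosPS {S : Subsemiring R} {r : R} (hr : r ∈ S) : C r ∈ PosPS S := fun n => by
  rw [coeff_C]; split_ifs
  · exact hr
  · exact S.zero_mem

theorem X_pow_mem_PosPS (S : Subsemiring R) (k : ℕ) : (X : PowerSeries R) ^ k ∈ PosPS S :=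
  fun n => by
    rw [coeff_X_pow]; split_ifs
    · exact S.one_mem
    · exact S.zero_mem

theorem monomial_mem_PosPS {S : Subsemiring R} {r : R} (hr : r ∈ S) (k : ℕ) :
    C r * (X : PowerSeries R) ^ k ∈ PosPS S :=
  (PosPS S).mul_mem (C_mem_PosPS hr) (X_pow_mem_PosPS S k)

theorem rescale_mem_PosPS {S : Subsemiring R} {q : R} (hq : q ∈ S) {f : PowerSeries R}
    (hf : f ∈ PosPS S) : rescale q f ∈ PosPS S := fun n => by
  rw [coeff_rescale]; exact S.mul_mem (S.pow_mem hq n) (hf n)

/-- the inverse of `1 - g` is positive if `g` is positive without constant term. -/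
theorem mem_PosPS_of_one_sub_mul {S : Subsemiring R} {g f : PowerSeries R}
    (hg : g ∈ PosPS S) (hg0 : constantCoeff g = 0) (h : (1 - g) * f = 1) : f ∈ PosPS S := by
  have hf : f = 1 + g * f := by
    have : f - g * f = 1 := by rw [← h]; ring
    rw [← this]; ring
  intro n
  induction n using Nat.strong_induction_on with
  | _ n IH =>
    rw [hf, map_add, coeff_mul]
    refine S.add_mem ((PosPS S).one_mem n) (Subsemiring.sum_mem _ fun p hp => ?_)
    rw [HasAntidiagonal.mem_antidiagonal] at hp
    by_cases hp1 : p.1 = 0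
    · rw [hp1, coeff_zero_eq_constantCoeff_apply, hg0, zero_mul]; exact S.zero_mem
    · exact S.mul_mem (hg _) (IH p.2 (by omega))

/-- more generally a positive multiple. -/
theorem mem_PosPS_of_one_sub_mul' {S : Subsemiring R} {g f e : PowerSeries R}
    (hg : g ∈ PosPS S) (hg0 : constantCoeff g = 0) (he : e ∈ PosPS S)
    (h : (1 - g) * f = e) : f ∈ PosPS S := by
  have hf : f = e + g * f := by
    have : f - g * f = e := by rw [← h]; ring
    rw [← this]; ring
  intro n
  induction n using Nat.strong_induction_on with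
  | _ n IH =>
    rw [hf, map_add, coeff_mul]
    refine S.add_mem (he n) (Subsemiring.sum_mem _ fun p hp => ?_)
    rw [HasAntidiagonal.mem_antidiagonal] at hp
    by_cases hp1 : p.1 = 0
    · rw [hp1, coeff_zero_eq_constantCoeff_apply, hg0, zero_mul]; exact S.zero_mem
    · exact S.mul_mem (hg _) (IH p.2 (by omega))

/-- the inverse of a power series with constant term one. -/
noncomputable def pinv (f : PowerSeries R) : PowerSeries R := invOfUnit f 1

theorem mul_pinv {f : PowerSeries R} (hf : constantCoeff f = 1) : f * pinv f = 1 :=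
  mul_invOfUnit f 1 (by simpa using hf)

theorem pinv_mul {f : PowerSeries R} (hf : constantCoeff f = 1) : pinv f * f = 1 := by
  rw [mul_comm]; exact mul_pinv hf

theorem constantCoeff_pinv (f : PowerSeries R) : constantCoeff (pinv f) = 1 := by
  rw [pinv, constantCoeff_invOfUnit]; simp

theorem pinv_eq_of_mul {f g : PowerSeries R} (hf : constantCoeff f = 1) (h : f * g = 1) :
    g = pinv f := by
  have := congrArg (fun x => pinv f * x) h
  simpa [← mul_assoc, pinv_mul hf] using this

theorem pinv_mul_pinv {f g : PowerSeries R} (hf : constantCoeff f = 1)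
    (hg : constantCoeff g = 1) : pinv (f * g) = pinv f * pinv g := by
  symm
  apply pinv_eq_of_mul (by simp [hf, hg])
  calc f * g * (pinv f * pinv g) = (f * pinv f) * (g * pinv g) := by ring
    _ = 1 := by rw [mul_pinv hf, mul_pinv hg, one_mul]

/-- `f⁻¹ * f(q^K X)`. -/
noncomputable def cross (q : R) (f : PowerSeries R) (K : ℕ) : PowerSeries R :=
  pinv f * rescale (q ^ K) f

theorem constantCoeff_rescale' (r : R) (f : PowerSeries R) :
    constantCoeff (rescale r f) = constantCoeff f := by
  rw [← coeff_zero_eq_constantCoeff_apply, coeff_rescale]; simp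

theorem constantCoeff_cross (q : R) {f : PowerSeries R} (hf : constantCoeff f = 1) (K : ℕ) :
    constantCoeff (cross q f K) = 1 := by
  rw [cross, map_mul, constantCoeff_pinv, constantCoeff_rescale', hf, mul_one]

theorem cross_spec (q : R) {f : PowerSeries R} (hf : constantCoeff f = 1) (K : ℕ) :
    rescale (q ^ K) f = cross q f K * f := by
  rw [cross, mul_comm (pinv f), mul_assoc, pinv_mul hf, mul_one]

theorem cross_unique (q : R) {f g : PowerSeries R} (hf : constantCoeff f = 1) {K : ℕ}
    (h : rescale (q ^ K) f = g * f) : cross q f K = g := by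
  rw [cross, h, mul_comm g, ← mul_assoc, pinv_mul hf, one_mul]

theorem cross_mul (q : R) {f g : PowerSeries R} (hf : constantCoeff f = 1)
    (hg : constantCoeff g = 1) (K : ℕ) : cross q (f * g) K = cross q f K * cross q g K := by
  rw [cross, cross, cross, pinv_mul_pinv hf hg, map_mul]; ring

@[simp] theorem cross_one (q : R) (K : ℕ) : cross q 1 K = 1 := by
  apply cross_unique q (by simp); simp

@[simp] theorem cross_zero (q : R) {f : PowerSeries R} (hf : constantCoeff f = 1) :
    cross q f 0 = 1 := by
  apply cross_unique q hf; simp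

theorem cross_add (q : R) {f : PowerSeries R} (hf : constantCoeff f = 1) (K L : ℕ) :
    cross q f (K + L) = rescale (q ^ K) (cross q f L) * cross q f K := by
  apply cross_unique q hf
  have h : rescale (q ^ (K + L)) f = rescale (q ^ K) (rescale (q ^ L) f) := by
    ext n; simp only [coeff_rescale]; rw [pow_add, mul_pow]; ring
  rw [h, cross_spec q hf L, map_mul, cross_spec q hf K, mul_assoc]

theorem cross_eq_prod (q : R) {f : PowerSeries R} (hf : constantCoeff f = 1) (K : ℕ) :
    cross q f K = ∏ i ∈ range K, rescale (q ^ i) (cross q f 1) := by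
  induction K with
  | zero => simp [cross_zero q hf]
  | succ K ih => rw [cross_add q hf K 1, prod_range_succ, ih, mul_comm]

/-- **Positive ray series**: constant term one and `f⁻¹ * f(qX)` has coefficients in `S`. -/
def CP (S : Subsemiring R) (q : R) : Submonoid (PowerSeries R) where
  carrier := {f | constantCoeff f = 1 ∧ cross q f 1 ∈ PosPS S}
  mul_mem' := fun {f g} hf hg => ⟨by rw [map_mul, hf.1, hg.1, mul_one], by
    rw [cross_mul q hf.1 hg.1]; exact (PosPS S).mul_mem hf.2 hg.2⟩
  one_mem' := ⟨by simp, by rw [cross_one]; exact (PosPS S).one_mem⟩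

theorem mem_CP {S : Subsemiring R} {q : R} {f : PowerSeries R} :
    f ∈ CP S q ↔ constantCoeff f = 1 ∧ cross q f 1 ∈ PosPS S := Iff.rfl

/-- all crossings `K ≥ 0` of a positive ray series are positive. -/
theorem CP_cross {S : Subsemiring R} {q : R} (hq : q ∈ S) {f : PowerSeries R} (hf : f ∈ CP S q)
    (K : ℕ) : cross q f K ∈ PosPS S := by
  rw [cross_eq_prod q hf.1]
  exact Subsemiring.prod_mem _ fun i _ => rescale_mem_PosPS (S.pow_mem hq i) hf.2

theorem CP_of_spec {S : Subsemiring R} {q : R} {f g : PowerSeries R}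
    (hf : constantCoeff f = 1) (hg : g ∈ PosPS S) (h : rescale q f = g * f) : f ∈ CP S q :=
  ⟨hf, by rwa [cross_unique q hf (K := 1) (by rwa [pow_one])]⟩

/-- odd factor in `X^k`: `f(qX) = ∏_{i<k} (1 + q^i r X^k) * f(X)`. -/
theorem CP_odd {S : Subsemiring R} {q : R} (hq : q ∈ S) {r : R} (hr : r ∈ S) (k : ℕ)
    {f : PowerSeries R} (hf : constantCoeff f = 1)
    (h : rescale q f = (∏ i ∈ range k, (1 + C (q ^ i * r) * X ^ k)) * f) : f ∈ CP S q :=
  CP_of_spec hf (Subsemiring.prod_mem _ fun i _ =>
    (PosPS S).add_mem (PosPS S).one_mem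
      (monomial_mem_PosPS (S.mul_mem (S.pow_mem hq i) hr) k)) h

/-- even factor in `X^k`: `∏_{i<k} (1 - q^i r X^k) * f(qX) = f(X)`. -/
theorem CP_even {S : Subsemiring R} {q : R} (hq : q ∈ S) {r : R} (hr : r ∈ S) {k : ℕ}
    (hk : k ≠ 0) {f : PowerSeries R} (hf : constantCoeff f = 1)
    (h : (∏ i ∈ range k, (1 - C (q ^ i * r) * X ^ k)) * rescale q f = f) : f ∈ CP S q := by
  refine ⟨hf, ?_⟩
  have hc : (∏ i ∈ range k, (1 - C (q ^ i * r) * X ^ k)) * cross q f 1 = 1 := by
    rw [cross, pow_one, mul_left_comm, h, pinv_mul hf]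
  have key : ∀ (s : Finset ℕ) (g : PowerSeries R),
      (∏ i ∈ s, (1 - C (q ^ i * r) * X ^ k)) * g = 1 → g ∈ PosPS S := by
    intro s
    induction s using Finset.induction_on with
    | empty => intro g hg; rw [prod_empty, one_mul] at hg; rw [hg]; exact (PosPS S).one_mem
    | insert a s ha ih =>
      intro g hg
      rw [prod_insert ha] at hg
      have h1 : (1 - C (q ^ a * r) * X ^ k) * g ∈ PosPS S := by
        apply ih; rw [mul_comm (1 - C (q ^ a * r) * X ^ k) (∏ x ∈ s, _), mul_assoc] at hg; exact hg
      exact mem_PosPS_of_one_sub_mul' (monomial_mem_PosPS (S.mul_mem (S.pow_mem hq a) hr) k)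
        (by rw [map_mul, map_pow, constantCoeff_X, zero_pow hk, mul_zero]) h1 rfl
  exact key _ _ hc

/-- the inverse of an odd factor with parameter `-r` is an even factor. -/
theorem CP_even' {S : Subsemiring R} {q : R} (hq : q ∈ S) {r : R} (hr : r ∈ S) {k : ℕ}
    (hk : k ≠ 0) {f : PowerSeries R} (hf : constantCoeff f = 1)
    (h : rescale q f = (∏ i ∈ range k, (1 - C (q ^ i * r) * X ^ k)) * f) : pinv f ∈ CP S q := by
  refine CP_even hq hr hk (constantCoeff_pinv f) ?_
  have h1 : rescale q f * rescale q (pinv f) = 1 := by rw [← map_mul, mul_pinv hf, map_one]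
  have h2 : f * ((∏ i ∈ range k, (1 - C (q ^ i * r) * X ^ k)) * rescale q (pinv f)) = 1 := by
    rw [← mul_assoc, mul_comm f, ← h, h1]
  exact pinv_eq_of_mul hf h2

end PS

end Crest.Agent.R059
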