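import Crest.Agent.R059.Cross_195

set_option autoImplicit false

/-!
Row 59 (S0081), leaf D4, second part: expansion of a conjugation into monomials, leading
coefficient and full bend of an odd dilogarithm factor.
-/

namespace Crest.Agent.R059

open Finset PowerSeries Dilog344

namespace TPS

section expand

variable {ι : Type*} [DecidableEq ι] {R : Type*} [CommRing R] {T : Tw (ι →₀ ℕ) R}

/-- truncation of a series to the exponents `≤ m` as a finite sum of monomials. -/
theorem co_trunc (F : TPS T) (m e : ι →₀ ℕ) (he : e ≤ m) :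
    F.co e = (∑ d ∈ Iic m, F.co d • Y T d).co e := by
  have h : ∀ s : Finset (ι →₀ ℕ), (∑ d ∈ s, F.co d • Y T d).co e = if e ∈ s then F.co e else 0 := by
    intro s
    induction s using Finset.induction_on with
    | empty => simp
    | insert a s ha ih =>
      rw [sum_insert ha, co_add, ih, co_smul, Y, co_mono]
      by_cases hae : e = a
      · subst hae
        simp [ha]
      · simp [hae]
  rw [h, if_pos (mem_Iic.2 he)]

/-- **(K1)** `[Y_m](z F w) = ∑_{e ≤ m} F_e [Y_m](z Y_e w)`. -/
theorem co_mul_mul_eq_sum (z w F : TPS T) (m : ι →₀ ℕ) :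
    (z * F * w).co m = ∑ e ∈ Iic m, (z * Y T e * w).co m * F.co e := by
  have h1 : (z * F * w).co m = (z * (∑ d ∈ Iic m, F.co d • Y T d) * w).co m := by
    refine co_mul_congr_le m (fun e he => ?_) (fun _ _ => rfl)
    exact co_mul_congr_le e (fun _ _ => rfl) (fun e' he' => co_trunc F m e' (he'.trans he))
  have h2 : z * (∑ d ∈ Iic m, F.co d • Y T d) * w = ∑ d ∈ Iic m, F.co d • (z * Y T d * w) := by
    rw [mul_sum, sum_mul]
    refine sum_congr rfl fun d _ => ?_
    rw [mul_smul'', smul_mul']
  have h3 : ∀ s : Finset (ι →₀ ℕ), (∑ d ∈ s, F.co d • (z * Y T d * w)).co m =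
      ∑ e ∈ s, (z * Y T e * w).co m * F.co e := by
    intro s
    induction s using Finset.induction_on with
    | empty => simp
    | insert a s ha ih => rw [sum_insert ha, sum_insert ha, co_add, ih, co_smul, mul_comm]
  rw [h1, h2, h3]

/-- **(K2)** leading coefficient. -/
theorem co_conj_self (z w : TPS T) (m : ι →₀ ℕ) :
    (z * Y T m * w).co m = z.co 0 * w.co 0 := by
  rw [co_mul, sum_eq_single (m, 0)]
  · rw [wt_zero_right, one_mul, co_mul, sum_eq_single (0, m)]
    · rw [wt_zero_left, one_mul, Y, co_mono_self, mul_one]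
    · rintro ⟨a, b⟩ hp hne
      rw [HasAntidiagonal.mem_antidiagonal] at hp
      have hb : b ≠ m := by
        rintro rfl
        apply hne
        have : a = 0 := by simpa using hp
        rw [this]
      simp only
      rw [Y, co_mono_ne hb]; ring
    · intro h; exact absurd (by simp [HasAntidiagonal.mem_antidiagonal]) h
  · rintro ⟨a, b⟩ hp hne
    rw [HasAntidiagonal.mem_antidiagonal] at hp
    have ha : ¬ m ≤ a := by
      intro hma
      apply hne
      have h1 : a + b ≤ a := by rw [hp]; exact hma
      have h2 : b = 0 := by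
        have := (add_le_iff_nonpos_right a).1 h1
        exact le_antisymm this (zero_le)
      subst h2
      have : a = m := by simpa using hp
      rw [this]
    have h0 : (z * Y T m).co a = 0 := by
      rw [co_mul]
      apply sum_eq_zero
      rintro ⟨c, d⟩ hp'
      rw [HasAntidiagonal.mem_antidiagonal] at hp'
      have hd : d ≠ m := by
        rintro rfl
        apply ha
        rw [← hp']; exact le_add_self
      simp only
      rw [Y, co_mono_ne hd]; ring
    simp only
    rw [h0]; ring
  · intro h; exact absurd (by simp [HasAntidiagonal.mem_antidiagonal]) h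

/-- coefficients outside `m + supports` vanish. -/
theorem co_conj_ne {z w : TPS T} {P : (ι →₀ ℕ) → Prop}
    (hP : ∀ a b, P a → P b → P (a + b)) (hz : Supp P z) (hw : Supp P w) {e m : ι →₀ ℕ}
    (h : (z * Y T e * w).co m ≠ 0) : ∃ d, P d ∧ m = e + d := by
  have h1 : Supp (fun m => ∃ d, P d ∧ m = e + d) (z * Y T e * w) := by
    have h2 : Supp (fun m => ∃ d, P d ∧ m = e + d) (z * Y T e) :=
      hz.mul (supp_Y (P := fun d => d = e) rfl) (by
        rintro a b ha rfl
        exact ⟨a, ha, add_comm _ _⟩)
    refine h2.mul hw ?_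
    rintro a b ⟨d, hd, rfl⟩ hb
    exact ⟨d + b, hP _ _ hd hb, add_assoc _ _ _⟩
  by_contra hc
  exact h (h1 m hc)

/-- **(K3)** full bend of an odd factor: coefficient of `Y_{m + K c}` in `E Y_m E⁻¹`,
`K = ` half of the pairing, is a power of `v`. -/
theorem full_bend {c m : ι →₀ ℕ} (hc : Function.Injective (fun k : ℕ => k • c))
    (hq : QReg ((T.v : R) ^ 2)) (hcc : T.β c c = 0) (a : ℤ) {K : ℕ}
    (hm : T.β m c - T.β c m = 2 * K) :
    ∃ b : ℤ, (dil T c true a * Y T m * dili T c true a).co (m + K • c) =
      ((T.v ^ b : Rˣ) : R) := by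
  rw [Y, dil_mul_mul_dili hc hq true a (K := K) (supp_mono_com hm)]
  obtain ⟨b, hb⟩ := coeff_XF_top (v := T.v) a K
  refine ⟨T.β m (K • c) + b, ?_⟩
  rw [co_mul, sum_eq_single (m, K • c)]
  · rw [co_mono_self, one_mul, co_ev_nsmul hc, pw_one_of c hcc, mul_one, hb, wt, zpow_add,
      Units.val_mul]
  · rintro ⟨a', b'⟩ hp hne
    rw [HasAntidiagonal.mem_antidiagonal] at hp
    have ha : a' ≠ m := by
      rintro rfl
      apply hne
      have : b' = K • c := add_left_cancel hp
      rw [this]
    simp only
    rw [co_mono_ne ha]; ring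
  · intro h; exact absurd (by simp [HasAntidiagonal.mem_antidiagonal]) h

/-- **(K3')** the same for `E⁻¹ Y_m E`, pairing `-2K`. -/
theorem full_bend' {c m : ι →₀ ℕ} (hc : Function.Injective (fun k : ℕ => k • c))
    (hq : QReg ((T.v : R) ^ 2)) (hcc : T.β c c = 0) (a : ℤ) {K : ℕ}
    (hm : T.β m c - T.β c m = -(2 * K)) :
    ∃ b : ℤ, (dili T c true a * Y T m * dil T c true a).co (m + K • c) =
      ((T.v ^ b : Rˣ) : R) := by
  rw [Y, dili_mul_mul_dil' hc hq true a (K := K) (supp_mono_com hm)]
  obtain ⟨b, hb⟩ := coeff_XF_top (v := T.v) (a + 2 * K) K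
  refine ⟨T.β m (K • c) + b, ?_⟩
  rw [co_mul, sum_eq_single (m, K • c)]
  · rw [co_mono_self, one_mul, co_ev_nsmul hc, pw_one_of c hcc, mul_one, hb, wt, zpow_add,
      Units.val_mul]
  · rintro ⟨a', b'⟩ hp hne
    rw [HasAntidiagonal.mem_antidiagonal] at hp
    have ha : a' ≠ m := by
      rintro rfl
      apply hne
      have : b' = K • c := add_left_cancel hp
      rw [this]
    simp only
    rw [co_mono_ne ha]; ring
  · intro h; exact absurd (by simp [HasAntidiagonal.mem_antidiagonal]) h

end expand

end TPS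

end Crest.Agent.R059
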