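import Crest.Agent.R059.Dilog_344
import Crest.Agent.R059.Fac_150
import Crest.Agent.R059.TransA_569

set_option autoImplicit false

/-!
Row 59 (S0081), leaf D4: crossing positivity for finite products of dilogarithm factors.

`DilGen T E` = all dilogarithm factors `dil T e p a` of classes `e ∈ E` (`E` mutually commuting).
For `z ∈ Submonoid.closure (DilGen T E)`:
* `z * g * inv z` has coefficients in `S` if `g` has and `β m e - β e m = 2 K ≥ 0` (`e ∈ E`, `m` in
  the support of `g`),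
* `inv z * g * z` has coefficients in `S` if `g` has and `β m e - β e m = - 2 K ≤ 0`.
-/

namespace Crest.Agent.R059

open Finset PowerSeries Dilog344 Trans569

namespace TPS

section basic

variable {M : Type*} [AddCommMonoid M] {R : Type*} [CommRing R] {T : Tw M R}

variable (T) in
/-- the dilogarithm factors of the classes in `E`. -/
def DilGen (E : Set M) : Set (TPS T) :=
  {z | ∃ e ∈ E, Function.Injective (fun k : ℕ => k • e) ∧ ∃ (p : Bool) (a : ℤ), z = dil T e p a}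

variable (T) in
/-- exponents which have the same pairings with `E` as `m`. -/
def SameCom (E : Set M) (m d : M) : Prop :=
  ∀ e ∈ E, T.β d e - T.β e d = T.β m e - T.β e m

theorem SameCom.refl (E : Set M) (m : M) : SameCom T E m m := fun _ _ => rfl

theorem SameCom.add_nsmul {E : Set M} (hE : ∀ e ∈ E, ∀ e' ∈ E, T.β e e' = T.β e' e) {m d : M}
    (h : SameCom T E m d) {e : M} (he : e ∈ E) (k : ℕ) : SameCom T E m (k • e + d) := by
  intro e' he'
  have h1 := h e' he'
  have h2 := hE e he e' he'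
  simp only [map_add, AddMonoidHom.add_apply, map_nsmul, AddMonoidHom.nsmul_apply]
  rw [h2]
  simp only [nsmul_eq_mul]
  linarith

theorem supp_ev (c : M) (f : R⟦X⟧) : Supp (fun d => ∃ k : ℕ, d = k • c) (ev T c f) := by
  intro d hd
  push Not at hd
  exact co_ev_of_not f hd

variable [HasAntidiagonal M]

theorem Supp.sameCom_conj {E : Set M} (hE : ∀ e ∈ E, ∀ e' ∈ E, T.β e e' = T.β e' e) {m : M}
    {g : TPS T} (hg : Supp (SameCom T E m) g) {e : M} (he : e ∈ E) (f f' : R⟦X⟧) :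
    Supp (SameCom T E m) (ev T e f * g * ev T e f') := by
  have h1 : Supp (SameCom T E m) (ev T e f * g) :=
    (supp_ev e f).mul hg (by
      rintro a b ⟨k, rfl⟩ hb
      exact hb.add_nsmul hE he k)
  refine h1.mul (supp_ev e f') ?_
  rintro a b ha ⟨k, rfl⟩
  rw [add_comm]
  exact ha.add_nsmul hE he k

/-- **crossing positivity for finite products of dilogarithm factors.** -/
theorem conj_closure {S : Subsemiring R} {h1 : (T.v : R) ∈ S} {h2 : ((T.v⁻¹ : Rˣ) : R) ∈ S}
    (hq : QReg ((T.v : R) ^ 2)) {E : Set M} (hE : ∀ e ∈ E, ∀ e' ∈ E, T.β e e' = T.β e' e)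
    {z : TPS T} (hz : z ∈ Submonoid.closure (DilGen T E)) :
    ∃ z' : TPS T, z * z' = 1 ∧ z' * z = 1 ∧
      (∀ m, (∀ e ∈ E, ∃ K : ℕ, T.β m e - T.β e m = 2 * K) → ∀ g ∈ posTPS T S h1 h2,
        Supp (SameCom T E m) g →
          z * g * z' ∈ posTPS T S h1 h2 ∧ Supp (SameCom T E m) (z * g * z')) ∧
      (∀ m, (∀ e ∈ E, ∃ K : ℕ, T.β m e - T.β e m = -(2 * K)) → ∀ g ∈ posTPS T S h1 h2,
        Supp (SameCom T E m) g →
          z' * g * z ∈ posTPS T S h1 h2 ∧ Supp (SameCom T E m) (z' * g * z)) := by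
  induction hz using Submonoid.closure_induction with
  | mem z hz =>
    obtain ⟨e, he, hinj, p, a, rfl⟩ := hz
    refine ⟨dili T e p a, dil_mul_dili hinj hq p a, dili_mul_dil hinj hq p a, ?_, ?_⟩
    · intro m hm g hg hgs
      obtain ⟨K, hK⟩ := hm e he
      refine ⟨dil_conj_mem hinj hq p a (K := K) hg ?_, hgs.sameCom_conj hE he _ _⟩
      intro d hd
      have hd' : SameCom T E m d := by
        by_contra hc; exact hd (hgs d hc)
      rw [hd' e he, hK]
    · intro m hm g hg hgs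
      obtain ⟨K, hK⟩ := hm e he
      refine ⟨dili_conj_mem hinj hq p a (K := K) hg ?_, hgs.sameCom_conj hE he _ _⟩
      intro d hd
      have hd' : SameCom T E m d := by
        by_contra hc; exact hd (hgs d hc)
      rw [hd' e he, hK]
  | one =>
    exact ⟨1, by simp, by simp, fun m _ g hg hgs => by simpa using ⟨hg, hgs⟩,
      fun m _ g hg hgs => by simpa using ⟨hg, hgs⟩⟩
  | mul z₁ z₂ _ _ ih₁ ih₂ =>
    obtain ⟨w₁, ha₁, hb₁, hc₁, hd₁⟩ := ih₁
    obtain ⟨w₂, ha₂, hb₂, hc₂, hd₂⟩ := ih₂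
    refine ⟨w₂ * w₁, ?_, ?_, ?_, ?_⟩
    · rw [mul_assoc, ← mul_assoc z₂, ha₂, one_mul, ha₁]
    · rw [mul_assoc, ← mul_assoc w₁, hb₁, one_mul, hb₂]
    · intro m hm g hg hgs
      obtain ⟨h3, h4⟩ := hc₂ m hm g hg hgs
      have h5 := hc₁ m hm _ h3 h4
      have : z₁ * z₂ * g * (w₂ * w₁) = z₁ * (z₂ * g * w₂) * w₁ := by
        simp only [mul_assoc]
      rw [this]; exact h5
    · intro m hm g hg hgs
      obtain ⟨h3, h4⟩ := hd₁ m hm g hg hgs
      have h5 := hd₂ m hm _ h3 h4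
      have : w₂ * w₁ * g * (z₁ * z₂) = w₂ * (w₁ * g * z₁) * z₂ := by
        simp only [mul_assoc]
      rw [this]; exact h5

end basic

section fac

variable {M : Type*} [AddCommMonoid M] [PartialOrder M] [IsOrderedCancelAddMonoid M]
  [CanonicallyOrderedAdd M] [WellFoundedLT M] [HasAntidiagonal M]
variable {R : Type*} [CommRing R] {T : Tw M R}

omit [IsOrderedCancelAddMonoid M] [WellFoundedLT M] in
theorem co_zero_of_closure {E : Set M} {z : TPS T}
    (hz : z ∈ Submonoid.closure (DilGen T E)) : z.co 0 = 1 := by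
  induction hz using Submonoid.closure_induction with
  | mem z hz =>
    obtain ⟨e, he, hinj, p, a, rfl⟩ := hz
    exact co_dil_zero hinj p a
  | one => exact co_one_zero
  | mul z₁ z₂ _ _ h₁ h₂ => rw [co_mul_zero', h₁, h₂, one_mul]

omit [HasAntidiagonal M] [PartialOrder M] [IsOrderedCancelAddMonoid M]
  [CanonicallyOrderedAdd M] [WellFoundedLT M] in
theorem Y_mem_posTPS [HasAntidiagonal M] {S : Subsemiring R} {h1 : (T.v : R) ∈ S}
    {h2 : ((T.v⁻¹ : Rˣ) : R) ∈ S} (m : M) : Y T m ∈ posTPS T S h1 h2 := by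
  classical
  intro d
  rw [Y, co_mono]
  split_ifs
  · exact S.one_mem
  · exact S.zero_mem

omit [HasAntidiagonal M] [PartialOrder M] [IsOrderedCancelAddMonoid M]
  [CanonicallyOrderedAdd M] [WellFoundedLT M] in
theorem supp_Y {P : M → Prop} {m : M} (h : P m) : Supp P (Y T m) := by
  intro d hd
  rw [Y]
  apply co_mono_ne
  rintro rfl
  exact hd h

/-- crossing positivity, `com ≥ 0`. -/
theorem conj_closure_pos {S : Subsemiring R} {h1 : (T.v : R) ∈ S} {h2 : ((T.v⁻¹ : Rˣ) : R) ∈ S}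
    (hq : QReg ((T.v : R) ^ 2)) {E : Set M} (hE : ∀ e ∈ E, ∀ e' ∈ E, T.β e e' = T.β e' e)
    {z : TPS T} (hz : z ∈ Submonoid.closure (DilGen T E)) {m : M}
    (hm : ∀ e ∈ E, ∃ K : ℕ, T.β m e - T.β e m = 2 * K) :
    z * Y T m * inv z ∈ posTPS T S h1 h2 := by
  obtain ⟨z', h3, h4, h5, h6⟩ := conj_closure (h1 := h1) (h2 := h2) hq hE hz
  rw [inv_eq_of_mul (co_zero_of_closure hz) h3]
  exact (h5 m hm _ (Y_mem_posTPS m) (supp_Y (SameCom.refl E m))).1

/-- crossing positivity, `com ≤ 0`. -/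
theorem conj_closure_neg {S : Subsemiring R} {h1 : (T.v : R) ∈ S} {h2 : ((T.v⁻¹ : Rˣ) : R) ∈ S}
    (hq : QReg ((T.v : R) ^ 2)) {E : Set M} (hE : ∀ e ∈ E, ∀ e' ∈ E, T.β e e' = T.β e' e)
    {z : TPS T} (hz : z ∈ Submonoid.closure (DilGen T E)) {m : M}
    (hm : ∀ e ∈ E, ∃ K : ℕ, T.β m e - T.β e m = -(2 * K)) :
    inv z * Y T m * z ∈ posTPS T S h1 h2 := by
  obtain ⟨z', h3, h4, h5, h6⟩ := conj_closure (h1 := h1) (h2 := h2) hq hE hz
  rw [inv_eq_of_mul (co_zero_of_closure hz) h3]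
  exact (h6 m hm _ (Y_mem_posTPS m) (supp_Y (SameCom.refl E m))).1

end fac

section ker

variable {ι : Type*} {V : Type} [AddCommGroup V] [LinearOrder V] [IsOrderedAddMonoid V]

omit [LinearOrder V] [IsOrderedAddMonoid V] in
/-- classes in the kernel of a functional with `KerRay`. -/
theorem kerRay_mult {x : (ι →₀ ℕ) →+ V} {c e : ι →₀ ℕ} (h : KerRay x c) (he : x e = 0) :
    ∃ k l : ℕ, 0 < k ∧ k • e = l • c := by
  obtain ⟨k, i, j, hk, hij⟩ := h.2.2 e 0 (by rw [he, map_zero])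
  rw [smul_zero, zero_add] at hij
  by_cases hle : i ≤ j
  · refine ⟨k, j - i, hk, ?_⟩
    have h2 : j • c = (j - i) • c + i • c := by rw [← add_nsmul, Nat.sub_add_cancel hle]
    rw [h2] at hij
    exact add_right_cancel hij
  · exfalso
    push Not at hle
    have h2 : i • c = (i - j) • c + j • c := by rw [← add_nsmul, Nat.sub_add_cancel hle.le]
    rw [h2, ← add_assoc] at hij
    have h3 : k • e + (i - j) • c = 0 := by
      have := hij
      nth_rewrite 2 [← zero_add (j • c)] at this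
      exact add_right_cancel this
    have h4 : (i - j) • c = 0 := (add_eq_zero.1 h3).2
    rw [smul_eq_zero] at h4
    rcases h4 with h4 | h4
    · omega
    · exact h.1 h4

variable {R : Type*} [CommRing R] {T : Tw (ι →₀ ℕ) R}

omit [LinearOrder V] [IsOrderedAddMonoid V] in
theorem kerRay_comm {x : (ι →₀ ℕ) →+ V} {c : ι →₀ ℕ} (h : KerRay x c)
    {e e' : ι →₀ ℕ} (he : x e = 0) (he' : x e' = 0) : T.β e e' = T.β e' e := by
  obtain ⟨k, l, hk, h1⟩ := kerRay_mult h he
  obtain ⟨k', l', hk', h1'⟩ := kerRay_mult h he'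
  have h2 : T.β (k • e) (k' • e') = T.β (k' • e') (k • e) := by
    rw [h1, h1']
    simp only [map_nsmul, AddMonoidHom.nsmul_apply, smul_smul, mul_comm]
  simp only [map_nsmul, AddMonoidHom.nsmul_apply, nsmul_eq_mul] at h2
  have h3 : ((k : ℤ) * k') * (T.β e e' - T.β e' e) = 0 := by linear_combination h2
  rcases mul_eq_zero.1 h3 with h4 | h4
  · exfalso
    rcases mul_eq_zero.1 h4 with h5 | h5 <;> omega
  · linarith

omit [LinearOrder V] [IsOrderedAddMonoid V] in
theorem kerRay_beta {x : (ι →₀ ℕ) →+ V} {c : ι →₀ ℕ} (h : KerRay x c)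
    {e : ι →₀ ℕ} (he : x e = 0) (m : ι →₀ ℕ) :
    (0 ≤ T.β m c → 0 ≤ T.β m e) ∧ (T.β m c ≤ 0 → T.β m e ≤ 0) := by
  obtain ⟨k, l, hk, h1⟩ := kerRay_mult h he
  have h2 : T.β m (k • e) = T.β m (l • c) := by rw [h1]
  simp only [map_nsmul, nsmul_eq_mul] at h2
  have hk' : (0 : ℤ) < k := by exact_mod_cast hk
  constructor
  · intro h3
    have : 0 ≤ (k : ℤ) * T.β m e := by rw [h2]; positivity
    exact nonneg_of_mul_nonneg_right this hk'
  · intro h3
    have : (k : ℤ) * T.β m e ≤ 0 := by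
      rw [h2]; exact mul_nonpos_of_nonneg_of_nonpos (by positivity) h3
    by_contra h4
    push Not at h4
    have := mul_pos hk' h4
    omega

end ker

section ker2

variable {ι : Type*} [DecidableEq ι] {V : Type} [AddCommGroup V] [LinearOrder V]
  [IsOrderedAddMonoid V] {R : Type*} [CommRing R]
  {T : Tw (ι →₀ ℕ) R}

/-- **569's `CrossPos` for finite products**: `z` a product of dilogarithm factors of classes in
`ker x`, `ker x = ℚ c`, form skew. -/
theorem cross_ker {S : Subsemiring R} {h1 : (T.v : R) ∈ S} {h2 : ((T.v⁻¹ : Rˣ) : R) ∈ S}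
    (hq : QReg ((T.v : R) ^ 2)) (hs : ∀ a b, T.β a b = - T.β b a)
    {x : (ι →₀ ℕ) →+ V} {c : ι →₀ ℕ} (hx : KerRay x c)
    {z : TPS T} (hz : z ∈ Submonoid.closure (DilGen T {e | x e = 0})) (m : ι →₀ ℕ) :
    (0 ≤ T.β m c → z * Y T m * inv z ∈ posTPS T S h1 h2) ∧
    (T.β m c ≤ 0 → inv z * Y T m * z ∈ posTPS T S h1 h2) := by
  constructor
  · intro hm
    refine conj_closure_pos hq (fun e he e' he' => kerRay_comm hx he he') hz ?_
    intro e he
    have h3 := (kerRay_beta (T := T) hx he m).1 hm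
    refine ⟨(T.β m e).toNat, ?_⟩
    have h4 := hs m e
    omega
  · intro hm
    refine conj_closure_neg hq (fun e he e' he' => kerRay_comm hx he he') hz ?_
    intro e he
    have h3 := (kerRay_beta (T := T) hx he m).2 hm
    refine ⟨(- T.β m e).toNat, ?_⟩
    have h4 := hs m e
    omega

/-- the same in the existence form. -/
theorem cross_ker_exists {S : Subsemiring R} {h1 : (T.v : R) ∈ S} {h2 : ((T.v⁻¹ : Rˣ) : R) ∈ S}
    (hq : QReg ((T.v : R) ^ 2)) (hs : ∀ a b, T.β a b = - T.β b a)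
    {x : (ι →₀ ℕ) →+ V} {c : ι →₀ ℕ} (hx : KerRay x c)
    {z : TPS T} (hz : z ∈ Submonoid.closure (DilGen T {e | x e = 0})) (m : ι →₀ ℕ) :
    (0 ≤ T.β m c → ∃ U : TPS T, (∀ d, U.co d ∈ S) ∧ z * Y T m = U * z) ∧
    (T.β m c ≤ 0 → ∃ U : TPS T, (∀ d, U.co d ∈ S) ∧ Y T m * z = z * U) := by
  have h0 := co_zero_of_closure hz
  obtain ⟨h3, h4⟩ := cross_ker (h1 := h1) (h2 := h2) hq hs hx hz m
  refine ⟨fun hm => ⟨_, h3 hm, ?_⟩, fun hm => ⟨_, h4 hm, ?_⟩⟩
  · rw [mul_assoc (z * Y T m), inv_mul h0, mul_one]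
  · rw [← mul_assoc, ← mul_assoc, mul_inv h0, one_mul]

end ker2

end TPS

end Crest.Agent.R059
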