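/-
Row 59 (S0081), helper580: the deflation formula for ARBITRARY per-vertex charts.
A chart at the vertex `j` is a pair `f j, g j : ℤ → ℤ → F` with the Pascal rule, the relation
`q^A (q^D - 1) f = (q^A - 1) g` and `g j A 0 = 0` for `A ≠ 0`; the formula holds as soon as the
path sum of the constants `f j 0 0, g j 0 0` is `1`.
-/
import Crest.Agent.R059.DeflInf52

set_option autoImplicit false

namespace Crest.Agent.R059.Defl

open Crest.Agent.R059.ThickAlg Finset

section

variable {ι : Type*} [LinearOrder ι] {R : ι → ι → Prop} [DecidableRel R]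
variable {F : Type*} [Field F] [Fintype ι]

/-- degree 0 identity for arbitrary charts. -/
theorem base_gen580 (hR : UI R) {q : F} (hq : q ≠ 0) (hgen : ∀ m : ℤ, m ≠ 0 → q ^ m ≠ 1)
    (k : ι → ℤ) (hsum : ∑ j, k j = 0) (f g f0 g0 : ι → F)
    (hrel : ∀ j, q ^ k j * (q ^ nb R k j - 1) * f j = (q ^ k j - 1) * g j)
    (h0 : ∀ j, nb R k j = 0 → k j = 0 → f j = f0 j ∧ g j = g0 j)
    (h1 : ∀ j, nb R k j = 0 → k j ≠ 0 → g j = 0)
    (V : Finset ι) (r : ι) (hrV : ∀ j ∈ V, r < j) (hfin : ∀ j, j ∉ V → ∀ i ∈ V, j < i)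
    (hk : ∀ j, j ∉ V → k j = 0) :
    T R f g r V = if k = 0 then T R f0 g0 r V else 0 := by
  induction hn : V.card using Nat.strong_induction_on generalizing V r with
  | _ n IH =>
  rcases V.eq_empty_or_nonempty with rfl | hne
  · rw [T_empty, T_empty, if_pos]
    funext j
    exact hk j (Finset.notMem_empty _)
  set b := V.min' hne with hb
  have hbV : b ∈ V := V.min'_mem hne
  set V' := V.erase b with hV'
  have hVins : V = insert b V' := (Finset.insert_erase hbV).symm
  have hlt : ∀ i ∈ V', b < i := fun i hi =>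
    lt_of_le_of_ne (V.min'_le i (Finset.mem_of_mem_erase hi)) (Finset.ne_of_mem_erase hi).symm
  have hrb : r < b := hrV b hbV
  have hcard : V'.card < n := by
    rw [← hn]; exact Finset.card_lt_card (Finset.erase_ssubset hbV)
  have hkb : ∀ i, i < b → k i = 0 := by
    intro i hi
    apply hk
    intro h
    exact not_lt.2 (V.min'_le i h) hi
  have hD : nb R k b = 0 := by
    unfold nb
    apply Finset.sum_eq_zero
    intro i _
    split_ifs with h
    · exact hkb i (hR.lt h)
    · rfl
  have hfull : V' = Jr b := by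
    ext j
    simp only [Jr, Finset.mem_filter, Finset.mem_univ, true_and]
    constructor
    · exact hlt j
    · intro h
      refine Finset.mem_erase.2 ⟨h.ne', ?_⟩
      by_contra h'
      exact absurd (hfin j h' b hbV) (not_lt.2 h.le)
  have hfin' : ∀ j, j ∉ V' → ∀ i ∈ V', j < i := by
    intro j hj i hi
    by_cases h : j = b
    · rw [h]; exact hlt i hi
    · exact hfin j (fun h' => hj (Finset.mem_erase.2 ⟨h, h'⟩)) i (Finset.mem_of_mem_erase hi)
  rw [hVins, T_min hR f g r V' b hlt hrb]
  by_cases hb0 : k b = 0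
  · have hk' : ∀ j, j ∉ V' → k j = 0 := by
      intro j hj
      by_cases h : j = b
      · rw [h]; exact hb0
      · exact hk j (fun h' => hj (Finset.mem_erase.2 ⟨h, h'⟩))
    obtain ⟨e1, e2⟩ := h0 b hD hb0
    rw [e1, e2, IH _ hcard V' r (fun j hj => hrb.trans (hlt j hj)) hfin' hk' rfl,
      IH _ hcard V' b hlt hfin' hk' rfl,
      T_min hR f0 g0 r V' b hlt hrb]
    by_cases hk0 : k = 0
    · simp only [if_pos hk0]
    · simp only [if_neg hk0]; simp
  · have hk0 : k ≠ 0 := by rintro rfl; exact hb0 rfl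
    rw [h1 b hD hb0, if_neg hk0, hfull, T_full_zero hR hq hgen k b hkb hb0 hsum f g (fun j _ => hrel j)]
    simp

/-- **The q-deflation formula for arbitrary per-vertex charts.** -/
theorem defl_gen580 (hR : UI R) {q : F} (gq : Gen q) (o : ι) (ho : ∀ j, o ≤ j) (x : ℕ → F)
    (f g : ι → ℤ → ℤ → F)
    (hf : ∀ j A D, f j A D = q ^ D * f j (A - 1) D + f j A (D - 1))
    (hg : ∀ j A D, g j A D = q ^ D * g j (A - 1) D + g j A (D - 1))
    (hrel : ∀ j A D, q ^ A * (q ^ D - 1) * f j A D = (q ^ A - 1) * g j A D)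
    (h1 : ∀ j A, A ≠ 0 → g j A 0 = 0)
    (hT : T R (fun j => f j 0 0) (fun j => g j 0 0) o (J o) = 1)
    (N : ℕ) (k : ι → ℤ) (B : ℤ) (hB0 : 0 ≤ B) (hB : ∑ j, k j ≤ B) :
    W R q x N k = ∑ c ∈ box R o B, q ^ ex R c (k - c) *
      T R (fun j => f j ((k - c) j) (Dv R k c j)) (fun j => g j ((k - c) j) (Dv R k c j)) o (J o) *
      ee x N (∑ j, k j - ∑ j, c j) * W R q x N c := by
  have hPhi : ∀ A D : ι → ℤ, Phi o ((J o).powerset.filter (fun p => Good R o p))
      (fun p j A D => if j ∈ p then f j A D else g j A D) A D =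
      T R (fun j => f j (A j) (D j)) (fun j => g j (A j) (D j)) o (J o) := by
    intro A D
    unfold Phi T
    rw [Finset.sum_filter]
    apply Finset.sum_congr rfl
    intro p hp
    rw [Finset.mem_powerset] at hp
    split_ifs with h
    · rw [← Finset.prod_sdiff hp, mul_comm]
      congr 1
      · apply Finset.prod_congr rfl
        intro j hj
        exact if_pos hj
      · apply Finset.prod_congr rfl
        intro j hj
        exact if_neg (Finset.mem_sdiff.1 hj).2
    · rfl
  rw [defl hR o ho q gq.q0 x ((J o).powerset.filter (fun p => Good R o p))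
    (fun p j A D => if j ∈ p then f j A D else g j A D) ?_ ?_ N k B hB0 hB]
  · apply Finset.sum_congr rfl
    intro c _
    rw [hPhi]
  · intro p _ j _ A D
    by_cases h : j ∈ p
    · simp only [if_pos h]
      exact hf j A D
    · simp only [if_neg h]
      exact hg j A D
  · intro k hk
    rw [hPhi]
    have hJ : J o = Jr o := by
      ext j
      simp only [J, Jr, Finset.mem_erase, Finset.mem_univ, and_true, Finset.mem_filter, true_and]
      constructor
      · intro h; exact lt_of_le_of_ne (ho j) (Ne.symm h)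
      · intro h; exact h.ne'
    by_cases hko : k o = 0
    · rw [base_gen580 hR gq.q0 (gen_ne gq) k hk (fun j => f j (k j) (nb R k j))
        (fun j => g j (k j) (nb R k j)) (fun j => f j 0 0) (fun j => g j 0 0)
        (fun j => hrel j _ _)
        (by
          intro j hD h0
          simp only [hD, h0, and_self])
        (by
          intro j hD h0
          simp only [hD]
          exact h1 j _ h0)
        (J o) o
        (by intro j hj; rw [hJ] at hj; exact (Finset.mem_filter.1 hj).2)
        (by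
          intro j hj i hi
          have : j = o := by
            by_contra h
            exact hj (Finset.mem_erase.2 ⟨h, Finset.mem_univ _⟩)
          rw [this]
          rw [hJ] at hi
          exact (Finset.mem_filter.1 hi).2)
        (by
          intro j hj
          have : j = o := by
            by_contra h
            exact hj (Finset.mem_erase.2 ⟨h, Finset.mem_univ _⟩)
          rw [this]; exact hko), hT]
    · have hne : k ≠ 0 := by rintro rfl; exact hko rfl
      rw [if_neg hne, hJ]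
      exact T_full_zero hR gq.q0 (gen_ne gq) k o (fun i hi => absurd (ho i) (not_le.2 hi)) hko hk
        _ _ (fun j _ => hrel j _ _)

end

/-! ### the three charts -/

section charts

variable {F : Type*} [Field F]

/-- path factor of the charts 0, 1, 2. -/
noncomputable def f3 (q : F) (t : Fin 3) (A D : ℤ) : F :=
  match t with
  | 0 => gb q (A + D - 1) (A - 1)
  | 1 => gb q (A + D - 1) D
  | 2 => fi q A D

/-- non-path factor of the charts 0, 1, 2. -/
noncomputable def g3 (q : F) (t : Fin 3) (A D : ℤ) : F :=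
  match t with
  | 0 => q ^ A * gb q (A + D - 1) A
  | 1 => q ^ A * gb q (A + D - 1) (D - 1)
  | 2 => gi q A D

theorem f3_pascal {q : F} (gq : Gen q) (t : Fin 3) (A D : ℤ) :
    f3 q t A D = q ^ D * f3 q t (A - 1) D + f3 q t A (D - 1) := by
  have h0 := fk_pascal gq (∅ : Finset (Fin 1)) 0 A D
  have h1 := fk_pascal gq ({0} : Finset (Fin 1)) 0 A D
  unfold fk at h0 h1
  simp only [Finset.notMem_empty, if_false, Finset.mem_singleton, if_true] at h0 h1
  fin_cases t
  · exact h0
  · exact h1
  · exact fi_pascal gq A D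

theorem g3_pascal {q : F} (gq : Gen q) (t : Fin 3) (A D : ℤ) :
    g3 q t A D = q ^ D * g3 q t (A - 1) D + g3 q t A (D - 1) := by
  have h0 := gk_pascal gq (∅ : Finset (Fin 1)) 0 A D
  have h1 := gk_pascal gq ({0} : Finset (Fin 1)) 0 A D
  unfold gk at h0 h1
  simp only [Finset.notMem_empty, if_false, Finset.mem_singleton, if_true] at h0 h1
  fin_cases t
  · exact h0
  · exact h1
  · exact gi_pascal gq A D

theorem fg3_rel {q : F} (gq : Gen q) (t : Fin 3) (A D : ℤ) :
    q ^ A * (q ^ D - 1) * f3 q t A D = (q ^ A - 1) * g3 q t A D := by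
  have h0 := fg_rel gq (∅ : Finset (Fin 1)) 0 A D
  have h1 := fg_rel gq ({0} : Finset (Fin 1)) 0 A D
  unfold fk gk at h0 h1
  simp only [Finset.notMem_empty, if_false, Finset.mem_singleton, if_true] at h0 h1
  fin_cases t
  · exact h0
  · exact h1
  · exact fgi_rel gq A D

theorem gb_over580 (q : F) (m : ℕ) : gb q (m : ℤ) ((m : ℤ) + 1) = 0 := by
  have := gb_nat q (m : ℤ) (m + 1)
  push_cast at this
  rw [this, Finset.prod_eq_zero (i := m) (Finset.self_mem_range_succ m)]
  · rw [zero_div]
  · rw [sub_self, qz_zero]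

theorem g3_zero {q : F} (t : Fin 3) (A : ℤ) (hA : A ≠ 0) : g3 q t A 0 = 0 := by
  fin_cases t
  · show q ^ A * gb q (A + 0 - 1) A = 0
    rcases lt_or_gt_of_ne hA with h | h
    · rw [gb_neg q _ h, mul_zero]
    · obtain ⟨m, rfl⟩ : ∃ m : ℕ, A = m + 1 := ⟨(A - 1).toNat, by omega⟩
      have e : (m : ℤ) + 1 + 0 - 1 = m := by ring
      rw [e, gb_over580, mul_zero]
  · show q ^ A * gb q (A + 0 - 1) (0 - 1) = 0
    rw [gb_neg q _ (by norm_num), mul_zero]
  · show gi q A 0 = 0
    unfold gi
    have : gb q (-0) (-0 - A) = 0 := by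
      rcases lt_or_gt_of_ne hA with h | h
      · obtain ⟨m, hm⟩ : ∃ m : ℕ, -0 - A = (m : ℤ) + 1 := ⟨(-0 - A - 1).toNat, by omega⟩
        rw [hm, neg_zero]
        have := gb_nat q (0 : ℤ) (m + 1)
        push_cast at this
        rw [this, Finset.prod_eq_zero (i := 0) (by simp)]
        · rw [zero_div]
        · simp [qz_zero]
      · exact gb_neg q _ (by omega)
    rw [this, mul_zero]

/-- values at the origin: chart 0 `(0,1)`, chart 1 `(1,0)`, chart 2 `(-1,1)`. -/
def c0 (F : Type*) [Field F] (t : Fin 3) : F × F :=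
  match t with
  | 0 => (0, 1)
  | 1 => (1, 0)
  | 2 => (-1, 1)

theorem f3_origin {q : F} (t : Fin 3) : f3 q t 0 0 = (c0 F t).1 := by
  fin_cases t
  · show gb q (0 + 0 - 1) (0 - 1) = 0
    exact gb_neg q _ (by norm_num)
  · show gb q (0 + 0 - 1) 0 = 1
    exact gb_zero q _
  · show fi q 0 0 = -1
    have e : (-0 - 0 : ℤ) = 0 := by norm_num
    simp [fi, sg, tri, gb_zero]

theorem g3_origin {q : F} (t : Fin 3) : g3 q t 0 0 = (c0 F t).2 := by
  fin_cases t
  · show q ^ (0 : ℤ) * gb q (0 + 0 - 1) 0 = 1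
    rw [gb_zero, zpow_zero, mul_one]
  · show q ^ (0 : ℤ) * gb q (0 + 0 - 1) (0 - 1) = 0
    rw [gb_neg q _ (by norm_num), mul_zero]
  · show gi q 0 0 = 1
    simp [gi, sg, tri, gb_zero]

end charts

section

variable {ι : Type*} [LinearOrder ι] {R : ι → ι → Prop} [DecidableRel R]
variable {F : Type*} [Field F] [Fintype ι]

/-- the kernel of the mixed chart `χ`. -/
noncomputable def Ker3 (R : ι → ι → Prop) [DecidableRel R] (q : F) (χ : ι → Fin 3) (o : ι)
    (A D : ι → ℤ) : F :=
  T R (fun j => f3 q (χ j) (A j) (D j)) (fun j => g3 q (χ j) (A j) (D j)) o (J o)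

/-- **The q-deflation formula for mixed charts** `χ : ι → {0,1,2}`. -/
theorem defl_mix580 (hR : UI R) {q : F} (gq : Gen q) (o : ι) (ho : ∀ j, o ≤ j) (x : ℕ → F)
    (χ : ι → Fin 3)
    (hT : T R (fun j => (c0 F (χ j)).1) (fun j => (c0 F (χ j)).2) o (J o) = 1)
    (N : ℕ) (k : ι → ℤ) (B : ℤ) (hB0 : 0 ≤ B) (hB : ∑ j, k j ≤ B) :
    W R q x N k = ∑ c ∈ box R o B, q ^ ex R c (k - c) * Ker3 R q χ o (k - c) (Dv R k c) *
      ee x N (∑ j, k j - ∑ j, c j) * W R q x N c := by
  unfold Ker3
  exact defl_gen580 hR gq o ho x (fun j => f3 q (χ j)) (fun j => g3 q (χ j))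
    (fun j A D => f3_pascal gq (χ j) A D) (fun j A D => g3_pascal gq (χ j) A D)
    (fun j A D => fg3_rel gq (χ j) A D) (fun j A hA => g3_zero (χ j) A hA)
    (by
      simp only [f3_origin, g3_origin]
      exact hT) N k B hB0 hB

/-- same with `T_χ = -1`. -/
theorem defl_mix_neg580 (hR : UI R) {q : F} (gq : Gen q) (o : ι) (ho : ∀ j, o ≤ j) (x : ℕ → F)
    (χ : ι → Fin 3) (hne : (J o).Nonempty)
    (hT : T R (fun j => (c0 F (χ j)).1) (fun j => (c0 F (χ j)).2) o (J o) ≠ 0)
    (N : ℕ) (k : ι → ℤ) (B : ℤ) (hB0 : 0 ≤ B) (hB : ∑ j, k j ≤ B) :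
    W R q x N k = ∑ c ∈ box R o B, q ^ ex R c (k - c) *
      ((T R (fun j => (c0 F (χ j)).1) (fun j => (c0 F (χ j)).2) o (J o))⁻¹ *
        Ker3 R q χ o (k - c) (Dv R k c)) *
      ee x N (∑ j, k j - ∑ j, c j) * W R q x N c := by
  classical
  set t := T R (fun j => (c0 F (χ j)).1) (fun j => (c0 F (χ j)).2) o (J o) with ht
  obtain ⟨a, ha⟩ := hne
  -- scale the factor at `a` by `t⁻¹`
  have hscale : ∀ f g : ι → F, T R (fun j => (if j = a then t⁻¹ else 1) * f j)
      (fun j => (if j = a then t⁻¹ else 1) * g j) o (J o) = t⁻¹ * T R f g o (J o) := by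
    intro f g
    unfold T
    rw [Finset.mul_sum]
    apply Finset.sum_congr rfl
    intro p hp
    rw [Finset.mem_powerset] at hp
    split_ifs with h
    · rw [Finset.prod_mul_distrib, Finset.prod_mul_distrib]
      have : (∏ j ∈ p, (if j = a then t⁻¹ else 1)) * (∏ j ∈ J o \ p, (if j = a then t⁻¹ else 1)) =
          t⁻¹ := by
        rw [mul_comm, Finset.prod_sdiff hp, Finset.prod_ite_eq' (J o) a, if_pos ha]
      linear_combination (∏ j ∈ p, f j) * (∏ j ∈ J o \ p, g j) * this
    · rw [mul_zero]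
  have key := defl_gen580 hR gq o ho x (fun j A D => (if j = a then t⁻¹ else 1) * f3 q (χ j) A D)
    (fun j A D => (if j = a then t⁻¹ else 1) * g3 q (χ j) A D)
    (fun j A D => by rw [f3_pascal gq (χ j) A D]; ring)
    (fun j A D => by rw [g3_pascal gq (χ j) A D]; ring)
    (fun j A D => by
      linear_combination (if j = a then t⁻¹ else 1) * fg3_rel gq (χ j) A D)
    (fun j A hA => by rw [g3_zero (χ j) A hA, mul_zero])
    (by
      rw [hscale (fun j => f3 q (χ j) 0 0) (fun j => g3 q (χ j) 0 0)]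
      simp only [f3_origin, g3_origin]
      rw [← ht]
      exact inv_mul_cancel₀ hT) N k B hB0 hB
  rw [key]
  apply Finset.sum_congr rfl
  intro c _
  rw [hscale (fun j => f3 q (χ j) ((k - c) j) (Dv R k c j))
    (fun j => g3 q (χ j) ((k - c) j) (Dv R k c j))]
  rfl

end

end Crest.Agent.R059.Defl
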