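import Mathlib

/-!
# Divisibility by products of differences of variables over an arbitrary commutative ring
(row 59, generic part of the symbol calculus of Theorem B)
-/

set_option autoImplicit false
set_option linter.unusedSectionVars false

namespace Crest.Agent.R059.DivT547

open MvPolynomial

variable {σ A : Type*} [DecidableEq σ] [CommRing A]

theorem X_mul_cancel {j : σ} {S : MvPolynomial σ A} (h : X j * S = 0) : S = 0 := by
  ext m
  have h1 := congrArg (coeff (Finsupp.single j 1 + m)) h
  rwa [coeff_X_mul, coeff_zero] at h1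

/-- `X j - X i` is a non-zero-divisor -/
theorem sub_mul_cancel {i j : σ} (hij : i ≠ j) {S : MvPolynomial σ A}
    (h : (X j - X i) * S = 0) : S = 0 := by
  let e : MvPolynomial σ A →ₐ[A] MvPolynomial σ A :=
    aeval (fun m => if m = j then X j + X i else X m)
  let f : MvPolynomial σ A →ₐ[A] MvPolynomial σ A :=
    aeval (fun m => if m = j then X j - X i else X m)
  have hfe : ∀ p, f (e p) = p := by
    intro p
    have : f.comp e = AlgHom.id A _ := by
      apply MvPolynomial.algHom_ext
      intro m
      by_cases hm : m = j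
      · subst hm
        simp [e, f, hij]
      · simp [e, f, hm]
    exact DFunLike.congr_fun this p
  have h1 : X j * e S = 0 := by
    have := congrArg e h
    rw [map_mul, map_sub, map_zero] at this
    simpa [e, hij] using this
  have h2 := X_mul_cancel h1
  rw [← hfe S, h2, map_zero]

theorem sub_mul_inj {i j : σ} (hij : i ≠ j) {S S' : MvPolynomial σ A}
    (h : (X j - X i) * S = (X j - X i) * S') : S = S' := by
  have : (X j - X i) * (S - S') = 0 := by rw [mul_sub, h, sub_self]
  exact sub_eq_zero.1 (sub_mul_cancel hij this)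

theorem sub_pow_mul_inj {i j : σ} (hij : i ≠ j) (p : ℕ) {S S' : MvPolynomial σ A}
    (h : (X j - X i) ^ p * S = (X j - X i) ^ p * S') : S = S' := by
  induction p with
  | zero => simpa using h
  | succ p ih =>
    apply ih
    apply sub_mul_inj hij
    rw [← mul_assoc, ← mul_assoc, ← pow_succ', h]

/-- substitution `X l ↦ X k` -/
noncomputable def sb (k l : σ) : MvPolynomial σ A →ₐ[A] MvPolynomial σ A :=
  aeval (fun m => if m = l then X k else X m)

theorem sb_X (k l m : σ) : sb k l (X m : MvPolynomial σ A) = X (if m = l then k else m) := by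
  rw [sb, aeval_X]
  split_ifs <;> rfl

theorem dvd_sub_sb (k l : σ) (p : MvPolynomial σ A) : (X l - X k) ∣ p - sb k l p := by
  induction p using MvPolynomial.induction_on with
  | C a =>
    have : sb k l (C a) = (C a : MvPolynomial σ A) := by
      rw [sb, aeval_C]; rfl
    rw [this, sub_self]; exact dvd_zero _
  | add p q hp hq =>
    rw [map_add, add_sub_add_comm]
    exact dvd_add hp hq
  | mul_X p m hp =>
    rw [map_mul, sb_X]
    have h1 : (X l - X k : MvPolynomial σ A) ∣ X m - X (if m = l then k else m) := by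
      split_ifs with h
      · rw [h]
      · rw [sub_self]; exact dvd_zero _
    have : p * X m - sb k l p * X (if m = l then k else m)
        = (p - sb k l p) * X m + sb k l p * (X m - X (if m = l then k else m)) := by ring
    rw [this]
    exact dvd_add (Dvd.dvd.mul_right hp _) (Dvd.dvd.mul_left h1 _)

theorem dvd_iff_sb {k l : σ} (p : MvPolynomial σ A) :
    (X l - X k) ∣ p ↔ sb k l p = 0 := by
  constructor
  · rintro ⟨q, rfl⟩
    rw [map_mul, map_sub, sb_X, sb_X, if_pos rfl]
    split_ifs <;> simp
  · intro h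
    have := dvd_sub_sb k l p
    rwa [h, sub_zero] at this

theorem dvd_of_dvd_mul₁ {i j k l : σ} (hij : i ≠ j) (hne : s(i, j) ≠ s(k, l))
    {S : MvPolynomial σ A} (h : (X l - X k) ∣ (X j - X i) * S) : (X l - X k) ∣ S := by
  rw [dvd_iff_sb] at h ⊢
  rw [map_mul, map_sub, sb_X, sb_X] at h
  apply sub_mul_cancel _ h
  intro h1
  apply hne
  rw [Sym2.eq_iff]
  by_cases hi : i = l
  · by_cases hj : j = l
    · exact absurd (hi.trans hj.symm) hij
    · rw [if_pos hi, if_neg hj] at h1
      exact Or.inr ⟨hi, h1.symm⟩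
  · by_cases hj : j = l
    · rw [if_neg hi, if_pos hj] at h1
      exact Or.inl ⟨h1, hj⟩
    · rw [if_neg hi, if_neg hj] at h1
      exact absurd h1 hij

theorem pow_dvd_of_pow_dvd_mul₁ {i j k l : σ} (hij : i ≠ j) (hkl : k ≠ l)
    (hne : s(i, j) ≠ s(k, l)) (q : ℕ) {S : MvPolynomial σ A}
    (h : (X l - X k) ^ q ∣ (X j - X i) * S) : (X l - X k) ^ q ∣ S := by
  induction q generalizing S with
  | zero => simp
  | succ q ih =>
    have h1 : (X l - X k) ∣ (X j - X i) * S :=
      (Dvd.intro_left ((X l - X k) ^ q) (pow_succ _ _).symm).trans h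
    obtain ⟨S', rfl⟩ := dvd_of_dvd_mul₁ hij hne h1
    obtain ⟨U, hU⟩ := h
    have h2 : (X l - X k) * ((X j - X i) * S') = (X l - X k) * ((X l - X k) ^ q * U) := by
      rw [← mul_assoc (X l - X k) ((X l - X k) ^ q), ← pow_succ', ← hU]; ring
    have h3 := sub_mul_inj hkl h2
    rw [pow_succ']
    exact mul_dvd_mul_left _ (ih ⟨U, h3⟩)

theorem pow_dvd_of_pow_dvd_mul {i j k l : σ} (hij : i ≠ j) (hkl : k ≠ l)
    (hne : s(i, j) ≠ s(k, l)) (p q : ℕ) {S : MvPolynomial σ A}
    (h : (X l - X k) ^ q ∣ (X j - X i) ^ p * S) : (X l - X k) ^ q ∣ S := by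
  induction p with
  | zero => simpa using h
  | succ p ih =>
    apply ih
    apply pow_dvd_of_pow_dvd_mul₁ hij hkl hne
    rwa [← mul_assoc, ← pow_succ']

/-- product of powers of differences over a finset of pairs -/
noncomputable def dprod (A : Type*) [CommRing A] (P : Finset (σ × σ)) (p : σ × σ → ℕ) :
    MvPolynomial σ A :=
  ∏ e ∈ P, (X e.2 - X e.1) ^ p e

theorem dprod_dvd (P : Finset (σ × σ)) (p : σ × σ → ℕ) (h1 : ∀ e ∈ P, e.1 ≠ e.2)
    (h2 : ∀ e ∈ P, ∀ e' ∈ P, s(e.1, e.2) = s(e'.1, e'.2) → e = e')
    {T : MvPolynomial σ A} (hT : ∀ e ∈ P, (X e.2 - X e.1) ^ p e ∣ T) :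
    dprod A P p ∣ T := by
  induction P using Finset.induction_on with
  | empty => simp [dprod]
  | insert a P ha ih =>
    have h3 : dprod A P p ∣ T := ih (fun e he => h1 e (Finset.mem_insert_of_mem he))
      (fun e he e' he' => h2 e (Finset.mem_insert_of_mem he) e' (Finset.mem_insert_of_mem he'))
      (fun e he => hT e (Finset.mem_insert_of_mem he))
    obtain ⟨S, rfl⟩ := h3
    have ha1 := h1 a (Finset.mem_insert_self _ _)
    have h4 : ∀ Q ⊆ P, ∀ S' : MvPolynomial σ A,
        (X a.2 - X a.1) ^ p a ∣ dprod A Q p * S' → (X a.2 - X a.1) ^ p a ∣ S' := by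
      intro Q
      induction Q using Finset.induction_on with
      | empty => intro _ S' h; simpa [dprod] using h
      | insert b Q hb ihQ =>
        intro hQ S' h
        have hbP : b ∈ P := hQ (Finset.mem_insert_self _ _)
        apply ihQ (fun x hx => hQ (Finset.mem_insert_of_mem hx))
        rw [dprod, Finset.prod_insert hb, mul_assoc] at h
        refine pow_dvd_of_pow_dvd_mul (h1 b (Finset.mem_insert_of_mem hbP)) ha1 ?_ _ _ h
        intro h5
        have := h2 b (Finset.mem_insert_of_mem hbP) a (Finset.mem_insert_self _ _) h5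
        exact ha (this ▸ hbP)
    have h5 := h4 P (le_refl _) S (hT a (Finset.mem_insert_self _ _))
    rw [dprod, Finset.prod_insert ha, mul_comm ((X a.2 - X a.1) ^ p a)]
    exact mul_dvd_mul_left _ h5

theorem dprod_mul_inj (P : Finset (σ × σ)) (p : σ × σ → ℕ) (h1 : ∀ e ∈ P, e.1 ≠ e.2)
    {S S' : MvPolynomial σ A} (h : dprod A P p * S = dprod A P p * S') : S = S' := by
  induction P using Finset.induction_on generalizing S S' with
  | empty => simpa [dprod] using h
  | insert a P ha ih =>
    rw [dprod, Finset.prod_insert ha, mul_assoc, mul_assoc] at h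
    exact ih (fun e he => h1 e (Finset.mem_insert_of_mem he))
      (sub_pow_mul_inj (h1 a (Finset.mem_insert_self _ _)) _ h)

theorem dprod_mul_eq_zero (P : Finset (σ × σ)) (p : σ × σ → ℕ) (h1 : ∀ e ∈ P, e.1 ≠ e.2)
    {S : MvPolynomial σ A} (h : dprod A P p * S = 0) : S = 0 :=
  dprod_mul_inj P p h1 (by rw [h, mul_zero])

theorem dprod_isHomogeneous (P : Finset (σ × σ)) (p : σ × σ → ℕ) :
    (dprod A P p).IsHomogeneous (∑ e ∈ P, p e) := by
  apply IsHomogeneous.prod
  intro e _
  have := ((isHomogeneous_X A e.2).sub (isHomogeneous_X A e.1)).pow (p e)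
  simpa using this

/-! ### merging two variables -/

/-- `X j ↦ X i + v`, the other variables are kept -/
noncomputable def psi (i j : σ) : MvPolynomial σ A →ₐ[A] Polynomial (MvPolynomial σ A) :=
  aeval (fun m => if m = j then Polynomial.C (X i) + Polynomial.X else Polynomial.C (X m))

theorem eval_psi (i j : σ) (T : MvPolynomial σ A) :
    Polynomial.eval (X j - X i) (psi i j T) = T := by
  have : ((Polynomial.evalRingHom (X j - X i)).comp (psi i j).toRingHom :
      MvPolynomial σ A →+* MvPolynomial σ A) = RingHom.id _ := by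
    apply MvPolynomial.ringHom_ext
    · intro a
      simp [psi]
    · intro m
      by_cases hm : m = j
      · subst hm; simp [psi]
      · simp [psi, hm]
  exact DFunLike.congr_fun this T

theorem pow_dvd_of_coeff_psi {i j : σ} {T : MvPolynomial σ A} {p : ℕ}
    (h : ∀ r < p, (psi i j T).coeff r = 0) : (X j - X i) ^ p ∣ T := by
  have h1 : Polynomial.X ^ p ∣ psi i j T := Polynomial.X_pow_dvd_iff.2 h
  obtain ⟨q, hq⟩ := h1
  refine ⟨Polynomial.eval (X j - X i) q, ?_⟩
  have := congrArg (Polynomial.eval (X j - X i)) hq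
  rw [eval_psi] at this
  rw [this]
  simp

/-- bihomogeneity: every monomial `v^r t^γ` has `r + |γ| = n` -/
def BiHom (n : ℕ) (q : Polynomial (MvPolynomial σ A)) : Prop :=
  ∀ r γ, coeff γ (q.coeff r) ≠ 0 → γ.degree + r = n

theorem BiHom.mul {n m : ℕ} {q q' : Polynomial (MvPolynomial σ A)} (h : BiHom n q)
    (h' : BiHom m q') : BiHom (n + m) (q * q') := by
  intro r γ hne
  rw [Polynomial.coeff_mul, coeff_sum] at hne
  obtain ⟨x, hx, hx'⟩ := Finset.exists_ne_zero_of_sum_ne_zero hne
  rw [coeff_mul] at hx'
  obtain ⟨y, hy, hy'⟩ := Finset.exists_ne_zero_of_sum_ne_zero hx'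
  have h1 := h x.1 y.1 (left_ne_zero_of_mul hy')
  have h2 := h' x.2 y.2 (right_ne_zero_of_mul hy')
  have hx2 := Finset.HasAntidiagonal.mem_antidiagonal.1 hx
  have hy2 := Finset.HasAntidiagonal.mem_antidiagonal.1 hy
  rw [← hy2, map_add, ← h1, ← h2, ← hx2]
  ring

theorem BiHom.add {n : ℕ} {q q' : Polynomial (MvPolynomial σ A)} (h : BiHom n q)
    (h' : BiHom n q') : BiHom n (q + q') := by
  intro r γ hne
  rw [Polynomial.coeff_add, coeff_add] at hne
  by_cases h1 : coeff γ (q.coeff r) = 0
  · rw [h1, zero_add] at hne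
    exact h' r γ hne
  · exact h r γ h1

theorem BiHom.zero (n : ℕ) : BiHom n (0 : Polynomial (MvPolynomial σ A)) := by
  intro r γ hne; simp at hne

theorem BiHom.C_of {n : ℕ} {p : MvPolynomial σ A} (h : p.IsHomogeneous n) :
    BiHom n (Polynomial.C p) := by
  intro r γ hne
  rw [Polynomial.coeff_C] at hne
  split_ifs at hne with h1
  · rw [h1, add_zero]
    by_contra h2
    exact hne (h.coeff_eq_zero h2)
  · simp at hne

theorem BiHom.X : BiHom 1 (Polynomial.X : Polynomial (MvPolynomial σ A)) := by
  intro r γ hne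
  rw [Polynomial.coeff_X] at hne
  split_ifs at hne with h1
  · have : γ = 0 := by
      by_contra h2
      rw [coeff_one, if_neg (Ne.symm h2)] at hne
      exact hne rfl
    rw [this, ← h1]; simp
  · simp at hne

theorem BiHom.pow {n : ℕ} {q : Polynomial (MvPolynomial σ A)} (h : BiHom n q) (k : ℕ) :
    BiHom (k * n) (q ^ k) := by
  induction k with
  | zero =>
    rw [zero_mul, pow_zero]
    exact BiHom.C_of (isHomogeneous_one σ A)
  | succ k ih =>
    rw [pow_succ, add_mul, one_mul]
    exact ih.mul h

theorem BiHom.prod {ι : Type*} (s : Finset ι) {n : ι → ℕ}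
    {q : ι → Polynomial (MvPolynomial σ A)} (h : ∀ i ∈ s, BiHom (n i) (q i)) :
    BiHom (∑ i ∈ s, n i) (∏ i ∈ s, q i) := by
  classical
  induction s using Finset.induction_on with
  | empty =>
    rw [Finset.sum_empty, Finset.prod_empty]
    exact BiHom.C_of (isHomogeneous_one σ A)
  | insert a s ha ih =>
    rw [Finset.sum_insert ha, Finset.prod_insert ha]
    exact (h a (Finset.mem_insert_self _ _)).mul
      (ih fun i hi => h i (Finset.mem_insert_of_mem hi))

theorem psi_X_biHom (i j m : σ) : BiHom 1 (psi i j (X m : MvPolynomial σ A)) := by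
  rw [psi, aeval_X]
  split_ifs
  · exact (BiHom.C_of (isHomogeneous_X A i)).add BiHom.X
  · exact BiHom.C_of (isHomogeneous_X A m)

theorem psi_monomial_biHom (i j : σ) (m : σ →₀ ℕ) (a : A) :
    BiHom m.degree (psi i j (monomial m a)) := by
  rw [monomial_eq, map_mul, Finsupp.prod, map_prod]
  have h1 : BiHom 0 (psi i j (C a : MvPolynomial σ A)) := by
    have : psi i j (C a : MvPolynomial σ A) = Polynomial.C (C a) := by
      rw [psi, aeval_C]; rfl
    rw [this]
    exact BiHom.C_of (isHomogeneous_C σ a)
  have h2 : BiHom (∑ k ∈ m.support, m k) (∏ k ∈ m.support, psi i j ((X k : MvPolynomial σ A) ^ m k)) := by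
    apply BiHom.prod
    intro k _
    rw [map_pow]
    have := (psi_X_biHom (A := A) i j k).pow (m k)
    simpa using this
  have := h1.mul h2
  rwa [zero_add] at this

theorem psi_biHom {i j : σ} {n : ℕ} {T : MvPolynomial σ A} (hT : T.IsHomogeneous n) :
    BiHom n (psi i j T) := by
  rw [T.as_sum, map_sum]
  have : ∀ s ⊆ T.support, BiHom n (∑ x ∈ s, psi i j ((monomial x) (coeff x T))) := by
    intro s
    induction s using Finset.induction_on with
    | empty => intro _; rw [Finset.sum_empty]; exact BiHom.zero n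
    | insert a s ha ih =>
      intro hs
      rw [Finset.sum_insert ha]
      refine BiHom.add ?_ (ih fun x hx => hs (Finset.mem_insert_of_mem hx))
      have h1 := hs (Finset.mem_insert_self _ _)
      rw [mem_support_iff] at h1
      have h2 : a.degree = n := by
        by_contra h2
        exact h1 (hT.coeff_eq_zero h2)
      have h3 := psi_monomial_biHom i j a (coeff a T)
      rwa [h2] at h3
  exact this _ (le_refl _)

/-- `psi` is graded: the monomials `v^r t^γ` come from the homogeneous component `r + |γ|` -/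
theorem coeff_psi_homogeneousComponent (i j : σ) (T : MvPolynomial σ A) (r : ℕ) (γ : σ →₀ ℕ) :
    coeff γ ((psi i j (homogeneousComponent (γ.degree + r) T)).coeff r) =
      coeff γ ((psi i j T).coeff r) := by
  have h1 : T = ∑ n ∈ Finset.range (T.totalDegree + 1), homogeneousComponent n T :=
    (sum_homogeneousComponent T).symm
  have h2 : ∀ n, n ≠ γ.degree + r →
      coeff γ ((psi i j (homogeneousComponent n T)).coeff r) = 0 := by
    intro n hn
    by_contra h3
    exact hn (psi_biHom (homogeneousComponent_isHomogeneous n T) r γ h3).symm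
  conv_rhs => rw [h1]
  rw [map_sum, Polynomial.finsetSum_coeff, coeff_sum]
  by_cases h3 : γ.degree + r ∈ Finset.range (T.totalDegree + 1)
  · rw [Finset.sum_eq_single_of_mem _ h3 (fun n _ hn => h2 n hn)]
  · rw [Finset.sum_eq_zero (fun n hn => h2 n (fun h4 => h3 (h4 ▸ hn)))]
    rw [Finset.mem_range, not_lt] at h3
    rw [homogeneousComponent_eq_zero _ _ (by omega)]
    simp

/-- MERGE: if all monomials `v^r t^γ` of `T|_{X j = X i + v}` with `|γ| > M` vanish, then the
homogeneous component of degree `M + p` is divisible by `(X j - X i)^p`. -/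
theorem merge_dvd {i j : σ} {T : MvPolynomial σ A} {M p : ℕ}
    (h : ∀ r γ, M < γ.degree → coeff γ ((psi i j T).coeff r) = 0) :
    (X j - X i) ^ p ∣ homogeneousComponent (M + p) T := by
  apply pow_dvd_of_coeff_psi
  intro r hr
  ext γ
  rw [coeff_zero]
  by_contra h1
  have h2 := psi_biHom (homogeneousComponent_isHomogeneous (M + p) T) r γ h1
  apply h1
  rw [← h2, coeff_psi_homogeneousComponent]
  exact h r γ (by omega)

/-! ### homogeneous quotients -/

attribute [local instance] MvPolynomial.gradedAlgebra

theorem homogeneousComponent_mul_of_left {P S : MvPolynomial σ A} {p m : ℕ}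
    (hP : P.IsHomogeneous p) :
    homogeneousComponent (p + m) (P * S) = P * homogeneousComponent m S := by
  have h := DirectSum.coe_decompose_mul_add_of_left_mem (homogeneousSubmodule σ A)
    (i := p) (j := m) (a := P) (b := S) ((mem_homogeneousSubmodule p P).2 hP)
  have e1 : ∀ (φ : MvPolynomial σ A) (i : ℕ),
      (DirectSum.decompose (homogeneousSubmodule σ A) φ i : MvPolynomial σ A)
        = homogeneousComponent i φ := fun φ i => decomposition.decompose'_apply φ i
  rwa [e1, e1] at h

theorem homogeneousComponent_mul_of_left_lt {P S : MvPolynomial σ A} {p m : ℕ}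
    (hP : P.IsHomogeneous p) (hm : m < p) :
    homogeneousComponent m (P * S) = 0 := by
  have h := DirectSum.coe_decompose_mul_of_left_mem_of_not_le (homogeneousSubmodule σ A)
    (i := p) (n := m) (a := P) (b := S) ((mem_homogeneousSubmodule p P).2 hP) (by omega)
  have e1 : ∀ (φ : MvPolynomial σ A) (i : ℕ),
      (DirectSum.decompose (homogeneousSubmodule σ A) φ i : MvPolynomial σ A)
        = homogeneousComponent i φ := fun φ i => decomposition.decompose'_apply φ i
  rwa [e1] at h

/-- a homogeneous multiple of a homogeneous polynomial has a homogeneous cofactor -/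
theorem exists_homogeneous_quotient {P T : MvPolynomial σ A} {p m : ℕ}
    (hP : P.IsHomogeneous p) (hT : T.IsHomogeneous (p + m)) (h : P ∣ T) :
    ∃ S : MvPolynomial σ A, S.IsHomogeneous m ∧ T = P * S := by
  obtain ⟨S, rfl⟩ := h
  refine ⟨homogeneousComponent m S, homogeneousComponent_isHomogeneous _ _, ?_⟩
  rw [← homogeneousComponent_mul_of_left hP]
  have := homogeneousComponent_of_mem (m := p + m) ((mem_homogeneousSubmodule _ _).2 hT)
  rw [if_pos rfl] at this
  exact this.symm

theorem eq_zero_of_dvd_of_lt {P T : MvPolynomial σ A} {p m : ℕ}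
    (hP : P.IsHomogeneous p) (hT : T.IsHomogeneous m) (hm : m < p) (h : P ∣ T) : T = 0 := by
  obtain ⟨S, rfl⟩ := h
  have h1 := homogeneousComponent_mul_of_left_lt (S := S) hP hm
  have := homogeneousComponent_of_mem (m := m) ((mem_homogeneousSubmodule _ _).2 hT)
  rw [if_pos rfl] at this
  rw [← this, h1]

end Crest.Agent.R059.DivT547
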