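import Mathlib

/-!
# Row 59, track T, Step 2 (iii): `σ(Ψ) Ψ⁻¹ = E = Ψ⁻¹ σ(Ψ)`, abstract form

`A` a ring, `L` a strictly increasing list of indices, `Ψ = ∏_{i ∈ L} P i` (ordered product),
`Ψ⁺ = ∏_{i ∈ L} Pp i` with `Pp i = (1 + x i) * P i`, `E = ∑_{I ⊆ L independent} X I`.
* `prod_eq_left`  : `Ψ⁺ = E * Ψ` (peel the first index on the left);
* `prod_eq_right` : `Ψ⁺ = Ψ * E` (peel the last index on the right).
-/

set_option autoImplicit false

namespace Crest.Agent.R059.EPsi998

open Finset

section abs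

variable {A : Type*} [Ring A] {ι : Type*} [LinearOrder ι]

/-- independent sets (only `adj i j` with `i < j` matters). -/
def Ind (adj : ι → ι → Prop) (I : Finset ι) : Prop :=
  ∀ i ∈ I, ∀ j ∈ I, i < j → ¬ adj i j

theorem ind_empty (adj : ι → ι → Prop) : Ind adj ∅ := fun i hi => by simp at hi

theorem Ind.mono {adj : ι → ι → Prop} {I J : Finset ι} (h : Ind adj J) (hIJ : I ⊆ J) :
    Ind adj I := fun i hi j hj => h i (hIJ hi) j (hIJ hj)

/-- inserting a new smallest index. -/
theorem ind_insert_min {adj : ι → ι → Prop} {I : Finset ι} {a : ι} (ha : ∀ j ∈ I, a < j) :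
    Ind adj (insert a I) ↔ Ind adj I ∧ ∀ j ∈ I, ¬ adj a j := by
  constructor
  · intro h
    refine ⟨h.mono (Finset.subset_insert _ _), fun j hj => ?_⟩
    exact h a (Finset.mem_insert_self _ _) j (Finset.mem_insert_of_mem hj) (ha j hj)
  · rintro ⟨h1, h2⟩ i hi j hj hij
    rw [Finset.mem_insert] at hi hj
    rcases hi with rfl | hi
    · rcases hj with rfl | hj
      · exact absurd hij (lt_irrefl _)
      · exact h2 j hj
    · rcases hj with rfl | hj
      · exact absurd (hij.trans (ha i hi)) (lt_irrefl _)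
      · exact h1 i hi j hj hij

/-- inserting a new largest index. -/
theorem ind_insert_max {adj : ι → ι → Prop} {I : Finset ι} {a : ι} (ha : ∀ j ∈ I, j < a) :
    Ind adj (insert a I) ↔ Ind adj I ∧ ∀ j ∈ I, ¬ adj j a := by
  constructor
  · intro h
    refine ⟨h.mono (Finset.subset_insert _ _), fun j hj => ?_⟩
    exact h j (Finset.mem_insert_of_mem hj) a (Finset.mem_insert_self _ _) (ha j hj)
  · rintro ⟨h1, h2⟩ i hi j hj hij
    rw [Finset.mem_insert] at hi hj
    rcases hi with rfl | hi
    · rcases hj with rfl | hj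
      · exact absurd hij (lt_irrefl _)
      · exact absurd (hij.trans (ha j hj)) (lt_irrefl _)
    · rcases hj with rfl | hj
      · exact h2 i hi
      · exact h1 i hi j hj hij

open Classical in
/-- `∑_{I ⊆ S independent} X I`. -/
noncomputable def Es (adj : ι → ι → Prop) (X : Finset ι → A) (S : Finset ι) : A :=
  ∑ I ∈ S.powerset.filter (fun I => Ind adj I), X I

theorem Es_empty (adj : ι → ι → Prop) (X : Finset ι → A) : Es adj X ∅ = X ∅ := by
  classical
  unfold Es
  rw [Finset.powerset_empty, Finset.filter_singleton, if_pos (ind_empty adj),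
    Finset.sum_singleton]

open Classical in
theorem Es_insert (adj : ι → ι → Prop) (X : Finset ι → A) {S : Finset ι} {a : ι} (ha : a ∉ S) :
    Es adj X (insert a S) =
      ∑ I ∈ S.powerset, ((if Ind adj I then X I else 0) +
        (if Ind adj (insert a I) then X (insert a I) else 0)) := by
  unfold Es
  rw [Finset.sum_filter, Finset.sum_powerset_insert ha, ← Finset.sum_add_distrib]

theorem peel_left (adj : ι → ι → Prop) (X : Finset ι → A) (x P Pp : ι → A)
    (hPp : ∀ a, Pp a = (1 + x a) * P a) (a : ι) (S : Finset ι) (ha : ∀ j ∈ S, a < j)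
    (h0 : ∀ I ⊆ S, Ind adj I → (∀ j ∈ I, ¬ adj a j) →
      X (insert a I) = x a * X I ∧ X I * P a = P a * X I)
    (h1 : ∀ I ⊆ S, Ind adj I → (∃ j ∈ I, adj a j) → X I * P a = Pp a * X I) :
    Pp a * Es adj X S = Es adj X (insert a S) * P a := by
  classical
  have haS : a ∉ S := fun h => lt_irrefl _ (ha a h)
  rw [Es_insert adj X haS, Finset.sum_mul]
  unfold Es
  rw [Finset.sum_filter, Finset.mul_sum]
  refine Finset.sum_congr rfl (fun I hI => ?_)
  rw [Finset.mem_powerset] at hI
  have haI : ∀ j ∈ I, a < j := fun j hj => ha j (hI hj)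
  by_cases hind : Ind adj I
  · by_cases hno : ∀ j ∈ I, ¬ adj a j
    · obtain ⟨e1, e2⟩ := h0 I hI hind hno
      rw [if_pos hind, if_pos ((ind_insert_min haI).2 ⟨hind, hno⟩), e1, hPp, add_mul, add_mul,
        add_mul, one_mul, mul_assoc (x a) (X I), e2, mul_assoc (x a) (P a)]
    · have hno' : ∃ j ∈ I, adj a j := by
        by_contra hc; exact hno (fun j hj hj' => hc ⟨j, hj, hj'⟩)
      rw [if_pos hind, if_neg (fun h => hno ((ind_insert_min haI).1 h).2), add_zero,
        h1 I hI hind hno']
  · rw [if_neg hind, if_neg (fun h => hind ((ind_insert_min haI).1 h).1), mul_zero, add_zero,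
      zero_mul]

theorem peel_right (adj : ι → ι → Prop) (X : Finset ι → A) (x P Pp : ι → A)
    (hPp : ∀ a, Pp a = P a * (1 + x a)) (a : ι) (S : Finset ι) (ha : ∀ j ∈ S, j < a)
    (h0 : ∀ I ⊆ S, Ind adj I → (∀ j ∈ I, ¬ adj j a) →
      X (insert a I) = X I * x a ∧ P a * X I = X I * P a)
    (h1 : ∀ I ⊆ S, Ind adj I → (∃ j ∈ I, adj j a) → P a * X I = X I * Pp a) :
    Es adj X S * Pp a = P a * Es adj X (insert a S) := by
  classical
  have haS : a ∉ S := fun h => lt_irrefl _ (ha a h)
  rw [Es_insert adj X haS, Finset.mul_sum]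
  unfold Es
  rw [Finset.sum_filter, Finset.sum_mul]
  refine Finset.sum_congr rfl (fun I hI => ?_)
  rw [Finset.mem_powerset] at hI
  have haI : ∀ j ∈ I, j < a := fun j hj => ha j (hI hj)
  by_cases hind : Ind adj I
  · by_cases hno : ∀ j ∈ I, ¬ adj j a
    · obtain ⟨e1, e2⟩ := h0 I hI hind hno
      rw [if_pos hind, if_pos ((ind_insert_max haI).2 ⟨hind, hno⟩), e1, hPp, mul_add, mul_add,
        mul_add, mul_one, ← mul_assoc (P a) (X I), e2, ← mul_assoc (X I)]
    · have hno' : ∃ j ∈ I, adj j a := by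
        by_contra hc; exact hno (fun j hj hj' => hc ⟨j, hj, hj'⟩)
      rw [if_pos hind, if_neg (fun h => hno ((ind_insert_max haI).1 h).2), add_zero,
        h1 I hI hind hno']
  · rw [if_neg hind, if_neg (fun h => hind ((ind_insert_max haI).1 h).1), zero_mul, add_zero,
      mul_zero]

/-- `Ψ⁺ = E Ψ`. -/
theorem prod_eq_left (adj : ι → ι → Prop) (X : Finset ι → A) (x P Pp : ι → A)
    (hX0 : X ∅ = 1) (hPp : ∀ a, Pp a = (1 + x a) * P a)
    (h0 : ∀ (a : ι) (I : Finset ι), (∀ j ∈ I, a < j) → Ind adj I → (∀ j ∈ I, ¬ adj a j) →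
      X (insert a I) = x a * X I ∧ X I * P a = P a * X I)
    (h1 : ∀ (a : ι) (I : Finset ι), (∀ j ∈ I, a < j) → Ind adj I → (∃ j ∈ I, adj a j) →
      X I * P a = Pp a * X I)
    (L : List ι) (hL : L.Pairwise (· < ·)) :
    (L.map Pp).prod = Es adj X L.toFinset * (L.map P).prod := by
  induction L with
  | nil => simp [Es_empty, hX0]
  | cons a L ih =>
    rw [List.pairwise_cons] at hL
    have ha : ∀ j ∈ L.toFinset, a < j := fun j hj => hL.1 j (List.mem_toFinset.1 hj)
    rw [List.map_cons, List.prod_cons, List.map_cons, List.prod_cons, ih hL.2,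
      List.toFinset_cons, ← mul_assoc, ← mul_assoc,
      peel_left adj X x P Pp hPp a L.toFinset ha
        (fun I hI => h0 a I (fun j hj => ha j (hI hj)))
        (fun I hI => h1 a I (fun j hj => ha j (hI hj)))]

/-- `Ψ⁺ = Ψ E`. -/
theorem prod_eq_right (adj : ι → ι → Prop) (X : Finset ι → A) (x P Pp : ι → A)
    (hX0 : X ∅ = 1) (hPp : ∀ a, Pp a = P a * (1 + x a))
    (h0 : ∀ (a : ι) (I : Finset ι), (∀ j ∈ I, j < a) → Ind adj I → (∀ j ∈ I, ¬ adj j a) →
      X (insert a I) = X I * x a ∧ P a * X I = X I * P a)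
    (h1 : ∀ (a : ι) (I : Finset ι), (∀ j ∈ I, j < a) → Ind adj I → (∃ j ∈ I, adj j a) →
      P a * X I = X I * Pp a)
    (L : List ι) (hL : L.Pairwise (· < ·)) :
    (L.map Pp).prod = (L.map P).prod * Es adj X L.toFinset := by
  induction L using List.reverseRecOn with
  | nil => simp [Es_empty, hX0]
  | append_singleton L a ih =>
    rw [List.pairwise_append] at hL
    have ha : ∀ j ∈ L.toFinset, j < a := fun j hj =>
      hL.2.2 j (List.mem_toFinset.1 hj) a (by simp)
    have hfin : (L ++ [a]).toFinset = insert a L.toFinset := by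
      ext j; simp [or_comm]
    rw [List.map_append, List.prod_append, List.map_append, List.prod_append, ih hL.1, hfin]
    simp only [List.map_cons, List.map_nil, List.prod_cons, List.prod_nil, mul_one]
    rw [mul_assoc, mul_assoc, peel_right adj X x P Pp hPp a L.toFinset ha
        (fun I hI => h0 a I (fun j hj => ha j (hI hj)))
        (fun I hI => h1 a I (fun j hj => ha j (hI hj)))]

end abs

end Crest.Agent.R059.EPsi998
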