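import Crest.Agent.R059.EPsi_998
import Crest.Agent.R059.Dilog_344

/-!
# Row 59, track T: the identity `σ(Ψ) = E Ψ = Ψ E` for 344's dilogarithm factors

`Ψ = ∏_{i ∈ L} dil T (u i) true 1` (`= ∏ P_q(v⁻¹ Y_{u_i})`, `q = v⁻²`), `σ` = scaling by
`q^{deg}`, `deg (u_i) = 1`, `E = ∑_{I ⊆ L independent} (v⁻¹)^{|I|} Y_{u_I}`.
-/

set_option autoImplicit false

namespace Crest.Agent.R059.EPsi998

open Finset TPS Sc998 Dilog344 PowerSeries

section gen

variable {M : Type*} [AddCommMonoid M] [HasAntidiagonal M] {R : Type*} [CommRing R] {T : Tw M R}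

omit [HasAntidiagonal M] in
theorem ev_X {c : M} (hc : Function.Injective (fun k : ℕ => k • c)) :
    ev T c (X : R⟦X⟧) = Y T c := by
  classical
  ext d
  by_cases hd : ∃ k : ℕ, d = k • c
  · obtain ⟨k, rfl⟩ := hd
    rw [co_ev_nsmul hc, coeff_X, Y, co_mono]
    by_cases hk : k = 1
    · subst hk
      rw [if_pos rfl, if_pos (one_nsmul c)]
      simp [pw, wt_zero_left]
    · rw [if_neg hk, zero_mul, if_neg]
      intro h
      exact hk (hc (by simpa using h))
  · push Not at hd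
    rw [co_ev_of_not _ hd, Y, co_mono_ne]
    rintro rfl
    exact hd 1 (one_nsmul d).symm

/-- 344's factors satisfy the commutation rules, `r = v^{a-2}`. -/
theorem dilAt_dil (hs : ∀ a b : M, T.β a b = - T.β b a) (hq : QReg ((T.v : R) ^ 2)) {c : M}
    (hc : Function.Injective (fun k : ℕ => k • c)) (a : ℤ) :
    DilAt T c ((T.v ^ (a - 2) : Rˣ) : R) (dil T c true a) (dil T c true (a - 2)) := by
  have hY : (1 + mono T c ((T.v ^ (a - 2) : Rˣ) : R)) = ev T c (XF T.v true a 1) := by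
    rw [XF_true_one, ev_add hc, ev_one hc, ev_C_mul hc, ev_X hc, mono_eq_smul]
  have hsh := EE_shift hq true a 1
  have h2 : a - 2 * ((1 : ℕ) : ℤ) = a - 2 := by norm_num
  rw [h2] at hsh
  refine ⟨?_, ?_, ?_, ?_, ?_⟩
  · rw [hY, dil, dil, ← ev_mul hc, hsh, mul_comm]
  · rw [hY, dil, dil, ← ev_mul hc, hsh]
  · intro m hm
    rw [dil, Y, mono_mul_ev hc, rescale_zpow_EE, hs c m, hm]
    simp
  · intro m hm
    rw [dil, dil, Y, ev_mul_mono hc, rescale_zpow_EE, hs c m, hm]
    congr 3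
  · intro m hm
    rw [dil, dil, Y, mono_mul_ev hc, rescale_zpow_EE, hs c m, hm]
    congr 3

/-- scaling of a factor. -/
theorem scale_ev {c : M} (hc : Function.Injective (fun k : ℕ => k • c))
    (χ : Multiplicative M →* R) (f : R⟦X⟧) :
    scale χ (ev T c f) = ev T c (rescale (χ (Multiplicative.ofAdd c)) f) := by
  ext d
  rw [co_scale]
  by_cases hd : ∃ k : ℕ, d = k • c
  · obtain ⟨k, rfl⟩ := hd
    rw [co_ev_nsmul hc, co_ev_nsmul hc, coeff_rescale, ofAdd_nsmul, map_pow]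
    ring
  · push Not at hd
    rw [co_ev_of_not _ hd, co_ev_of_not _ hd, mul_zero]

variable {ι : Type*} [LinearOrder ι] {adj : ι → ι → Prop} {u : ι → M}

variable (T) in
/-- `Ψ = ∏ dil T (u i) true 1` (ordered). -/
noncomputable def Psi (u : ι → M) (L : List ι) : TPS T :=
  (L.map (fun i => dil T (u i) true 1)).prod

variable (T) in
/-- `E = ∑_{I ⊆ L independent} (v⁻¹)^{|I|} Y_{u_I}`. -/
noncomputable def EI (adj : ι → ι → Prop) (u : ι → M) (L : List ι) : TPS T :=
  Es adj (XI T u ((T.v ^ (-1 : ℤ) : Rˣ) : R)) L.toFinset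

/-- `σ Ψ = ∏ dil T (u i) true (-1)`. -/
theorem scale_Psi (hc : ∀ i, Function.Injective (fun k : ℕ => k • u i))
    (χ : Multiplicative M →* R)
    (hχ : ∀ i, χ (Multiplicative.ofAdd (u i)) = ((T.v ^ (-2 : ℤ) : Rˣ) : R)) (L : List ι) :
    scale χ (Psi T u L) = (L.map (fun i => dil T (u i) true (-1))).prod := by
  unfold Psi
  rw [map_list_prod, List.map_map]
  congr 1
  apply List.map_congr_left
  intro i _
  simp only [Function.comp_apply]
  rw [dil, scale_ev (hc i), hχ, rescale_zpow_EE, dil]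
  rfl

theorem scale_Psi_left (h : Cls T adj u) (hq : QReg ((T.v : R) ^ 2))
    (hc : ∀ i, Function.Injective (fun k : ℕ => k • u i)) (χ : Multiplicative M →* R)
    (hχ : ∀ i, χ (Multiplicative.ofAdd (u i)) = ((T.v ^ (-2 : ℤ) : Rˣ) : R)) (L : List ι)
    (hL : L.Pairwise (· < ·)) : scale χ (Psi T u L) = EI T adj u L * Psi T u L := by
  rw [scale_Psi hc χ hχ]
  exact psi_left h _ _ _ (fun i => dilAt_dil h.skew hq (hc i) 1) L hL

/-- **`σ Ψ = Ψ E`**. -/
theorem scale_Psi_right (h : Cls T adj u) (hq : QReg ((T.v : R) ^ 2))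
    (hc : ∀ i, Function.Injective (fun k : ℕ => k • u i)) (χ : Multiplicative M →* R)
    (hχ : ∀ i, χ (Multiplicative.ofAdd (u i)) = ((T.v ^ (-2 : ℤ) : Rˣ) : R)) (L : List ι)
    (hL : L.Pairwise (· < ·)) : scale χ (Psi T u L) = Psi T u L * EI T adj u L := by
  rw [scale_Psi hc χ hχ]
  exact psi_right h _ _ _ (fun i => dilAt_dil h.skew hq (hc i) 1) L hL

end gen

end Crest.Agent.R059.EPsi998
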