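import Crest.Agent.R059.Sc_998
import Crest.Agent.R059.EPsiAbs_998

/-!
# Row 59, track T, Step 2 (iii) in `TPS T`

`x_i = r Y_{u_i}` (`r ∈ R`), `β(u_i,u_j) = 1` for `i < j` adjacent, `0` for `i < j` not adjacent,
`E = ∑_{I independent} r^{|I|} Y_{u_I}`, `D i = P(x_i)`, `D⁺ i = P(q x_i)`, `q = v⁻²`.
`psi_left : ∏ D⁺ i = E * ∏ D i`, `psi_right : ∏ D⁺ i = (∏ D i) * E`.
-/

set_option autoImplicit false

namespace Crest.Agent.R059.EPsi998

open Finset TPS Sc998

section gen

variable {M : Type*} [AddCommMonoid M] [HasAntidiagonal M] {R : Type*} [CommRing R] {T : Tw M R}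
  {ι : Type*} [LinearOrder ι]

/-- `X_I = r^{|I|} Y_{u_I}`. -/
noncomputable def XI (T : Tw M R) (u : ι → M) (r : R) (I : Finset ι) : TPS T :=
  mono T (∑ i ∈ I, u i) (r ^ I.card)

omit [HasAntidiagonal M] in
theorem XI_empty (u : ι → M) (r : R) : XI T u r ∅ = 1 := by
  unfold XI; rw [Finset.sum_empty, Finset.card_empty, pow_zero]; rfl

/-- the commutation data of the classes of the vertices. -/
structure Cls (T : Tw M R) (adj : ι → ι → Prop) (u : ι → M) : Prop where
  skew : ∀ a b : M, T.β a b = - T.β b a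
  one : ∀ i j, i < j → adj i j → T.β (u i) (u j) = 1
  zero : ∀ i j, i < j → ¬ adj i j → T.β (u i) (u j) = 0
  up : ∀ a i j, a < i → i < j → adj a i → adj a j → adj i j
  dn : ∀ a i j, i < j → j < a → adj i a → adj j a → adj i j

variable {adj : ι → ι → Prop} {u : ι → M}

omit [HasAntidiagonal M] in
theorem Cls.b_up_zero (h : Cls T adj u) {a : ι} {I : Finset ι} (ha : ∀ j ∈ I, a < j)
    (hno : ∀ j ∈ I, ¬ adj a j) : T.β (u a) (∑ i ∈ I, u i) = 0 := by
  rw [map_sum]
  exact Finset.sum_eq_zero (fun i hi => h.zero a i (ha i hi) (hno i hi))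

omit [HasAntidiagonal M] in
theorem Cls.b_up_one (h : Cls T adj u) {a : ι} {I : Finset ι} (ha : ∀ j ∈ I, a < j)
    (hI : Ind adj I) (hex : ∃ j ∈ I, adj a j) : T.β (u a) (∑ i ∈ I, u i) = 1 := by
  obtain ⟨j, hj, haj⟩ := hex
  rw [map_sum, Finset.sum_eq_single j]
  · exact h.one a j (ha j hj) haj
  · intro i hi hij
    apply h.zero a i (ha i hi)
    intro hai
    rcases lt_or_gt_of_ne hij with hlt | hlt
    · exact hI i hi j hj hlt (h.up a i j (ha i hi) hlt hai haj)
    · exact hI j hj i hi hlt (h.up a j i (ha j hj) hlt haj hai)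
  · intro hc; exact absurd hj hc

omit [HasAntidiagonal M] in
theorem Cls.b_dn_zero (h : Cls T adj u) {a : ι} {I : Finset ι} (ha : ∀ j ∈ I, j < a)
    (hno : ∀ j ∈ I, ¬ adj j a) : T.β (∑ i ∈ I, u i) (u a) = 0 := by
  rw [h.skew, map_sum, Finset.sum_eq_zero, neg_zero]
  intro i hi
  rw [h.skew, h.zero i a (ha i hi) (hno i hi), neg_zero]

omit [HasAntidiagonal M] in
theorem Cls.b_dn_one (h : Cls T adj u) {a : ι} {I : Finset ι} (ha : ∀ j ∈ I, j < a)
    (hI : Ind adj I) (hex : ∃ j ∈ I, adj j a) : T.β (∑ i ∈ I, u i) (u a) = 1 := by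
  obtain ⟨j, hj, haj⟩ := hex
  rw [h.skew, map_sum, Finset.sum_eq_single j]
  · rw [h.skew, h.one j a (ha j hj) haj, neg_neg]
  · intro i hi hij
    rw [h.skew, h.zero i a (ha i hi), neg_zero]
    intro hai
    rcases lt_or_gt_of_ne hij with hlt | hlt
    · exact hI i hi j hj hlt (h.dn a i j hlt (ha j hj) hai haj)
    · exact hI j hj i hi hlt (h.dn a j i hlt (ha i hi) haj hai)
  · intro hc; exact absurd hj hc

theorem XI_insert_left (h : Cls T adj u) (r : R) {a : ι} {I : Finset ι} (ha : ∀ j ∈ I, a < j)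
    (hno : ∀ j ∈ I, ¬ adj a j) : XI T u r (insert a I) = mono T (u a) r * XI T u r I := by
  have haI : a ∉ I := fun hc => lt_irrefl _ (ha a hc)
  unfold XI
  rw [mono_mul_mono, Finset.sum_insert haI, Finset.card_insert_of_notMem haI, wt,
    h.b_up_zero ha hno, zpow_zero, Units.val_one, one_mul, pow_succ, mul_comm]

theorem XI_insert_right (h : Cls T adj u) (r : R) {a : ι} {I : Finset ι} (ha : ∀ j ∈ I, j < a)
    (hno : ∀ j ∈ I, ¬ adj j a) : XI T u r (insert a I) = XI T u r I * mono T (u a) r := by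
  have haI : a ∉ I := fun hc => lt_irrefl _ (ha a hc)
  unfold XI
  rw [mono_mul_mono, Finset.sum_insert haI, Finset.card_insert_of_notMem haI, wt,
    h.b_dn_zero ha hno, zpow_zero, Units.val_one, one_mul, pow_succ, add_comm]

/-- the commutation rules of the dilogarithms `D = P(r Y_c)`, `D⁺ = P(q r Y_c)`, `q = v⁻²`. -/
structure DilAt (T : Tw M R) (c : M) (r : R) (D Dp : TPS T) : Prop where
  eqL : Dp = (1 + mono T c r) * D
  eqR : Dp = D * (1 + mono T c r)
  com0 : ∀ m : M, T.β m c = 0 → Y T m * D = D * Y T m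
  com1 : ∀ m : M, T.β m c = 1 → D * Y T m = Y T m * Dp
  com1' : ∀ m : M, T.β m c = -1 → Y T m * D = Dp * Y T m

theorem psi_left (h : Cls T adj u) (r : R) (D Dp : ι → TPS T)
    (hD : ∀ i, DilAt T (u i) r (D i) (Dp i)) (L : List ι) (hL : L.Pairwise (· < ·)) :
    (L.map Dp).prod = Es adj (XI T u r) L.toFinset * (L.map D).prod := by
  refine prod_eq_left adj (XI T u r) (fun i => mono T (u i) r) D Dp (XI_empty u r)
    (fun a => (hD a).eqL) ?_ ?_ L hL
  · intro a I ha _ hno
    refine ⟨XI_insert_left h r ha hno, ?_⟩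
    unfold XI
    rw [mono_eq_smul, TPS.smul_mul', TPS.mul_smul'', (hD a).com0]
    rw [h.skew, h.b_up_zero ha hno, neg_zero]
  · intro a I ha hI hex
    unfold XI
    rw [mono_eq_smul, TPS.smul_mul', TPS.mul_smul'', (hD a).com1']
    rw [h.skew, h.b_up_one ha hI hex]

theorem psi_right (h : Cls T adj u) (r : R) (D Dp : ι → TPS T)
    (hD : ∀ i, DilAt T (u i) r (D i) (Dp i)) (L : List ι) (hL : L.Pairwise (· < ·)) :
    (L.map Dp).prod = (L.map D).prod * Es adj (XI T u r) L.toFinset := by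
  refine prod_eq_right adj (XI T u r) (fun i => mono T (u i) r) D Dp (XI_empty u r)
    (fun a => (hD a).eqR) ?_ ?_ L hL
  · intro a I ha _ hno
    refine ⟨XI_insert_right h r ha hno, ?_⟩
    unfold XI
    rw [mono_eq_smul, TPS.smul_mul', TPS.mul_smul'', (hD a).com0]
    exact h.b_dn_zero ha hno
  · intro a I ha hI hex
    unfold XI
    rw [mono_eq_smul, TPS.smul_mul', TPS.mul_smul'', (hD a).com1]
    exact h.b_dn_one ha hI hex

omit [LinearOrder ι] in
/-- the commutation rules from: support on `ℕ c`, `D⁺_{kc} = v^{-2k} D_{kc}`, `D⁺ = (1 + r Y_c) D`. -/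
theorem dilAt_of [IsCancelAdd M] (hs : ∀ a b : M, T.β a b = - T.β b a) {c : M} {r : R}
    {D Dp : TPS T} (hD : ∀ d, D.co d ≠ 0 → ∃ k : ℕ, d = k • c)
    (hDp : ∀ d, Dp.co d ≠ 0 → ∃ k : ℕ, d = k • c)
    (hk : ∀ k : ℕ, Dp.co (k • c) = ((T.v ^ (-2 * (k : ℤ)) : Rˣ) : R) * D.co (k • c))
    (hL : Dp = (1 + mono T c r) * D) : DilAt T c r D Dp := by
  have hcc : T.β c c = 0 := by have := hs c c; omega
  have hchi : ∀ (m : M) (k : ℕ), chiY T m (Multiplicative.ofAdd (k • c)) =
      ((T.v ^ (2 * (k : ℤ) * T.β m c) : Rˣ) : R) := by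
    intro m k
    rw [chiY_apply, hs (k • c) m, map_nsmul]
    congr 2
    simp only [nsmul_eq_mul]; ring
  have h0 : ∀ m : M, T.β m c = 0 → Y T m * D = D * Y T m := by
    intro m hm
    rw [Y_mul', scale_eq_self]
    intro d hd
    obtain ⟨k, rfl⟩ := hD d hd
    rw [hchi, hm, mul_zero, zpow_zero, Units.val_one]
  have h1' : ∀ m : M, T.β m c = -1 → Y T m * D = Dp * Y T m := by
    intro m hm
    rw [Y_mul']
    congr 1
    ext d
    rw [co_scale]
    by_cases hd : ∃ k : ℕ, d = k • c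
    · obtain ⟨k, rfl⟩ := hd
      rw [hchi, hm, hk]
      congr 3
      ring
    · have e1 : D.co d = 0 := by
        by_contra hc; exact hd (hD d hc)
      have e2 : Dp.co d = 0 := by
        by_contra hc; exact hd (hDp d hc)
      rw [e1, e2, mul_zero]
  have h1 : ∀ m : M, T.β m c = 1 → D * Y T m = Y T m * Dp := by
    intro m hm
    rw [Y_mul']
    congr 1
    ext d
    rw [co_scale]
    by_cases hd : ∃ k : ℕ, d = k • c
    · obtain ⟨k, rfl⟩ := hd
      rw [hchi, hm, hk, ← mul_assoc, ← Units.val_mul, ← zpow_add]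
      have : 2 * (k : ℤ) * 1 + -2 * (k : ℤ) = 0 := by ring
      rw [this, zpow_zero, Units.val_one, one_mul]
    · have e1 : D.co d = 0 := by
        by_contra hc; exact hd (hD d hc)
      have e2 : Dp.co d = 0 := by
        by_contra hc; exact hd (hDp d hc)
      rw [e1, e2, mul_zero]
  refine ⟨hL, ?_, h0, h1, h1'⟩
  rw [hL, add_mul, mul_add, one_mul, mul_one, mono_eq_smul, TPS.smul_mul', TPS.mul_smul'',
    h0 c hcc]

end gen

end Crest.Agent.R059.EPsi998
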