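import Crest.Agent.R059.EPsiK_998

/-!
# Row 59, track T: from `E^x` over `KK` to `F^x` over `MvPolynomial (Fin N) KK`

* `Compat Φ` : ring homomorphisms of twisted series that respect supports; they commute with
  `lft`, `rgt`, `pos`, `zer`, `neg`, `inv`, `cj`, `conj`;
* `compat_scale`, `compat_map`;
* `F_pos_of_E_pos`.
-/

set_option autoImplicit false

namespace Crest.Agent.R059.FMono998

open Finset TPS Sc998 EPsi998 Crest.CombinatoricsR.UnitInterval

section compat

variable {M : Type*} [AddCommMonoid M] [PartialOrder M] [IsOrderedCancelAddMonoid M]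
  [CanonicallyOrderedAdd M] [WellFoundedLT M] [HasAntidiagonal M]
variable {R R' : Type*} [CommRing R] [CommRing R'] {T : Tw M R} {T' : Tw M R'}

/-- ring homomorphisms respecting supports and constant terms. -/
structure Compat (Φ : TPS T →+* TPS T') : Prop where
  supp : ∀ (f : TPS T) (d : M), f.co d = 0 → (Φ f).co d = 0
  one : ∀ f : TPS T, f.co 0 = 1 → (Φ f).co 0 = 1

variable {Φ : TPS T →+* TPS T'}

omit [PartialOrder M] [IsOrderedCancelAddMonoid M] [CanonicallyOrderedAdd M] [WellFoundedLT M] in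
theorem Compat.in1 (h : Compat Φ) {P : M → Prop} {f : TPS T} (hf : In1 P f) : In1 P (Φ f) :=
  ⟨h.one f hf.one, fun d hd hP => h.supp f d (hf.supp d hd hP)⟩

theorem Compat.lft_rgt (h : Compat Φ) (P : M → Prop) {a : TPS T} (ha : a.co 0 = 1) :
    lft P (Φ a) = Φ (lft P a) ∧ rgt P (Φ a) = Φ (rgt P a) := by
  have h1 := h.in1 (in1_lft P a)
  have h2 := h.in1 (in1_rgt P a)
  have h3 := fac_unique (P := P) (a := Φ a) h1.one h2.one (fun e he hPe => h1.supp e he hPe)
    (fun e he hPe => h2.supp e he (not_not.2 hPe))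
    (by rw [← map_mul, lft_mul_rgt P ha])
  exact ⟨h3.1.symm, h3.2.symm⟩

theorem Compat.inv (h : Compat Φ) {a : TPS T} (ha : a.co 0 = 1) : inv (Φ a) = Φ (inv a) :=
  inv_eq_of_mul (h.one a ha) (by rw [← map_mul, mul_inv ha, map_one])

theorem Compat.cj (h : Compat Φ) {g : TPS T} (hg : g.co 0 = 1) (F : TPS T) :
    cj (Φ g) (Φ F) = Φ (cj g F) := by
  unfold TPS.cj
  rw [h.inv hg, map_mul, map_mul]

variable {V : Type*} [AddCommGroup V] [LinearOrder V] [IsOrderedAddMonoid V]

theorem Compat.pos (h : Compat Φ) (x : M →+ V) {a : TPS T} (ha : a.co 0 = 1) :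
    pos x (Φ a) = Φ (pos x a) := (h.lft_rgt _ ha).1

theorem Compat.npos (h : Compat Φ) (x : M →+ V) {a : TPS T} (ha : a.co 0 = 1) :
    npos x (Φ a) = Φ (npos x a) := (h.lft_rgt _ ha).2

theorem Compat.zer (h : Compat Φ) (x : M →+ V) {a : TPS T} (ha : a.co 0 = 1) :
    zer x (Φ a) = Φ (zer x a) := by
  unfold TPS.zer
  rw [h.npos x ha]
  exact (h.lft_rgt _ (npos_co_zero x a)).1

theorem Compat.neg (h : Compat Φ) (x : M →+ V) {a : TPS T} (ha : a.co 0 = 1) :
    neg x (Φ a) = Φ (neg x a) := by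
  unfold TPS.neg
  rw [h.npos x ha]
  exact (h.lft_rgt _ (npos_co_zero x a)).2

theorem Compat.conj (h : Compat Φ) (x : M →+ V) {a : TPS T} (ha : a.co 0 = 1) (F : TPS T) :
    conj x (Φ a) (Φ F) = Φ (conj x a F) := by
  unfold TPS.conj
  rw [h.pos x ha, h.cj (pos_co_zero x a)]

omit [PartialOrder M] [IsOrderedCancelAddMonoid M] [CanonicallyOrderedAdd M] [WellFoundedLT M] in
theorem compat_scale (χ : Multiplicative M →* R) : Compat (scale χ : TPS T →+* TPS T) where
  supp f d hd := by rw [co_scale, hd, mul_zero]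
  one f hf := by rw [co_scale, hf, mul_one, ofAdd_zero, map_one]

omit [PartialOrder M] [IsOrderedCancelAddMonoid M] [CanonicallyOrderedAdd M] [WellFoundedLT M] in
theorem compat_map (T : Tw M R) (φ : R →+* R') : Compat (TPS.map T φ) where
  supp f d hd := by rw [co_map, hd, map_zero]
  one f hf := by rw [co_map, hf, map_one]

/-- `cj g` is multiplicative on lists. -/
theorem cj_list_prod {g : TPS T} (hg : g.co 0 = 1) (L : List (TPS T)) :
    TPS.cj g L.prod = (L.map (TPS.cj g)).prod := by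
  induction L with
  | nil => rw [List.prod_nil, List.map_nil, List.prod_nil]; unfold TPS.cj; rw [mul_one, inv_mul hg]
  | cons f L ih => rw [List.prod_cons, cj_mul' hg, ih, List.map_cons, List.prod_cons]

end compat

section K

variable {n : ℕ}

/-- `E` over `KK` in `TPS (twK (form h))`. -/
noncomputable def E1 (h : Fin n → ℕ) : TPS (twK (form h)) :=
  ∑ S ∈ indep h, mono _ (∑ i ∈ S, ux i) ((tau : KK) ^ S.card)

theorem map_mono {M : Type*} [AddCommMonoid M] [HasAntidiagonal M] {R R' : Type*} [CommRing R]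
    [CommRing R'] (T : Tw M R) (φ : R →+* R') (m : M) (r : R) :
    TPS.map T φ (mono T m r) = mono (T.map φ) m (φ r) := by
  classical
  ext d
  rw [co_map, co_mono, co_mono]
  split_ifs <;> simp

theorem map_E1 (R : Type*) [CommRing R] [Algebra KK R] (h : Fin n → ℕ) :
    TPS.map (twK (form h)) (algebraMap KK R) (E1 h) = EE R h 1 := by
  unfold E1 EE
  rw [map_sum]
  apply Finset.sum_congr rfl
  intro S _
  rw [map_mono, map_pow, mul_one]
  rfl

theorem E1_eq (h : Fin n → ℕ) : (E1 h : TPS (twK (form h))) = EE KK h 1 := by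
  unfold E1 EE
  apply Finset.sum_congr rfl
  intro S _
  rw [mul_one]
  rfl

theorem X_mem_PM {N : ℕ} (j : Fin N) : (MvPolynomial.X j : MvPolynomial (Fin N) KK) ∈ PM N := by
  classical
  intro m
  rw [MvPolynomial.coeff_X']
  split_ifs
  · exact Kpos.one_mem
  · exact Kpos.zero_mem

theorem C_mem_PM {N : ℕ} {a : KK} (ha : a ∈ Kpos) :
    (MvPolynomial.C a : MvPolynomial (Fin N) KK) ∈ PM N := by
  classical
  intro m
  rw [MvPolynomial.coeff_C]
  split_ifs
  · exact ha
  · exact Kpos.zero_mem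

variable {V : Type*} [AddCommGroup V] [LinearOrder V] [IsOrderedAddMonoid V]

/-- **(E6)** monomial positivity of `F^x` from positivity of `E^x`. -/
theorem F_pos_of_E_pos (h : Fin n → ℕ) (AW : TPS (twK (form h)))
    (hAW : In1 (fun d => udeg n d = 0) AW) (x : (Fin n →₀ ℕ) →+ V)
    (hE : ∀ m, (conj x AW (E1 h)).co m ∈ Kpos) (N : ℕ) (m : Fin n →₀ ℕ) :
    (conj x (TPS.map (twK (form h)) (algebraMap KK (MvPolynomial (Fin N) KK)) AW)
      (FF h N) : TPS (tw (MvPolynomial (Fin N) KK) (form h))).co m ∈ PM N := by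
  set R := MvPolynomial (Fin N) KK with hR
  set φ : KK →+* R := algebraMap KK R with hφ
  set A : TPS (tw R (form h)) := TPS.map (twK (form h)) φ AW with hA
  have hcm : Compat (TPS.map (twK (form h)) φ) := compat_map _ _
  have hA1 : In1 (fun d => udeg n d = 0) A := hcm.in1 hAW
  have hp0 : (pos x A).co 0 = 1 := pos_co_zero x A
  have hadd : ∀ a b : Fin n →₀ ℕ, udeg n a = 0 → udeg n b = 0 → udeg n (a + b) = 0 :=
    fun a b ha hb => by rw [map_add, ha, hb]
  -- one factor
  have hone : ∀ j : Fin N, ∀ d, (cj (pos x A) (EE R h (MvPolynomial.X j))).co d ∈ PM N := by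
    intro j d
    set χ := chiN (MvPolynomial.X j : R) (udeg n) with hχ
    have hs : scale χ (pos x A) = pos x A := by
      refine scale_of_in1 (S := fun d => 0 < x d ∧ udeg n d = 0) ?_ (hA1.lft hadd _)
      intro d hd
      rw [hχ, chiN_apply, hd.2, pow_zero]
    have e1 : cj (pos x A) (EE R h (MvPolynomial.X j)) =
        scale χ (cj (pos x A) (EE R h 1)) := by
      rw [EE_scale, ← (compat_scale χ).cj hp0, hs]
    have e2 : cj (pos x A) (EE R h 1) =
        TPS.map (twK (form h)) φ (conj x AW (E1 h)) := by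
      rw [← hcm.conj x hAW.one, map_E1]
      rfl
    rw [e1, co_scale, hχ, chiN_apply, e2]
    refine (PM N).mul_mem ((PM N).pow_mem (X_mem_PM j) _) ?_
    exact C_mem_PM (hE d)
  have h1 : ((tw R (form h)).v : R) ∈ PM N := by
    have : ((tau⁻¹ : KKˣ) : KK) ∈ Kpos := by
      have := tau_zpow_mem (-1)
      rwa [zpow_neg_one] at this
    exact C_mem_PM this
  have h2 : (((tw R (form h)).v⁻¹ : Rˣ) : R) ∈ PM N := by
    have : ((tau : KKˣ) : KK) ∈ Kpos := by
      have := tau_zpow_mem 1
      rwa [zpow_one] at this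
    exact C_mem_PM this
  have hmem : cj (pos x A) (FF h N) ∈ posTPS (tw R (form h)) (PM N) h1 h2 := by
    unfold FF
    rw [cj_list_prod hp0]
    apply Subsemiring.list_prod_mem
    intro f hf
    rw [List.mem_map] at hf
    obtain ⟨g, hg, rfl⟩ := hf
    rw [List.mem_ofFn] at hg
    obtain ⟨j, rfl⟩ := hg
    exact fun d => hone j d
  exact hmem m

end K

end Crest.Agent.R059.FMono998
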