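/-
Row 59, leaf FIN (helper583): finiteness of the letters.

`R = MvPolynomial V ℚ`, `V` finite, `k : V → V → ℕ`, `θ : V → ℤ` with `∑ θ = 0`.
`E k A = ∏_{a ∈ A} ∏_{b ∉ A} (X b - X a)^(k a b)`,
`Ige k θ` = ideal generated by the `E k A`, `A` proper nonempty with `0 ≤ θ(A)`.

* `sub_mem_radical` : `X v - X w ∈ (Ige k θ).radical`;
* `homogeneous_mem` : in large degree every homogeneous polynomial is in `Ige k θ ⊔ (p₁)`;
* `homogeneous_mem'` : the version with the explicit cofactor `p₁ * g`;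
* `aeval_centered_mem` : polynomials in the `X v - u`, `u = p₁ / |V|`, of large degree are in
  `Ige k θ`.
-/
import Mathlib

set_option autoImplicit false

namespace Crest.Agent.R059.Fin583

open MvPolynomial

variable {V : Type*} [Fintype V] [DecidableEq V]

/-- `∏_{a ∈ A} ∏_{b ∉ A} (X b - X a)^(k a b)` -/
noncomputable def E (k : V → V → ℕ) (A : Finset V) : MvPolynomial V ℚ :=
  ∏ a ∈ A, ∏ b ∈ Aᶜ, (X b - X a) ^ k a b

/-- the ideal of the `E k A`, `A` proper nonempty, `0 ≤ θ(A)` -/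
noncomputable def Ige (k : V → V → ℕ) (θ : V → ℤ) : Ideal (MvPolynomial V ℚ) :=
  Ideal.span {f | ∃ A : Finset V, A.Nonempty ∧ A ≠ Finset.univ ∧ 0 ≤ ∑ a ∈ A, θ a ∧ f = E k A}

/-- the power sum `p₁` -/
noncomputable def p1 (V : Type*) [Fintype V] : MvPolynomial V ℚ := ∑ v : V, X v

lemma E_mem {k : V → V → ℕ} {θ : V → ℤ} {A : Finset V} (h1 : A.Nonempty) (h2 : A ≠ Finset.univ)
    (h3 : 0 ≤ ∑ a ∈ A, θ a) : E k A ∈ Ige k θ :=
  Ideal.subset_span ⟨A, h1, h2, h3, rfl⟩

/-- the classes of `x_v - x_w ∈ p` -/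
lemma sub_mem_prime (k : V → V → ℕ) (θ : V → ℤ) (h0 : ∑ v, θ v = 0)
    (p : Ideal (MvPolynomial V ℚ)) [hp : p.IsPrime] (hle : Ige k θ ≤ p) (v w : V) :
    (X v - X w : MvPolynomial V ℚ) ∈ p := by
  classical
  set cls : V → Finset V := fun v => Finset.univ.filter
    (fun u => (X u - X v : MvPolynomial V ℚ) ∈ p) with hcls
  have hself : ∀ v, v ∈ cls v := fun v => by simp [hcls]
  have hmem : ∀ u v, u ∈ cls v ↔ (X u - X v : MvPolynomial V ℚ) ∈ p := fun u v => by
    simp [hcls]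
  have hsymm : ∀ u v, u ∈ cls v → v ∈ cls u := fun u v h => by
    rw [hmem] at h ⊢
    have := p.neg_mem h
    simpa using this
  have htrans : ∀ u v w, u ∈ cls v → v ∈ cls w → u ∈ cls w := fun u v w h1 h2 => by
    rw [hmem] at h1 h2 ⊢
    have := p.add_mem h1 h2
    simpa using this
  have heq : ∀ u v, u ∈ cls v → cls u = cls v := fun u v h => by
    ext t
    exact ⟨fun ht => htrans _ _ _ ht h, fun ht => htrans _ _ _ ht (hsymm _ _ h)⟩
  by_contra hcon
  have huniv : ∀ t, cls t ≠ Finset.univ := fun t ht => by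
    apply hcon
    rw [← hmem]
    have hv : v ∈ cls t := by rw [ht]; exact Finset.mem_univ _
    have hw : w ∈ cls t := by rw [ht]; exact Finset.mem_univ _
    exact htrans _ _ _ hv (hsymm _ _ hw)
  have hneg : ∀ t, ∑ a ∈ cls t, θ a < 0 := fun t => by
    by_contra hge
    have hD := hle (E_mem (k := k) ⟨t, hself t⟩ (huniv t) (not_lt.mp hge))
    unfold E at hD
    rw [hp.prod_mem_iff] at hD
    obtain ⟨a, ha, hD⟩ := hD
    rw [hp.prod_mem_iff] at hD
    obtain ⟨b, hb, hD⟩ := hD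
    have hba : b ∈ cls a := (hmem _ _).mpr (hp.mem_of_pow_mem _ hD)
    exact (Finset.mem_compl.mp hb) (htrans _ _ _ hba ha)
  have hsum := Finset.sum_fiberwise_of_maps_to (s := (Finset.univ : Finset V))
    (t := Finset.univ.image cls) (g := cls) (fun t _ => Finset.mem_image_of_mem _ (Finset.mem_univ _))
    θ
  rw [h0] at hsum
  have hlt : ∑ C ∈ Finset.univ.image cls, ∑ i ∈ Finset.univ.filter (fun i => cls i = C), θ i < 0 := by
    apply Finset.sum_neg
    · intro C hC
      obtain ⟨t, _, rfl⟩ := Finset.mem_image.mp hC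
      have : Finset.univ.filter (fun i => cls i = cls t) = cls t := by
        ext i
        simp only [Finset.mem_filter, Finset.mem_univ, true_and]
        exact ⟨fun h => h ▸ hself i, fun h => heq _ _ h⟩
      rw [this]
      exact hneg t
    · exact ⟨cls v, Finset.mem_image_of_mem _ (Finset.mem_univ _)⟩
  omega

/-- **FIN(i)** -/
theorem sub_mem_radical (k : V → V → ℕ) (θ : V → ℤ) (h0 : ∑ v, θ v = 0) (v w : V) :
    (X v - X w : MvPolynomial V ℚ) ∈ (Ige k θ).radical := by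
  rw [Ideal.radical_eq_sInf, Ideal.mem_sInf]
  rintro p ⟨hle, hp⟩
  have := hp
  exact sub_mem_prime k θ h0 p hle v w

/-- the centre of mass `u = p₁ / |V|` -/
noncomputable def cm (V : Type*) [Fintype V] : MvPolynomial V ℚ :=
  C ((Fintype.card V : ℚ)⁻¹) * p1 V

omit [DecidableEq V] in
lemma card_mul_sub (v : V) :
    ∑ w : V, (X v - X w : MvPolynomial V ℚ) = C (Fintype.card V : ℚ) * X v - p1 V := by
  unfold p1
  rw [Finset.sum_sub_distrib]
  simp [Finset.sum_const, Finset.card_univ]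

lemma centered_mem_radical (k : V → V → ℕ) (θ : V → ℤ) (h0 : ∑ v, θ v = 0) (v : V) :
    (X v - cm V : MvPolynomial V ℚ) ∈ (Ige k θ).radical := by
  have h : (X v - cm V : MvPolynomial V ℚ)
      = C ((Fintype.card V : ℚ)⁻¹) * ∑ w : V, (X v - X w : MvPolynomial V ℚ) := by
    have : Nonempty V := ⟨v⟩
    have hc : (Fintype.card V : ℚ) ≠ 0 := by exact_mod_cast Fintype.card_ne_zero
    rw [card_mul_sub, mul_sub, ← mul_assoc, ← C_mul, inv_mul_cancel₀ hc, C_1, one_mul, cm]
  rw [h]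
  exact Ideal.mul_mem_left _ _ (Ideal.sum_mem _ fun w _ => sub_mem_radical k θ h0 v w)

omit [Fintype V] [DecidableEq V] in
lemma prod_mem_pow {S : Type*} [CommRing S] (g : V → S) (d : V →₀ ℕ) (n : ℕ)
    (h : n ≤ d.degree) :
    (∏ v ∈ d.support, g v ^ d v) ∈ (Ideal.span (Set.range g)) ^ n := by
  have h1 : (∏ v ∈ d.support, g v ^ d v) ∈
      (Ideal.span (Set.range g)) ^ (d.degree) := by
    have h0 : d.degree = ∑ v ∈ d.support, d v := rfl
    rw [h0, ← Finset.prod_pow_eq_pow_sum]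
    refine Ideal.prod_mem_prod fun v _ => Ideal.pow_mem_pow ?_ _
    exact Ideal.subset_span (Set.mem_range_self v)
  exact Ideal.pow_le_pow_right h h1

omit [Fintype V] [DecidableEq V] in
lemma aeval_mem_pow {S : Type*} [CommRing S] [Algebra ℚ S] (g : V → S) (f : MvPolynomial V ℚ)
    (m n : ℕ) (hf : f.IsHomogeneous m) (h : n ≤ m) :
    aeval g f ∈ (Ideal.span (Set.range g)) ^ n := by
  rw [aeval_def, eval₂_eq]
  refine Ideal.sum_mem _ fun d hd => Ideal.mul_mem_left _ _ (prod_mem_pow g d n ?_)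
  have := hf (mem_support_iff.mp hd)
  have h2 : d.degree = m := by
    rw [← this, Finsupp.degree_eq_weight_one]
    rfl
  omega

lemma exists_centered_pow (k : V → V → ℕ) (θ : V → ℤ) (h0 : ∑ v, θ v = 0) :
    ∃ n : ℕ, (Ideal.span (Set.range (fun v : V => (X v - cm V : MvPolynomial V ℚ)))) ^ n
      ≤ Ige k θ := by
  obtain ⟨n, hn⟩ := Ideal.exists_radical_pow_le_of_fg (Ige k θ)
    ((isNoetherianRing_iff_ideal_fg _).mp inferInstance _)
  refine ⟨n, (Ideal.pow_right_mono ?_ n).trans hn⟩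
  rw [Ideal.span_le]
  rintro _ ⟨v, rfl⟩
  exact centered_mem_radical k θ h0 v

/-- **FIN(ii)**: homogeneous polynomials of large degree in the centred variables are in `Ige`. -/
theorem aeval_centered_mem (k : V → V → ℕ) (θ : V → ℤ) (h0 : ∑ v, θ v = 0) :
    ∃ N0 : ℕ, ∀ m, N0 ≤ m → ∀ f : MvPolynomial V ℚ, f.IsHomogeneous m →
      aeval (fun v : V => (X v - cm V : MvPolynomial V ℚ)) f ∈ Ige k θ := by
  obtain ⟨n, hn⟩ := exists_centered_pow k θ h0
  exact ⟨n, fun m hm f hf => hn (aeval_mem_pow _ f m n hf hm)⟩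

lemma X_mem_radical (k : V → V → ℕ) (θ : V → ℤ) (h0 : ∑ v, θ v = 0) (v : V) :
    (X v : MvPolynomial V ℚ) ∈ (Ige k θ ⊔ Ideal.span {p1 V}).radical := by
  have h1 : (cm V : MvPolynomial V ℚ) ∈ (Ige k θ ⊔ Ideal.span {p1 V}).radical :=
    Ideal.mul_mem_left _ _
      (Ideal.le_radical (Ideal.mem_sup_right (Ideal.subset_span rfl)))
  have h2 : (X v - cm V : MvPolynomial V ℚ) ∈ (Ige k θ ⊔ Ideal.span {p1 V}).radical :=
    Ideal.radical_mono le_sup_left (centered_mem_radical k θ h0 v)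
  have h3 := Ideal.add_mem _ h2 h1
  simpa using h3

/-- **FIN(iii)**: in large degree everything homogeneous is in `Ige + (p₁)`. -/
theorem homogeneous_mem (k : V → V → ℕ) (θ : V → ℤ) (h0 : ∑ v, θ v = 0) :
    ∃ N0 : ℕ, ∀ m, N0 ≤ m → ∀ f : MvPolynomial V ℚ,
    f.IsHomogeneous m → f ∈ Ige k θ ⊔ Ideal.span {p1 V} := by
  obtain ⟨n, hn⟩ := Ideal.exists_radical_pow_le_of_fg (Ige k θ ⊔ Ideal.span {p1 V})
    ((isNoetherianRing_iff_ideal_fg _).mp inferInstance _)
  refine ⟨n, fun m hm f hf => hn ?_⟩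
  have h1 := aeval_mem_pow (X : V → MvPolynomial V ℚ) f m n hf hm
  rw [aeval_X_left_apply] at h1
  refine Ideal.pow_right_mono ?_ n h1
  rw [Ideal.span_le]
  rintro _ ⟨v, rfl⟩
  exact X_mem_radical k θ h0 v

omit [DecidableEq V] in
lemma p1_homogeneous : (p1 V).IsHomogeneous 1 :=
  IsHomogeneous.sum _ _ _ fun v _ => isHomogeneous_X _ v

lemma E_homogeneous (k : V → V → ℕ) (A : Finset V) :
    (E k A).IsHomogeneous (∑ a ∈ A, ∑ b ∈ Aᶜ, k a b) := by
  unfold E
  refine IsHomogeneous.prod _ _ _ fun a _ => IsHomogeneous.prod _ _ _ fun b _ => ?_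
  have h := ((isHomogeneous_X ℚ b).sub (isHomogeneous_X ℚ a)).pow (k a b)
  simpa using h

omit [Fintype V] [DecidableEq V] in
/-- homogeneous component of `φ * g`, `φ` homogeneous -/
lemma homogeneousComponent_mul_of {φ : MvPolynomial V ℚ} {e : ℕ} (hφ : φ.IsHomogeneous e)
    (g : MvPolynomial V ℚ) (m : ℕ) (h : e ≤ m) :
    homogeneousComponent m (φ * g) = φ * homogeneousComponent (m - e) g := by
  conv_lhs => rw [← sum_homogeneousComponent (φ := g)]
  rw [Finset.mul_sum, map_sum]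
  have h1 : ∀ i, homogeneousComponent m (φ * homogeneousComponent i g)
      = if m = e + i then φ * homogeneousComponent i g else 0 := fun i =>
    homogeneousComponent_of_mem (hφ.mul (homogeneousComponent_isHomogeneous i g))
  simp_rw [h1]
  by_cases hi : m - e ∈ Finset.range (g.totalDegree + 1)
  · rw [Finset.sum_eq_single_of_mem (m - e) hi]
    · rw [if_pos (by omega)]
    · intro b _ hb
      rw [if_neg (by omega)]
  · rw [homogeneousComponent_eq_zero (m - e) g (by
      rw [Finset.mem_range, not_lt] at hi; omega), mul_zero]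
    refine Finset.sum_eq_zero fun b hb => ?_
    have : b ≠ m - e := fun h => hi (h ▸ hb)
    rw [if_neg (by omega)]

omit [Fintype V] [DecidableEq V] in
lemma homogeneousComponent_mul_of' {φ : MvPolynomial V ℚ} {e : ℕ} (hφ : φ.IsHomogeneous e)
    (g : MvPolynomial V ℚ) (m : ℕ) :
    ∃ g' : MvPolynomial V ℚ, homogeneousComponent m (φ * g) = φ * g' ∧
      g'.IsHomogeneous (m - e) := by
  by_cases h : e ≤ m
  · exact ⟨_, homogeneousComponent_mul_of hφ g m h, homogeneousComponent_isHomogeneous _ _⟩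
  · refine ⟨0, ?_, isHomogeneous_zero _ _ _⟩
    rw [mul_zero]
    conv_lhs => rw [← sum_homogeneousComponent (φ := g)]
    rw [Finset.mul_sum, map_sum]
    refine Finset.sum_eq_zero fun i _ => ?_
    rw [homogeneousComponent_of_mem (hφ.mul (homogeneousComponent_isHomogeneous i g)),
      if_neg (by omega)]

/-- **FIN(iv)**: the explicit form: `f = p₁ * g + ∑_A E k A * r A`, everything homogeneous. -/
theorem homogeneous_decomp (k : V → V → ℕ) (θ : V → ℤ) (h0 : ∑ v, θ v = 0) :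
    ∃ N0 : ℕ, ∀ m, N0 ≤ m → ∀ f : MvPolynomial V ℚ, f.IsHomogeneous m →
      ∃ g : MvPolynomial V ℚ, g.IsHomogeneous (m - 1) ∧
        ∃ r : Finset V → MvPolynomial V ℚ,
          (∀ A, (r A).IsHomogeneous (m - ∑ a ∈ A, ∑ b ∈ Aᶜ, k a b)) ∧
          (∀ A, ¬ (A.Nonempty ∧ A ≠ Finset.univ ∧ 0 ≤ ∑ a ∈ A, θ a) → r A = 0) ∧
          f = p1 V * g + ∑ A : Finset V, E k A * r A := by
  classical
  obtain ⟨N0, hN0⟩ := homogeneous_mem k θ h0
  refine ⟨N0, fun m hm f hf => ?_⟩
  have h1 := hN0 m hm f hf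
  obtain ⟨y, hy, z, hz, hyz⟩ := Submodule.mem_sup.mp h1
  obtain ⟨g0, rfl⟩ := Ideal.mem_span_singleton'.mp hz
  -- `y` as a sum
  have h2 : ∃ r0 : Finset V → MvPolynomial V ℚ,
      (∀ A, ¬ (A.Nonempty ∧ A ≠ Finset.univ ∧ 0 ≤ ∑ a ∈ A, θ a) → r0 A = 0) ∧
      y = ∑ A : Finset V, E k A * r0 A := by
    unfold Ige at hy
    refine Submodule.span_induction (p := fun y _ => ∃ r0 : Finset V → MvPolynomial V ℚ,
      (∀ A, ¬ (A.Nonempty ∧ A ≠ Finset.univ ∧ 0 ≤ ∑ a ∈ A, θ a) → r0 A = 0) ∧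
      y = ∑ A : Finset V, E k A * r0 A) ?_ ?_ ?_ ?_ hy
    · rintro _ ⟨A, hA1, hA2, hA3, rfl⟩
      refine ⟨Pi.single A 1, fun B hB => ?_, ?_⟩
      · by_cases hBA : B = A
        · subst hBA
          exact absurd ⟨hA1, hA2, hA3⟩ hB
        · rw [Pi.single_eq_of_ne hBA]
      · rw [Finset.sum_eq_single_of_mem A (Finset.mem_univ _)]
        · simp
        · intro B _ hB
          rw [Pi.single_eq_of_ne hB, mul_zero]
    · exact ⟨0, fun _ _ => rfl, by simp⟩
    · rintro x x' _ _ ⟨r, hr, rfl⟩ ⟨r', hr', rfl⟩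
      refine ⟨r + r', fun A hA => by simp [hr A hA, hr' A hA], ?_⟩
      rw [← Finset.sum_add_distrib]
      exact Finset.sum_congr rfl fun A _ => by rw [Pi.add_apply, mul_add]
    · rintro c x _ ⟨r, hr, rfl⟩
      refine ⟨fun A => c * r A, fun A hA => by simp [hr A hA], ?_⟩
      rw [smul_eq_mul, Finset.mul_sum]
      exact Finset.sum_congr rfl fun A _ => by ring
  obtain ⟨r0, hr0, rfl⟩ := h2
  have h3 : f = homogeneousComponent m (p1 V * g0) +
      ∑ A : Finset V, homogeneousComponent m (E k A * r0 A) := by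
    conv_lhs => rw [← homogeneousComponent_eq_self hf, ← hyz]
    rw [map_add, map_sum, add_comm, mul_comm]
  obtain ⟨g, hg, hgh⟩ := homogeneousComponent_mul_of' (p1_homogeneous (V := V)) g0 m
  choose r hr hrh using fun A : Finset V =>
    homogeneousComponent_mul_of' (E_homogeneous k A) (r0 A) m
  refine ⟨g, hgh, fun A => if r0 A = 0 then 0 else r A, fun A => ?_, fun A hA => ?_, ?_⟩
  · dsimp only
    split_ifs
    · exact isHomogeneous_zero _ _ _
    · exact hrh A
  · simp [hr0 A hA]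
  · rw [h3, hg]
    congr 1
    refine Finset.sum_congr rfl fun A _ => ?_
    show _ = E k A * (if r0 A = 0 then 0 else r A)
    split_ifs with h
    · rw [h, mul_zero, map_zero]
    · exact hr A

end Crest.Agent.R059.Fin583
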