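import Mathlib
import Crest.Agent.R059.PL3_547

/-!
# Row 59, Theorem B, half 2 (helper547): symbol map and its equivariance
-/

set_option autoImplicit false
set_option linter.unusedSectionVars false

namespace Crest.Agent.R059.PL547

open MvPolynomial Finset Thin613 Deg359

section symb

theorem top_rename_equiv {L A : Type*} [CommRing A] (ρ : Equiv.Perm L) (m : ℤ)
    (p : MvPolynomial L A) : top m (rename ρ p) = rename ρ (top m p) := by
  ext α
  obtain ⟨β, rfl⟩ : ∃ β : L →₀ ℕ, β.mapDomain ρ = α := ⟨α.mapDomain ρ.symm, by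
    rw [← Finsupp.mapDomain_comp]
    have : (ρ ∘ ρ.symm : L → L) = id := by ext x; simp
    rw [this, Finsupp.mapDomain_id]⟩
  rw [coeff_top, coeff_rename_mapDomain _ ρ.injective, coeff_rename_mapDomain _ ρ.injective,
    coeff_top, Finsupp.degree_mapDomain]

theorem top_C_mul {L A : Type*} [CommRing A] (m : ℤ) (a : A) (p : MvPolynomial L A) :
    top m (C a * p) = C a * top m p := by
  ext α
  rw [coeff_top, coeff_C_mul, coeff_C_mul, coeff_top]
  split_ifs <;> simp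

variable {I : Type} [Fintype I] [DecidableEq I] (k : I → I → ℕ) (θ : I → ℤ)
variable {P : Type} [Fintype P] [DecidableEq P] {L : Type}

/-- the target of the symbol map -/
abbrev Sy (c : P → I) (b : P → L) : Type :=
  MvPolynomial L (MvPolynomial P ℚ ⧸ JJ ℚ (ar k c) (tw θ c) b)

theorem smul_Sy (c : P → I) (b : P → L) (r : ℚ) (x : Sy k θ c b) :
    r • x = C (Ideal.Quotient.mk _ (C r)) * x := by
  rw [Algebra.smul_def]
  rfl

/-- the symbol map -/
noncomputable def Tm (c : P → I) (b : P → L) (g : ℤ) :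
    MvPolynomial P ℚ →ₗ[ℚ] Sy k θ c b where
  toFun x := top ((NF (ar k c) b : ℤ) + g) (sh ℚ (ar k c) (tw θ c) b x)
  map_add' x y := by rw [map_add, Deg359.top_add]
  map_smul' r x := by
    rw [RingHom.id_apply, smul_Sy, smul_eq_C_mul, map_mul, sh_C, top_C_mul]

variable {k θ}

theorem Tm_apply (c : P → I) (b : P → L) (g : ℤ) (x : MvPolynomial P ℚ) :
    Tm k θ c b g x = top ((NF (ar k c) b : ℤ) + g) (sh ℚ (ar k c) (tw θ c) b x) := rfl

theorem Tm_ker (c : P → I) (b : P → L) (g : ℤ) {x : MvPolynomial P ℚ}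
    (hx : x ∈ Gr k θ c b g) : Tm k θ c b g x = 0 ↔ x ∈ Gr k θ c b (g - 1) := by
  constructor
  · intro h
    have h1 := TD.of_top_eq_zero (show TD ((NF (ar k c) b : ℤ) + g)
      (sh ℚ (ar k c) (tw θ c) b x) from hx) h
    rw [mem_Gr, show ((NF (ar k c) b : ℤ) + (g - 1)) = (NF (ar k c) b : ℤ) + g - 1 by ring]
    exact h1
  · intro h
    exact top_eq_zero_of_TD (show TD ((NF (ar k c) b : ℤ) + (g - 1))
      (sh ℚ (ar k c) (tw θ c) b x) from h) (by omega)

/-- a colour preserving permutation which permutes the blocks is a morphism -/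
theorem mor_self {c : P → I} {b : P → L} {w : Equiv.Perm P} (hw : ∀ a, c (w a) = c a)
    {ρ : Equiv.Perm L} (hb : ∀ a, b (w a) = ρ (b a)) :
    ThinEq494.Mor (ar k c) (tw θ c) b (ar k c) (tw θ c) b w ρ where
  inj := w.injective
  arr_eq a a' := ar_perm hw a a'
  th_eq a := tw_perm hw a
  lab := hb
  full a b' h := by
    refine ⟨w⁻¹ b', ?_, ?_⟩
    · apply ρ.injective
      rw [← hb, ← hb, ← h, ← Equiv.Perm.mul_apply, mul_inv_cancel, Equiv.Perm.one_apply]
    · rw [← Equiv.Perm.mul_apply, mul_inv_cancel, Equiv.Perm.one_apply]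

/-- the action on the symbols -/
noncomputable def Phi {c : P → I} {b : P → L} {w : Equiv.Perm P} {ρ : Equiv.Perm L}
    (h : ThinEq494.Mor (ar k c) (tw θ c) b (ar k c) (tw θ c) b w ρ) :
    Sy k θ c b →ₗ[ℚ] Sy k θ c b where
  toFun x := rename ρ (MvPolynomial.map (h.quot ℚ) x)
  map_add' x y := by rw [map_add, map_add]
  map_smul' r x := by
    rw [RingHom.id_apply, smul_Sy, smul_Sy, map_mul, map_mul, map_C, rename_C, h.quot_mk, rename_C]

theorem Phi_apply {c : P → I} {b : P → L} {w : Equiv.Perm P} {ρ : Equiv.Perm L}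
    (h : ThinEq494.Mor (ar k c) (tw θ c) b (ar k c) (tw θ c) b w ρ) (x : Sy k θ c b) :
    Phi h x = rename ρ (MvPolynomial.map (h.quot ℚ) x) := rfl

theorem Tm_rename {c : P → I} {b : P → L} {w : Equiv.Perm P} {ρ : Equiv.Perm L}
    (h : ThinEq494.Mor (ar k c) (tw θ c) b (ar k c) (tw θ c) b w ρ) (g : ℤ)
    (x : MvPolynomial P ℚ) : Tm k θ c b g (rename w x) = Phi h (Tm k θ c b g x) := by
  rw [Phi_apply, Tm_apply, Tm_apply, h.sh_rename, top_rename_equiv, top_map]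

theorem rename_mem_Gr {c : P → I} {b : P → L} {w : Equiv.Perm P} {ρ : Equiv.Perm L}
    (h : ThinEq494.Mor (ar k c) (tw θ c) b (ar k c) (tw θ c) b w ρ) (g : ℤ)
    {x : MvPolynomial P ℚ} (hx : x ∈ Gr k θ c b g) : rename w x ∈ Gr k θ c b g :=
  h.ud hx

theorem map_DP {A B : Type*} [CommRing A] [CommRing B] [LinearOrder L] (f : A →+* B)
    (arr : P → P → ℕ) (b : P → L) : MvPolynomial.map f (DP A arr b) = DP B arr b := by
  unfold DP
  rw [map_prod]
  refine Finset.prod_congr rfl fun x _ => ?_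
  rw [map_pow, map_sub, map_X, map_X]

/-- `DP` is invariant under equivalences of particles -/
theorem DP_equiv {A : Type*} [CommRing A] [LinearOrder L] {Q : Type*} [Fintype Q]
    [DecidableEq Q] (E : Q ≃ P) (arr : P → P → ℕ) (arr' : Q → Q → ℕ) (b : P → L) (b' : Q → L)
    (h1 : ∀ x y, arr' x y = arr (E x) (E y)) (h2 : ∀ x, b' x = b (E x)) :
    DP A arr b = DP A arr' b' := by
  unfold DP
  symm
  refine Finset.prod_bij (fun x _ => (E x.1, E x.2)) ?_ ?_ ?_ ?_
  · intro x hx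
    simp only [mem_filter, mem_univ, true_and] at hx ⊢
    rwa [← h2, ← h2]
  · rintro ⟨a, a'⟩ _ ⟨c, c'⟩ _ h
    simp only [Prod.mk.injEq, EmbeddingLike.apply_eq_iff_eq] at h
    rw [h.1, h.2]
  · rintro ⟨a, a'⟩ ha
    refine ⟨(E.symm a, E.symm a'), ?_, by simp⟩
    simp only [mem_filter, mem_univ, true_and] at ha ⊢
    rw [h2, h2]
    simpa using ha
  · intro x _
    rw [h1, h2, h2]

end symb

/-! ### action of the stabiliser on the placed letters -/

section act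

variable {I : Type} [Fintype I] [DecidableEq I] {k : I → I → ℕ} {θ : I → ℤ}
  {T : Type} [Fintype T] [LinearOrder T] {cl : T → I → ℕ} {𝓛 : Letters k θ cl}

/-- inverse block permutation acting on words -/
def Wd.act {m : T → ℕ} (ρ : ∀ t, Equiv.Perm (Fin (m t))) (φ : Wd 𝓛 m) : Wd 𝓛 m :=
  fun t => φ t ∘ (ρ t).symm

theorem Wd.act_at {m : T → ℕ} (ρ : ∀ t, Equiv.Perm (Fin (m t))) (φ : Wd 𝓛 m) (j : Jm m) :
    (φ.act ρ).at (pr ρ j) = φ.at j := by
  change φ j.1 ((ρ j.1).symm (ρ j.1 j.2)) = φ j.1 j.2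
  rw [Equiv.symm_apply_apply]

theorem Wd.act_tot {m : T → ℕ} (ρ : ∀ t, Equiv.Perm (Fin (m t))) (φ : Wd 𝓛 m) :
    (φ.act ρ).tot = φ.tot := by
  unfold Wd.tot
  rw [← Equiv.sum_comp (pr ρ)]
  refine Finset.sum_congr rfl fun j _ => ?_
  exact congrArg Al.a (Wd.act_at ρ φ j)

theorem rename_wr_lp {m : T → ℕ} (ρ : ∀ t, Equiv.Perm (Fin (m t))) (φ : Wd 𝓛 m) :
    rename (wr ρ) φ.lp = (φ.act ρ).lp := by
  unfold Wd.lp
  rw [map_prod, ← Equiv.prod_comp (pr ρ) (fun j => rename (Sigma.mk j)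
    (𝓛.pol j.1 ((φ.act ρ).at j).l))]
  refine Finset.prod_congr rfl fun j _ => ?_
  rw [rename_rename]
  have h1 : 𝓛.pol (pr ρ j).1 ((φ.act ρ).at (pr ρ j)).l = 𝓛.pol j.1 (φ.at j).l :=
    congrArg (fun x : Al (𝓛.L j.1) => 𝓛.pol j.1 x.l) (Wd.act_at ρ φ j)
  rw [h1]
  rfl

theorem rename_fib_lp {m : T → ℕ} (g : ∀ j : Jm m, Equiv.Perm (Vt (cl j.1)))
    (hg : ∀ j a, colV (cl j.1) (g j a) = colV (cl j.1) a) (φ : Wd 𝓛 m) :
    rename (Equiv.sigmaCongrRight g : Equiv.Perm (Sm cl m)) φ.lp =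
      sg (Equiv.sigmaCongrRight g : Equiv.Perm (Sm cl m)) • φ.lp := by
  have hs : sg (Equiv.sigmaCongrRight g : Equiv.Perm (Sm cl m)) = ∏ j, sg (g j) := by
    unfold sg
    rw [sign_sigmaCongrRight]
    push_cast
    rfl
  unfold Wd.lp
  rw [map_prod, hs, ← Finset.prod_smul]
  refine Finset.prod_congr rfl fun j _ => ?_
  rw [rename_rename]
  have h1 : (⇑(Equiv.sigmaCongrRight g : Equiv.Perm (Sm cl m)) ∘ Sigma.mk j) =
      Sigma.mk j ∘ g j := by
    funext x
    rfl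
  rw [h1, ← rename_rename]
  have h2 : rename (g j) (𝓛.pol j.1 (φ.at j).l) = sg (g j) • 𝓛.pol j.1 (φ.at j).l :=
    (𝓛.mem j.1 (φ.at j).l).1 (g j) (hg j)
  rw [h2, map_smul]

/-- a colour preserving permutation of the model that permutes the blocks by `ρ` -/
theorem rename_lp {m : T → ℕ} (w : Equiv.Perm (Sm cl m)) (ρ : ∀ t, Equiv.Perm (Fin (m t)))
    (hw : ∀ x, colS cl m (w x) = colS cl m x) (hb : ∀ x, blk cl m (w x) = pr ρ (blk cl m x))
    (φ : Wd 𝓛 m) :
    rename w φ.lp = (sg w * sg (wr (cl := cl) ρ)) • (φ.act ρ).lp := by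
  have hfix : ∀ x : Sm cl m, (((wr (cl := cl) ρ)⁻¹ * w) x).1 = x.1 := by
    intro x
    rw [Equiv.Perm.mul_apply]
    have h1 : pr ρ (((wr (cl := cl) ρ)⁻¹ (w x)).1) = pr ρ x.1 := by
      have h2 := blk_wr (cl := cl) ρ ((wr (cl := cl) ρ)⁻¹ (w x))
      rw [← Equiv.Perm.mul_apply, mul_inv_cancel, Equiv.Perm.one_apply] at h2
      exact h2.symm.trans (hb x)
    exact (pr ρ).injective h1
  obtain ⟨g, hg⟩ := exists_fibrewise ((wr (cl := cl) ρ)⁻¹ * w) hfix
  have hw2 : w = wr (cl := cl) ρ * (Equiv.sigmaCongrRight g : Equiv.Perm (Sm cl m)) := by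
    rw [← hg, mul_inv_cancel_left]
  have hgc : ∀ j a, colV (cl j.1) (g j a) = colV (cl j.1) a := by
    intro j a
    have h1 := hw ⟨j, a⟩
    rw [hw2, Equiv.Perm.mul_apply, colS_wr] at h1
    exact h1
  have h3 : rename w φ.lp = rename (wr (cl := cl) ρ)
      (rename (Equiv.sigmaCongrRight g : Equiv.Perm (Sm cl m)) φ.lp) := by
    rw [rename_rename, hw2]
    rfl
  rw [h3, rename_fib_lp g hgc, map_smul, rename_wr_lp]
  congr 1
  rw [hw2, sg_mul, mul_comm, ← mul_assoc, sg_mul_self, one_mul]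

end act

end Crest.Agent.R059.PL547
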