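import Mathlib

/-!
# Row 59, Theorem B: the abstract local lemma (helper830)

`G` a finite group acting on `M` with a sign `sg`; `B ≤ A` submodules (growth `≤ g - 1`, `≤ g` at the
place), `T : M → S` the symbol map (`ker T ∩ A = B`); words `Ω` with independent symbols `e φ`,
elements `Mo φ ∈ A` with symbol `e φ`; `N` = elements of `G` which fix the place, they permute the
symbols up to signs `η`, the other elements kill the symbol of `Mo φ`.
The signed orbit sums `P t` of the representatives `rep t` of the admissible words are independent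
modulo `B`, and span the alternating elements of `A` (whose symbol is a combination of words) modulo
`B`.
-/

set_option autoImplicit false
set_option linter.unusedSectionVars false

namespace Crest.Agent.R059.Loc830

open Finset

variable {F M S G Ω τ : Type*} [Field F] [CharZero F] [AddCommGroup M] [Module F M]
  [AddCommGroup S] [Module F S] [Group G] [Fintype G]

/-- the local data -/
structure Loc (F M S G Ω τ : Type*) [Field F] [AddCommGroup M] [Module F M]
    [AddCommGroup S] [Module F S] [Group G] where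
  /-- the action -/
  ρ : G → M →ₗ[F] M
  ρ_mul : ∀ w w' x, ρ (w * w') x = ρ w (ρ w' x)
  /-- the sign -/
  sg : G → F
  sg_mul : ∀ w w', sg (w * w') = sg w * sg w'
  sg_sq : ∀ w, sg w * sg w = 1
  A : Submodule F M
  B : Submodule F M
  BA : B ≤ A
  /-- the symbol -/
  T : M →ₗ[F] S
  ker : ∀ x ∈ A, T x = 0 ↔ x ∈ B
  /-- the stabiliser of the place -/
  N : G → Prop
  N_one : N 1
  N_A : ∀ w, N w → ∀ x ∈ A, ρ w x ∈ A
  a : G → Ω → Ω
  a_one : ∀ φ, a 1 φ = φ
  a_inj : ∀ w, N w → Function.Injective (a w)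
  e : Ω → S
  ind : LinearIndependent F e
  Mo : Ω → M
  Mo_A : ∀ φ, Mo φ ∈ A
  T_Mo : ∀ φ, T (Mo φ) = e φ
  Mo_B : ∀ w, ¬ N w → ∀ φ, ρ w (Mo φ) ∈ B
  Φ : G → S →ₗ[F] S
  T_ρ : ∀ w, N w → ∀ x ∈ A, T (ρ w x) = Φ w (T x)
  η : G → F
  Φ_e : ∀ w, N w → ∀ φ, Φ w (e φ) = η w • e (a w φ)
  adm : Ω → Prop
  rep : τ → Ω
  adm_rep : ∀ t, adm (rep t)
  orbit : ∀ φ, adm φ → ∃ t w, N w ∧ a w (rep t) = φ
  orbit_inj : ∀ t t' w, N w → a w (rep t) = rep t' → t = t'
  sign_pos : ∀ φ, adm φ → ∀ w, N w → a w φ = φ → sg w * η w = 1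
  sign_neg : ∀ φ, ¬ adm φ → ∃ w, N w ∧ a w φ = φ ∧ sg w * η w = -1

variable (D : Loc F M S G Ω τ)

/-- the signed orbit sum -/
noncomputable def P (t : τ) : M := ∑ w, D.sg w • D.ρ w (D.Mo (D.rep t))

omit [CharZero F] in
theorem P_alt (t : τ) (w : G) : D.ρ w (P D t) = D.sg w • P D t := by
  unfold P
  rw [map_sum, Finset.smul_sum]
  refine Fintype.sum_equiv (Equiv.mulLeft w) _ _ fun v => ?_
  rw [map_smul, Equiv.coe_mulLeft, D.sg_mul, D.ρ_mul, smul_smul, ← mul_assoc, D.sg_sq, one_mul]

omit [CharZero F] in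
theorem P_mem (t : τ) : P D t ∈ D.A := by
  unfold P
  refine Submodule.sum_mem _ fun w _ => Submodule.smul_mem _ _ ?_
  by_cases hw : D.N w
  · exact D.N_A w hw _ (D.Mo_A _)
  · exact D.BA (D.Mo_B w hw _)

open scoped Classical in
/-- the coefficient function of the symbol of `P t` -/
noncomputable def cP (t : τ) : Ω →₀ F :=
  ∑ w ∈ univ.filter (fun w => D.N w), Finsupp.single (D.a w (D.rep t)) (D.sg w * D.η w)

omit [CharZero F] in
theorem T_P (t : τ) : D.T (P D t) = Finsupp.linearCombination F D.e (cP D t) := by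
  classical
  unfold P cP
  rw [map_sum, map_sum, Finset.sum_filter]
  refine Finset.sum_congr rfl fun w _ => ?_
  rw [map_smul]
  split_ifs with hw
  · rw [D.T_ρ w hw _ (D.Mo_A _), D.T_Mo, D.Φ_e w hw, Finsupp.linearCombination_single, smul_smul]
  · rw [(D.ker _ (D.BA (D.Mo_B w hw _))).2 (D.Mo_B w hw _), smul_zero]

/-- order of the stabiliser of the representative -/
noncomputable def nst (t : τ) : ℕ := by
  classical exact (univ.filter (fun w => D.N w ∧ D.a w (D.rep t) = D.rep t)).card

omit [CharZero F] in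
theorem nst_pos (t : τ) : 0 < nst D t := by
  classical
  unfold nst
  refine Finset.card_pos.2 ⟨1, ?_⟩
  rw [Finset.mem_filter]
  exact ⟨mem_univ _, D.N_one, D.a_one _⟩

open scoped Classical in
omit [CharZero F] in
theorem cP_rep (t t' : τ) : cP D t (D.rep t') = if t = t' then (nst D t : F) else 0 := by
  unfold cP
  rw [Finsupp.finsetSum_apply]
  by_cases h : t = t'
  · subst h
    rw [if_pos rfl]
    unfold nst
    rw [Finset.card_eq_sum_ones, Finset.sum_filter, Finset.sum_filter, Nat.cast_sum]
    refine Finset.sum_congr rfl fun w _ => ?_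
    by_cases hw : D.N w
    · rw [if_pos hw, Finsupp.single_apply]
      by_cases ha : D.a w (D.rep t) = D.rep t
      · rw [if_pos ha, if_pos ⟨hw, ha⟩, D.sign_pos _ (D.adm_rep t) w hw ha]
        simp
      · rw [if_neg ha, if_neg (fun h => ha h.2)]
        simp
    · rw [if_neg hw, if_neg (fun h => hw h.1)]
      simp
  · rw [if_neg h]
    refine Finset.sum_eq_zero fun w hw => ?_
    rw [Finset.mem_filter] at hw
    rw [Finsupp.single_apply, if_neg]
    exact fun h2 => h (D.orbit_inj t t' w hw.2 h2)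

/-- **local independence** -/
theorem LI (c : τ →₀ F) (hc : (c.sum fun t x => x • P D t) ∈ D.B) : c = 0 := by
  classical
  have hA : (c.sum fun t x => x • P D t) ∈ D.A := D.BA hc
  have h0 := (D.ker _ hA).2 hc
  have h1 : Finsupp.linearCombination F D.e (c.sum fun t x => x • cP D t) = 0 := by
    rw [← h0, Finsupp.sum, Finsupp.sum, map_sum, map_sum]
    refine Finset.sum_congr rfl fun t _ => ?_
    rw [map_smul, map_smul, T_P]
  have h2 : (c.sum fun t x => x • cP D t) = 0 :=
    (linearIndependent_iff.1 D.ind) _ h1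
  ext t
  have h3 := DFunLike.congr_fun h2 (D.rep t)
  rw [Finsupp.sum, Finsupp.finsetSum_apply, Finsupp.coe_zero, Pi.zero_apply] at h3
  have h4 : ∑ i ∈ c.support, (c i • cP D i) (D.rep t) = c t * (nst D t : F) := by
    rw [Finset.sum_eq_single t]
    · rw [Finsupp.smul_apply, cP_rep, if_pos rfl, smul_eq_mul]
    · intro i _ hi
      rw [Finsupp.smul_apply, cP_rep, if_neg hi, smul_zero]
    · intro ht
      rw [Finsupp.notMem_support_iff.1 ht, zero_smul, Finsupp.coe_zero, Pi.zero_apply]
  rw [h4] at h3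
  have h5 : (nst D t : F) ≠ 0 := by exact_mod_cast (nst_pos D t).ne'
  simpa [h5] using h3

omit [CharZero F] in
/-- equivariance of the coefficient function -/
theorem eqv {x : M} (hx : x ∈ D.A) {w : G} (hw : D.N w) (halt : D.ρ w x = D.sg w • x) {C : Ω →₀ F}
    (hC : D.T x = Finsupp.linearCombination F D.e C) (φ : Ω) :
    C (D.a w φ) = D.sg w * D.η w * C φ := by
  classical
  have h1 : D.sg w • D.T x = D.Φ w (D.T x) := by
    rw [← map_smul, ← halt, D.T_ρ w hw x hx]
  have h2 : D.Φ w (Finsupp.linearCombination F D.e C) =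
      Finsupp.linearCombination F D.e (D.η w • C.mapDomain (D.a w)) := by
    rw [Finsupp.linearCombination_apply, Finsupp.sum, map_sum, map_smul,
      Finsupp.linearCombination_mapDomain, Finsupp.linearCombination_apply, Finsupp.sum,
      Finset.smul_sum]
    refine Finset.sum_congr rfl fun ψ _ => ?_
    rw [map_smul, D.Φ_e w hw, smul_comm]
    rfl
  rw [hC, h2, ← map_smul] at h1
  have h3 := (linearIndependent_iff_injective_finsuppLinearCombination.1 D.ind) h1
  have h4 := DFunLike.congr_fun h3 (D.a w φ)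
  rw [Finsupp.smul_apply, Finsupp.smul_apply, Finsupp.mapDomain_apply (D.a_inj w hw)] at h4
  simp only [smul_eq_mul] at h4
  calc C (D.a w φ) = D.sg w * (D.sg w * C (D.a w φ)) := by rw [← mul_assoc, D.sg_sq, one_mul]
    _ = D.sg w * (D.η w * C φ) := by rw [h4]
    _ = _ := by ring

/-- an alternating element whose symbol vanishes at the representatives has symbol zero -/
theorem eq_zero_of_rep {x : M} (hx : x ∈ D.A) (halt : ∀ w, D.N w → D.ρ w x = D.sg w • x)
    {C : Ω →₀ F} (hC : D.T x = Finsupp.linearCombination F D.e C) (h0 : ∀ t, C (D.rep t) = 0) :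
    C = 0 := by
  ext φ
  by_cases hφ : D.adm φ
  · obtain ⟨t, w, hw, rfl⟩ := D.orbit φ hφ
    rw [eqv D hx hw (halt w hw) hC, h0, mul_zero]
    rfl
  · obtain ⟨w, hw, ha, hs⟩ := D.sign_neg φ hφ
    have h1 := eqv D hx hw (halt w hw) hC φ
    rw [ha, hs] at h1
    have h2 : C φ + C φ = 0 := by
      nth_rw 1 [h1]
      ring
    have h3 : (2 : F) * C φ = 0 := by rw [two_mul]; exact h2
    simpa using h3

/-- **local spanning** -/
theorem LS {f : M} (hf : f ∈ D.A) (halt : ∀ w, D.N w → D.ρ w f = D.sg w • f)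
    (hT : D.T f ∈ Submodule.span F (Set.range D.e)) :
    ∃ h ∈ Submodule.span F (Set.range (P D)), f - h ∈ D.B := by
  classical
  obtain ⟨C, hC⟩ := (Finsupp.mem_span_range_iff_exists_finsupp).1 hT
  have hC' : D.T f = Finsupp.linearCombination F D.e C := by
    rw [← hC, Finsupp.linearCombination_apply]
  have hrep : Function.Injective D.rep := fun t t' h =>
    D.orbit_inj t t' 1 D.N_one (by rw [D.a_one]; exact h)
  set h : M := ∑ t ∈ (C.comapDomain D.rep hrep.injOn).support,
    (C (D.rep t) / (nst D t : F)) • P D t with hh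
  have hspan : h ∈ Submodule.span F (Set.range (P D)) :=
    Submodule.sum_mem _ fun t _ => Submodule.smul_mem _ _ (Submodule.subset_span ⟨t, rfl⟩)
  have hhA : h ∈ D.A := Submodule.sum_mem _ fun t _ => Submodule.smul_mem _ _ (P_mem D t)
  have hhalt : ∀ w, D.ρ w h = D.sg w • h := by
    intro w
    rw [hh, map_sum, Finset.smul_sum]
    refine Finset.sum_congr rfl fun t _ => ?_
    rw [map_smul, P_alt, smul_comm]
  refine ⟨h, hspan, ?_⟩
  have hfh : f - h ∈ D.A := D.A.sub_mem hf hhA
  set C' : Ω →₀ F := C - ∑ t ∈ (C.comapDomain D.rep hrep.injOn).support,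
    (C (D.rep t) / (nst D t : F)) • cP D t with hC''
  have hTC' : D.T (f - h) = Finsupp.linearCombination F D.e C' := by
    rw [map_sub, hC', hC'', map_sub, hh, map_sum, map_sum]
    congr 1
    refine Finset.sum_congr rfl fun t _ => ?_
    rw [map_smul, map_smul, T_P]
  have hz : C' = 0 := by
    refine eq_zero_of_rep D hfh (fun w hw => ?_) hTC' fun t => ?_
    · rw [map_sub, halt w hw, hhalt w, smul_sub]
    · rw [hC'', Finsupp.sub_apply, Finsupp.finsetSum_apply]
      have h5 : (nst D t : F) ≠ 0 := by exact_mod_cast (nst_pos D t).ne'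
      rw [sub_eq_zero]
      symm
      by_cases ht : C (D.rep t) = 0
      · rw [ht]
        refine Finset.sum_eq_zero fun i hi => ?_
        rw [Finsupp.smul_apply, cP_rep, if_neg, smul_zero]
        rintro rfl
        rw [Finsupp.mem_support_iff, Finsupp.comapDomain_apply] at hi
        exact hi ht
      · rw [Finset.sum_eq_single t]
        · rw [Finsupp.smul_apply, cP_rep, if_pos rfl, smul_eq_mul, div_mul_cancel₀ _ h5]
        · intro i _ hi
          rw [Finsupp.smul_apply, cP_rep, if_neg hi, smul_zero]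
        · intro hi
          exfalso
          apply hi
          rw [Finsupp.mem_support_iff, Finsupp.comapDomain_apply]
          exact ht
  rw [hz, map_zero] at hTC'
  exact (D.ker _ hfh).1 hTC'

end Crest.Agent.R059.Loc830
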