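import Crest.Agent.R059.BlkSign_537

/-!
Row 59, TEAM THIN, leaf T7 (helper537): swaps of equal blocks, stabilisers of labelled partitions.
-/

set_option autoImplicit false
set_option linter.unusedSectionVars false

namespace Crest.Agent.R059.Stab537

open Equiv Equiv.Perm Finset

/-! ### The swap of two disjoint embedded copies -/

theorem sign_sumComm (α : Type*) [Fintype α] [DecidableEq α] :
    sign (Equiv.sumComm α α) = (-1 : ℤˣ) ^ Fintype.card α := by
  have h : Equiv.sumComm α α =
      (Equiv.boolProdEquivSum α).permCongr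
        (Equiv.prodCongrLeft fun _ : α => Equiv.swap false true) := by
    apply Equiv.ext
    rintro (a | a) <;> simp [Equiv.permCongr_apply, Equiv.boolProdEquivSum]
  rw [h, sign_permCongr, sign_prodCongrLeft]
  simp

section swapE

variable {α V : Type*} [Fintype α] [DecidableEq V] [Fintype V]

/-- the permutation of `V` exchanging two disjoint embedded copies of `α` -/
def swapE (e₁ e₂ : α → V) (h₁ : Function.Injective e₁) (h₂ : Function.Injective e₂)
    (h : ∀ a a', e₁ a ≠ e₂ a') : Perm V :=
  Equiv.Perm.viaFintypeEmbedding (Equiv.sumComm α α : Perm (α ⊕ α))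
    ⟨Sum.elim e₁ e₂, h₁.sumElim h₂ h⟩

variable {e₁ e₂ : α → V} (h₁ : Function.Injective e₁) (h₂ : Function.Injective e₂)
    (h : ∀ a a', e₁ a ≠ e₂ a')

theorem swapE_left (a : α) : swapE e₁ e₂ h₁ h₂ h (e₁ a) = e₂ a :=
  viaFintypeEmbedding_apply_image (Equiv.sumComm α α) ⟨Sum.elim e₁ e₂, h₁.sumElim h₂ h⟩ (Sum.inl a)

theorem swapE_right (a : α) : swapE e₁ e₂ h₁ h₂ h (e₂ a) = e₁ a :=
  viaFintypeEmbedding_apply_image (Equiv.sumComm α α) ⟨Sum.elim e₁ e₂, h₁.sumElim h₂ h⟩ (Sum.inr a)

theorem swapE_of_notMem {v : V} (hv₁ : ∀ a, e₁ a ≠ v) (hv₂ : ∀ a, e₂ a ≠ v) :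
    swapE e₁ e₂ h₁ h₂ h v = v := by
  refine viaFintypeEmbedding_apply_notMem_range _ _ ?_
  rintro ⟨a | a, ha⟩
  · exact hv₁ a ha
  · exact hv₂ a ha

theorem sign_swapE [DecidableEq α] : sign (swapE e₁ e₂ h₁ h₂ h) = (-1 : ℤˣ) ^ Fintype.card α := by
  rw [swapE, viaFintypeEmbedding_sign, sign_sumComm]

theorem swapE_involutive (v : V) : swapE e₁ e₂ h₁ h₂ h (swapE e₁ e₂ h₁ h₂ h v) = v := by
  by_cases hv₁ : ∃ a, e₁ a = v
  · obtain ⟨a, rfl⟩ := hv₁
    rw [swapE_left, swapE_right]
  · by_cases hv₂ : ∃ a, e₂ a = v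
    · obtain ⟨a, rfl⟩ := hv₂
      rw [swapE_right, swapE_left]
    · push Not at hv₁ hv₂
      rw [swapE_of_notMem h₁ h₂ h hv₁ hv₂, swapE_of_notMem h₁ h₂ h hv₁ hv₂]

theorem swapE_inv : (swapE e₁ e₂ h₁ h₂ h)⁻¹ = swapE e₁ e₂ h₁ h₂ h := by
  ext v
  rw [Equiv.Perm.inv_eq_iff_eq, swapE_involutive]

end swapE

/-! ### Induction over the stabiliser of a function on the blocks -/

/-- Let `r : V → S` be a labelling by blocks, `lam` a function on the blocks.  A property `P` of
permutations in a subgroup `C` which is multiplicative, holds for the permutations preserving each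
block, and for one permutation exchanging any two given blocks of equal `lam`, holds for all
permutations in `C` which permute the blocks and preserve `lam`. -/
theorem stab_induction {V S Lt : Type*} [DecidableEq S] [Finite S] (C : Subgroup (Perm V))
    (r : V → S) (lam : S → Lt) (P : Perm V → Prop)
    (hmul : ∀ g g', g ∈ C → g' ∈ C → P g → P g' → P (g * g'))
    (h1 : ∀ g ∈ C, (∀ v, r (g v) = r v) → P g)
    (hsw : ∀ j k, j ≠ k → lam j = lam k → ∃ σ ∈ C, P σ ∧ σ⁻¹ = σ ∧ ∀ v, r (σ v) = swap j k (r v))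
    (g : Perm V) (hg : g ∈ C) (ρ : Perm S) (hρ : ∀ v, r (g v) = ρ (r v))
    (hl : ∀ j, lam (ρ j) = lam j) : P g := by
  classical
  cases nonempty_fintype S
  suffices H : ∀ (A : Finset S) (g : Perm V), g ∈ C → ∀ ρ : Perm S, (∀ v, r (g v) = ρ (r v)) →
      (∀ j, lam (ρ j) = lam j) → (∀ j, j ∉ A → ρ j = j) → P g from
    H univ g hg ρ hρ hl fun j hj => absurd (mem_univ j) hj
  intro A
  induction A using Finset.induction_on with
  | empty =>
    intro g hg ρ hρ _ hA
    refine h1 g hg fun v => ?_
    rw [hρ, hA _ (by simp)]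
  | insert j A hj ih =>
    intro g hg ρ hρ hl hA
    by_cases hρj : ρ j = j
    · refine ih g hg ρ hρ hl fun k hk => ?_
      by_cases hkj : k = j
      · rw [hkj, hρj]
      · exact hA k (by simp [hkj, hk])
    · obtain ⟨σ, hσC, hσP, hσi, hσ⟩ := hsw j (ρ j) (Ne.symm hρj) (hl j).symm
      have hgσ : g = σ * (σ * g) := by
        rw [← mul_assoc]
        nth_rewrite 1 [← hσi]
        rw [inv_mul_cancel, one_mul]
      rw [hgσ]
      refine hmul _ _ hσC (C.mul_mem hσC hg) hσP
        (ih (σ * g) (C.mul_mem hσC hg) (swap j (ρ j) * ρ) (fun v => ?_) (fun k => ?_)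
          (fun k hk => ?_))
      · rw [Equiv.Perm.mul_apply, Equiv.Perm.mul_apply, hσ, hρ]
      · rw [Equiv.Perm.mul_apply, swap_apply_def]
        split_ifs with h2 h3
        · rw [hl j, ← h2, hl k]
        · rw [← hl k, h3, hl j]
        · exact hl k
      · rw [Equiv.Perm.mul_apply]
        by_cases hkj : k = j
        · subst hkj
          rw [swap_apply_right]
        · have hk' : ρ k = k := hA k (by simp [hkj, hk])
          rw [hk', swap_apply_of_ne_of_ne hkj]
          intro h2
          exact hkj (ρ.injective (by rw [hk', h2]))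

/-! ### Inversions of a transposition -/

/-- the product of an invariant symmetric involutive-valued function over the inversions of the
transposition `(j k)` is its value at `(j, k)` -/
theorem prod_inv_swap {S M : Type*} [Fintype S] [LinearOrder S] [CommMonoid M]
    (φ : S → S → M) (hsym : ∀ u v, φ u v = φ v u) (h2 : ∀ u v, φ u v * φ u v = 1)
    (j k : S) (hjk : j < k) (hinv : ∀ v, v ≠ j → v ≠ k → φ j v = φ k v) :
    (∏ u : S, ∏ v : S, if u < v ∧ swap j k v < swap j k u then φ u v else 1) = φ j k := by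
  classical
  -- inner products
  have hj : (∏ v : S, if j < v ∧ swap j k v < swap j k j then φ j v else 1) =
      φ j k * ∏ v ∈ Finset.univ.filter (fun v => j < v ∧ v < k), φ j v := by
    rw [swap_apply_left, ← Finset.prod_erase_mul _ _ (mem_univ k)]
    rw [if_pos ⟨hjk, by rw [swap_apply_right]; exact hjk⟩, mul_comm]
    congr 1
    rw [Finset.prod_filter]
    rw [← Finset.prod_erase_mul (a := k) _ _ (mem_univ k), if_neg (fun h => lt_irrefl _ h.2), mul_one]
    refine prod_congr rfl fun v hv => ?_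
    have hvk : v ≠ k := (mem_erase.1 hv).1
    by_cases hjv : j < v
    · rw [swap_apply_of_ne_of_ne hjv.ne' hvk]
    · simp [hjv]
  have hu : ∀ u, u ≠ j → (∏ v : S, if u < v ∧ swap j k v < swap j k u then φ u v else 1) =
      if j < u ∧ u < k then φ u k else 1 := by
    intro u huj
    by_cases huk : u = k
    · subst huk
      rw [if_neg (fun h => lt_irrefl _ h.2)]
      refine prod_eq_one fun v _ => if_neg ?_
      rintro ⟨h3, h4⟩
      rw [swap_apply_right, swap_apply_of_ne_of_ne (hjk.trans h3).ne' h3.ne'] at h4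
      exact absurd (hjk.trans (h3.trans h4)) (lt_irrefl _)
    · rw [Finset.prod_eq_single k]
      · rw [swap_apply_right, swap_apply_of_ne_of_ne huj huk]
        simp only [and_comm]
      · intro v _ hvk
        refine if_neg ?_
        rintro ⟨h3, h4⟩
        rw [swap_apply_of_ne_of_ne huj huk] at h4
        by_cases hvj : v = j
        · subst hvj
          rw [swap_apply_left] at h4
          exact absurd (hjk.trans (h4.trans h3)) (lt_irrefl _)
        · rw [swap_apply_of_ne_of_ne hvj hvk] at h4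
          exact absurd (h3.trans h4) (lt_irrefl _)
      · intro h; exact absurd (mem_univ _) h
  rw [← Finset.mul_prod_erase _ _ (mem_univ j), hj]
  rw [prod_congr rfl fun u hu' => hu u (mem_erase.1 hu').1]
  have h5 : (∏ u ∈ univ.erase j, if j < u ∧ u < k then φ u k else 1) =
      ∏ v ∈ Finset.univ.filter (fun v => j < v ∧ v < k), φ j v := by
    rw [Finset.prod_filter]
    rw [← Finset.mul_prod_erase univ (fun v => if j < v ∧ v < k then φ j v else 1) (mem_univ j),
      if_neg (fun h => lt_irrefl _ h.1), one_mul]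
    refine prod_congr rfl fun v _ => ?_
    split_ifs with h6
    · rw [hsym v k, hinv v h6.1.ne' h6.2.ne]
    · rfl
  rw [h5, mul_assoc, ← prod_mul_distrib, prod_congr rfl fun v _ => h2 j v, prod_const_one, mul_one]

/-! ### The swap of two blocks of equal type in the representative labelling -/

section bsw

open BlkSign537

variable {I : Type*} [Fintype I] [DecidableEq I] {s : ℕ}
variable (c : Fin s → I → ℕ) {d : I → ℕ} (hc : ∀ i, ∑ j, c j i = d i)

/-- transport between equal dimension vectors -/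
def vcast {a b : I → ℕ} (h : a = b) (y : V a) : V b := ⟨y.1, Fin.cast (congrFun h y.1) y.2⟩

@[simp] theorem vcast_rfl {a : I → ℕ} (y : V a) : vcast (rfl : a = a) y = y := rfl

theorem vcast_injective {a b : I → ℕ} (h : a = b) : Function.Injective (vcast h) := by
  subst h
  exact fun _ _ h => h

@[simp] theorem vcast_vcast {a b : I → ℕ} (h : a = b) (y : V b) :
    vcast h (vcast h.symm y) = y := by subst h; rfl

/-- the swap of two blocks of equal type -/
def bsw (j k : Fin s) (hjk : j ≠ k) (h : c j = c k) : Perm (V d) :=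
  swapE (α := V (c j)) (emb c hc j) (fun y => emb c hc k (vcast h y)) (emb_injective c hc j)
    ((emb_injective c hc k).comp (vcast_injective h))
    (fun _ _ e => hjk (emb_inj_iff c hc e))

variable {j k : Fin s} (hjk : j ≠ k) (h : c j = c k)

theorem bsw_left (y : V (c j)) :
    bsw c hc j k hjk h (emb c hc j y) = emb c hc k (vcast h y) :=
  swapE_left _ _ _ y

theorem bsw_right (y : V (c k)) :
    bsw c hc j k hjk h (emb c hc k y) = emb c hc j (vcast h.symm y) := by
  have := swapE_right (e₁ := emb c hc j) (e₂ := fun y : V (c j) => emb c hc k (vcast h y))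
    (emb_injective c hc j) ((emb_injective c hc k).comp (vcast_injective h))
    (fun _ _ e => hjk (emb_inj_iff c hc e)) (vcast h.symm y)
  rwa [vcast_vcast] at this

theorem bsw_other {l : Fin s} (hj : l ≠ j) (hk : l ≠ k) (y : V (c l)) :
    bsw c hc j k hjk h (emb c hc l y) = emb c hc l y :=
  swapE_of_notMem _ _ _ (fun _ e => hj (emb_inj_iff c hc e).symm)
    (fun _ e => hk (emb_inj_iff c hc e).symm)

theorem bsw_fst (v : V d) : (bsw c hc j k hjk h v).1 = v.1 := by
  obtain ⟨y, hy⟩ := exists_emb c hc (v := v) rfl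
  by_cases hj : rep c hc v = j
  · obtain ⟨y, rfl⟩ := exists_emb c hc hj
    rw [bsw_left]; rfl
  · by_cases hk : rep c hc v = k
    · obtain ⟨y, rfl⟩ := exists_emb c hc hk
      rw [bsw_right]; rfl
    · rw [← hy, bsw_other c hc hjk h hj hk]

theorem rep_bsw (v : V d) : rep c hc (bsw c hc j k hjk h v) = swap j k (rep c hc v) := by
  obtain ⟨y, hy⟩ := exists_emb c hc (v := v) rfl
  by_cases hj : rep c hc v = j
  · obtain ⟨y, rfl⟩ := exists_emb c hc hj
    rw [bsw_left, rep_emb, rep_emb, swap_apply_left]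
  · by_cases hk : rep c hc v = k
    · obtain ⟨y, rfl⟩ := exists_emb c hc hk
      rw [bsw_right, rep_emb, rep_emb, swap_apply_right]
    · rw [← hy, bsw_other c hc hjk h hj hk, rep_emb, swap_apply_of_ne_of_ne hj hk]

theorem bsw_inv : (bsw c hc j k hjk h)⁻¹ = bsw c hc j k hjk h := swapE_inv _ _ _

theorem sign_bsw : sign (bsw c hc j k hjk h) = (-1 : ℤˣ) ^ (∑ i, c j i) := by
  rw [bsw, sign_swapE, Fintype.card_sigma]
  simp

/-- a colour preserving permutation which permutes the blocks preserves their types -/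
theorem type_of_perm {b b' : V d → Fin s} (g : Perm (V d)) (hg : ∀ v, (g v).1 = v.1)
    (ρ : Perm (Fin s)) (hρ : ∀ v, b' (g v) = ρ (b v)) (i : I) (j : Fin s) :
    #{x : Fin (d i) | b' ⟨i, x⟩ = ρ j} = #{x : Fin (d i) | b ⟨i, x⟩ = j} := by
  have hfib : ∀ x : Fin (d i), ∃ y : Fin (d i), g ⟨i, x⟩ = ⟨i, y⟩ := by
    intro x
    have h1 := hg ⟨i, x⟩
    generalize g ⟨i, x⟩ = w at h1
    obtain ⟨i', y⟩ := w
    obtain rfl : i' = i := h1
    exact ⟨y, rfl⟩
  choose f hf using hfib
  have hinj : Function.Injective f := by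
    intro x x' hxx
    have h1 : g ⟨i, x⟩ = g ⟨i, x'⟩ := by rw [hf, hf, hxx]
    have h2 := g.injective h1
    simpa using h2
  have hsurj : Function.Surjective f := Finite.surjective_of_injective hinj
  refine (Finset.card_bij (fun x _ => f x) (fun x hx => ?_) (fun x _ x' _ e => hinj e)
    (fun y hy => ?_)).symm
  · rw [mem_filter] at hx ⊢
    exact ⟨mem_univ _, by rw [← hf, hρ, hx.2]⟩
  · obtain ⟨x, rfl⟩ := hsurj y
    rw [mem_filter] at hy
    refine ⟨x, ?_, rfl⟩
    rw [mem_filter]
    refine ⟨mem_univ _, ρ.injective ?_⟩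
    rw [← hρ, hf, hy.2]

theorem type_of_perm_rep (g : Perm (V d)) (hg : ∀ v, (g v).1 = v.1) (ρ : Perm (Fin s))
    (hρ : ∀ v, rep c hc (g v) = ρ (rep c hc v)) (j : Fin s) : c (ρ j) = c j := by
  funext i
  rw [← card_rep c hc, ← card_rep c hc]
  exact type_of_perm g hg ρ hρ i j

/-- the colour preserving permutations -/
def Gc (d : I → ℕ) : Subgroup (Perm (V d)) where
  carrier := {g | ∀ v, (g v).1 = v.1}
  mul_mem' := fun ha hb v => by
    rw [Equiv.Perm.mul_apply, ha, hb]
  one_mem' := fun _ => rfl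
  inv_mem' := fun {a} ha v => by
    have := ha (a⁻¹ v)
    rw [← Equiv.Perm.mul_apply, mul_inv_cancel, Equiv.Perm.one_apply] at this
    exact this.symm

theorem mem_Gc {g : Perm (V d)} : g ∈ Gc d ↔ ∀ v, (g v).1 = v.1 := Iff.rfl

/-- **Stabiliser induction** for the representative labelling and letters `lam` whose type is
determined by the letter. -/
theorem stab_induction_rep {Lt : Type*} (lam : Fin s → Lt) (ty : Lt → I → ℕ)
    (hty : ∀ j, ty (lam j) = c j) (P : Perm (V d) → Prop)
    (hmul : ∀ g g', g ∈ Gc d → g' ∈ Gc d → P g → P g' → P (g * g'))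
    (h1 : ∀ g ∈ Gc d, (∀ v, rep c hc (g v) = rep c hc v) → P g)
    (hsw : ∀ (j k : Fin s) (hjk : j ≠ k) (h : c j = c k), lam j = lam k → P (bsw c hc j k hjk h))
    (g : Perm (V d)) (hg : g ∈ Gc d) (ρ : Perm (Fin s)) (hρ : ∀ v, rep c hc (g v) = ρ (rep c hc v))
    (hl : ∀ j, lam (ρ j) = lam j) : P g := by
  refine stab_induction (Gc d) (rep c hc) lam P hmul h1 (fun j k hjk hlam => ?_) g hg ρ hρ hl
  have h : c j = c k := by rw [← hty, ← hty, hlam]
  exact ⟨bsw c hc j k hjk h, bsw_fst c hc hjk h, hsw j k hjk h hlam, bsw_inv c hc hjk h,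
    rep_bsw c hc hjk h⟩

end bsw

/-! ### The sign of the kernel `∏_{u < v} (X v - X u)^{e u v}` under a permutation of the labels -/

section delta

open MvPolynomial

variable {S F : Type*} [Fintype S] [LinearOrder S] [CommRing F]

theorem rename_delta (e : S → S → ℕ) (hsym : ∀ u v, e u v = e v u) (τ : Perm S)
    (he : ∀ u v, e (τ u) (τ v) = e u v) :
    rename τ (∏ u, ∏ v, if u < v then ((X v - X u : MvPolynomial S F)) ^ e u v else 1) =
      (∏ u : S, ∏ v : S, if u < v ∧ τ v < τ u then (-1 : MvPolynomial S F) ^ e u v else 1) *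
      ∏ u, ∏ v, if u < v then ((X v - X u : MvPolynomial S F)) ^ e u v else 1 := by
  classical
  have h1 : rename τ (∏ u, ∏ v, if u < v then ((X v - X u : MvPolynomial S F)) ^ e u v else 1) =
      ∏ u, ∏ v, if u < v then ((X (τ v) - X (τ u) : MvPolynomial S F)) ^ e u v else 1 := by
    rw [map_prod]
    refine prod_congr rfl fun u _ => ?_
    rw [map_prod]
    refine prod_congr rfl fun v _ => ?_
    split_ifs <;> simp
  have h2 : ∀ u v : S, (if u < v then ((X (τ v) - X (τ u) : MvPolynomial S F)) ^ e u v else 1) =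
      (if u < v ∧ τ v < τ u then (-1 : MvPolynomial S F) ^ e u v else 1) *
      (if u < v then (if τ u < τ v then (X (τ v) - X (τ u) : MvPolynomial S F) ^ e u v
        else (X (τ u) - X (τ v)) ^ e u v) else 1) := by
    intro u v
    by_cases huv : u < v
    · have hne : τ u ≠ τ v := fun e => huv.ne (τ.injective e)
      rcases hne.lt_or_gt with h | h
      · simp [huv, h, h.le]
      · simp only [huv, h, if_pos, and_self, not_lt.2 h.le, if_false]
        rw [← mul_pow]
        congr 1
        ring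
    · simp [huv]
  rw [h1]
  rw [prod_congr rfl fun u _ => prod_congr rfl fun v _ => h2 u v]
  simp only [prod_mul_distrib]
  congr 1
  rw [← Fintype.prod_prod_type', ← Fintype.prod_prod_type', ← Finset.prod_filter,
    ← Finset.prod_filter]
  refine Finset.prod_nbij'
    (fun p => if τ p.1 < τ p.2 then (τ p.1, τ p.2) else (τ p.2, τ p.1))
    (fun q => if τ.symm q.1 < τ.symm q.2 then (τ.symm q.1, τ.symm q.2)
      else (τ.symm q.2, τ.symm q.1)) ?_ ?_ ?_ ?_ ?_
  · rintro ⟨u, v⟩ hp
    have huv : u < v := (mem_filter.1 hp).2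
    have hne : τ u ≠ τ v := fun e => huv.ne (τ.injective e)
    rw [mem_filter]
    refine ⟨mem_univ _, ?_⟩
    rcases hne.lt_or_gt with h | h
    · simp [h]
    · simp [not_lt.2 h.le, h]
  · rintro ⟨u, v⟩ hp
    have huv : u < v := (mem_filter.1 hp).2
    have hne : τ.symm u ≠ τ.symm v := fun e => huv.ne (τ.symm.injective e)
    rw [mem_filter]
    refine ⟨mem_univ _, ?_⟩
    rcases hne.lt_or_gt with h | h
    · simp [h]
    · simp [not_lt.2 h.le, h]
  · rintro ⟨u, v⟩ hp
    have huv : u < v := (mem_filter.1 hp).2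
    have hne : τ u ≠ τ v := fun e => huv.ne (τ.injective e)
    rcases hne.lt_or_gt with h | h
    · simp [h, huv]
    · simp [not_lt.2 h.le, not_lt.2 huv.le]
  · rintro ⟨u, v⟩ hp
    have huv : u < v := (mem_filter.1 hp).2
    have hne : τ.symm u ≠ τ.symm v := fun e => huv.ne (τ.symm.injective e)
    rcases hne.lt_or_gt with h | h
    · simp [h, huv]
    · simp [not_lt.2 h.le, not_lt.2 huv.le]
  · rintro ⟨u, v⟩ hp
    have huv : u < v := (mem_filter.1 hp).2
    have hne : τ u ≠ τ v := fun e => huv.ne (τ.injective e)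
    rcases hne.lt_or_gt with h | h
    · simp [h, he]
    · simp [not_lt.2 h.le, he, hsym v u]

/-- the sign of the kernel under the swap of two labels -/
theorem rename_delta_swap (e : S → S → ℕ) (hsym : ∀ u v, e u v = e v u) (j k : S) (hjk : j ≠ k)
    (he : ∀ v, e j v = e k v) :
    rename (swap j k)
      (∏ u, ∏ v, if u < v then ((X v - X u : MvPolynomial S F)) ^ e u v else 1) =
      (-1 : MvPolynomial S F) ^ e j k *
      ∏ u, ∏ v, if u < v then ((X v - X u : MvPolynomial S F)) ^ e u v else 1 := by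
  classical
  have hτ : ∀ u v, e (swap j k u) (swap j k v) = e u v := by
    have h1 : ∀ u v, e (swap j k u) v = e u v := by
      intro u v
      rw [swap_apply_def]
      split_ifs with h1 h2
      · rw [h1, he]
      · rw [h2, he]
      · rfl
    intro u v
    rw [h1, hsym, h1, hsym]
  have h2 : ∀ u v : S, ((-1 : MvPolynomial S F) ^ e u v) * (-1) ^ e u v = 1 := fun u v => by
    rw [← mul_pow, neg_one_mul, neg_neg, one_pow]
  rw [rename_delta e hsym _ hτ]
  congr 1
  rcases hjk.lt_or_gt with h | h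
  · exact prod_inv_swap (fun u v => (-1 : MvPolynomial S F) ^ e u v)
      (fun u v => by rw [hsym]) h2 j k h fun v _ _ => by rw [he]
  · rw [swap_comm, hsym]
    exact prod_inv_swap (fun u v => (-1 : MvPolynomial S F) ^ e u v)
      (fun u v => by rw [hsym]) h2 k j h fun v _ _ => by rw [he]

end delta

end Crest.Agent.R059.Stab537
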