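/-
Row 59, TEAM THIN, (S2) of helper547's plan (helper613): the difference product `DP` under a
permutation of the blocks of equal type.
-/
import Mathlib
import Crest.Agent.R059.Thin4c_613
import Crest.Agent.R059.PL1_547
import Crest.Agent.R059.Stab_537

set_option autoImplicit false
set_option linter.unusedSectionVars false

namespace Crest.Agent.R059.Thin613

open MvPolynomial Finset Deg359 PL547

section general

variable {P : Type*} [Fintype P] [DecidableEq P]
variable {L : Type*} [Fintype L] [LinearOrder L]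

/-- number of arrows from the block `i` to the block `j` -/
noncomputable def eL (arr : P → P → ℕ) (f : P → L) (i j : L) : ℕ :=
  ∑ a ∈ fib f i, ∑ b ∈ fib f j, arr a b

/-- `DP` as a product over pairs of labels -/
theorem DP_eq (A : Type*) [CommRing A] (arr : P → P → ℕ) (f : P → L) :
    DP A arr f = ∏ i, ∏ j, if i < j then (X j - X i : MvPolynomial L A) ^ eL arr f i j else 1 := by
  classical
  unfold DP
  rw [← Finset.prod_fiberwise_of_maps_to
    (s := (univ : Finset (P × P)).filter (fun x => f x.1 < f x.2))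
    (t := (univ : Finset (L × L))) (g := fun x => (f x.1, f x.2)) (fun _ _ => mem_univ _)]
  rw [← Finset.univ_product_univ, Finset.prod_product]
  refine Finset.prod_congr rfl fun i _ => Finset.prod_congr rfl fun j _ => ?_
  by_cases hij : i < j
  · rw [if_pos hij]
    have h1 : (((univ : Finset (P × P)).filter (fun x => f x.1 < f x.2)).filter
        (fun x => (f x.1, f x.2) = (i, j))) = fib f i ×ˢ fib f j := by
      ext ⟨a, b⟩
      simp only [Finset.mem_filter, Finset.mem_univ, true_and, Prod.mk.injEq, Finset.mem_product,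
        mem_fib]
      constructor
      · rintro ⟨_, h⟩; exact h
      · rintro ⟨h1, h2⟩
        exact ⟨by rw [h1, h2]; exact hij, h1, h2⟩
    rw [h1, Finset.prod_product]
    unfold eL
    rw [← Finset.prod_pow_eq_pow_sum]
    refine Finset.prod_congr rfl fun a ha => ?_
    rw [← Finset.prod_pow_eq_pow_sum]
    refine Finset.prod_congr rfl fun b hb => ?_
    rw [mem_fib] at ha hb
    rw [ha, hb]
  · rw [if_neg hij]
    refine Finset.prod_eq_one ?_
    rintro ⟨a, b⟩ hx
    simp only [Finset.mem_filter, Finset.mem_univ, true_and, Prod.mk.injEq] at hx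
    rw [hx.2.1, hx.2.2] at hx
    exact absurd hx.1 hij

/-- one swap of two labels with the same arrow numbers -/
theorem rename_DP_swap (A : Type*) [CommRing A] (arr : P → P → ℕ) (f : P → L)
    (hsym : ∀ u v, eL arr f u v = eL arr f v u) (j k : L) (hjk : j ≠ k)
    (he : ∀ v, eL arr f j v = eL arr f k v) :
    rename (Equiv.swap j k) (DP A arr f) = (-1 : MvPolynomial L A) ^ eL arr f j k * DP A arr f := by
  rw [DP_eq]
  exact Stab537.rename_delta_swap (eL arr f) hsym j k hjk he

end general

section model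

variable {I : Type*} [Fintype I] [DecidableEq I] {T : Type*} [Fintype T] [DecidableEq T]
variable (cl : T → I → ℕ) (m : T → ℕ)

/-- the arrow form on dimension vectors -/
def kf (k : I → I → ℕ) (c c' : I → ℕ) : ℕ := ∑ i, ∑ j, k i j * c i * c' j

/-- arrows on the model set -/
def arrS (k : I → I → ℕ) (x y : Sm cl m) : ℕ := k (colS cl m x) (colS cl m y)

theorem sum_blk {M : Type*} [AddCommMonoid M] (F : Sm cl m → M) (j : Jm m) :
    ∑ a ∈ fib (blk cl m) j, F a = ∑ x : Vt (cl j.1), F ⟨j, x⟩ := by
  classical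
  refine (Finset.sum_bij (fun x _ => (⟨j, x⟩ : Sm cl m)) ?_ ?_ ?_ ?_).symm
  · intro x _
    rw [mem_fib]; rfl
  · intro x _ y _ h
    simpa using h
  · rintro ⟨j', x⟩ hx
    rw [mem_fib] at hx
    change j' = j at hx
    subst hx
    exact ⟨x, mem_univ _, rfl⟩
  · intro x _
    rfl

theorem sum_Vt {M : Type*} [AddCommMonoid M] (c : I → ℕ) (F : I → M) :
    ∑ x : Vt c, F x.1 = ∑ i, c i • F i := by
  rw [Fintype.sum_sigma]
  simp

theorem eL_blk (k : I → I → ℕ) (j j' : Jm m) :
    eL (arrS cl m k) (blk cl m) j j' = kf k (cl j.1) (cl j'.1) := by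
  unfold eL kf
  rw [sum_blk]
  have h1 : ∀ x : Vt (cl j.1), (∑ b ∈ fib (blk cl m) j', arrS cl m k ⟨j, x⟩ b) =
      ∑ i', cl j'.1 i' * k x.1 i' := by
    intro x
    rw [sum_blk]
    change ∑ y : Vt (cl j'.1), k x.1 y.1 = _
    rw [sum_Vt (cl j'.1) (fun i' => k x.1 i')]
    simp
  rw [Finset.sum_congr rfl fun x _ => h1 x]
  rw [sum_Vt (cl j.1) (fun i => ∑ i', cl j'.1 i' * k i i')]
  refine Finset.sum_congr rfl fun i _ => ?_
  rw [smul_eq_mul, Finset.mul_sum]
  refine Finset.sum_congr rfl fun i' _ => ?_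
  ring

/-- the sign of a block permutation on the difference product -/
theorem rename_DP_pr (A : Type*) [CommRing A] [LinearOrder (Jm m)] (k : I → I → ℕ)
    (hsym : ∀ t t', kf k (cl t) (cl t') = kf k (cl t') (cl t))
    (ρ : ∀ t, Equiv.Perm (Fin (m t))) :
    rename (pr ρ) (DP A (arrS cl m k) (blk cl m)) =
      (((∏ t, Equiv.Perm.sign (ρ t) ^ kf k (cl t) (cl t) : ℤˣ) : ℤ) : MvPolynomial (Jm m) A) *
        DP A (arrS cl m k) (blk cl m) := by
  classical
  set D := DP A (arrS cl m k) (blk cl m) with hD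
  let S : Submonoid (∀ t, Equiv.Perm (Fin (m t))) :=
    { carrier := {ρ | rename (pr ρ) D =
        (((∏ t, Equiv.Perm.sign (ρ t) ^ kf k (cl t) (cl t) : ℤˣ) : ℤ) : MvPolynomial (Jm m) A) * D}
      mul_mem' := by
        intro ρ ρ' h h'
        change rename _ _ = _ at h h' ⊢
        have h1 : (pr (ρ * ρ') : Jm m → Jm m) = pr ρ ∘ pr ρ' := by
          funext j; rfl
        rw [h1, ← rename_rename, h', map_mul, h, map_intCast]
        simp only [Pi.mul_apply, Equiv.Perm.sign_mul, mul_pow, Finset.prod_mul_distrib,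
          Units.val_mul, Int.cast_mul]
        ring
      one_mem' := by
        change rename _ _ = _
        have h1 : (pr (1 : ∀ t, Equiv.Perm (Fin (m t))) : Jm m → Jm m) = id := by
          funext j; rfl
        rw [h1, rename_id]
        simp }
  suffices h : ρ ∈ S from h
  refine Submonoid.pi_mem_of_mulSingle_mem ρ fun t => ?_
  -- one type at a time
  have hmap : ∀ σ σ' : Equiv.Perm (Fin (m t)),
      (Pi.mulSingle t (σ * σ') : ∀ t, Equiv.Perm (Fin (m t))) =
        Pi.mulSingle t σ * Pi.mulSingle t σ' := fun σ σ' =>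
    map_mul (MonoidHom.mulSingle (fun t => Equiv.Perm (Fin (m t))) t) σ σ'
  refine Equiv.Perm.swap_induction_on
    (motive := fun σ => (Pi.mulSingle t σ : ∀ t, Equiv.Perm (Fin (m t))) ∈ S) (ρ t) ?_ ?_
  · rw [Pi.mulSingle_one]; exact S.one_mem
  · intro σ x y hxy hσ
    rw [hmap]
    refine S.mul_mem ?_ hσ
    change rename (pr (Pi.mulSingle t (Equiv.swap x y))) D = _ * D
    have h1 : pr (Pi.mulSingle t (Equiv.swap x y)) =
        Equiv.swap (⟨t, x⟩ : Jm m) ⟨t, y⟩ := by
      ext1 ⟨t', z⟩
      rw [pr_apply]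
      by_cases ht : t' = t
      · subst ht
        simp only [Pi.mulSingle_eq_same]
        rw [Equiv.swap_apply_def, Equiv.swap_apply_def]
        by_cases hzx : z = x
        · simp [hzx]
        · by_cases hzy : z = y
          · simp [hzy, Ne.symm hxy]
          · simp [hzx, hzy]
      · simp only [Pi.mulSingle_eq_of_ne ht]
        rw [Equiv.swap_apply_of_ne_of_ne]
        · rfl
        · intro h
          exact ht (congrArg Sigma.fst h)
        · intro h
          exact ht (congrArg Sigma.fst h)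
    rw [h1]
    have hne : (⟨t, x⟩ : Jm m) ≠ ⟨t, y⟩ := by
      intro h
      exact hxy (by simpa using h)
    have key := rename_DP_swap A (arrS cl m k) (blk cl m)
      (fun u v => by rw [eL_blk, eL_blk]; exact hsym _ _) _ _ hne
      (fun v => by rw [eL_blk, eL_blk])
    have key' : rename (Equiv.swap (⟨t, x⟩ : Jm m) ⟨t, y⟩) D =
        (-1) ^ eL (arrS cl m k) (blk cl m) (⟨t, x⟩ : Jm m) ⟨t, y⟩ * D := by
      convert key
    rw [key']
    congr 1
    rw [eL_blk]
    have h2 : (∏ t', Equiv.Perm.sign ((Pi.mulSingle t (Equiv.swap x y) :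
        ∀ t, Equiv.Perm (Fin (m t))) t') ^ kf k (cl t') (cl t') : ℤˣ) =
        (-1) ^ kf k (cl t) (cl t) := by
      rw [Finset.prod_eq_single t]
      · rw [Pi.mulSingle_eq_same, Equiv.Perm.sign_swap hxy]
      · intro t' _ ht'
        rw [Pi.mulSingle_eq_of_ne ht']
        simp
      · simp
    rw [h2]
    push_cast
    rfl

/-- the same with integer scalars -/
theorem rename_DP_pr_zsmul (A : Type*) [CommRing A] [LinearOrder (Jm m)] (k : I → I → ℕ)
    (hsym : ∀ t t', kf k (cl t) (cl t') = kf k (cl t') (cl t))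
    (ρ : ∀ t, Equiv.Perm (Fin (m t))) :
    rename (pr ρ) (DP A (arrS cl m k) (blk cl m)) =
      (((∏ t, Equiv.Perm.sign (ρ t) ^ kf k (cl t) (cl t) : ℤˣ) : ℤ)) •
        DP A (arrS cl m k) (blk cl m) := by
  rw [rename_DP_pr cl m A k hsym ρ, zsmul_eq_mul]

/-- the same with rational scalars -/
theorem rename_DP_pr_smul (A : Type*) [CommRing A] [Algebra ℚ A] [LinearOrder (Jm m)]
    (k : I → I → ℕ)
    (hsym : ∀ t t', kf k (cl t) (cl t') = kf k (cl t') (cl t))
    (ρ : ∀ t, Equiv.Perm (Fin (m t))) :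
    rename (pr ρ) (DP A (arrS cl m k) (blk cl m)) =
      (∏ t, sg (ρ t) ^ kf k (cl t) (cl t) : ℚ) • DP A (arrS cl m k) (blk cl m) := by
  rw [rename_DP_pr cl m A k hsym ρ, Algebra.smul_def]
  congr 1
  rw [← map_intCast (algebraMap ℚ (MvPolynomial (Jm m) A))]
  congr 1
  unfold sg
  push_cast
  rfl

end model

end Crest.Agent.R059.Thin613
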