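/-
Row 59, TEAM THIN, leaf T4 (helper559): tensor lemmas for `MvPolynomial P F` and a labelling
`f : P → L` of the variables (blocks = fibres), written without tensor products.
-/
import Mathlib

set_option autoImplicit false

namespace Crest.Agent.R059.Tens559

open MvPolynomial Finset

variable {P L F : Type*} [Field F]

/-- restriction of an exponent to the block `l` -/
noncomputable def res (f : P → L) (l : L) (m : P →₀ ℕ) : P →₀ ℕ := by
  classical exact m.filter (fun a => f a = l)

lemma res_apply_pos {f : P → L} {l : L} (m : P →₀ ℕ) {a : P} (h : f a = l) :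
    res f l m a = m a := by
  classical
  unfold res
  exact Finsupp.filter_apply_pos (fun a => f a = l) _ h

lemma res_apply_neg {f : P → L} {l : L} (m : P →₀ ℕ) {a : P} (h : f a ≠ l) :
    res f l m a = 0 := by
  classical
  unfold res
  exact Finsupp.filter_apply_neg (fun a => f a = l) _ h

@[simp] lemma res_zero (f : P → L) (l : L) : res f l (0 : P →₀ ℕ) = 0 := by
  ext a
  by_cases h : f a = l
  · rw [res_apply_pos _ h]
  · rw [res_apply_neg _ h]; rfl

lemma res_add (f : P → L) (l : L) (m m' : P →₀ ℕ) :
    res f l (m + m') = res f l m + res f l m' := by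
  ext a
  by_cases h : f a = l
  · rw [Finsupp.add_apply, res_apply_pos _ h, res_apply_pos _ h, res_apply_pos _ h,
      Finsupp.add_apply]
  · rw [Finsupp.add_apply, res_apply_neg _ h, res_apply_neg _ h, res_apply_neg _ h]

lemma res_sum {ι : Type*} (f : P → L) (l : L) (s : Finset ι) (m : ι → P →₀ ℕ) :
    res f l (∑ i ∈ s, m i) = ∑ i ∈ s, res f l (m i) := by
  classical
  induction s using Finset.induction_on with
  | empty => simp
  | insert i s hi ih => rw [Finset.sum_insert hi, Finset.sum_insert hi, res_add, ih]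

@[simp] lemma res_res (f : P → L) (l : L) (m : P →₀ ℕ) : res f l (res f l m) = res f l m := by
  ext a
  by_cases h : f a = l
  · rw [res_apply_pos _ h]
  · rw [res_apply_neg _ h, res_apply_neg _ h]

lemma res_res_ne (f : P → L) {l l' : L} (hl : l ≠ l') (m : P →₀ ℕ) :
    res f l (res f l' m) = 0 := by
  ext a
  by_cases h : f a = l
  · rw [res_apply_pos _ h, res_apply_neg]
    · rfl
    · rw [h]; exact hl
  · rw [res_apply_neg _ h]; rfl

lemma sum_res [Fintype L] (f : P → L) (m : P →₀ ℕ) : ∑ l, res f l m = m := by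
  classical
  ext a
  rw [Finsupp.finsetSum_apply, Finset.sum_eq_single (f a)]
  · rw [res_apply_pos _ rfl]
  · intro l _ hl
    rw [res_apply_neg _ (fun h => hl h.symm)]
  · intro h; exact absurd (Finset.mem_univ _) h

/-- polynomials in the variables of the block `l` -/
noncomputable def RL (F : Type*) [Field F] (f : P → L) (l : L) : Submodule F (MvPolynomial P F) :=
  Subalgebra.toSubmodule (supported F {a | f a = l})

lemma mem_RL_iff {f : P → L} {l : L} {g : MvPolynomial P F} :
    g ∈ RL F f l ↔ ∀ m ∈ g.support, res f l m = m := by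
  classical
  unfold RL
  rw [Subalgebra.mem_toSubmodule, mem_supported]
  constructor
  · intro h m hm
    ext a
    by_cases ha : f a = l
    · rw [res_apply_pos _ ha]
    · rw [res_apply_neg _ ha]
      by_contra hne
      have h1 : a ∈ g.vars := (mem_vars_iff_mem_support a).2 ⟨m, hm, Finsupp.mem_support_iff.2 (Ne.symm hne)⟩
      exact ha (h (Finset.mem_coe.2 h1))
  · intro h a ha
    obtain ⟨m, hm, ham⟩ := (mem_vars_iff_mem_support a).1 (Finset.mem_coe.1 ha)
    by_contra hne
    have h1 := h m hm
    rw [← h1, Finsupp.mem_support_iff, res_apply_neg _ hne] at ham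
    exact ham rfl

lemma monomial_mem_RL {f : P → L} {l : L} {m : P →₀ ℕ} (h : res f l m = m) (c : F) :
    monomial m c ∈ RL F f l := by
  classical
  rw [mem_RL_iff]
  intro m' hm'
  have := support_monomial_subset hm'
  rw [Finset.mem_singleton] at this
  rw [this, h]

lemma monomial_res_mem (f : P → L) (l : L) (m : P →₀ ℕ) (c : F) :
    monomial (res f l m) c ∈ RL F f l := monomial_mem_RL (res_res f l m) c

lemma one_mem_RL (f : P → L) (l : L) : (1 : MvPolynomial P F) ∈ RL F f l :=
  (supported F {a | f a = l}).one_mem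

lemma C_mem_RL (f : P → L) (l : L) (c : F) : (C c : MvPolynomial P F) ∈ RL F f l :=
  (supported F {a | f a = l}).algebraMap_mem c

lemma mul_mem_RL {f : P → L} {l : L} {g h : MvPolynomial P F} (hg : g ∈ RL F f l)
    (hh : h ∈ RL F f l) : g * h ∈ RL F f l :=
  (supported F {a | f a = l}).mul_mem hg hh

/-- product of monomials over the labels -/
lemma prod_monomial {ι : Type*} (s : Finset ι) (m : ι → P →₀ ℕ) (c : ι → F) :
    ∏ i ∈ s, monomial (m i) (c i) = monomial (∑ i ∈ s, m i) (∏ i ∈ s, c i) := by
  classical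
  induction s using Finset.induction_on with
  | empty => simp
  | insert i s hi ih =>
    rw [Finset.prod_insert hi, Finset.sum_insert hi, Finset.prod_insert hi, ih, monomial_mul]

section multi

variable [Fintype L]

/-- `x^m ↦ ∏ l, p l (x^{m restricted to the block l})`, extended linearly. -/
noncomputable def Ext (f : P → L) (p : L → (MvPolynomial P F →ₗ[F] MvPolynomial P F)) :
    MvPolynomial P F →ₗ[F] MvPolynomial P F :=
  (basisMonomials P F).constr F (fun m => ∏ l, p l (monomial (res f l m) 1))

lemma Ext_monomial_one (f : P → L) (p : L → (MvPolynomial P F →ₗ[F] MvPolynomial P F))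
    (m : P →₀ ℕ) : Ext f p (monomial m 1) = ∏ l, p l (monomial (res f l m) 1) := by
  have h := (basisMonomials P F).constr_basis F
    (fun m => ∏ l, p l (monomial (res f l m) (1 : F))) m
  rw [coe_basisMonomials] at h
  exact h

lemma Ext_monomial (f : P → L) (p : L → (MvPolynomial P F →ₗ[F] MvPolynomial P F))
    (m : P →₀ ℕ) (c : F) :
    Ext f p (monomial m c) = c • ∏ l, p l (monomial (res f l m) 1) := by
  rw [← Ext_monomial_one, ← map_smul, smul_monomial, smul_eq_mul, mul_one]

/-- (E1) `Ext` on a product of block polynomials. -/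
theorem Ext_prod (f : P → L) (p : L → (MvPolynomial P F →ₗ[F] MvPolynomial P F))
    (g : L → MvPolynomial P F) (hg : ∀ l, g l ∈ RL F f l) :
    Ext f p (∏ l, g l) = ∏ l, p l (g l) := by
  classical
  have h1 : ∀ l, g l = ∑ m ∈ (g l).support, monomial m (coeff m (g l)) := fun l =>
    (g l).as_sum
  have h2 : ∏ l, g l = ∏ l, ∑ m ∈ (g l).support, monomial m (coeff m (g l)) :=
    Finset.prod_congr rfl fun l _ => h1 l
  have h3 : ∏ l, p l (g l) = ∏ l, ∑ m ∈ (g l).support, p l (monomial m (coeff m (g l))) := by
    refine Finset.prod_congr rfl fun l _ => ?_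
    conv_lhs => rw [h1 l]
    rw [map_sum]
  rw [h2, h3, Finset.prod_univ_sum, Finset.prod_univ_sum, map_sum]
  refine Finset.sum_congr rfl fun φ hφ => ?_
  rw [Fintype.mem_piFinset] at hφ
  rw [prod_monomial, Ext_monomial]
  have h4 : ∀ l, res f l (∑ i, φ i) = φ l := by
    intro l
    rw [res_sum, Finset.sum_eq_single l]
    · exact mem_RL_iff.1 (hg l) _ (hφ l)
    · intro l' _ hl'
      rw [← mem_RL_iff.1 (hg l') _ (hφ l'), res_res_ne f (Ne.symm hl')]
    · intro h; exact absurd (Finset.mem_univ _) h
  have h5 : ∀ l, p l (monomial (φ l) (coeff (φ l) (g l)))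
      = coeff (φ l) (g l) • p l (monomial (φ l) 1) := by
    intro l
    rw [← map_smul, smul_monomial, smul_eq_mul, mul_one]
  simp_rw [h4, h5]
  rw [Finset.prod_smul]

/-- a monomial is the product of its block restrictions -/
lemma monomial_eq_prod (f : P → L) (m : P →₀ ℕ) :
    (monomial m 1 : MvPolynomial P F) = ∏ l, monomial (res f l m) 1 := by
  rw [prod_monomial, sum_res]
  simp

/-- (E1') monomial times one block polynomial -/
lemma Ext_monomial_mul [DecidableEq L] (f : P → L)
    (p : L → (MvPolynomial P F →ₗ[F] MvPolynomial P F))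
    (m : P →₀ ℕ) (l₀ : L) {g : MvPolynomial P F} (hg : g ∈ RL F f l₀) :
    Ext f p (monomial m 1 * g)
      = p l₀ (monomial (res f l₀ m) 1 * g)
        * ∏ l ∈ univ.erase l₀, p l (monomial (res f l m) 1) := by
  have h1 : monomial m 1 * g
      = ∏ l, (monomial (res f l m) (1 : F) * if l = l₀ then g else 1) := by
    rw [Finset.prod_mul_distrib, ← monomial_eq_prod, Finset.prod_ite_eq' univ l₀ (fun _ => g)]
    simp
  rw [h1, Ext_prod]
  · rw [← Finset.mul_prod_erase univ _ (Finset.mem_univ l₀), if_pos rfl]
    congr 1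
    refine Finset.prod_congr rfl fun l hl => ?_
    rw [if_neg (Finset.ne_of_mem_erase hl), mul_one]
  · intro l
    by_cases h : l = l₀
    · subst h
      rw [if_pos rfl]
      exact mul_mem_RL (monomial_res_mem f l m 1) hg
    · rw [if_neg h, mul_one]
      exact monomial_res_mem f l m 1

/-- induction over an ideal as a vector space: monomials times generators. -/
lemma span_induct {G : Set (MvPolynomial P F)} {U : Submodule F (MvPolynomial P F)}
    (h : ∀ (m : P →₀ ℕ), ∀ g ∈ G, monomial m 1 * g ∈ U) {x : MvPolynomial P F}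
    (hx : x ∈ Ideal.span G) : x ∈ U := by
  classical
  have h1 : ∀ (y : MvPolynomial P F), ∀ g ∈ G, y * g ∈ U := by
    intro y g hg
    rw [y.as_sum, Finset.sum_mul]
    refine Submodule.sum_mem _ fun m _ => ?_
    have h2 : monomial m (coeff m y) * g = coeff m y • (monomial m 1 * g) := by
      rw [← smul_mul_assoc, smul_monomial, smul_eq_mul, mul_one]
    rw [h2]
    exact U.smul_mem _ (h m g hg)
  induction hx using Submodule.span_induction with
  | mem x hx => simpa using h1 1 x hx
  | zero => exact U.zero_mem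
  | add x y _ _ hx hy => exact U.add_mem hx hy
  | smul a x hx ih =>
    -- need closure under multiplication: strengthen
    have h3 : ∀ z ∈ Ideal.span G, ∀ y : MvPolynomial P F, y * z ∈ U := by
      intro z hz
      induction hz using Submodule.span_induction with
      | mem x hx => exact fun y => h1 y x hx
      | zero => intro y; rw [mul_zero]; exact U.zero_mem
      | add x y _ _ hx hy => intro w; rw [mul_add]; exact U.add_mem (hx w) (hy w)
      | smul a x _ ih => intro w; rw [smul_eq_mul, ← mul_assoc]; exact ih _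
    exact h3 x hx a

/-- (E2) image of an ideal generated in the block `l₀` -/
theorem Ext_mem_ideal (f : P → L) (p : L → (MvPolynomial P F →ₗ[F] MvPolynomial P F))
    (l₀ : L) {G : Set (MvPolynomial P F)} (hG : ∀ g ∈ G, g ∈ RL F f l₀)
    (K : Ideal (MvPolynomial P F))
    (h : ∀ (m : P →₀ ℕ), ∀ g ∈ G, p l₀ (monomial (res f l₀ m) 1 * g) ∈ K)
    {x : MvPolynomial P F} (hx : x ∈ Ideal.span G) : Ext f p x ∈ K := by
  classical
  refine span_induct (U := (K.restrictScalars F).comap (Ext f p)) ?_ hx
  intro m g hg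
  rw [Submodule.mem_comap, Submodule.restrictScalars_mem, Ext_monomial_mul f p m l₀ (hG g hg)]
  exact K.mul_mem_right _ (h m g hg)

/-- the same for the sum of the ideals of all blocks -/
theorem Ext_mem_iSup (f : P → L) (p : L → (MvPolynomial P F →ₗ[F] MvPolynomial P F))
    {G : L → Set (MvPolynomial P F)} (hG : ∀ l, ∀ g ∈ G l, g ∈ RL F f l)
    (K : Ideal (MvPolynomial P F))
    (h : ∀ l (m : P →₀ ℕ), ∀ g ∈ G l, p l (monomial (res f l m) 1 * g) ∈ K)
    {x : MvPolynomial P F} (hx : x ∈ ⨆ l, Ideal.span (G l)) : Ext f p x ∈ K := by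
  classical
  refine Submodule.iSup_induction (fun l => Ideal.span (G l))
    (motive := fun x => Ext f p x ∈ K) hx ?_ ?_ ?_
  · intro l x hx
    exact Ext_mem_ideal f p l (hG l) K (h l) hx
  · rw [map_zero]; exact K.zero_mem
  · intro x y hx hy
    rw [map_add]; exact K.add_mem hx hy

/-- dual functional of a linearly independent family, on the whole space -/
lemma exists_dual {V ι : Type*} [AddCommGroup V] [Module F V] {v : ι → V}
    (hv : LinearIndependent F v) (i₀ : ι) :
    ∃ lam : V →ₗ[F] F, lam (v i₀) = 1 ∧ ∀ i, i ≠ i₀ → lam (v i) = 0 := by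
  classical
  obtain ⟨g, hg⟩ := ((Finsupp.lapply i₀ : (ι →₀ F) →ₗ[F] F).comp
    (hv.repr : Submodule.span F (Set.range v) →ₗ[F] (ι →₀ F))).exists_extend
  have h : ∀ i, g (v i) = (Finsupp.single i (1 : F)) i₀ := by
    intro i
    have h1 := LinearMap.congr_fun hg ⟨v i, Submodule.subset_span (Set.mem_range_self i)⟩
    rw [LinearMap.comp_apply, Submodule.subtype_apply] at h1
    rw [h1]
    have h2 : hv.repr ⟨v i, Submodule.subset_span (Set.mem_range_self i)⟩
        = Finsupp.single i (1 : F) := hv.repr_eq_single i _ rfl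
    change (hv.repr ⟨v i, _⟩) i₀ = _
    rw [h2]
  refine ⟨g, ?_, fun i hi => ?_⟩
  · rw [h]; simp
  · rw [h]; simp [hi]

/-- (a) INDEPENDENCE: products of families independent modulo the block ideals are
independent modulo the sum of the ideals. -/
theorem indep {ι : L → Type*} (f : P → L) {G : L → Set (MvPolynomial P F)}
    (hG : ∀ l, ∀ g ∈ G l, g ∈ RL F f l) (b : ∀ l, ι l → MvPolynomial P F)
    (hb : ∀ l i, b l i ∈ RL F f l)
    (hind : ∀ l, LinearIndependent F fun i => Ideal.Quotient.mk (Ideal.span (G l)) (b l i)) :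
    LinearIndependent F fun φ : (∀ l, ι l) =>
      Ideal.Quotient.mk (⨆ l, Ideal.span (G l)) (∏ l, b l (φ l)) := by
  classical
  rw [linearIndependent_iff']
  intro s c hc φ₀ hφ₀
  choose lam h1 h0 using fun l => exists_dual (hind l) (φ₀ l)
  set lam' : L → (MvPolynomial P F →ₗ[F] MvPolynomial P F) := fun l =>
    (Algebra.linearMap F (MvPolynomial P F)).comp
      ((lam l).comp (Ideal.Quotient.mkₐ F (Ideal.span (G l))).toLinearMap) with hlam'
  have hlam : ∀ l x, lam' l x = C (lam l (Ideal.Quotient.mk (Ideal.span (G l)) x)) := by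
    intro l x
    simp only [hlam', LinearMap.comp_apply]
    rfl
  have hmem : ∑ φ ∈ s, c φ • (∏ l, b l (φ l)) ∈ ⨆ l, Ideal.span (G l) := by
    rw [← Ideal.Quotient.eq_zero_iff_mem]
    have h2 : Ideal.Quotient.mk (⨆ l, Ideal.span (G l)) (∑ φ ∈ s, c φ • (∏ l, b l (φ l)))
        = ∑ φ ∈ s, c φ • Ideal.Quotient.mk (⨆ l, Ideal.span (G l)) (∏ l, b l (φ l)) := by
      rw [← Ideal.Quotient.mkₐ_eq_mk F, map_sum]
      exact Finset.sum_congr rfl fun φ _ => by rw [map_smul]
    rw [h2]; exact hc
  have hker := Ext_mem_iSup f lam' hG ⊥ (fun l m g hg => by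
    rw [hlam]
    have h3 : Ideal.Quotient.mk (Ideal.span (G l)) (monomial (res f l m) 1 * g) = 0 := by
      rw [Ideal.Quotient.eq_zero_iff_mem]
      exact Ideal.mul_mem_left _ _ (Ideal.subset_span hg)
    rw [h3, map_zero, C_0]
    exact Ideal.zero_mem _) hmem
  rw [Ideal.mem_bot, map_sum] at hker
  have h4 : ∀ φ : (∀ l, ι l), Ext f lam' (c φ • ∏ l, b l (φ l))
      = if φ = φ₀ then C (c φ) else 0 := by
    intro φ
    rw [map_smul, Ext_prod f lam' _ (fun l => hb l (φ l))]
    simp_rw [hlam]
    by_cases h : φ = φ₀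
    · subst h
      rw [if_pos rfl]
      simp_rw [h1]
      rw [smul_eq_C_mul]
      simp
    · rw [if_neg h]
      obtain ⟨l, hl⟩ : ∃ l, φ l ≠ φ₀ l := by
        by_contra hcon
        push Not at hcon
        exact h (funext hcon)
      rw [Finset.prod_eq_zero (Finset.mem_univ l), smul_zero]
      rw [h0 l (φ l) hl, C_0]
  rw [Finset.sum_congr rfl fun φ _ => h4 φ, Finset.sum_ite_eq' s φ₀, if_pos hφ₀] at hker
  exact C_injective P F (by rw [hker, C_0])

/-- polynomials `w * x^m`, `w ∈ W`, `m` supported off the block `l` -/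
noncomputable def Off (f : P → L) (l : L) (W : Submodule F (MvPolynomial P F)) :
    Submodule F (MvPolynomial P F) :=
  Submodule.span F {x | ∃ w ∈ W, ∃ m : P →₀ ℕ, res f l m = 0 ∧ x = w * monomial m 1}

/-- the span of the products of elements of the `W l` -/
noncomputable def PW (W : L → Submodule F (MvPolynomial P F)) : Submodule F (MvPolynomial P F) :=
  Submodule.span F {x | ∃ w : L → MvPolynomial P F, (∀ l, w l ∈ W l) ∧ x = ∏ l, w l}

/-- a linear projector of the polynomial ring onto a subspace -/
lemma exists_proj (W : Submodule F (MvPolynomial P F)) :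
    ∃ p : MvPolynomial P F →ₗ[F] MvPolynomial P F, (∀ x, p x ∈ W) ∧ ∀ w ∈ W, p w = w := by
  obtain ⟨q, hq⟩ := (LinearMap.id : W →ₗ[F] W).exists_extend
  refine ⟨W.subtype.comp q, fun x => (q x).2, fun w hw => ?_⟩
  have h := LinearMap.congr_fun hq ⟨w, hw⟩
  simp only [LinearMap.comp_apply, Submodule.subtype_apply, LinearMap.id_apply] at h ⊢
  rw [h]

/-- (b) SLOTWISE MEMBERSHIP. -/
theorem slot (f : P → L) {G : L → Set (MvPolynomial P F)}
    (hG : ∀ l, ∀ g ∈ G l, g ∈ RL F f l) (W : L → Submodule F (MvPolynomial P F))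
    (hW : ∀ l, W l ≤ RL F f l)
    (hGW : ∀ l (m : P →₀ ℕ), ∀ g ∈ G l, monomial (res f l m) 1 * g ∈ W l)
    {x : MvPolynomial P F}
    (hx : ∀ l, x ∈ Off f l (W l) ⊔ (⨆ l, Ideal.span (G l)).restrictScalars F) :
    x ∈ PW W ⊔ (⨆ l, Ideal.span (G l)).restrictScalars F := by
  classical
  set J := ⨆ l, Ideal.span (G l) with hJ
  have hGJ : ∀ l, ∀ g ∈ G l, g ∈ J := fun l g hg =>
    (le_iSup (fun l => Ideal.span (G l)) l) (Ideal.subset_span hg)
  choose p hpW hpid using fun l => exists_proj (W l)
  -- the partial operators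
  let q : Finset L → L → (MvPolynomial P F →ₗ[F] MvPolynomial P F) :=
    fun S l => if l ∈ S then p l else LinearMap.id
  have hqRL : ∀ S l (g : MvPolynomial P F), g ∈ RL F f l → q S l g ∈ RL F f l := by
    intro S l g hg
    by_cases h : l ∈ S
    · simp only [q, if_pos h]; exact hW l (hpW l g)
    · simp only [q, if_neg h]; exact hg
  have hqJ : ∀ S, ∀ y ∈ J, Ext f (q S) y ∈ J := by
    intro S y hy
    refine Ext_mem_iSup f (q S) hG J (fun l m g hg => ?_) hy
    by_cases h : l ∈ S
    · simp only [q, if_pos h]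
      rw [hpid l _ (hGW l m g hg)]
      exact J.mul_mem_left _ (hGJ l g hg)
    · simp only [q, if_neg h, LinearMap.id_apply]
      exact J.mul_mem_left _ (hGJ l g hg)
  -- one block
  have hone : ∀ l, x - Ext f (q {l}) x ∈ J := by
    intro l
    obtain ⟨y, hy, z, hz, rfl⟩ := Submodule.mem_sup.1 (hx l)
    rw [Submodule.restrictScalars_mem] at hz
    have hy' : Ext f (q {l}) y = y := by
      refine Submodule.span_induction (p := fun y _ => Ext f (q {l}) y = y) ?_ ?_ ?_ ?_ hy
      · rintro _ ⟨w, hw, m, hm, rfl⟩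
        rw [mul_comm, Ext_monomial_mul f _ m l (hW l hw), hm]
        have h1 : q {l} l (monomial 0 1 * w) = w := by
          simp only [q, Finset.mem_singleton, if_pos]
          rw [show (monomial (0 : P →₀ ℕ) (1 : F)) = 1 from rfl, one_mul, hpid l w hw]
        rw [h1]
        have h2 : ∏ l' ∈ univ.erase l, q {l} l' (monomial (res f l' m) 1)
            = (monomial m 1 : MvPolynomial P F) := by
          rw [monomial_eq_prod f m, ← Finset.mul_prod_erase univ _ (Finset.mem_univ l), hm]
          rw [show (monomial (0 : P →₀ ℕ) (1 : F)) = 1 from rfl, one_mul]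
          refine Finset.prod_congr rfl fun l' hl' => ?_
          simp only [q, Finset.mem_singleton]
          rw [if_neg (Finset.ne_of_mem_erase hl'), LinearMap.id_apply]
        rw [h2, mul_comm]
      · exact map_zero _
      · intro a b _ _ ha hb; rw [map_add, ha, hb]
      · intro c a _ ha; rw [map_smul, ha]
    rw [map_add, hy']
    have h3 : y + z - (y + Ext f (q {l}) z) = z - Ext f (q {l}) z := by ring
    rw [h3]
    exact J.sub_mem hz (hqJ _ z hz)
  -- composition
  have hcomp : ∀ (S : Finset L) (l : L), l ∉ S → ∀ y,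
      Ext f (q (insert l S)) y = Ext f (q {l}) (Ext f (q S) y) := by
    intro S l hl y
    have : Ext f (q (insert l S)) = (Ext f (q {l})).comp (Ext f (q S)) := by
      refine (basisMonomials P F).ext fun m => ?_
      rw [coe_basisMonomials, LinearMap.comp_apply]
      simp only [Ext_monomial_one]
      rw [Ext_prod f (q {l}) _ (fun l' => hqRL S l' _ (monomial_res_mem f l' m 1))]
      refine Finset.prod_congr rfl fun l' _ => ?_
      by_cases h : l' = l
      · subst h
        simp [q, hl]
      · simp [q, h]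
    rw [this]; rfl
  have hall : ∀ S : Finset L, x - Ext f (q S) x ∈ J := by
    intro S
    induction S using Finset.induction_on with
    | empty =>
      have h0 : Ext f (q ∅) = LinearMap.id := by
        refine (basisMonomials P F).ext fun m => ?_
        rw [coe_basisMonomials]
        simp only [Ext_monomial_one, q]
        simp only [Finset.notMem_empty, if_false, LinearMap.id_apply]
        rw [← monomial_eq_prod]
      rw [h0, LinearMap.id_apply, sub_self]
      exact J.zero_mem
    | insert l S hl ih =>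
      rw [hcomp S l hl]
      have h3 : x - Ext f (q {l}) (Ext f (q S) x)
          = (x - Ext f (q {l}) x) + Ext f (q {l}) (x - Ext f (q S) x) := by
        rw [map_sub]; ring
      rw [h3]
      exact J.add_mem (hone l) (hqJ _ _ ih)
  have hfin : Ext f (q univ) x ∈ PW W := by
    have : ∀ y, Ext f (q univ) y ∈ PW W := by
      intro y
      rw [y.as_sum, map_sum]
      refine Submodule.sum_mem _ fun m _ => ?_
      rw [Ext_monomial]
      refine Submodule.smul_mem _ _ (Submodule.subset_span ⟨_, fun l => ?_, rfl⟩)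
      simp only [q, Finset.mem_univ, if_true]
      exact hpW l _
    exact this x
  refine Submodule.mem_sup.2 ⟨_, hfin, x - Ext f (q univ) x, ?_, by ring⟩
  rw [Submodule.restrictScalars_mem]
  exact hall univ

end multi

end Crest.Agent.R059.Tens559
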