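/-
Row 59, TEAM THIN, leaf T4 (helper559), part 2: transfer of slotwise conditions, graded versions.
-/
import Crest.Agent.R059.Tens_559

set_option autoImplicit false

namespace Crest.Agent.R059.Tens559

open MvPolynomial Finset

variable {P L F : Type*} [Field F]

/-! ### two blocks -/

section two

/-- contraction with a functional on the block `false` -/
noncomputable def con (g : P → Bool) (lam : MvPolynomial P F →ₗ[F] F) :
    MvPolynomial P F →ₗ[F] MvPolynomial P F :=
  Ext g (fun b => if b then LinearMap.id else (Algebra.linearMap F (MvPolynomial P F)).comp lam)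

lemma con_monomial (g : P → Bool) (lam : MvPolynomial P F →ₗ[F] F) (m : P →₀ ℕ) (c : F) :
    con g lam (monomial m c)
      = (c * lam (monomial (res g false m) 1)) • monomial (res g true m) (1 : F) := by
  unfold con
  rw [Ext_monomial, Fintype.prod_bool]
  simp only [if_true, LinearMap.id_apply, Bool.false_eq_true, if_false, LinearMap.comp_apply,
    Algebra.linearMap_apply, algebraMap_eq]
  rw [mul_smul, smul_eq_C_mul (monomial (res g true m) (1 : F)) (lam _),
    mul_comm (C _)]

lemma con_mem_true (g : P → Bool) (lam : MvPolynomial P F →ₗ[F] F) (x : MvPolynomial P F) :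
    con g lam x ∈ RL F g true := by
  rw [x.as_sum, map_sum]
  refine Submodule.sum_mem _ fun m _ => ?_
  rw [con_monomial]
  exact Submodule.smul_mem _ _ (monomial_res_mem g true m 1)

lemma con_mul (g : P → Bool) (lam : MvPolynomial P F →ₗ[F] F) {r : MvPolynomial P F}
    (hr : r ∈ RL F g true) {s : MvPolynomial P F} (hs : s ∈ RL F g false) :
    con g lam (r * s) = lam s • r := by
  have h : r * s = ∏ b : Bool, (if b then r else s) := by
    rw [Fintype.prod_bool]; simp
  unfold con
  rw [h, Ext_prod]
  · rw [Fintype.prod_bool]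
    simp only [if_true, LinearMap.id_apply, Bool.false_eq_true, if_false, LinearMap.comp_apply,
      Algebra.linearMap_apply, algebraMap_eq]
    rw [smul_eq_C_mul, mul_comm]
  · intro b
    cases b
    · simpa using hs
    · simpa using hr

/-- a contraction with a functional killing `J'` kills the ideal generated in the block `false`. -/
lemma con_kill (g : P → Bool) (lam : MvPolynomial P F →ₗ[F] F) {G' : Set (MvPolynomial P F)}
    (hG' : ∀ y ∈ G', y ∈ RL F g false) (hlam : ∀ y ∈ Ideal.span G', lam y = 0)
    {x : MvPolynomial P F} (hx : x ∈ Ideal.span G') : con g lam x = 0 := by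
  have h := Ext_mem_ideal g
    (fun b => if b then LinearMap.id else (Algebra.linearMap F (MvPolynomial P F)).comp lam)
    false hG' ⊥ (fun m y hy => ?_) hx
  · exact (Ideal.mem_bot).1 h
  · simp only [Bool.false_eq_true, if_false, LinearMap.comp_apply]
    rw [hlam _ (Ideal.mul_mem_left _ _ (Ideal.subset_span hy)), map_zero]
    exact Ideal.zero_mem _

lemma con_mem_ideal (g : P → Bool) (lam : MvPolynomial P F →ₗ[F] F) {H : Set (MvPolynomial P F)}
    (hH : ∀ y ∈ H, y ∈ RL F g true) {x : MvPolynomial P F} (hx : x ∈ Ideal.span H) :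
    con g lam x ∈ Ideal.span H := by
  refine Ext_mem_ideal g
    (fun b => if b then LinearMap.id else (Algebra.linearMap F (MvPolynomial P F)).comp lam)
    true hH (Ideal.span H) (fun m y hy => ?_) hx
  simp only [if_true, LinearMap.id_apply]
  exact Ideal.mul_mem_left _ _ (Ideal.subset_span hy)

/-- Expansion lemma: if all contractions with functionals killing `J' = span G'` lie in `W`,
then `x ∈ W · R_false + J'`. -/
theorem expand (g : P → Bool) {G' : Set (MvPolynomial P F)}
    (W : Submodule F (MvPolynomial P F)) (x : MvPolynomial P F)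
    (h : ∀ lam : MvPolynomial P F →ₗ[F] F, (∀ y ∈ Ideal.span G', lam y = 0) → con g lam x ∈ W) :
    x ∈ Off g true W ⊔ (Ideal.span G').restrictScalars F := by
  classical
  set J' := Ideal.span G' with hJ'
  let mk : MvPolynomial P F →ₗ[F] (MvPolynomial P F ⧸ J') := (Ideal.Quotient.mkₐ F J').toLinearMap
  have hmk : ∀ y, mk y = 0 ↔ y ∈ J' := fun y => by
    change Ideal.Quotient.mk J' y = 0 ↔ _
    exact Ideal.Quotient.eq_zero_iff_mem
  let N : Submodule F (MvPolynomial P F ⧸ J') := (RL F g false).map mk
  let b := Module.Basis.ofVectorSpace F N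
  have hlift : ∀ μ, ∃ e ∈ RL F g false, mk e = (b μ : MvPolynomial P F ⧸ J') := fun μ =>
    (Submodule.mem_map.1 (b μ).2)
  choose e heN heb using hlift
  have hdual : ∀ μ, ∃ lam : MvPolynomial P F →ₗ[F] F, (∀ y ∈ J', lam y = 0) ∧
      ∀ (y : N) (z : MvPolynomial P F), mk z = y → lam z = b.repr y μ := by
    intro μ
    obtain ⟨c, hc⟩ := (b.coord μ).exists_extend
    refine ⟨c.comp mk, fun y hy => ?_, fun y z hz => ?_⟩
    · rw [LinearMap.comp_apply, (hmk y).2 hy, map_zero]
    · rw [LinearMap.comp_apply, hz]
      have := LinearMap.congr_fun hc y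
      simpa using this
  choose lam hlamJ hlam using hdual
  -- the class of a monomial of the block `false`
  let nn : (P →₀ ℕ) → N := fun m =>
    ⟨mk (monomial (res g false m) 1), Submodule.mem_map_of_mem (monomial_res_mem g false m 1)⟩
  have hnn : ∀ (m : P →₀ ℕ) (S : Finset _), (b.repr (nn m)).support ⊆ S →
      monomial (res g false m) 1 - ∑ μ ∈ S, lam μ (monomial (res g false m) 1) • e μ ∈ J' := by
    intro m S hS
    rw [← hmk, map_sub, map_sum]
    have h1 : ∀ μ, mk (lam μ (monomial (res g false m) 1) • e μ)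
        = (b.repr (nn m) μ) • (b μ : MvPolynomial P F ⧸ J') := by
      intro μ
      rw [map_smul, heb, hlam μ (nn m) _ rfl]
    simp_rw [h1]
    have h2 : ((nn m : N) : MvPolynomial P F ⧸ J')
        = ∑ μ ∈ S, (b.repr (nn m) μ) • (b μ : MvPolynomial P F ⧸ J') := by
      conv_lhs => rw [← b.linearCombination_repr (nn m), Finsupp.linearCombination_apply,
        Finsupp.sum]
      rw [Submodule.coe_sum]
      simp_rw [Submodule.coe_smul]
      refine Finset.sum_subset hS fun μ _ hμ => ?_
      rw [Finsupp.notMem_support_iff.1 hμ, zero_smul]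
    rw [← h2, sub_self]
  let S : Finset _ := x.support.biUnion fun m => (b.repr (nn m)).support
  have hcon : ∀ μ, con g (lam μ) x
      = ∑ m ∈ x.support, (coeff m x * lam μ (monomial (res g false m) 1)) •
          monomial (res g true m) (1 : F) := by
    intro μ
    conv_lhs => rw [x.as_sum, map_sum]
    exact Finset.sum_congr rfl fun m _ => con_monomial g (lam μ) m _
  have hmain : x - ∑ μ ∈ S, con g (lam μ) x * e μ ∈ J' := by
    have h1 : ∑ μ ∈ S, con g (lam μ) x * e μ = ∑ m ∈ x.support, coeff m x •
        (monomial (res g true m) (1 : F) *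
          ∑ μ ∈ S, lam μ (monomial (res g false m) 1) • e μ) := by
      simp_rw [hcon, Finset.sum_mul, Finset.mul_sum, Finset.smul_sum]
      rw [Finset.sum_comm]
      refine Finset.sum_congr rfl fun m _ => Finset.sum_congr rfl fun μ _ => ?_
      rw [mul_smul, smul_mul_assoc, smul_mul_assoc, mul_smul_comm]
    have h2 : x = ∑ m ∈ x.support, coeff m x •
        (monomial (res g true m) (1 : F) * monomial (res g false m) 1) := by
      conv_lhs => rw [x.as_sum]
      refine Finset.sum_congr rfl fun m _ => ?_
      rw [monomial_mul, mul_one]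
      have h3 : res g true m + res g false m = m := by
        have := sum_res g m
        rwa [Fintype.sum_bool] at this
      rw [h3, smul_monomial, smul_eq_mul, mul_one]
    rw [h1]
    nth_rewrite 1 [h2]
    rw [← Finset.sum_sub_distrib]
    refine Ideal.sum_mem _ fun m hm => ?_
    rw [← smul_sub, ← mul_sub]
    have h4 : monomial (res g true m) (1 : F) * (monomial (res g false m) 1
        - ∑ μ ∈ S, lam μ (monomial (res g false m) 1) • e μ) ∈ J' :=
      J'.mul_mem_left _ (hnn m S (Finset.subset_biUnion_of_mem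
        (fun m => (b.repr (nn m)).support) hm))
    rw [smul_eq_C_mul]
    exact J'.mul_mem_left _ h4
  refine Submodule.mem_sup.2 ⟨∑ μ ∈ S, con g (lam μ) x * e μ, ?_,
    x - ∑ μ ∈ S, con g (lam μ) x * e μ, hmain, by ring⟩
  refine Submodule.sum_mem _ fun μ _ => ?_
  have hw := h (lam μ) (hlamJ μ)
  rw [(e μ).as_sum, Finset.mul_sum]
  refine Submodule.sum_mem _ fun m hm => ?_
  have h5 : con g (lam μ) x * monomial m (coeff m (e μ))
      = coeff m (e μ) • (con g (lam μ) x * monomial m 1) := by
    rw [← mul_smul_comm, smul_monomial, smul_eq_mul, mul_one]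
  rw [h5]
  refine Submodule.smul_mem _ _ (Submodule.subset_span ⟨_, hw, m, ?_, rfl⟩)
  rw [← mem_RL_iff.1 (heN μ) m hm]
  exact res_res_ne g (by decide) m

/-- (c) TRANSFER of conditions, two blocks.  `W = {w ∈ R_true | ∀ κ, Ψ κ w ∈ span (H κ)}`. -/
theorem transfer_bool {κ : Type*} (g : P → Bool)
    (Ψ : κ → (MvPolynomial P F →ₗ[F] MvPolynomial P F))
    (hΨ : ∀ k, ∀ r ∈ RL F g true, ∀ s ∈ RL F g false, Ψ k (r * s) = Ψ k r * s)
    (hΨR : ∀ k, ∀ r ∈ RL F g true, Ψ k r ∈ RL F g true)
    (H : κ → Set (MvPolynomial P F)) (hH : ∀ k, ∀ y ∈ H k, y ∈ RL F g true)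
    (G' : Set (MvPolynomial P F)) (hG' : ∀ y ∈ G', y ∈ RL F g false)
    (W : Submodule F (MvPolynomial P F))
    (hW : ∀ w ∈ RL F g true, (∀ k, Ψ k w ∈ Ideal.span (H k)) → w ∈ W)
    {x : MvPolynomial P F} (hx : ∀ k, Ψ k x ∈ Ideal.span (H k) ⊔ Ideal.span G') :
    x ∈ Off g true W ⊔ (Ideal.span G').restrictScalars F := by
  classical
  refine expand g W x fun lam hlam => hW _ (con_mem_true g lam x) fun k => ?_
  have hcomm : ∀ y, Ψ k (con g lam y) = con g lam (Ψ k y) := by
    intro y
    rw [y.as_sum]
    simp only [map_sum]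
    refine Finset.sum_congr rfl fun m _ => ?_
    have hm : (monomial m (coeff m y) : MvPolynomial P F)
        = coeff m y • (monomial (res g true m) 1 * monomial (res g false m) 1) := by
      rw [monomial_mul, mul_one, smul_monomial, smul_eq_mul, mul_one]
      have := sum_res g m
      rw [Fintype.sum_bool] at this
      rw [this]
    rw [hm, map_smul, map_smul, map_smul, map_smul,
      con_mul g lam (monomial_res_mem g true m 1) (monomial_res_mem g false m 1),
      hΨ k _ (monomial_res_mem g true m 1) _ (monomial_res_mem g false m 1),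
      con_mul g lam (hΨR k _ (monomial_res_mem g true m 1)) (monomial_res_mem g false m 1),
      map_smul]
  rw [hcomm]
  obtain ⟨y, hy, z, hz, hyz⟩ := Submodule.mem_sup.1 (hx k)
  rw [← hyz, map_add, con_kill g lam hG' hlam hz, add_zero]
  exact con_mem_ideal g lam (hH k) hy

end two

/-! ### one block against the rest, for a general labelling -/

/-- the two-block labelling `block l` / `rest`. -/
noncomputable def two (f : P → L) (l : L) : P → Bool := by
  classical exact fun a => decide (f a = l)

lemma res_two_true (f : P → L) (l : L) (m : P →₀ ℕ) : res (two f l) true m = res f l m := by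
  classical
  ext a
  by_cases h : f a = l
  · rw [res_apply_pos m h, res_apply_pos]
    simp [two, h]
  · rw [res_apply_neg m h, res_apply_neg]
    simp [two, h]

lemma RL_two_true (f : P → L) (l : L) : RL F (two f l) true = RL F f l := by
  ext g
  rw [mem_RL_iff, mem_RL_iff]
  simp_rw [res_two_true]

/-- polynomials not involving the block `l` -/
noncomputable def RO (F : Type*) [Field F] (f : P → L) (l : L) : Submodule F (MvPolynomial P F) :=
  Subalgebra.toSubmodule (supported F {a | f a ≠ l})

lemma RL_two_false (f : P → L) (l : L) : RL F (two f l) false = RO F f l := by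
  classical
  unfold RL RO
  congr 3
  ext a
  simp [two]

lemma RL_le_RO {f : P → L} {l l' : L} (h : l' ≠ l) : RL F f l' ≤ RO F f l := by
  intro x hx
  unfold RL at hx
  unfold RO
  rw [Subalgebra.mem_toSubmodule] at hx ⊢
  refine supported_mono ?_ hx
  intro a ha
  simp only [Set.mem_setOf_eq] at ha ⊢
  rw [ha]; exact h

lemma Off_two (f : P → L) (l : L) (W : Submodule F (MvPolynomial P F)) :
    Off (two f l) true W = Off f l W := by
  unfold Off
  simp_rw [res_two_true]

/-- (c) TRANSFER of conditions for the block `l` of a labelling. -/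
theorem transfer {κ : Type*} (f : P → L) (l : L)
    (Ψ : κ → (MvPolynomial P F →ₗ[F] MvPolynomial P F))
    (hΨ : ∀ k, ∀ r ∈ RL F f l, ∀ s ∈ RO F f l, Ψ k (r * s) = Ψ k r * s)
    (hΨR : ∀ k, ∀ r ∈ RL F f l, Ψ k r ∈ RL F f l)
    (H : κ → Set (MvPolynomial P F)) (hH : ∀ k, ∀ y ∈ H k, y ∈ RL F f l)
    (G' : Set (MvPolynomial P F)) (hG' : ∀ y ∈ G', y ∈ RO F f l)
    (W : Submodule F (MvPolynomial P F))
    (hW : ∀ w ∈ RL F f l, (∀ k, Ψ k w ∈ Ideal.span (H k)) → w ∈ W)
    {x : MvPolynomial P F} (hx : ∀ k, Ψ k x ∈ Ideal.span (H k) ⊔ Ideal.span G') :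
    x ∈ Off f l W ⊔ (Ideal.span G').restrictScalars F := by
  rw [← Off_two]
  refine transfer_bool (two f l) Ψ ?_ ?_ H ?_ G' ?_ W ?_ hx
  · rw [RL_two_true, RL_two_false]; exact hΨ
  · rw [RL_two_true]; exact hΨR
  · rw [RL_two_true]; exact hH
  · rw [RL_two_false]; exact hG'
  · rw [RL_two_true]; exact hW

/-! ### graded versions -/

/-- a subspace stable under homogeneous components -/
def Gr (W : Submodule F (MvPolynomial P F)) : Prop :=
  ∀ w ∈ W, ∀ n, homogeneousComponent n w ∈ W

lemma hc_of {n k : ℕ} {g : MvPolynomial P F} (hg : g.IsHomogeneous k) :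
    homogeneousComponent n g = if k = n then g else 0 := by
  rw [homogeneousComponent_of_mem hg]
  by_cases h : k = n
  · rw [if_pos h, if_pos h.symm]
  · rw [if_neg h, if_neg (fun h' => h h'.symm)]

/-- an ideal generated by homogeneous elements is graded -/
theorem span_graded {G : Set (MvPolynomial P F)}
    (hG : ∀ g ∈ G, ∃ k, g.IsHomogeneous k) : Gr ((Ideal.span G).restrictScalars F) := by
  intro w hw n
  rw [Submodule.restrictScalars_mem] at hw ⊢
  refine span_induct
    (U := ((Ideal.span G).restrictScalars F).comap (homogeneousComponent n)) ?_ hw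
  intro m g hg
  rw [Submodule.mem_comap, Submodule.restrictScalars_mem]
  obtain ⟨k, hk⟩ := hG g hg
  have h1 : (monomial m 1 * g : MvPolynomial P F).IsHomogeneous (m.degree + k) :=
    (isHomogeneous_monomial 1 rfl).mul hk
  rw [hc_of h1]
  split_ifs
  · exact Ideal.mul_mem_left _ _ (Ideal.subset_span hg)
  · exact Ideal.zero_mem _

/-- products of homogeneous elements of total degree `n` -/
noncomputable def PWn [Fintype L] (W : L → Submodule F (MvPolynomial P F)) (n : ℕ) :
    Submodule F (MvPolynomial P F) :=
  Submodule.span F {x | ∃ (w : L → MvPolynomial P F) (d : L → ℕ), (∀ l, w l ∈ W l) ∧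
    (∀ l, (w l).IsHomogeneous (d l)) ∧ ∑ l, d l = n ∧ x = ∏ l, w l}

/-- (d) homogeneous version of a membership in `PW W`. -/
theorem hc_PW [Fintype L] (W : L → Submodule F (MvPolynomial P F)) (hW : ∀ l, Gr (W l)) (n : ℕ)
    {x : MvPolynomial P F} (hx : x ∈ PW W) : homogeneousComponent n x ∈ PWn W n := by
  classical
  have key : ∀ y ∈ PW W, homogeneousComponent n y ∈ PWn W n := by
    intro y hy
    unfold PW at hy
    induction hy using Submodule.span_induction with
    | mem y hy =>
      obtain ⟨w, hw, rfl⟩ := hy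
      have h1 : ∏ l, w l = ∏ l, ∑ i ∈ range ((w l).totalDegree + 1),
          homogeneousComponent i (w l) :=
        Finset.prod_congr rfl fun l _ => ((w l).sum_homogeneousComponent).symm
      rw [h1, Finset.prod_univ_sum, map_sum]
      refine Submodule.sum_mem _ fun φ _ => ?_
      have h2 : (∏ l, homogeneousComponent (φ l) (w l)).IsHomogeneous (∑ l, φ l) :=
        IsHomogeneous.prod _ _ _ fun l _ => homogeneousComponent_isHomogeneous (φ l) (w l)
      rw [hc_of h2]
      split_ifs with h3
      · exact Submodule.subset_span ⟨_, φ, fun l => hW l _ (hw l) _,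
          fun l => homogeneousComponent_isHomogeneous (φ l) (w l), h3, rfl⟩
      · exact Submodule.zero_mem _
    | zero => rw [map_zero]; exact Submodule.zero_mem _
    | add a b _ _ ha hb => rw [map_add]; exact Submodule.add_mem _ ha hb
    | smul c a _ ha => rw [map_smul]; exact Submodule.smul_mem _ _ ha
  exact key x hx

/-- (d) homogeneous elements of `PW W ⊔ J`. -/
theorem mem_PWn [Fintype L] (W : L → Submodule F (MvPolynomial P F)) (hW : ∀ l, Gr (W l))
    (J : Submodule F (MvPolynomial P F)) (hJ : Gr J) {n : ℕ} {x : MvPolynomial P F}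
    (hxn : x.IsHomogeneous n) (hx : x ∈ PW W ⊔ J) : x ∈ PWn W n ⊔ J := by
  obtain ⟨y, hy, z, hz, hyz⟩ := Submodule.mem_sup.1 hx
  have h : x = homogeneousComponent n y + homogeneousComponent n z := by
    rw [← map_add, hyz, hc_of hxn, if_pos rfl]
  rw [h]
  exact Submodule.add_mem_sup (hc_PW W hW n hy) (hJ z hz n)

end Crest.Agent.R059.Tens559
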