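/-
Row 59, TEAM THIN, leaf T4 (helper559), binding: `V_f = ⊗_l V_{block l}` in the language of
`Thin0_613` / `Thin4c_613`, for blocks parametrised by embeddings `e l : Q l ↪ P`.
-/
import Mathlib
import Crest.Agent.R059.Deg_359
import Crest.Agent.R059.Thin0_613
import Crest.Agent.R059.Thin4_613
import Crest.Agent.R059.Thin4b_613
import Crest.Agent.R059.Thin4c_613
import Crest.Agent.R059.Tens_559
import Crest.Agent.R059.Tens2_559

set_option autoImplicit false
set_option linter.unusedSectionVars false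

namespace Crest.Agent.R059.ThinTens559

open MvPolynomial Finset
open Crest.Agent.R059.Thin613 Crest.Agent.R059.Deg359 Crest.Agent.R059.Tens559

variable {P : Type*} [Fintype P] [DecidableEq P]
variable {V : Type*} [AddCommGroup V] [LinearOrder V] [IsOrderedAddMonoid V]
variable {L' : Type*} {L'' : Type*}

/-! ### one embedded block -/

section one

variable {F : Type*} [CommRing F]
variable {Q : Type*} [Fintype Q] [DecidableEq Q] (e : Q ↪ P)

/-- arrows of the block -/
def arrB (arr : P → P → ℕ) (e : Q ↪ P) : Q → Q → ℕ := fun q q' => arr (e q) (e q')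

/-- weights of the block -/
def thB (th : P → V) (e : Q ↪ P) : Q → V := fun q => th (e q)

lemma wt_map (th : P → V) (S : Finset Q) : wt th (S.map e) = wt (thB th e) S := by
  unfold wt thB
  rw [Finset.sum_map]

lemma rename_KK (arr : P → P → ℕ) (S T : Finset Q) :
    rename e (KK F (arrB arr e) S T) = KK F arr (S.map e) (T.map e) := by
  unfold KK arrB
  rw [map_prod, Finset.prod_map]
  refine Finset.prod_congr rfl fun a _ => ?_
  rw [map_prod, Finset.prod_map]
  refine Finset.prod_congr rfl fun b _ => ?_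
  rw [map_pow, map_sub, rename_X, rename_X]

/-- the range of `e` is a union of fibres of `g` -/
def Sat (g : P → L') (e : Q ↪ P) : Prop := ∀ a q, g a = g (e q) → a ∈ Set.range e

lemma map_fib {g : P → L'} {e : Q ↪ P} (hg : Sat g e) (m : L')
    (hne : (fib (g ∘ e) m).Nonempty) : (fib (g ∘ e) m).map e = fib g m := by
  obtain ⟨q₀, hq₀⟩ := hne
  rw [mem_fib] at hq₀
  ext a
  rw [Finset.mem_map, mem_fib]
  constructor
  · rintro ⟨q, hq, rfl⟩
    rw [mem_fib] at hq
    exact hq
  · intro ha
    obtain ⟨q, rfl⟩ := hg a q₀ (by rw [ha, ← hq₀]; rfl)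
    exact ⟨q, by rw [mem_fib]; exact ha, rfl⟩

lemma good_comp {th : P → V} {g : P → L'} {e : Q ↪ P} (hg : Sat g e) (hgood : Good th g) :
    Good (thB th e) (g ∘ e) := by
  intro m
  by_cases hne : (fib (g ∘ e) m).Nonempty
  · rw [← wt_map, map_fib hg m hne]; exact hgood m
  · rw [Finset.not_nonempty_iff_eq_empty] at hne
    rw [hne, wt_empty]

lemma JJ_rename (arr : P → P → ℕ) (th : P → V) {g : P → L'} {e : Q ↪ P} (hg : Sat g e)
    {x : MvPolynomial Q F} (hx : x ∈ JJ F (arrB arr e) (thB th e) (g ∘ e)) :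
    rename e x ∈ JJ F arr th g := by
  classical
  suffices h : JJ F (arrB arr e) (thB th e) (g ∘ e) ≤
      Ideal.comap (rename e : MvPolynomial Q F →ₐ[F] MvPolynomial P F) (JJ F arr th g) by
    exact h hx
  rw [JJ_le_iff]
  intro l T hT hw
  rw [Ideal.mem_comap, rename_KK]
  have hne : T.Nonempty := by
    rw [Finset.nonempty_iff_ne_empty]
    intro h0; rw [h0] at hw; simp at hw
  have hfib := map_fib hg l (hne.mono hT)
  have h1 : (fib (g ∘ e) l \ T).map e = fib g l \ T.map e := by
    rw [← hfib, Finset.map_sdiff]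
  rw [h1]
  refine KK_mem_JJ arr g l ?_ (by rw [wt_map]; exact hw)
  rw [← hfib]
  exact Finset.map_subset_map.2 hT

lemma tsh_rename (g : P → L') (x : MvPolynomial Q F) :
    tsh F g (rename e x) = MvPolynomial.map (rename e : MvPolynomial Q F →ₐ[F] MvPolynomial P F)
      (tsh F (g ∘ e) x) := by
  have h : (tsh F g).comp (rename e : MvPolynomial Q F →ₐ[F] MvPolynomial P F).toRingHom =
      (MvPolynomial.map ((rename e : MvPolynomial Q F →ₐ[F] MvPolynomial P F) :
        MvPolynomial Q F →+* MvPolynomial P F)).comp (tsh F (g ∘ e)) := by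
    apply MvPolynomial.ringHom_ext
    · intro r
      simp
    · intro q
      simp
  exact congrArg (fun φ : MvPolynomial Q F →+* _ => φ x) h

lemma coeff_tsh_rename (g : P → L') (x : MvPolynomial Q F) (α : L' →₀ ℕ) :
    coeff α (tsh F g (rename e x)) = rename e (coeff α (tsh F (g ∘ e) x)) := by
  rw [tsh_rename, coeff_map]
  rfl

lemma ud_rename (arr : P → P → ℕ) (th : P → V) {g : P → L'} {e : Q ↪ P} (hg : Sat g e)
    {m : ℤ} {x : MvPolynomial Q F} (hx : ud F (arrB arr e) (thB th e) (g ∘ e) m x) :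
    ud F arr th g m (rename e x) := by
  rw [ud_iff] at hx ⊢
  intro α hα
  rw [coeff_tsh_rename]
  exact JJ_rename arr th hg (hx α hα)

end one

lemma ud_smul {F : Type*} [CommRing F] (arr : P → P → ℕ) (th : P → V) (f : P → L') {m : ℤ}
    (c : F) {x : MvPolynomial P F} (h : ud F arr th f m x) : ud F arr th f m (c • x) := by
  rw [smul_eq_C_mul]
  have := ud_mul arr th f (ud_C arr th f c) h
  rwa [zero_add] at this

lemma ud_prod {F : Type*} [CommRing F] (arr : P → P → ℕ) (th : P → V) (f : P → L')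
    {ι : Type*} (s : Finset ι) (x : ι → MvPolynomial P F) (m : ι → ℤ)
    (h : ∀ i ∈ s, ud F arr th f (m i) (x i)) : ud F arr th f (∑ i ∈ s, m i) (∏ i ∈ s, x i) := by
  unfold ud
  rw [map_prod]
  exact TD.prod s _ m h

/-- `V_f` as a subspace -/
noncomputable def VV (F : Type*) [Field F] (arr : P → P → ℕ) (th : P → V) (f : P → L') :
    Submodule F (MvPolynomial P F) where
  carrier := {w | InV F arr th f w}
  add_mem' := fun {_ _} ha hb g hg hgf =>
    ⟨ud_add arr th g (ha g hg hgf).1 (hb g hg hgf).1,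
      fun h => ud_add arr th g ((ha g hg hgf).2 h) ((hb g hg hgf).2 h)⟩
  zero_mem' := fun g _ _ => ⟨ud_zero arr th g _, fun _ => ud_zero arr th g _⟩
  smul_mem' := fun c _ hx g hg hgf =>
    ⟨ud_smul arr th g c (hx g hg hgf).1, fun h => ud_smul arr th g c ((hx g hg hgf).2 h)⟩

lemma mem_VV {F : Type*} [Field F] {arr : P → P → ℕ} {th : P → V} {f : P → L'}
    {w : MvPolynomial P F} : w ∈ VV F arr th f ↔ InV F arr th f w := Iff.rfl

/-- elements of the ideal lie in `V_f` -/
lemma mem_VV_of_mem {F : Type*} [Field F] {arr : P → P → ℕ} {th : P → V} {f : P → L'}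
    {w : MvPolynomial P F} (hw : w ∈ JJ F arr th f) : w ∈ VV F arr th f := fun g hg hgf =>
  ⟨ud_of_mem arr th g _ (JJ_le_of_fine arr hgf hg hw),
    fun _ => ud_of_mem arr th g _ (JJ_le_of_fine arr hgf hg hw)⟩

/-! ### all blocks -/

section blocks

variable {F : Type*} [Field F]
variable {L : Type*} [Fintype L] {Q : L → Type*} [∀ l, Fintype (Q l)] [∀ l, DecidableEq (Q l)]

/-- the embeddings `e l` parametrise the blocks of `f` -/
def Par (f : P → L) (e : ∀ l, Q l ↪ P) : Prop := ∀ l a, f a = l ↔ a ∈ Set.range (e l)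

variable {f : P → L} {e : ∀ l, Q l ↪ P}

lemma Par.apply (h : Par f e) (l : L) (q : Q l) : f (e l q) = l := (h l _).2 ⟨q, rfl⟩

lemma Par.sat (h : Par f e) {g : P → L'} (hgf : Fine g f) (l : L) : Sat g (e l) := by
  intro a q haq
  rw [← h l a, hgf _ _ haq, h.apply l q]

/-- the parametrisation as a bijection -/
lemma Par.bijective (h : Par f e) :
    Function.Bijective (fun x : Σ l, Q l => e x.1 x.2) := by
  constructor
  · rintro ⟨l, q⟩ ⟨l', q'⟩ hqq
    simp only at hqq
    have h1 : l = l' := by rw [← h.apply l q, hqq, h.apply l' q']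
    subst h1
    rw [(e l).injective hqq]
  · intro a
    obtain ⟨q, hq⟩ := (h (f a) a).1 rfl
    exact ⟨⟨f a, q⟩, hq⟩

lemma Par.sum (h : Par f e) {M : Type*} [AddCommMonoid M] (t : P → M) :
    ∑ a, t a = ∑ l, ∑ q, t (e l q) := by
  rw [← Fintype.sum_sigma']
  exact (Function.Bijective.sum_comp h.bijective t).symm

lemma Par.N2_sum (h : Par f e) (arr : P → P → ℕ) {g : P → L'} (hgf : Fine g f) :
    N2 arr g = N2 arr f + ∑ l, N2 (arrB arr (e l)) (g ∘ e l) := by
  classical
  have h1 : N2 arr g = N2 arr f + ∑ a, ∑ b, if f a = f b ∧ g a ≠ g b then arr a b else 0 := by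
    unfold Thin613.N2
    rw [← Finset.sum_add_distrib]
    refine Finset.sum_congr rfl fun a _ => ?_
    rw [← Finset.sum_add_distrib]
    refine Finset.sum_congr rfl fun b _ => ?_
    by_cases hf : f a = f b
    · by_cases hg : g a = g b <;> simp [hf, hg]
    · have hg : g a ≠ g b := fun hg => hf (hgf _ _ hg)
      simp [hf, hg]
  rw [h1]
  congr 1
  rw [h.sum]
  refine Finset.sum_congr rfl fun l _ => ?_
  unfold Thin613.N2
  refine Finset.sum_congr rfl fun q _ => ?_
  rw [h.sum, Finset.sum_eq_single l]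
  · refine Finset.sum_congr rfl fun q' _ => ?_
    rw [h.apply l q, h.apply l q']
    simp [arrB]
  · intro l' _ hl'
    refine Finset.sum_eq_zero fun q' _ => ?_
    rw [h.apply l q, h.apply l' q', if_neg]
    rintro ⟨h2, _⟩
    exact hl' h2.symm
  · intro h2; exact absurd (Finset.mem_univ _) h2

lemma sym_block {arr : P → P → ℕ} {th : P → V} (hs : Sym arr th) {Q₀ : Type*} [Fintype Q₀]
    [DecidableEq Q₀] (e₀ : Q₀ ↪ P) : Sym (arrB arr e₀) (thB th e₀) := by
  intro S T hST hS hT
  have h1 := hs (S.map e₀) (T.map e₀) ((Finset.disjoint_map e₀).2 hST)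
    (by rw [wt_map]; exact hS) (by rw [wt_map]; exact hT)
  simpa [Finset.sum_map, arrB] using h1

lemma Par.NF_sum (h : Par f e) {arr : P → P → ℕ} {th : P → V} (hs : Sym arr th)
    (hf : Good th f) {g : P → L'} (hg : Good th g) (hgf : Fine g f) :
    Thin613.NF arr g = Thin613.NF arr f + ∑ l, Thin613.NF (arrB arr (e l)) (g ∘ e l) := by
  have h1 := h.N2_sum arr hgf
  have h2 := two_mul_NF arr hs hf
  have h3 := two_mul_NF arr hs hg
  have h4 : ∀ l, 2 * Thin613.NF (arrB arr (e l)) (g ∘ e l) = Thin613.N2 (arrB arr (e l)) (g ∘ e l) :=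
    fun l => two_mul_NF _ (sym_block hs (e l)) (good_comp (h.sat hgf l) hg)
  have h5 : ∑ l, Thin613.N2 (arrB arr (e l)) (g ∘ e l)
      = 2 * ∑ l, Thin613.NF (arrB arr (e l)) (g ∘ e l) := by
    rw [Finset.mul_sum]
    exact Finset.sum_congr rfl fun l _ => (h4 l).symm
  omega

lemma NF_unit {Q₀ : Type*} [Fintype Q₀] [DecidableEq Q₀] (arr : Q₀ → Q₀ → ℕ) :
    Thin613.NF arr (fun _ : Q₀ => ()) = 0 := NF_const arr _

/-- the space of the block `l` (its elements are polynomials in the variables `Q l`) -/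
noncomputable def VB (F : Type*) [Field F] (arr : P → P → ℕ) (th : P → V) (e : ∀ l, Q l ↪ P)
    (l : L) : Submodule F (MvPolynomial (Q l) F) :=
  VV F (arrB arr (e l)) (thB th (e l)) (fun _ : Q l => ())

/-- **(V1)** products of elements of the block spaces lie in `V_f`. -/
theorem prod_mem_VV (h : Par f e) {arr : P → P → ℕ} {th : P → V} (hs : Sym arr th)
    (hf : Good th f) (w : ∀ l, MvPolynomial (Q l) F) (hw : ∀ l, w l ∈ VB F arr th e l) :
    InV F arr th f (∏ l, rename (e l) (w l)) := by
  classical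
  intro g hg hgf
  have hNF := h.NF_sum hs hf hg hgf
  have hb : ∀ l, ud F arr th g (Thin613.NF (arrB arr (e l)) (g ∘ e l)) (rename (e l) (w l)) := by
    intro l
    have h1 := (hw l).ud_le (good_comp (h.sat hgf l) hg) (g := g ∘ e l) (fun _ _ _ => rfl)
    rw [NF_unit, Nat.cast_zero, sub_zero] at h1
    exact ud_rename arr th (h.sat hgf l) h1
  refine ⟨?_, fun hne => ?_⟩
  · have := ud_prod arr th g univ _ _ fun l _ => hb l
    refine ud_mono arr th g ?_ this
    rw [hNF]; push_cast; omega
  · -- a block which is cut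
    obtain ⟨a, b, hab, hgab⟩ : ∃ a b, f a = f b ∧ g a ≠ g b := by
      by_contra hcon
      push Not at hcon
      exact hne hcon
    obtain ⟨qa, hqa⟩ := (h (f a) a).1 rfl
    obtain ⟨qb, hqb⟩ := (h (f a) b).1 hab.symm
    have hcut : ud F arr th g ((Thin613.NF (arrB arr (e (f a))) (g ∘ e (f a)) : ℤ) - 1)
        (rename (e (f a)) (w (f a))) := by
      have h1 := (hw (f a)).ud_lt (good_comp (h.sat hgf (f a)) hg) (g := g ∘ e (f a))
        (fun _ _ _ => rfl) (fun hfine => hgab (by
          have := hfine qa qb rfl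
          simp only [Function.comp_apply, hqa, hqb] at this
          exact this))
      rw [NF_unit, Nat.cast_zero, sub_zero] at h1
      exact ud_rename arr th (h.sat hgf (f a)) h1
    have := ud_prod arr th g univ (fun l => rename (e l) (w l))
      (fun l => (Thin613.NF (arrB arr (e l)) (g ∘ e l) : ℤ) - if l = f a then 1 else 0)
      (fun l _ => by
        by_cases hl : l = f a
        · subst hl
          rw [if_pos rfl]; exact hcut
        · rw [if_neg hl, sub_zero]; exact hb l)
    refine ud_mono arr th g ?_ this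
    rw [Finset.sum_sub_distrib, Finset.sum_ite_eq' univ (f a), if_pos (Finset.mem_univ _), hNF]
    push_cast; omega

end blocks

end Crest.Agent.R059.ThinTens559
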