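import Mathlib

/-!
Row 59, TEAM THIN, leaf T7 / piece (S3) of 547 (helper537): word functions which transform by a sign
under permutations of the places of equal type.
-/

set_option autoImplicit false
set_option linter.unusedSectionVars false

namespace Crest.Agent.R059.WordsS3_537

open Equiv Equiv.Perm Finset

variable {T : Type*} [Fintype T] {m : T → ℕ} {A : T → Type*} [∀ t, LinearOrder (A t)]

/-- monotone on every type, strictly monotone on the odd ones -/
def Adm (p : T → ℕ) (φ : ∀ t, Fin (m t) → A t) : Prop :=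
  ∀ t, Monotone (φ t) ∧ (Odd (p t) → StrictMono (φ t))

/-- the sign character -/
def chi (p : T → ℕ) (ρ : ∀ t, Perm (Fin (m t))) : ℤˣ := ∏ t, sign (ρ t) ^ p t

theorem chi_ne_zero (p : T → ℕ) (ρ : ∀ t, Perm (Fin (m t))) : ((chi p ρ : ℤ) : ℚ) ≠ 0 := by
  exact_mod_cast (chi p ρ).ne_zero

/-- a symmetric word function which vanishes on the admissible words vanishes -/
theorem eq_zero_of_adm (p : T → ℕ) (X : (∀ t, Fin (m t) → A t) → ℚ)
    (hX : ∀ (ρ : ∀ t, Perm (Fin (m t))) (φ : ∀ t, Fin (m t) → A t),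
      X (fun t => φ t ∘ ρ t) = ((chi p ρ : ℤ) : ℚ) * X φ)
    (h0 : ∀ φ, Adm p φ → X φ = 0) : X = 0 := by
  classical
  funext φ
  by_cases hinj : ∀ t, Odd (p t) → Function.Injective (φ t)
  · have h1 := hX (fun t => Tuple.sort (φ t)) φ
    rw [h0] at h1
    · exact (mul_eq_zero.1 h1.symm).resolve_left (chi_ne_zero p _)
    · intro t
      have hm : Monotone (φ t ∘ Tuple.sort (φ t)) := Tuple.monotone_sort (φ t)
      exact ⟨hm, fun ho => hm.strictMono_of_injective
        ((hinj t ho).comp (Tuple.sort (φ t)).injective)⟩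
  · push Not at hinj
    obtain ⟨t, ho, hni⟩ := hinj
    simp only [Function.Injective, not_forall] at hni
    obtain ⟨a, b, hab, hne⟩ := hni
    have h1 := hX (Pi.mulSingle t (swap a b)) φ
    have h2 : (fun t' => φ t' ∘ ((Pi.mulSingle t (swap a b) : ∀ t, Perm (Fin (m t))) t')) = φ := by
      funext t'
      by_cases ht : t' = t
      · subst ht
        rw [Pi.mulSingle_eq_same]
        funext x
        simp only [Function.comp_apply, swap_apply_def]
        split_ifs with h3 h4
        · rw [h3, hab]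
        · rw [h4, hab]
        · rfl
      · rw [Pi.mulSingle_eq_of_ne ht]
        rfl
    have h3 : chi p (Pi.mulSingle t (swap a b) : ∀ t, Perm (Fin (m t))) = -1 := by
      unfold chi
      rw [Finset.prod_eq_single t]
      · rw [Pi.mulSingle_eq_same, sign_swap hne, ho.neg_one_pow]
      · intro t' _ ht
        rw [Pi.mulSingle_eq_of_ne ht]
        simp
      · intro h; exact absurd (mem_univ _) h
    rw [h2, h3] at h1
    simp only [Units.val_neg, Units.val_one, Int.cast_neg, Int.cast_one, neg_mul, one_mul] at h1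
    have : X φ = 0 := by linarith
    simpa using this

theorem eq_of_comp_eq {n : ℕ} {α : Type*} [LinearOrder α] {f g : Fin n → α} (hf : Monotone f)
    (hg : Monotone g) (σ : Perm (Fin n)) (h : g ∘ σ = f) : f = g := by
  have h1 : f ∘ Tuple.sort f = f := by
    have := (Tuple.comp_sort_eq_comp_iff_monotone (f := f) (σ := 1)).2 (by simpa using hf)
    simpa using this.symm
  have h2 : g ∘ Tuple.sort g = g := by
    have := (Tuple.comp_sort_eq_comp_iff_monotone (f := g) (σ := 1)).2 (by simpa using hg)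
    simpa using this.symm
  have h3 := Tuple.comp_perm_comp_sort_eq_comp_sort (f := g) (σ := σ)
  rw [h] at h3
  rw [← h1, h3, h2]

/-- two admissible words which differ by a permutation are equal -/
theorem adm_unique (p : T → ℕ) {φ φ' : ∀ t, Fin (m t) → A t} (h : Adm p φ) (h' : Adm p φ')
    (ρ : ∀ t, Perm (Fin (m t))) (hρ : (fun t => φ' t ∘ ρ t) = φ) : φ = φ' := by
  funext t
  exact eq_of_comp_eq (h t).1 (h' t).1 (ρ t) (congrFun hρ t)

/-- a permutation which fixes an admissible word has sign `1` -/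
theorem chi_eq_one (p : T → ℕ) {φ : ∀ t, Fin (m t) → A t} (h : Adm p φ)
    (ρ : ∀ t, Perm (Fin (m t))) (hρ : (fun t => φ t ∘ ρ t) = φ) : chi p ρ = 1 := by
  refine Finset.prod_eq_one fun t _ => ?_
  rcases Nat.even_or_odd (p t) with he | ho
  · rcases Int.units_eq_one_or (sign (ρ t)) with h1 | h1
    · rw [h1, one_pow]
    · rw [h1, he.neg_one_pow]
  · have h1 : ρ t = 1 := by
      ext x
      have h2 := congrFun (congrFun hρ t) x
      have h3 := ((h t).2 ho).injective h2
      simp [h3]
    rw [h1, Equiv.Perm.sign_one, one_pow]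

section count

variable [DecidableEq T] [DecidableEq (∀ t, Fin (m t) → A t)]

/-- signed number of permutations carrying one admissible word to another -/
theorem signed_count_ne (p : T → ℕ) {φ φ' : ∀ t, Fin (m t) → A t} (h : Adm p φ) (h' : Adm p φ')
    (hne : φ ≠ φ') : (∑ ρ : ∀ t, Perm (Fin (m t)),
      if (fun t => φ' t ∘ ρ t) = φ then ((chi p ρ : ℤ) : ℚ) else 0) = 0 :=
  Finset.sum_eq_zero fun ρ _ => if_neg fun hρ => hne (adm_unique p h h' ρ hρ)

theorem signed_count_self (p : T → ℕ) {φ : ∀ t, Fin (m t) → A t} (h : Adm p φ) :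
    (∑ ρ : ∀ t, Perm (Fin (m t)),
      if (fun t => φ t ∘ ρ t) = φ then ((chi p ρ : ℤ) : ℚ) else 0) =
      (#{ρ : ∀ t, Perm (Fin (m t)) | (fun t => φ t ∘ ρ t) = φ} : ℚ) := by
  rw [← Finset.sum_filter, Finset.sum_congr rfl fun ρ hρ => ?_, Finset.sum_const, nsmul_eq_mul,
    mul_one]
  rw [chi_eq_one p h ρ (mem_filter.1 hρ).2]
  simp

theorem signed_count_pos (p : T → ℕ) {φ : ∀ t, Fin (m t) → A t} (h : Adm p φ) :
    0 < (∑ ρ : ∀ t, Perm (Fin (m t)),
      if (fun t => φ t ∘ ρ t) = φ then ((chi p ρ : ℤ) : ℚ) else 0) := by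
  rw [signed_count_self p h]
  have : 0 < #{ρ : ∀ t, Perm (Fin (m t)) | (fun t => φ t ∘ ρ t) = φ} :=
    Finset.card_pos.2 ⟨1, mem_filter.2 ⟨mem_univ _, rfl⟩⟩
  exact_mod_cast this

end count

end Crest.Agent.R059.WordsS3_537
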