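import Mathlib
import Crest.Agent.R059.PL2_547
import Crest.Agent.R059.PL3_547
import Crest.Agent.R059.SignDP_613
import Crest.Agent.R059.WordsS3_537
import Crest.Agent.R059.Loc_830
import Crest.Agent.R059.ThinTens_559

/-!
# Row 59, Theorem B, half 2 (helper830): the local lemma at a place and a level, in 547's shape
-/

set_option autoImplicit false
set_option linter.unusedSectionVars false

namespace Crest.Agent.R059.PLloc830

open MvPolynomial Finset Thin613 Deg359 PL547

/-! ### degree and renaming -/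

section top

variable {L L' A : Type*} [CommRing A]

theorem Hom_rename {m : ℤ} {p : MvPolynomial L A} (h : Hom m p) (σ : L → L') :
    Hom m (rename σ p) := by
  classical
  rw [p.as_sum, map_sum]
  refine Hom.sum _ _ fun α hα => ?_
  rw [rename_monomial]
  have h1 := Hom_monomial (α.mapDomain σ) (coeff α p)
  rw [Finsupp.degree_mapDomain] at h1
  rwa [h α (mem_support_iff.mp hα)] at h1

theorem top_rename {m : ℤ} {p : MvPolynomial L A} (hp : TD m p) (σ : L → L') :
    top m (rename σ p) = rename σ (top m p) := by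
  apply top_eq_of (Hom_rename (top_hom m p) σ)
  rw [← map_sub]
  exact hp.sub_top.rename σ

end top

/-! ### growth spaces and symbols -/

section growth

variable {P : Type*} [Fintype P] [DecidableEq P] {L : Type*} (arr : P → P → ℕ) (th : P → ℤ)
  (f : P → L)

/-- `{x | ud f m x}` as a subspace -/
def udS (m : ℤ) : Submodule ℚ (MvPolynomial P ℚ) where
  carrier := {x | ud ℚ arr th f m x}
  add_mem' := fun ha hb => ud_add _ _ _ ha hb
  zero_mem' := ud_zero _ _ _ _
  smul_mem' := by
    intro c x hx
    have := ud_mul arr th f (ud_C (F := ℚ) arr th f c) hx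
    rwa [zero_add, ← smul_eq_C_mul] at this

theorem mem_udS {m : ℤ} {x : MvPolynomial P ℚ} : x ∈ udS arr th f m ↔ ud ℚ arr th f m x := Iff.rfl

/-- the symbol of degree `m` -/
noncomputable def symL (m : ℤ) :
    MvPolynomial P ℚ →ₗ[ℚ] MvPolynomial L (MvPolynomial P ℚ ⧸ JJ ℚ arr th f) :=
  AddMonoidHom.toRatLinearMap
    { toFun := fun x => top m (sh ℚ arr th f x)
      map_zero' := by rw [map_zero, top_zero]
      map_add' := fun x y => by rw [map_add, Deg359.top_add] }

theorem symL_apply (m : ℤ) (x : MvPolynomial P ℚ) :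
    symL arr th f m x = top m (sh ℚ arr th f x) := rfl

theorem symL_ker {m : ℤ} {x : MvPolynomial P ℚ} (hx : x ∈ udS arr th f m) :
    symL arr th f m x = 0 ↔ x ∈ udS arr th f (m - 1) := by
  rw [symL_apply]
  constructor
  · intro h
    exact TD.of_top_eq_zero hx h
  · intro h
    exact top_eq_zero_of_TD h (by omega)

end growth

/-! ### colour preserving permutations as a group -/

section group

variable {I : Type} {P : Type}

variable [Fintype P] [DecidableEq P]

theorem alt_eq_sum (c : P → I) (f : MvPolynomial P ℚ) :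
    alt c f = ∑ w : GS c, sg (w : Equiv.Perm P) • rename (w : Equiv.Perm P) f := by
  rw [alt]
  refine Finset.sum_subtype (GG c) (fun w => ?_) (fun w => sg w • rename w f)
  rw [mem_GG]
  rfl

/-- the antisymmetriser and colour preserving bijections -/
theorem alt_rename_equiv {Q : Type} [Fintype Q] [DecidableEq Q] (c : P → I) (c' : Q → I)
    (E : P ≃ Q) (hE : ∀ x, c' (E x) = c x) (f : MvPolynomial P ℚ) :
    alt c' (rename E f) = rename E (alt c f) := by
  rw [alt, alt, map_sum]
  symm
  refine Finset.sum_bij (fun w _ => (E.symm.trans w).trans E) ?_ ?_ ?_ ?_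
  · intro w hw
    rw [mem_GG] at hw ⊢
    intro a
    simp only [Equiv.trans_apply]
    rw [hE, hw]
    have := hE (E.symm a)
    rw [Equiv.apply_symm_apply] at this
    exact this.symm
  · intro w _ w' _ h
    ext x
    have := DFunLike.congr_fun h (E x)
    simpa using this
  · intro w hw
    refine ⟨(E.trans w).trans E.symm, ?_, ?_⟩
    · rw [mem_GG] at hw ⊢
      intro a
      simp only [Equiv.trans_apply]
      have := hE (E.symm (w (E a)))
      rw [Equiv.apply_symm_apply] at this
      rw [← this, hw, hE]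
    · ext x
      simp
  · intro w _
    rw [map_smul, sg_trans_symm, rename_rename, rename_rename]
    congr 2
    ext x
    simp

end group

/-! ### block permutations of the model -/

section model

variable {I : Type} [Fintype I] [DecidableEq I] {T : Type} [Fintype T] [LinearOrder T]
  {cl : T → I → ℕ} {m : T → ℕ}

/-- `w` permutes the blocks by `ρ` -/
def BP (w : Equiv.Perm (Sm cl m)) (ρ : ∀ t, Equiv.Perm (Fin (m t))) : Prop :=
  ∀ x, blk cl m (w x) = pr ρ (blk cl m x)

theorem BP_wr (ρ : ∀ t, Equiv.Perm (Fin (m t))) : BP (cl := cl) (wr ρ) ρ := fun _ => rfl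

theorem BP_unique (pt : ∀ t, Vt (cl t)) {w : Equiv.Perm (Sm cl m)}
    {ρ ρ' : ∀ t, Equiv.Perm (Fin (m t))} (h : BP w ρ) (h' : BP w ρ') : ρ = ρ' := by
  funext t
  ext r
  have h1 := h ⟨⟨t, r⟩, pt t⟩
  rw [h' ⟨⟨t, r⟩, pt t⟩] at h1
  change (⟨t, ρ' t r⟩ : Jm m) = ⟨t, ρ t r⟩ at h1
  simp only [Sigma.mk.injEq, heq_eq_eq, true_and] at h1
  rw [h1]

/-- decomposition of a colour preserving permutation which permutes the blocks -/
theorem exists_v {w : Equiv.Perm (Sm cl m)} (hw : ∀ x, colS cl m (w x) = colS cl m x)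
    {ρ : ∀ t, Equiv.Perm (Fin (m t))} (h : BP w ρ) :
    ∃ v : ∀ j : Jm m, Equiv.Perm (Vt (cl j.1)), (∀ j x, (v j x).1 = x.1) ∧
      w = wr ρ * Equiv.sigmaCongrRight v := by
  obtain ⟨v, hv⟩ := exists_fibrewise ((wr ρ)⁻¹ * w : Equiv.Perm (Sm cl m)) (by
    intro x
    have h1 : wr ρ (((wr ρ)⁻¹ * w : Equiv.Perm (Sm cl m)) x) = w x := by
      rw [← Equiv.Perm.mul_apply, mul_inv_cancel_left]
    have h2 := h x
    rw [← h1, blk_wr] at h2
    exact (pr ρ).injective h2)
  have hw2 : w = wr ρ * Equiv.sigmaCongrRight v := by rw [← hv, mul_inv_cancel_left]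
  refine ⟨v, fun j x => ?_, hw2⟩
  have h3 := hw ⟨j, x⟩
  rw [hw2] at h3
  exact h3

variable (cl m) in
/-- a colour preserving permutation with `blk` finer than `blk ∘ w` permutes the blocks -/
theorem exists_BP (hcl : Function.Injective cl) (pt : ∀ t, Vt (cl t))
    {w : Equiv.Perm (Sm cl m)} (hw : ∀ x, colS cl m (w x) = colS cl m x)
    (hf : Fine (blk cl m) (blk cl m ∘ w)) : ∃ ρ, BP w ρ := by
  classical
  set f : Jm m → Jm m := fun j => blk cl m (w ⟨j, pt j.1⟩) with hfdef
  have hf1 : ∀ x, blk cl m (w x) = f (blk cl m x) := fun x => hf x ⟨x.1, pt x.1.1⟩ rfl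
  have hsurj : Function.Surjective f := by
    intro j
    refine ⟨blk cl m (w.symm ⟨j, pt j.1⟩), ?_⟩
    rw [← hf1, Equiv.apply_symm_apply]
    rfl
  have hbij : Function.Bijective f := Finite.surjective_iff_bijective.1 hsurj
  -- types are preserved
  have htype : ∀ j, (f j).1 = j.1 := by
    intro j
    apply hcl
    funext i
    have e : {x : Vt (cl j.1) // x.1 = i} ≃ {y : Vt (cl (f j).1) // y.1 = i} := by
      have h2 : ∀ x : Vt (cl j.1), ∃ y : Vt (cl (f j).1), w ⟨j, x⟩ = ⟨f j, y⟩ := by
        intro x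
        have h3 := hf1 ⟨j, x⟩
        rcases hwx : w ⟨j, x⟩ with ⟨j', y⟩
        rw [hwx] at h3
        change j' = f j at h3
        subst h3
        exact ⟨y, rfl⟩
      choose g hg using h2
      have hgi : ∀ x, (g x).1 = x.1 := by
        intro x
        have h4 := hw ⟨j, x⟩
        rw [hg] at h4
        exact h4
      refine Equiv.ofBijective (fun x => ⟨g x.1, by rw [hgi, x.2]⟩) ⟨?_, ?_⟩
      · rintro ⟨x, hx⟩ ⟨y, hy⟩ hxy
        simp only [Subtype.mk.injEq] at hxy
        have h5 : w ⟨j, x⟩ = w ⟨j, y⟩ := by rw [hg, hg, hxy]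
        have h6 := w.injective h5
        simp only [Sigma.mk.injEq, heq_eq_eq, true_and] at h6
        exact Subtype.ext h6
      · rintro ⟨y, hy⟩
        rcases hz : w.symm ⟨f j, y⟩ with ⟨j', x⟩
        have h7 : w ⟨j', x⟩ = ⟨f j, y⟩ := by rw [← hz, Equiv.apply_symm_apply]
        have h8 := hf1 ⟨j', x⟩
        rw [h7] at h8
        change f j = f j' at h8
        have h9 := hbij.1 h8
        subst h9
        have h10 := hg x
        rw [h7] at h10
        simp only [Sigma.mk.injEq, heq_eq_eq, true_and] at h10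
        refine ⟨⟨x, ?_⟩, ?_⟩
        · rw [← hgi, ← h10]; exact hy
        · exact Subtype.ext h10.symm
    have h11 := Fintype.card_congr e
    rw [Fintype.card_subtype, Fintype.card_subtype, card_Vt, card_Vt] at h11
    exact h11.symm
  obtain ⟨ρ, hρ⟩ := exists_fibrewise (Equiv.ofBijective f hbij) htype
  refine ⟨ρ, fun x => ?_⟩
  rw [hf1]
  exact DFunLike.congr_fun hρ (blk cl m x)

end model

end Crest.Agent.R059.PLloc830
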