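import Mathlib
import Crest.Agent.R059.PL4_547
import Crest.Agent.R059.PLloc_830
import Crest.Agent.R059.Places2_494

/-!
# Row 59, Theorem B, half 2 (helper547): the local data of 830's `Loc` at a place and a level
-/

set_option autoImplicit false
set_option linter.unusedSectionVars false

namespace Crest.Agent.R059.PL547

open MvPolynomial Finset Thin613 Deg359

attribute [local instance] Letters.lo

section loc

variable {I : Type} [Fintype I] [DecidableEq I] {k : I → I → ℕ} {θ : I → ℤ}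
  {T : Type} [Fintype T] [LinearOrder T] {cl : T → I → ℕ} {d : I → ℕ} {𝓛 : Letters k θ cl}

/-- conjugate on the model -/
noncomputable def cj (m : Pl cl d) (w : Equiv.Perm (Vt d)) : Equiv.Perm (Sm cl m.1) :=
  ((Em cl d m).trans w).trans (Em cl d m).symm

/-- conjugate on the standard set -/
noncomputable def cj' (m : Pl cl d) (w : Equiv.Perm (Sm cl m.1)) : Equiv.Perm (Vt d) :=
  ((Em cl d m).symm.trans w).trans (Em cl d m)

theorem lab_Em (m : Pl cl d) (x : Sm cl m.1) : lab cl d m (Em cl d m x) = blk cl m.1 x := by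
  simp [lab]

theorem cj_col (m : Pl cl d) {w : Equiv.Perm (Vt d)} (hw : ∀ a, colV d (w a) = colV d a)
    (x : Sm cl m.1) : colS cl m.1 (cj m w x) = colS cl m.1 x := by
  rw [← Em_col cl d m, ← Em_col cl d m, ← hw (Em cl d m x)]
  simp [cj]

theorem cj'_col (m : Pl cl d) {w : Equiv.Perm (Sm cl m.1)}
    (hw : ∀ x, colS cl m.1 (w x) = colS cl m.1 x) (a : Vt d) :
    colV d (cj' m w a) = colV d a := by
  obtain ⟨x, rfl⟩ := (Em cl d m).surjective a
  rw [Em_col, ← hw x, ← Em_col cl d m]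
  simp [cj']

theorem sg_cj (m : Pl cl d) (w : Equiv.Perm (Vt d)) : sg (cj m w) = sg w := by
  have := sg_trans_symm (Em cl d m).symm w
  simpa [cj] using this

theorem sg_cj' (m : Pl cl d) (w : Equiv.Perm (Sm cl m.1)) : sg (cj' m w) = sg w :=
  sg_trans_symm (Em cl d m) w

theorem rename_cj (m : Pl cl d) (w : Equiv.Perm (Vt d)) (x : MvPolynomial (Sm cl m.1) ℚ) :
    rename w (rename (Em cl d m) x) = rename (Em cl d m) (rename (cj m w) x) := by
  rw [rename_rename, rename_rename]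
  congr 2
  funext a
  simp [cj]

/-- `w` permutes the blocks of the place by `ρ` -/
def NN (m : Pl cl d) (w : Equiv.Perm (Vt d)) (ρ : ∀ t, Equiv.Perm (Fin (m.1 t))) : Prop :=
  ∀ a, lab cl d m (w a) = pr ρ (lab cl d m a)

theorem NN.blk {m : Pl cl d} {w : Equiv.Perm (Vt d)} {ρ : ∀ t, Equiv.Perm (Fin (m.1 t))}
    (h : NN m w ρ) (x : Sm cl m.1) : PL547.blk cl m.1 (cj m w x) = pr ρ (PL547.blk cl m.1 x) := by
  rw [← lab_Em, ← lab_Em, ← h]
  simp [cj]

theorem NN_cj' {m : Pl cl d} {w : Equiv.Perm (Sm cl m.1)} {ρ : ∀ t, Equiv.Perm (Fin (m.1 t))}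
    (h : ∀ x, blk cl m.1 (w x) = pr ρ (blk cl m.1 x)) : NN m (cj' m w) ρ := by
  intro a
  obtain ⟨x, rfl⟩ := (Em cl d m).surjective a
  rw [lab_Em, ← h, ← lab_Em]
  simp [cj']

theorem NN_unique (pt : ∀ t, Vt (cl t)) {m : Pl cl d} {w : Equiv.Perm (Vt d)}
    {ρ ρ' : ∀ t, Equiv.Perm (Fin (m.1 t))} (h : NN m w ρ) (h' : NN m w ρ') : ρ = ρ' :=
  PLloc830.BP_unique pt h.blk h'.blk

/-- the stabiliser of a place -/
def Nst (m : Pl cl d) (w : Equiv.Perm (Vt d)) : Prop := ∃ ρ, NN m w ρ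

open scoped Classical in
/-- the block permutation of an element of the stabiliser -/
noncomputable def rh (m : Pl cl d) (w : Equiv.Perm (Vt d)) : ∀ t, Equiv.Perm (Fin (m.1 t)) :=
  if h : Nst m w then h.choose else 1

theorem rh_spec {m : Pl cl d} {w : Equiv.Perm (Vt d)} (h : Nst m w) : NN m w (rh m w) := by
  unfold rh
  rw [dif_pos h]
  exact h.choose_spec

theorem rh_eq (pt : ∀ t, Vt (cl t)) {m : Pl cl d} {w : Equiv.Perm (Vt d)}
    {ρ : ∀ t, Equiv.Perm (Fin (m.1 t))} (h : NN m w ρ) : rh m w = ρ :=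
  NN_unique pt (rh_spec ⟨ρ, h⟩) h

theorem NN_one (m : Pl cl d) : NN m 1 1 := fun _ => rfl

theorem exists_NN (hinj : Function.Injective cl) (pt : ∀ t, Vt (cl t)) (m : Pl cl d)
    {w : Equiv.Perm (Vt d)} (hw : ∀ a, colV d (w a) = colV d a)
    (hf : Fine (lab cl d m ∘ ⇑w⁻¹) (lab cl d m)) : Nst m w := by
  have hf' : Fine (blk cl m.1) (blk cl m.1 ∘ cj m w) := by
    intro x y hxy
    have h0 : ∀ z, w⁻¹ (w z) = z := fun z => w.symm_apply_apply z
    have h1 := hf (w (Em cl d m x)) (w (Em cl d m y)) (by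
      simp only [Function.comp_apply, h0, lab_Em]
      exact hxy)
    have h2 : ∀ z, blk cl m.1 (cj m w z) = lab cl d m (w (Em cl d m z)) := by
      intro z
      rw [← lab_Em]
      simp [cj]
    simp only [Function.comp_apply]
    rw [h2, h2, h1]
  obtain ⟨ρ, hρ⟩ := PLloc830.exists_BP cl m.1 hinj pt (cj_col m hw) hf'
  refine ⟨ρ, fun a => ?_⟩
  obtain ⟨x, rfl⟩ := (Em cl d m).surjective a
  rw [lab_Em]
  have := hρ x
  rw [← this, ← lab_Em]
  simp [cj]

/-! ### symbols of words -/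

/-- the symbol of a word -/
noncomputable def eW (m : Pl cl d) (φ : Wd 𝓛 m.1) : Sy k θ (colV d) (lab cl d m) :=
  DP _ (ar k (colV d)) (lab cl d m) *
    (C (Ideal.Quotient.mk _ (rename (Em cl d m) φ.lp)) * ∏ j, X j ^ (φ.at j).a)

theorem mor_Em (m : Pl cl d) : ThinEq494.Mor (ar k (colS cl m.1)) (tw θ (colS cl m.1))
    (blk cl m.1) (ar k (colV d)) (tw θ (colV d)) (lab cl d m) (Em cl d m) id :=
  ThinEq494.mor_equiv' (Em cl d m) (fun a b => by simp [ar, Em_col])
    (fun a => by simp [tw, Em_col]) (fun a => lab_Em m a)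

theorem NF_lab (m : Pl cl d) : NF (ar k (colV d)) (lab cl d m) =
    NF (ar k (colS cl m.1)) (blk cl m.1) := by
  unfold NF
  rw [ThinEq494.N2_equiv (mor_Em (k := k) (θ := fun _ => 0) m)]

theorem DP_lab (A : Type*) [CommRing A] (m : Pl cl d) :
    DP A (ar k (colV d)) (lab cl d m) = DP A (ar k (colS cl m.1)) (blk cl m.1) :=
  DP_equiv (Em cl d m) _ _ _ _ (fun a b => by simp [ar, Em_col]) (fun a => (lab_Em m a).symm)

theorem T_Mo (m : Pl cl d) (hs : Sym (ar k (colS cl m.1)) (tw θ (colS cl m.1)))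
    (hg : Good (tw θ (colS cl m.1)) (blk cl m.1)) (pt : ∀ t, Vt (cl t)) (φ : Wd 𝓛 m.1)
    (hφ : InV ℚ (ar k (colS cl m.1)) (tw θ (colS cl m.1)) (blk cl m.1) φ.lp) :
    Tm k θ (colV d) (lab cl d m) φ.tot (rename (Em cl d m) (φ.Kh pt)) = eW m φ := by
  have hid : ∀ (A : Type) [CommRing A] (x : MvPolynomial (Jm m.1) A),
      rename (id : Jm m.1 → Jm m.1) x = x := fun A _ x => by rw [rename_id_apply]
  have hw : ud ℚ (ar k (colS cl m.1)) (tw θ (colS cl m.1)) (blk cl m.1) 0 φ.lp := by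
    have := hφ.ud_le hg (fun _ _ h => h)
    simpa using this
  have h1 := top_family (ar k (colS cl m.1)) hs hg hw
    (fun j : Jm m.1 => (⟨j, pt j.1⟩ : Sm cl m.1)) (fun j => rfl) (fun j => (φ.at j).a)
  rw [Tm_apply, (mor_Em m).sh_rename, hid, top_map, NF_lab]
  have h2 : ((φ.tot : ℕ) : ℤ) = ((∑ j : Jm m.1, (φ.at j).a : ℕ) : ℤ) := rfl
  rw [h2]
  unfold Wd.Kh eW
  push_cast at h1 ⊢
  rw [h1, map_mul, map_DP, DP_lab, map_mul, map_C, (mor_Em m).quot_mk, map_prod]
  congr 2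
  refine Finset.prod_congr rfl fun j _ => ?_
  rw [map_pow, map_X]

end loc

end Crest.Agent.R059.PL547
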