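import Mathlib
import Crest.Agent.R059.Deg_359

/-!
# Row 59, Theorem B (thin form): block shifts

`sft f : MvPolynomial P F →+* MvPolynomial L (MvPolynomial P F)`, `X a ↦ C (X a) + X (f a)` for a
labelling `f : P → L`; `Esh f J` the same with coefficients modulo an ideal `J`.
* `map_Esh_sft` : shifting twice (fine, then coarse) = coarse shift of the shift variables;
* `refine_TD` : REFINE (degree of coefficients);
* `coarsen_zero` : COARSEN.
-/

open MvPolynomial

namespace Crest.Agent.R059.Shift359

open Crest.Agent.R059.Deg359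

variable {P L L' F : Type*} [CommRing F]

/-- shift by block variables -/
noncomputable def sft (f : P → L) : MvPolynomial P F →+* MvPolynomial L (MvPolynomial P F) :=
  eval₂Hom (C.comp C) (fun a => C (X a) + X (f a))

@[simp] theorem sft_C (f : P → L) (r : F) : sft f (C r) = C (C r) := by
  simp [sft]

@[simp] theorem sft_X (f : P → L) (a : P) : sft (F := F) f (X a) = C (X a) + X (f a) := by
  simp [sft]

/-- joint degree `≤ N` in the outer and inner variables -/
def JD (N : ℤ) (z : MvPolynomial L (MvPolynomial P F)) : Prop :=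
  ∀ α : L →₀ ℕ, TD (N - ((α.degree : ℕ) : ℤ)) (coeff α z)

/-- jointly homogeneous of degree `N` in the outer and inner variables -/
def JH (N : ℤ) (z : MvPolynomial L (MvPolynomial P F)) : Prop :=
  ∀ α : L →₀ ℕ, Hom (N - ((α.degree : ℕ) : ℤ)) (coeff α z)

theorem JD.add {N : ℤ} {z w : MvPolynomial L (MvPolynomial P F)} (hz : JD N z) (hw : JD N w) :
    JD N (z + w) := fun α => by
  rw [coeff_add]
  exact (hz α).add (hw α)

theorem JH.add {N : ℤ} {z w : MvPolynomial L (MvPolynomial P F)} (hz : JH N z) (hw : JH N w) :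
    JH N (z + w) := fun α => by
  rw [coeff_add]
  exact (hz α).add (hw α)

theorem JD_zero (N : ℤ) : JD N (0 : MvPolynomial L (MvPolynomial P F)) := fun α => by
  rw [coeff_zero]
  exact TD_zero _

theorem JH_zero (N : ℤ) : JH N (0 : MvPolynomial L (MvPolynomial P F)) := fun α => by
  rw [coeff_zero]
  exact Hom_zero _

theorem JD.mono {N N' : ℤ} {z : MvPolynomial L (MvPolynomial P F)} (hz : JD N z) (h : N ≤ N') :
    JD N' z := fun α => (hz α).mono (by omega)

theorem JD.mul {N M : ℤ} {z w : MvPolynomial L (MvPolynomial P F)} (hz : JD N z) (hw : JD M w) :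
    JD (N + M) (z * w) := fun α => by
  classical
  rw [coeff_mul]
  refine TD.sum _ _ fun x hx => ?_
  have h3 : x.1 + x.2 = α := Finset.HasAntidiagonal.mem_antidiagonal.mp hx
  refine ((hz x.1).mul (hw x.2)).mono ?_
  rw [← h3, map_add, Nat.cast_add]
  omega

theorem JH.mul {N M : ℤ} {z w : MvPolynomial L (MvPolynomial P F)} (hz : JH N z) (hw : JH M w) :
    JH (N + M) (z * w) := fun α => by
  classical
  rw [coeff_mul]
  refine Hom.sum _ _ fun x hx => ?_
  have h3 : x.1 + x.2 = α := Finset.HasAntidiagonal.mem_antidiagonal.mp hx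
  have h4 := (hz x.1).mul (hw x.2)
  have e : N - ((x.1.degree : ℕ) : ℤ) + (M - ((x.2.degree : ℕ) : ℤ))
      = N + M - ((α.degree : ℕ) : ℤ) := by
    rw [← h3, map_add, Nat.cast_add]
    ring
  rwa [e] at h4

theorem JH.jd {N : ℤ} {z : MvPolynomial L (MvPolynomial P F)} (hz : JH N z) : JD N z :=
  fun α => (hz α).td

theorem JH_C {N : ℤ} {p : MvPolynomial P F} (hp : Hom N p) :
    JH N (C p : MvPolynomial L (MvPolynomial P F)) := fun α => by
  classical
  rw [coeff_C]
  split_ifs with h
  · rw [← h]
    simpa using hp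
  · exact Hom_zero _

theorem JH_X (l : L) : JH 1 (X l : MvPolynomial L (MvPolynomial P F)) := fun α => by
  classical
  rw [coeff_X]
  split_ifs with h
  · rw [← h, Finsupp.degree_single]
    simpa using Hom_one
  · exact Hom_zero _

theorem JH_one : JH 0 (1 : MvPolynomial L (MvPolynomial P F)) := by
  rw [← C_1]
  exact JH_C Hom_one

theorem JH.pow {N : ℤ} {z : MvPolynomial L (MvPolynomial P F)} (hz : JH N z) (n : ℕ) :
    JH (n * N) (z ^ n) := by
  induction n with
  | zero => simpa using JH_one
  | succ n ih =>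
    rw [pow_succ]
    have := ih.mul hz
    have e : (n : ℤ) * N + N = ((n + 1 : ℕ) : ℤ) * N := by push_cast; ring
    rwa [e] at this

theorem JH_sft_monomial (f : P → L) (β : P →₀ ℕ) (r : F) :
    JH (((β.degree : ℕ) : ℤ)) (sft f (monomial β r)) := by
  classical
  induction β using Finsupp.induction with
  | zero =>
    rw [← C_apply, sft_C]
    simpa using JH_C (L := L) (Hom_C (L := P) r)
  | single_add a n β _ _ ih =>
    rw [add_comm, monomial_add_single, map_mul, map_pow, sft_X]
    have h1 : JH 1 (C (X a) + X (f a) : MvPolynomial L (MvPolynomial P F)) :=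
      (JH_C (Hom_X a)).add (JH_X (f a))
    have h2 := ih.mul (h1.pow n)
    have e : ((β.degree : ℕ) : ℤ) + (n : ℤ) * 1
        = (((β + Finsupp.single a n).degree : ℕ) : ℤ) := by
      rw [map_add, Finsupp.degree_single, Nat.cast_add]
      ring
    rwa [e] at h2

theorem JD_sft (f : P → L) {N : ℤ} {y : MvPolynomial P F} (hy : TD N y) : JD N (sft f y) := by
  classical
  rw [y.as_sum, map_sum]
  have : ∀ s : Finset (P →₀ ℕ), s ⊆ y.support →
      JD N (∑ x ∈ s, sft f (monomial x (coeff x y))) := by
    intro s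
    induction s using Finset.induction_on with
    | empty =>
      intro _
      simpa using JD_zero N
    | insert a s ha ih =>
      intro hs
      rw [Finset.sum_insert ha]
      refine JD.add ?_ (ih fun x hx => hs (Finset.mem_insert_of_mem hx))
      exact (JH_sft_monomial f a _).jd.mono
        (hy a (mem_support_iff.mp (hs (Finset.mem_insert_self a s))))
  exact this _ subset_rfl

theorem JH_sft (f : P → L) {N : ℤ} {y : MvPolynomial P F} (hy : Hom N y) : JH N (sft f y) := by
  classical
  rw [y.as_sum, map_sum]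
  have : ∀ s : Finset (P →₀ ℕ), s ⊆ y.support →
      JH N (∑ x ∈ s, sft f (monomial x (coeff x y))) := by
    intro s
    induction s using Finset.induction_on with
    | empty =>
      intro _
      simpa using JH_zero N
    | insert a s ha ih =>
      intro hs
      rw [Finset.sum_insert ha]
      refine JH.add ?_ (ih fun x hx => hs (Finset.mem_insert_of_mem hx))
      have h1 := JH_sft_monomial f a (coeff a y)
      rwa [hy a (mem_support_iff.mp (hs (Finset.mem_insert_self a s)))] at h1
  exact this _ subset_rfl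

/-- coefficients of the shift of the top part -/
theorem coeff_sft_top (f : P → L) {N : ℤ} {y : MvPolynomial P F} (hy : TD N y) (α : L →₀ ℕ) :
    coeff α (sft f (top N y)) = top (N - ((α.degree : ℕ) : ℤ)) (coeff α (sft f y)) := by
  symm
  apply top_eq_of (JH_sft f (top_hom N y) α)
  have h1 : TD (N - 1 - ((α.degree : ℕ) : ℤ)) (coeff α (sft f (y - top N y))) :=
    JD_sft f hy.sub_top α
  rw [map_sub, coeff_sub] at h1
  exact h1.mono (by omega)

/-- setting the shift variables to zero -/
theorem coeff_zero_sft (f : P → L) (y : MvPolynomial P F) : coeff 0 (sft f y) = y := by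
  have h : (constantCoeff (R := MvPolynomial P F) (σ := L)).comp (sft f)
      = RingHom.id (MvPolynomial P F) := by
    apply MvPolynomial.ringHom_ext
    · intro r
      simp
    · intro a
      simp
  have h2 := RingHom.congr_fun h y
  simpa [constantCoeff_eq] using h2

/-! ## shift with coefficients modulo an ideal -/

/-- block shift modulo `J` -/
noncomputable def Esh (f : P → L) (J : Ideal (MvPolynomial P F)) :
    MvPolynomial P F →+* MvPolynomial L (MvPolynomial P F ⧸ J) :=
  (MvPolynomial.map (Ideal.Quotient.mk J)).comp (sft f)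

theorem Esh_apply (f : P → L) (J : Ideal (MvPolynomial P F)) (x : MvPolynomial P F) :
    Esh f J x = MvPolynomial.map (Ideal.Quotient.mk J) (sft f x) := rfl

@[simp] theorem Esh_C (f : P → L) (J : Ideal (MvPolynomial P F)) (r : F) :
    Esh f J (C r) = C (Ideal.Quotient.mk J (C r)) := by
  simp [Esh]

@[simp] theorem Esh_X (f : P → L) (J : Ideal (MvPolynomial P F)) (a : P) :
    Esh f J (X a) = C (Ideal.Quotient.mk J (X a)) + X (f a) := by
  simp [Esh]

theorem coeff_Esh (f : P → L) (J : Ideal (MvPolynomial P F)) (x : MvPolynomial P F)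
    (α : L →₀ ℕ) : coeff α (Esh f J x) = Ideal.Quotient.mk J (coeff α (sft f x)) := by
  rw [Esh_apply, coeff_map]

theorem coeff_zero_Esh (f : P → L) (J : Ideal (MvPolynomial P F)) (x : MvPolynomial P F) :
    coeff 0 (Esh f J x) = Ideal.Quotient.mk J x := by
  rw [coeff_Esh, coeff_zero_sft]

theorem Esh_eq_C_of_TD (f : P → L) (J : Ideal (MvPolynomial P F)) {x : MvPolynomial P F}
    (h : TD 0 (Esh f J x)) : Esh f J x = C (Ideal.Quotient.mk J x) := by
  classical
  ext α
  rw [coeff_C]
  split_ifs with h0
  · rw [← h0, coeff_zero_Esh]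
  · apply h.coeff_eq_zero
    have h1 : α.degree ≠ 0 := by
      rw [Ne, Finsupp.degree_eq_zero_iff]
      exact fun hc => h0 hc.symm
    omega

theorem mem_of_Esh_TD_neg (f : P → L) (J : Ideal (MvPolynomial P F)) {x : MvPolynomial P F}
    {m : ℤ} (hm : m < 0) (h : TD m (Esh f J x)) : x ∈ J := by
  have h0 := eq_zero_of_TD hm h
  have h1 := coeff_zero_Esh f J x
  rw [h0, coeff_zero] at h1
  exact Ideal.Quotient.eq_zero_iff_mem.mp h1.symm

/-- the ideal is killed by the block shift -/
def Kill (f : P → L) (J : Ideal (MvPolynomial P F)) : Prop := ∀ x ∈ J, Esh f J x = 0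

theorem Kill_span (f : P → L) (S : Set (MvPolynomial P F))
    (h : ∀ x ∈ S, sft f x = C x) : Kill f (Ideal.span S) := by
  intro x hx
  have : Ideal.span S ≤ RingHom.ker (Esh f (Ideal.span S)) := by
    rw [Ideal.span_le]
    intro y hy
    rw [SetLike.mem_coe, RingHom.mem_ker, Esh_apply, h y hy, map_C,
      Ideal.Quotient.eq_zero_iff_mem.mpr (Ideal.subset_span hy), C_0]
  exact RingHom.mem_ker.mp (this hx)

theorem Kill_of_le_ker {f : P → L} {J : Ideal (MvPolynomial P F)}
    (h : J ≤ RingHom.ker (Esh f J)) : Kill f J := fun _ hx => RingHom.mem_ker.mp (h hx)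

/-- DOUBLE SHIFT: fine shift of the coefficients of the coarse shift = coarse shift of the
variables of the fine shift. -/
theorem map_Esh_sft (f : P → L') (g : L' → L) (J : Ideal (MvPolynomial P F))
    (x : MvPolynomial P F) :
    MvPolynomial.map (Esh f J) (sft (g ∘ f) x) = sft g (Esh f J x) := by
  have h : (MvPolynomial.map (σ := L) (Esh f J)).comp (sft (g ∘ f))
      = (sft g).comp (Esh f J) := by
    apply MvPolynomial.ringHom_ext
    · intro r
      simp
    · intro a
      simp only [RingHom.comp_apply, sft_X, map_add, map_C, map_X, Esh_X, Function.comp_apply,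
        sft_C]
      ring
  exact RingHom.congr_fun h x

/-- REFINE: if the fine shift of `x` has degree `≤ N` then the fine shift of the coefficient
`α` of the coarse shift of `x` has degree `≤ N - |α|`. -/
theorem refine_TD (f : P → L') (g : L' → L) (J : Ideal (MvPolynomial P F))
    {x : MvPolynomial P F} {N : ℤ} (h : TD N (Esh f J x)) (α : L →₀ ℕ) :
    TD (N - ((α.degree : ℕ) : ℤ)) (Esh f J (coeff α (sft (g ∘ f) x))) := by
  have h1 := JD_sft g h α
  rw [← map_Esh_sft, coeff_map] at h1
  exact h1

/-- the same with the same labelling -/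
theorem refine_TD_self (f : P → L) (J : Ideal (MvPolynomial P F))
    {x : MvPolynomial P F} {N : ℤ} (h : TD N (Esh f J x)) (α : L →₀ ℕ) :
    TD (N - ((α.degree : ℕ) : ℤ)) (Esh f J (coeff α (sft f x))) :=
  refine_TD f id J h α

/-- COARSEN: if the coarse shift of `x` modulo `J' ≤ J` has degree `≤ M`, then the coefficients
`α`, `|α| > M`, of the coarse shift of (the variables of) the fine shift modulo `J` vanish. -/
theorem coarsen_zero (f : P → L') (g : L' → L) {J J' : Ideal (MvPolynomial P F)}
    (hJ : J' ≤ J) (hk : Kill f J) {x : MvPolynomial P F} {M : ℤ}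
    (h : TD M (Esh (g ∘ f) J' x)) (α : L →₀ ℕ) (hα : M < ((α.degree : ℕ) : ℤ)) :
    coeff α (sft g (Esh f J x)) = 0 := by
  rw [← map_Esh_sft, coeff_map]
  apply hk
  apply hJ
  have h1 := h.coeff_eq_zero hα
  rw [coeff_Esh] at h1
  exact Ideal.Quotient.eq_zero_iff_mem.mp h1

/-- COARSEN for the top part -/
theorem coarsen_zero_top (f : P → L') (g : L' → L) {J J' : Ideal (MvPolynomial P F)}
    (hJ : J' ≤ J) (hk : Kill f J) {x : MvPolynomial P F} {M m : ℤ}
    (h : TD M (Esh (g ∘ f) J' x)) (hm : TD m (Esh f J x)) (α : L →₀ ℕ)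
    (hα : M < ((α.degree : ℕ) : ℤ)) :
    coeff α (sft g (top m (Esh f J x))) = 0 := by
  rw [coeff_sft_top g hm, coarsen_zero f g hJ hk h α hα, top_zero]

/-- modulo a bigger ideal the degree does not increase -/
theorem TD_Esh_mono_ideal (f : P → L) {J J' : Ideal (MvPolynomial P F)} (hJ : J' ≤ J)
    {x : MvPolynomial P F} {N : ℤ} (h : TD N (Esh f J' x)) : TD N (Esh f J x) := by
  intro α hα
  apply h α
  intro hc
  apply hα
  rw [coeff_Esh] at hc ⊢
  exact Ideal.Quotient.eq_zero_iff_mem.mpr (hJ (Ideal.Quotient.eq_zero_iff_mem.mp hc))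

/-- the coarse degree is at most the fine degree modulo the same ideal -/
theorem TD_Esh_coarse (f : P → L') (g : L' → L) (J : Ideal (MvPolynomial P F))
    {x : MvPolynomial P F} {N : ℤ} (h : TD N (Esh f J x)) : TD N (Esh (g ∘ f) J x) := by
  intro α hα
  by_contra hc
  apply hα
  have h1 := refine_TD f g J h α
  have h2 := mem_of_Esh_TD_neg f J (by omega) h1
  rw [coeff_Esh]
  exact Ideal.Quotient.eq_zero_iff_mem.mpr h2

/-- relabelling of the shift -/
theorem rename_sft (f : P → L') (g : L' → L) (x : MvPolynomial P F) :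
    MvPolynomial.rename g (sft f x) = sft (g ∘ f) x := by
  have h : ((MvPolynomial.rename (R := MvPolynomial P F) g).toRingHom).comp (sft f)
      = sft (g ∘ f) := by
    apply MvPolynomial.ringHom_ext
    · intro r
      simp
    · intro a
      simp
  exact RingHom.congr_fun h x

theorem rename_Esh (f : P → L') (g : L' → L) (J : Ideal (MvPolynomial P F))
    (x : MvPolynomial P F) :
    MvPolynomial.rename g (Esh f J x) = Esh (g ∘ f) J x := by
  rw [Esh_apply, Esh_apply, ← rename_sft, map_rename]

/-- degree bound for a linear factor -/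
theorem TD_Esh_sub (f : P → L) (J : Ideal (MvPolynomial P F)) (a b : P) :
    TD 1 (Esh f J (X b - X a)) := by
  rw [map_sub, Esh_X, Esh_X]
  exact (((TD_C _).mono (by omega)).add (TD_X _)).sub (((TD_C _).mono (by omega)).add (TD_X _))

theorem top_Esh_sub (f : P → L) (J : Ideal (MvPolynomial P F)) (a b : P) :
    top 1 (Esh f J (X b - X a)) = X (f b) - X (f a) := by
  apply top_eq_of ((Hom_X _).sub (Hom_X _))
  rw [map_sub, Esh_X, Esh_X]
  have e : (C (Ideal.Quotient.mk J (X b)) + X (f b) - (C (Ideal.Quotient.mk J (X a)) + X (f a))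
      - (X (f b) - X (f a)) : MvPolynomial L (MvPolynomial P F ⧸ J))
      = C (Ideal.Quotient.mk J (X b)) - C (Ideal.Quotient.mk J (X a)) := by ring
  rw [e]
  exact ((TD_C _).sub (TD_C _)).mono (by omega)

theorem Esh_sub_eq (f : P → L) (J : Ideal (MvPolynomial P F)) {a b : P} (h : f a = f b) :
    Esh f J (X b - X a) = C (Ideal.Quotient.mk J (X b - X a)) := by
  rw [map_sub, Esh_X, Esh_X, h, map_sub, map_sub]
  ring

theorem sft_sub_eq (f : P → L) {a b : P} (h : f a = f b) :
    sft (F := F) f (X b - X a) = C (X b - X a) := by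
  rw [map_sub, sft_X, sft_X, h, map_sub]
  ring

end Crest.Agent.R059.Shift359
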