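import Mathlib
import Crest.Agent.R059.Shift_359

/-!
# Row 59, Theorem B (thin form): no poles

* `dvd_of_merge` : (COARSEN ⇒ divisibility) a homogeneous `T` of degree `m` whose coarse shift
  (labels `i`, `j` merged) has degree `≤ m - p` is divisible by `(X j - X i)^p`;
* `reg_sub` : `X j - X i` is a non zero divisor;
* `prod_dvd` : powers of differences for different pairs are coprime;
* `coeff_mem_of_mul` : if `q = ∏ (X j - X i)^p` and all coefficients of `q * t` are in a subspace
  `W`, then so are the coefficients of `t`.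
-/

open MvPolynomial

namespace Crest.Agent.R059.NoPole359

open Crest.Agent.R059.Deg359 Crest.Agent.R059.Shift359

variable {L B : Type*} [CommRing B]

section merge

variable [DecidableEq L]

/-- merge the label `j` into the label `i` -/
def mrg (i j : L) : L → L := fun l => if l = j then i else l

/-- inner specialization -/
noncomputable def kap (j : L) : MvPolynomial L B →+* Polynomial (MvPolynomial L B) :=
  eval₂Hom ((Polynomial.C : MvPolynomial L B →+* _).comp C)
    (fun l => if l = j then Polynomial.X else 0)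

/-- outer specialization -/
noncomputable def the (j : L) :
    MvPolynomial L (MvPolynomial L B) →+* Polynomial (MvPolynomial L B) :=
  eval₂Hom (kap j) (fun l => Polynomial.C (X l))

/-- `X j ↦ v + X i`, other variables fixed -/
noncomputable def chi (i j : L) : MvPolynomial L B →+* Polynomial (MvPolynomial L B) :=
  (the j).comp (sft (mrg i j))

theorem kap_C (j : L) (b : B) : kap j (C b) = Polynomial.C (C b) := by
  simp [kap]

theorem kap_X (j l : L) : kap (B := B) j (X l) = if l = j then Polynomial.X else 0 := by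
  simp [kap]

theorem chi_C (i j : L) (b : B) : chi i j (C b) = Polynomial.C (C b) := by
  rw [chi, RingHom.comp_apply, sft_C, the, coe_eval₂Hom, eval₂_C, kap_C]

theorem chi_X (i j l : L) : chi (B := B) i j (X l)
    = (if l = j then Polynomial.X else 0) + Polynomial.C (X (mrg i j l)) := by
  rw [chi, RingHom.comp_apply, sft_X, the, coe_eval₂Hom, eval₂_add, eval₂_C, eval₂_X, kap_X]

/-- evaluation at `v = X j - X i` is a left inverse of `chi` -/
theorem eval_chi (i j : L) (x : MvPolynomial L B) :
    (chi i j x).eval (X j - X i) = x := by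
  have h : (Polynomial.evalRingHom (X j - X i : MvPolynomial L B)).comp (chi i j)
      = RingHom.id _ := by
    apply MvPolynomial.ringHom_ext
    · intro r
      simp [chi_C]
    · intro l
      simp only [RingHom.comp_apply, chi_X, Polynomial.coe_evalRingHom, Polynomial.eval_add,
        Polynomial.eval_C, RingHom.id_apply, mrg]
      split_ifs with hl
      · rw [Polynomial.eval_X, hl]
        ring
      · rw [Polynomial.eval_zero, zero_add]
  exact RingHom.congr_fun h x

theorem chi_injective (i j : L) : Function.Injective (chi (B := B) i j) := by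
  intro x y hxy
  rw [← eval_chi i j x, hxy, eval_chi]

theorem kap_dvd (j : L) {n : ℤ} {c : MvPolynomial L B} (hc : Hom n c) {p : ℕ}
    (hp : (p : ℤ) ≤ n) : (Polynomial.X : Polynomial (MvPolynomial L B)) ^ p ∣ kap j c := by
  classical
  rw [c.as_sum, map_sum]
  refine Finset.dvd_sum fun β hβ => ?_
  have hdeg := hc β (mem_support_iff.mp hβ)
  rw [kap, coe_eval₂Hom, eval₂_monomial]
  apply Dvd.dvd.mul_left
  rw [Finsupp.prod]
  by_cases hb : ∃ l ∈ β.support, l ≠ j
  · obtain ⟨l, hl, hlj⟩ := hb
    have h0 : ∏ a ∈ β.support, (if a = j then (Polynomial.X : Polynomial (MvPolynomial L B))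
        else 0) ^ β a = 0 := by
      apply Finset.prod_eq_zero hl
      rw [if_neg hlj, zero_pow (Finsupp.mem_support_iff.mp hl)]
    rw [h0]
    exact dvd_zero _
  · push Not at hb
    have hβ' : β = Finsupp.single j (β j) := by
      ext l
      by_cases hl : l = j
      · rw [hl, Finsupp.single_eq_same]
      · rw [Finsupp.single_eq_of_ne hl]
        by_contra hne
        exact hl (hb l (Finsupp.mem_support_iff.mpr hne))
    have hd : β.degree = β j := by
      conv_lhs => rw [hβ']
      rw [Finsupp.degree_single]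
    have hpj : p ≤ β j := by
      rw [hd] at hdeg
      omega
    by_cases hz : β j = 0
    · have : p = 0 := by omega
      rw [this, pow_zero]
      exact one_dvd _
    · have hmem : j ∈ β.support := Finsupp.mem_support_iff.mpr hz
      refine dvd_trans ?_ (Finset.dvd_prod_of_mem _ hmem)
      rw [if_pos rfl]
      exact pow_dvd_pow _ hpj

/-- COARSEN ⇒ divisibility -/
theorem dvd_of_merge {i j : L} {T : MvPolynomial L B} {m M : ℤ} (hT : Hom m T)
    (h : ∀ α : L →₀ ℕ, M < ((α.degree : ℕ) : ℤ) → coeff α (sft (mrg i j) T) = 0)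
    {p : ℕ} (hp : (p : ℤ) ≤ m - M) : (X j - X i) ^ p ∣ T := by
  classical
  have h1 : (Polynomial.X : Polynomial (MvPolynomial L B)) ^ p ∣ chi i j T := by
    rw [chi, RingHom.comp_apply]
    conv_rhs => rw [(sft (mrg i j) T).as_sum]
    rw [map_sum]
    refine Finset.dvd_sum fun α _ => ?_
    rw [the, coe_eval₂Hom, eval₂_monomial]
    apply Dvd.dvd.mul_right
    by_cases hα : M < ((α.degree : ℕ) : ℤ)
    · rw [h α hα, map_zero]
      exact dvd_zero _
    · exact kap_dvd j (JH_sft (mrg i j) hT α) (by omega)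
  have h2 := map_dvd (Polynomial.evalRingHom (X j - X i : MvPolynomial L B)) h1
  rw [map_pow, Polynomial.coe_evalRingHom, Polynomial.eval_X] at h2
  rwa [eval_chi] at h2

end merge

/-- `X j - X i` is a non zero divisor -/
theorem reg_sub {i j : L} (hij : i ≠ j) {x : MvPolynomial L B} (h : (X j - X i) * x = 0) :
    x = 0 := by
  classical
  have h1 : chi i j ((X j - X i) * x) = 0 := by rw [h, map_zero]
  rw [map_mul, map_sub, chi_X, chi_X, if_pos rfl, if_neg hij, mrg, if_pos rfl, mrg, if_neg hij,
    zero_add, add_sub_cancel_right] at h1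
  have h2 : chi i j x = 0 := by
    have h3 := (Polynomial.monic_X (R := MvPolynomial L B)).isRegular.left
    exact h3 (by simpa using h1)
  exact chi_injective i j (by rw [h2, map_zero])

theorem reg_sub_pow {i j : L} (hij : i ≠ j) (n : ℕ) {x : MvPolynomial L B}
    (h : (X j - X i) ^ n * x = 0) : x = 0 := by
  induction n with
  | zero => simpa using h
  | succ n ih =>
    rw [pow_succ', mul_assoc] at h
    exact ih (reg_sub hij h)

theorem reg_prod (s : Finset (L × L)) (p : L × L → ℕ) (hs : ∀ x ∈ s, x.1 ≠ x.2)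
    {y : MvPolynomial L B} (h : (∏ x ∈ s, (X x.2 - X x.1) ^ p x) * y = 0) : y = 0 := by
  classical
  induction s using Finset.induction_on with
  | empty => simpa using h
  | insert a s ha ih =>
    rw [Finset.prod_insert ha, mul_assoc] at h
    exact ih (fun x hx => hs x (Finset.mem_insert_of_mem hx))
      (reg_sub_pow (hs a (Finset.mem_insert_self a s)) _ h)

theorem prod_left_cancel (s : Finset (L × L)) (p : L × L → ℕ) (hs : ∀ x ∈ s, x.1 ≠ x.2)
    {y z : MvPolynomial L B} (h : (∏ x ∈ s, (X x.2 - X x.1) ^ p x) * y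
      = (∏ x ∈ s, (X x.2 - X x.1) ^ p x) * z) : y = z := by
  rw [← sub_eq_zero] at h ⊢
  rw [← mul_sub] at h
  exact reg_prod s p hs h

section coprime

variable [DecidableEq L]

/-- identify the variable `l` with the variable `k` -/
noncomputable def idf (k l : L) : MvPolynomial L B →+* MvPolynomial L B :=
  eval₂Hom C (fun a => if a = l then X k else X a)

theorem idf_X (k l a : L) : idf (B := B) k l (X a) = if a = l then X k else X a := by
  simp [idf]

theorem dvd_sub_idf (k l : L) (x : MvPolynomial L B) : (X l - X k) ∣ x - idf k l x := by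
  rw [← Ideal.mem_span_singleton, ← Ideal.Quotient.eq_zero_iff_mem, map_sub, sub_eq_zero]
  have h : (Ideal.Quotient.mk (Ideal.span {X l - X k})).comp (idf k l)
      = Ideal.Quotient.mk (Ideal.span {(X l - X k : MvPolynomial L B)}) := by
    apply MvPolynomial.ringHom_ext
    · intro r
      simp [idf]
    · intro a
      rw [RingHom.comp_apply, idf_X]
      split_ifs with ha
      · rw [ha, ← sub_eq_zero, ← map_sub, Ideal.Quotient.eq_zero_iff_mem,
          Ideal.mem_span_singleton, ← neg_sub, neg_dvd]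
      · rfl
  exact (RingHom.congr_fun h x).symm

theorem dvd_of_dvd_mul_sub {i j k l : L} (hij : i ≠ j)
    (h1 : ¬(i = k ∧ j = l)) (h2 : ¬(i = l ∧ j = k)) {x : MvPolynomial L B}
    (h : (X l - X k) ∣ (X j - X i) * x) : (X l - X k) ∣ x := by
  have h0 : idf k l ((X j - X i) * x) = 0 := by
    obtain ⟨y, hy⟩ := h
    rw [hy, map_mul, map_sub, idf_X, idf_X, if_pos rfl]
    by_cases hkl : k = l
    · rw [if_pos hkl, sub_self, zero_mul]
    · rw [if_neg hkl, sub_self, zero_mul]
  have h3 : idf k l x = 0 := by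
    rw [map_mul, map_sub, idf_X, idf_X] at h0
    by_cases hj : j = l
    · have hi : i ≠ l := fun hc => hij (hc.trans hj.symm)
      rw [if_pos hj, if_neg hi] at h0
      refine reg_sub ?_ h0
      intro hc
      exact h1 ⟨hc, hj⟩
    · by_cases hi : i = l
      · rw [if_neg hj, if_pos hi] at h0
        refine reg_sub ?_ h0
        intro hc
        exact h2 ⟨hi, hc.symm⟩
      · rw [if_neg hj, if_neg hi] at h0
        exact reg_sub hij h0
  have h4 := dvd_sub_idf k l x
  rwa [h3, sub_zero] at h4

theorem pow_dvd_of_dvd_mul_sub {i j k l : L} (hij : i ≠ j) (hkl : k ≠ l)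
    (h1 : ¬(i = k ∧ j = l)) (h2 : ¬(i = l ∧ j = k)) (q : ℕ) {x : MvPolynomial L B}
    (h : (X l - X k) ^ q ∣ (X j - X i) * x) : (X l - X k) ^ q ∣ x := by
  induction q generalizing x with
  | zero =>
    rw [pow_zero]
    exact one_dvd _
  | succ q ih =>
    have h3 : (X l - X k) ∣ (X j - X i) * x := by
      refine dvd_trans ?_ h
      exact dvd_pow_self _ (Nat.succ_ne_zero q)
    obtain ⟨y, hy⟩ := dvd_of_dvd_mul_sub hij h1 h2 h3
    obtain ⟨z, hz⟩ := h
    have h4 : (X l - X k) * ((X j - X i) * y - (X l - X k) ^ q * z) = 0 := by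
      rw [hy, pow_succ] at hz
      linear_combination hz
    have h5 := reg_sub hkl h4
    have h6 : (X l - X k) ^ q ∣ (X j - X i) * y := ⟨z, sub_eq_zero.mp h5⟩
    rw [hy, pow_succ']
    exact mul_dvd_mul_left _ (ih h6)

theorem pow_dvd_of_dvd_mul_pow {i j k l : L} (hij : i ≠ j) (hkl : k ≠ l)
    (h1 : ¬(i = k ∧ j = l)) (h2 : ¬(i = l ∧ j = k)) (q n : ℕ) {x : MvPolynomial L B}
    (h : (X l - X k) ^ q ∣ (X j - X i) ^ n * x) : (X l - X k) ^ q ∣ x := by
  induction n with
  | zero => simpa using h
  | succ n ih =>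
    rw [pow_succ', mul_assoc] at h
    exact ih (pow_dvd_of_dvd_mul_sub hij hkl h1 h2 q h)

theorem pow_dvd_of_dvd_prod {k l : L} (hkl : k ≠ l) (s : Finset (L × L)) (p : L × L → ℕ)
    (hs : ∀ x ∈ s, x.1 ≠ x.2) (h1 : (k, l) ∉ s) (h2 : (l, k) ∉ s) (q : ℕ)
    {y : MvPolynomial L B}
    (h : (X l - X k) ^ q ∣ (∏ x ∈ s, (X x.2 - X x.1) ^ p x) * y) : (X l - X k) ^ q ∣ y := by
  induction s using Finset.induction_on with
  | empty => simpa using h
  | insert a s ha ih =>
    rw [Finset.prod_insert ha, mul_assoc] at h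
    refine ih (fun x hx => hs x (Finset.mem_insert_of_mem hx))
      (fun hc => h1 (Finset.mem_insert_of_mem hc)) (fun hc => h2 (Finset.mem_insert_of_mem hc)) ?_
    refine pow_dvd_of_dvd_mul_pow (hs a (Finset.mem_insert_self a s)) hkl ?_ ?_ q (p a) h
    · rintro ⟨e1, e2⟩
      exact h1 (by rw [← e1, ← e2]; exact Finset.mem_insert_self a s)
    · rintro ⟨e1, e2⟩
      exact h2 (by rw [← e1, ← e2]; exact Finset.mem_insert_self a s)

/-- powers of differences for different pairs are coprime -/
theorem prod_dvd (s : Finset (L × L)) (p : L × L → ℕ) (hs : ∀ x ∈ s, x.1 ≠ x.2)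
    (hs' : ∀ x ∈ s, (x.2, x.1) ∉ s) {T : MvPolynomial L B}
    (h : ∀ x ∈ s, (X x.2 - X x.1) ^ p x ∣ T) :
    (∏ x ∈ s, (X x.2 - X x.1) ^ p x) ∣ T := by
  induction s using Finset.induction_on with
  | empty => simp
  | insert a s ha ih =>
    obtain ⟨y, hy⟩ := ih (fun x hx => hs x (Finset.mem_insert_of_mem hx))
      (fun x hx hc => hs' x (Finset.mem_insert_of_mem hx) (Finset.mem_insert_of_mem hc))
      (fun x hx => h x (Finset.mem_insert_of_mem hx))
    have h1 := h a (Finset.mem_insert_self a s)
    rw [hy] at h1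
    have h2 : (X a.2 - X a.1) ^ p a ∣ y := by
      refine pow_dvd_of_dvd_prod (hs a (Finset.mem_insert_self a s)) s p
        (fun x hx => hs x (Finset.mem_insert_of_mem hx)) ha ?_ (p a) h1
      intro hc
      exact hs' a (Finset.mem_insert_self a s) (Finset.mem_insert_of_mem hc)
    rw [Finset.prod_insert ha, hy, mul_comm]
    exact mul_dvd_mul_left _ h2

end coprime

/-- multiplication by a homogeneous polynomial and homogeneous parts -/
theorem top_Hom_mul {d n : ℤ} {q : MvPolynomial L B} (hq : Hom d q) (t : MvPolynomial L B) :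
    top (d + n) (q * t) = q * top n t := by
  classical
  ext α
  rw [coeff_top]
  split_ifs with h
  · rw [coeff_mul, coeff_mul]
    refine Finset.sum_congr rfl fun x hx => ?_
    have h3 : x.1 + x.2 = α := Finset.HasAntidiagonal.mem_antidiagonal.mp hx
    by_cases h0 : coeff x.1 q = 0
    · rw [h0, zero_mul, zero_mul]
    · have h4 := hq _ h0
      rw [coeff_top, if_pos]
      rw [← h3, map_add, Nat.cast_add] at h
      omega
  · symm
    rw [coeff_mul]
    refine Finset.sum_eq_zero fun x hx => ?_
    have h3 : x.1 + x.2 = α := Finset.HasAntidiagonal.mem_antidiagonal.mp hx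
    by_cases h0 : coeff x.1 q = 0
    · rw [h0, zero_mul]
    · have h4 := hq _ h0
      rw [coeff_top, if_neg, mul_zero]
      intro hc
      apply h
      rw [← h3, map_add, Nat.cast_add, h4, hc]

theorem Hom_prod_sub (s : Finset (L × L)) (p : L × L → ℕ) :
    Hom (∑ x ∈ s, (p x : ℤ)) (∏ x ∈ s, (X x.2 - X x.1 : MvPolynomial L B) ^ p x) := by
  refine Hom.prod s _ _ fun x _ => ?_
  have := ((Hom_X (A := B) x.2).sub (Hom_X x.1)).pow (p x)
  rwa [mul_one] at this

/-- the quotient of a homogeneous polynomial by the product is homogeneous -/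
theorem Hom_of_prod_mul (s : Finset (L × L)) (p : L × L → ℕ) (hs : ∀ x ∈ s, x.1 ≠ x.2)
    {m : ℤ} {t : MvPolynomial L B}
    (h : Hom m ((∏ x ∈ s, (X x.2 - X x.1) ^ p x) * t)) :
    Hom (m - ∑ x ∈ s, (p x : ℤ)) t := by
  have h1 : top ((∑ x ∈ s, (p x : ℤ)) + (m - ∑ x ∈ s, (p x : ℤ)))
      ((∏ x ∈ s, (X x.2 - X x.1) ^ p x) * t)
      = (∏ x ∈ s, (X x.2 - X x.1) ^ p x) * top (m - ∑ x ∈ s, (p x : ℤ)) t :=
    top_Hom_mul (Hom_prod_sub s p) t
  rw [add_sub_cancel, top_of_Hom h] at h1
  rw [prod_left_cancel s p hs h1]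
  exact top_hom _ _

/-! ## coefficients in a subspace -/

section subspace

variable {F : Type*} [Field F] [Algebra F B]

/-- apply a linear functional to the coefficients -/
noncomputable def fct (φ : B →ₗ[F] F) (t : MvPolynomial L B) : MvPolynomial L F :=
  ∑ α ∈ t.support, monomial α (φ (coeff α t))

theorem coeff_fct (φ : B →ₗ[F] F) (t : MvPolynomial L B) (α : L →₀ ℕ) :
    coeff α (fct φ t) = φ (coeff α t) := by
  classical
  unfold fct
  rw [coeff_sum]
  simp_rw [coeff_monomial]
  rw [Finset.sum_ite_eq' t.support α (fun α => φ (coeff α t))]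
  split_ifs with h
  · rfl
  · rw [notMem_support_iff.mp h, map_zero]

theorem fct_map_mul (φ : B →ₗ[F] F) (q : MvPolynomial L F) (t : MvPolynomial L B) :
    fct φ (MvPolynomial.map (algebraMap F B) q * t) = q * fct φ t := by
  classical
  ext α
  rw [coeff_fct, coeff_mul, coeff_mul, map_sum]
  refine Finset.sum_congr rfl fun x _ => ?_
  rw [coeff_map, coeff_fct, ← Algebra.smul_def, map_smul, smul_eq_mul]

/-- coefficients in a subspace: division by the product -/
theorem coeff_mem_of_mul (W : Submodule F B) (s : Finset (L × L)) (p : L × L → ℕ)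
    (hs : ∀ x ∈ s, x.1 ≠ x.2) {t : MvPolynomial L B}
    (h : ∀ α, coeff α ((∏ x ∈ s, (X x.2 - X x.1) ^ p x) * t) ∈ W) (α : L →₀ ℕ) :
    coeff α t ∈ W := by
  classical
  by_contra hα
  obtain ⟨φ, hφ, hW⟩ := Submodule.exists_dual_map_eq_bot_of_notMem hα inferInstance
  have hq : (∏ x ∈ s, (X x.2 - X x.1 : MvPolynomial L B) ^ p x)
      = MvPolynomial.map (algebraMap F B) (∏ x ∈ s, (X x.2 - X x.1) ^ p x) := by
    rw [map_prod]
    refine Finset.prod_congr rfl fun x _ => ?_
    rw [map_pow, map_sub, map_X, map_X]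
  have h1 : (∏ x ∈ s, (X x.2 - X x.1 : MvPolynomial L F) ^ p x) * fct φ t = 0 := by
    rw [← fct_map_mul, ← hq]
    ext β
    rw [coeff_fct, coeff_zero]
    have h2 : φ (coeff β ((∏ x ∈ s, (X x.2 - X x.1) ^ p x) * t)) ∈ W.map φ :=
      Submodule.mem_map_of_mem (h β)
    rw [hW] at h2
    exact (Submodule.mem_bot F).mp h2
  have h3 := reg_prod s p hs h1
  have h4 := coeff_fct φ t α
  rw [h3, coeff_zero] at h4
  exact hφ h4.symm

end subspace

end Crest.Agent.R059.NoPole359
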