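/-
Row 59, TEAM THIN, leaf T2 (helper971): the double shift compatibility and its consequences
REFINE (the coefficients of the top part have small growth at a refinement) and
COARSEN (the top part is divisible by `(X j - X i)^p`), on helper613's `Thin0_613.lean`.
-/
import Crest.Agent.R059.Thin0_613

set_option autoImplicit false
set_option linter.unusedSectionVars false

namespace Crest.Agent.R059.ThinRef971

open MvPolynomial Finset Crest.Agent.R059.Thin613 Crest.Agent.R059.Deg359

variable {P : Type*} [Fintype P] [DecidableEq P]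
variable {F : Type*} [CommRing F]
variable {V : Type*} [AddCommGroup V] [LinearOrder V] [IsOrderedAddMonoid V]
variable {L : Type*} {L' : Type*}

/-! ### the shift homomorphism -/

section Shift

variable (arr : P → P → ℕ) (th : P → V)

@[simp] lemma sh_X (f : P → L) (a : P) :
    sh F arr th f (X a) = C (Ideal.Quotient.mk (JJ F arr th f) (X a)) + X (f a) := by
  simp [sh]

@[simp] lemma sh_C (f : P → L) (c : F) :
    sh F arr th f (C c) = C (Ideal.Quotient.mk (JJ F arr th f) (C c)) := by
  simp [sh]

lemma sh_sub (f : P → L) (a b : P) :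
    sh F arr th f (X b - X a) = C (Ideal.Quotient.mk (JJ F arr th f) (X b - X a))
      + (X (f b) - X (f a)) := by
  simp only [map_sub, sh_X]
  ring

/-- inside one block the kernel is not moved -/
lemma sh_KK_fib (f : P → L) {l : L} {S T : Finset P} (hS : S ⊆ fib f l) (hT : T ⊆ fib f l) :
    sh F arr th f (KK F arr S T) = C (Ideal.Quotient.mk (JJ F arr th f) (KK F arr S T)) := by
  unfold KK
  simp only [map_prod, map_pow]
  refine Finset.prod_congr rfl fun a ha => Finset.prod_congr rfl fun b hb => ?_
  have h1 : f a = l := by simpa using hS ha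
  have h2 : f b = l := by simpa using hT hb
  rw [sh_sub, h1, h2, sub_self, add_zero]

/-- `sh f` kills `JJ f` -/
lemma JJ_le_ker (f : P → L) : JJ F arr th f ≤ RingHom.ker (sh F arr th f) := by
  rw [JJ_le_iff]
  intro l T hT hw
  rw [RingHom.mem_ker, sh_KK_fib arr th f hT Finset.sdiff_subset,
    Ideal.Quotient.eq_zero_iff_mem.2 (KK_mem_JJ arr f l hT hw), map_zero]

/-- `sh f x = 0` iff `x ∈ JJ f` -/
lemma ker_sh (f : P → L) : RingHom.ker (sh F arr th f) = JJ F arr th f := by
  refine le_antisymm (fun x hx => ?_) (JJ_le_ker arr th f)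
  rw [RingHom.mem_ker] at hx
  -- evaluate at 0
  have key : ∀ y : MvPolynomial P F,
      MvPolynomial.eval₂Hom (RingHom.id (MvPolynomial P F ⧸ JJ F arr th f)) (fun _ => 0)
        (sh F arr th f y) = Ideal.Quotient.mk (JJ F arr th f) y := by
    intro y
    have : ((MvPolynomial.eval₂Hom (RingHom.id (MvPolynomial P F ⧸ JJ F arr th f))
        (fun _ : L => 0)).comp (sh F arr th f)) = Ideal.Quotient.mk (JJ F arr th f) := by
      refine MvPolynomial.ringHom_ext (fun c => ?_) (fun a => ?_)
      · simp
      · simp
    exact congrArg (fun φ : MvPolynomial P F →+* _ => φ y) this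
  have := key x
  rw [hx, map_zero] at this
  exact Ideal.Quotient.eq_zero_iff_mem.1 this.symm

lemma JJ_comp_le_ker (f : P → L') (g : L' → L) (hf : Good th f) :
    JJ F arr th (g ∘ f) ≤ RingHom.ker (sh F arr th f) :=
  (JJ_le_of_refine arr f g hf).trans (JJ_le_ker arr th f)

end Shift

/-! ### the double shift -/

section Double

variable (arr : P → P → ℕ) (th : P → V)

/-- the factorisation of `sh f` through `R / JJ (g ∘ f)` -/
noncomputable def shL (f : P → L') (g : L' → L) (hf : Good th f) :
    (MvPolynomial P F ⧸ JJ F arr th (g ∘ f)) →+*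
      MvPolynomial L' (MvPolynomial P F ⧸ JJ F arr th f) :=
  Ideal.Quotient.lift (JJ F arr th (g ∘ f)) (sh F arr th f)
    (fun _ hx => (RingHom.mem_ker).1 (JJ_comp_le_ker arr th f g hf hx))

@[simp] lemma shL_mk (f : P → L') (g : L' → L) (hf : Good th f) (x : MvPolynomial P F) :
    shL arr th f g hf (Ideal.Quotient.mk _ x) = sh F arr th f x := by
  simp [shL]

/-- the substitution `X l ↦ C (X l) + X (g l)`: the second shift by the coarse labels -/
noncomputable def dbl (A : Type*) [CommRing A] (g : L' → L) :
    MvPolynomial L' A →+* MvPolynomial L (MvPolynomial L' A) :=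
  MvPolynomial.eval₂Hom ((C : MvPolynomial L' A →+* _).comp C) (fun l => C (X l) + X (g l))

@[simp] lemma dbl_X (A : Type*) [CommRing A] (g : L' → L) (l : L') :
    dbl A g (X l) = C (X l) + X (g l) := by simp [dbl]

@[simp] lemma dbl_C (A : Type*) [CommRing A] (g : L' → L) (c : A) :
    dbl A g (C c) = C (C c) := by simp [dbl]

/-- **compatibility of the shifts**: coefficientwise `sh f` of `sh (g ∘ f) x` is `sh f x`
with `ζ_l + η_{g l}` put for `ζ_l`. -/
theorem dbl_sh (f : P → L') (g : L' → L) (hf : Good th f) (x : MvPolynomial P F) :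
    MvPolynomial.map (shL arr th f g hf) (sh F arr th (g ∘ f) x)
      = dbl _ g (sh F arr th f x) := by
  have : (MvPolynomial.map (shL arr th f g hf)).comp (sh F arr th (g ∘ f))
      = (dbl _ g).comp (sh F arr th f) := by
    refine MvPolynomial.ringHom_ext (fun c => ?_) (fun a => ?_)
    · simp
    · simp [add_assoc]
  exact congrArg (fun φ : MvPolynomial P F →+* _ => φ x) this

/-- all monomials `η^α ζ^β` have `|α| + |β| ≤ m`. -/
def TD2 {A : Type*} [CommRing A] (m : ℤ) (p : MvPolynomial L (MvPolynomial L' A)) : Prop :=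
  ∀ (α : L →₀ ℕ) (β : L' →₀ ℕ), coeff β (coeff α p) ≠ 0 →
    ((α.degree : ℕ) : ℤ) + ((β.degree : ℕ) : ℤ) ≤ m

section TD2

variable {A : Type*} [CommRing A] {m n : ℤ} {p q : MvPolynomial L (MvPolynomial L' A)}

lemma TD2.mono (h : TD2 m p) (hmn : m ≤ n) : TD2 n p := fun α β hc => (h α β hc).trans hmn

lemma TD2.zero : TD2 m (0 : MvPolynomial L (MvPolynomial L' A)) := by
  intro α β hc; simp at hc

lemma TD2.add (hp : TD2 m p) (hq : TD2 m q) : TD2 m (p + q) := by
  intro α β hc
  by_contra hcon
  apply hc
  have h1 : coeff β (coeff α p) = 0 := by by_contra h; exact hcon (hp α β h)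
  have h2 : coeff β (coeff α q) = 0 := by by_contra h; exact hcon (hq α β h)
  simp [h1, h2]

lemma TD2.sum {ι : Type*} (s : Finset ι) (t : ι → MvPolynomial L (MvPolynomial L' A))
    (h : ∀ i ∈ s, TD2 m (t i)) : TD2 m (∑ i ∈ s, t i) := by
  classical
  induction s using Finset.induction_on with
  | empty => simpa using TD2.zero
  | insert a s ha ih =>
    rw [Finset.sum_insert ha]
    exact (h a (Finset.mem_insert_self _ _)).add
      (ih fun i hi => h i (Finset.mem_insert_of_mem hi))

lemma TD2.mul (hp : TD2 m p) (hq : TD2 n q) : TD2 (m + n) (p * q) := by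
  classical
  intro α β hc
  rw [coeff_mul, coeff_sum] at hc
  obtain ⟨⟨a1, a2⟩, ha, hne⟩ := Finset.exists_ne_zero_of_sum_ne_zero hc
  rw [coeff_mul] at hne
  obtain ⟨⟨b1, b2⟩, hb, hne'⟩ := Finset.exists_ne_zero_of_sum_ne_zero hne
  simp only [HasAntidiagonal.mem_antidiagonal] at ha hb hne'
  have h1 := hp a1 b1 (fun h => hne' (by rw [h, zero_mul]))
  have h2 := hq a2 b2 (fun h => hne' (by rw [h, mul_zero]))
  rw [← ha, ← hb]
  simp only [map_add]
  push_cast
  linarith

lemma TD2.C_C (c : A) : TD2 0 (C (C c) : MvPolynomial L (MvPolynomial L' A)) := by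
  classical
  intro α β hc
  rw [coeff_C] at hc
  split_ifs at hc with h
  · rw [coeff_C] at hc
    split_ifs at hc with h'
    · subst h; subst h'; simp
    · exact absurd rfl hc
  · simp at hc

lemma TD2.C_X (l : L') : TD2 1 (C (X l) : MvPolynomial L (MvPolynomial L' A)) := by
  classical
  intro α β hc
  rw [coeff_C] at hc
  split_ifs at hc with h
  · rw [coeff_X] at hc
    split_ifs at hc with h'
    · subst h; subst h'; simp
    · exact absurd rfl hc
  · simp at hc

lemma TD2.Xo (l : L) : TD2 1 (X l : MvPolynomial L (MvPolynomial L' A)) := by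
  classical
  intro α β hc
  rw [coeff_X] at hc
  split_ifs at hc with h
  · have : (1 : MvPolynomial L' A) = C 1 := by simp
    rw [this, coeff_C] at hc
    split_ifs at hc with h'
    · subst h; subst h'; simp
    · exact absurd rfl hc
  · simp at hc

lemma TD2.one : TD2 0 (1 : MvPolynomial L (MvPolynomial L' A)) := by
  have := TD2.C_C (L := L) (L' := L') (A := A) 1
  simpa using this

lemma TD2.pow (hp : TD2 m p) (k : ℕ) : TD2 (k * m) (p ^ k) := by
  induction k with
  | zero => simpa using TD2.one
  | succ k ih =>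
    rw [pow_succ]
    refine (ih.mul hp).mono (le_of_eq ?_)
    push_cast; ring

lemma TD2.prod {ι : Type*} (s : Finset ι) (t : ι → MvPolynomial L (MvPolynomial L' A))
    (d : ι → ℤ) (h : ∀ i ∈ s, TD2 (d i) (t i)) : TD2 (∑ i ∈ s, d i) (∏ i ∈ s, t i) := by
  classical
  induction s using Finset.induction_on with
  | empty => simpa using TD2.one
  | insert a s ha ih =>
    rw [Finset.sum_insert ha, Finset.prod_insert ha]
    exact (h a (Finset.mem_insert_self _ _)).mul
      (ih fun i hi => h i (Finset.mem_insert_of_mem hi))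

lemma TD2.dbl_monomial (g : L' → L) (β : L' →₀ ℕ) (c : A) :
    TD2 (((β.degree : ℕ) : ℤ)) (dbl A g (monomial β c)) := by
  rw [monomial_eq, map_mul, dbl_C]
  have h1 : TD2 (L := L) ((β.degree : ℕ) : ℤ)
      (dbl A g (β.prod fun n e => X n ^ e)) := by
    rw [Finsupp.prod, map_prod]
    have := TD2.prod (L := L) (L' := L') (A := A) β.support
      (fun n => dbl A g (X n ^ β n)) (fun n => ((β n : ℕ) : ℤ)) (by
        intro n _
        rw [map_pow, dbl_X]
        have := ((TD2.C_X (L := L) (A := A) n).add (TD2.Xo (L' := L') (A := A) (g n))).pow (β n)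
        simpa using this)
    refine this.mono (le_of_eq ?_)
    rw [Finsupp.degree_apply]
    push_cast
    rfl
  have := (TD2.C_C (L := L) (L' := L') c).mul h1
  simpa using this

/-- the double substitution does not raise the total degree -/
lemma TD_dbl (g : L' → L) {y : MvPolynomial L' A} (hy : TD m y) :
    TD2 m (ThinRef971.dbl A g y) := by
  classical
  rw [y.as_sum, map_sum]
  refine TD2.sum _ _ fun β hβ => ?_
  exact (TD2.dbl_monomial g β _).mono (hy β (by simpa [mem_support_iff] using hβ))

end TD2

/-- **REFINE.** If the growth of `x` at the fine labelling `f` is at most `m`, then any coefficient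
`w` of `η^α` in the shift of `x` at the coarse labelling `g ∘ f` has growth at most
`m - |α|` at `f`. -/
theorem refine_coeff (f : P → L') (g : L' → L) (hf : Good th f) {m : ℤ}
    {x w : MvPolynomial P F} (hx : ud F arr th f m x) {α : L →₀ ℕ}
    (hw : Ideal.Quotient.mk (JJ F arr th (g ∘ f)) w = coeff α (sh F arr th (g ∘ f) x)) :
    ud F arr th f (m - ((α.degree : ℕ) : ℤ)) w := by
  intro β hβ
  have h2 := TD_dbl g hx α β
  rw [← dbl_sh arr th f g hf, coeff_map, ← hw, shL_mk] at h2
  have := h2 hβ
  linarith

/-- top coefficients have growth zero at the labelling itself -/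
theorem refine_self (f : P → L) (hf : Good th f) {m : ℤ}
    {x w : MvPolynomial P F} (hx : ud F arr th f m x) {α : L →₀ ℕ}
    (hw : Ideal.Quotient.mk (JJ F arr th f) w = coeff α (sh F arr th f x)) :
    ud F arr th f (m - ((α.degree : ℕ) : ℤ)) w :=
  refine_coeff arr th f id hf hx hw

/-- **COARSEN, first form.** If the growth of `x` at the coarse labelling `g ∘ f` is at most `m`,
then `sh f x` with `ζ_l + η_{g l}` put for `ζ_l` has `η`-degree at most `m`. -/
theorem coarsen_TD (f : P → L') (g : L' → L) (hf : Good th f) {m : ℤ}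
    {x : MvPolynomial P F} (hx : ud F arr th (g ∘ f) m x) :
    TD m (dbl _ g (sh F arr th f x)) := by
  intro α hα
  rw [← dbl_sh arr th f g hf, coeff_map] at hα
  exact hx α (fun h => hα (by rw [h, map_zero]))

end Double

end Crest.Agent.R059.ThinRef971
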