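/-
Row 59, TEAM THIN, leaves T2/T6 (helper971): the top part of the shift is divisible by the product
`∏_{i<j} (X j - X i)^{arrL i j}` as soon as the growth at all the mergings is small.
-/
import Crest.Agent.R059.Thin0_613
import Crest.Agent.R059.Deg_359
import Crest.Agent.R059.Shift_359
import Crest.Agent.R059.DivT_547
import Crest.Agent.R059.ThinRef_971

set_option autoImplicit false
set_option linter.unusedSectionVars false

namespace Crest.Agent.R059.ThinDiv971

open MvPolynomial Finset Crest.Agent.R059.Thin613 Crest.Agent.R059.Shift359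
  Crest.Agent.R059.DivT547

variable {P : Type*} [Fintype P] [DecidableEq P]
variable {F : Type*} [CommRing F]
variable {V : Type*} [AddCommGroup V] [LinearOrder V] [IsOrderedAddMonoid V]
variable {L : Type*} {L' : Type*}

/-! ### dictionary -/

lemma sh_eq_Esh (arr : P → P → ℕ) (th : P → V) (f : P → L) :
    sh F arr th f = Esh f (JJ F arr th f) := by
  refine MvPolynomial.ringHom_ext (fun c => ?_) (fun a => ?_)
  · simp
  · simp

lemma Hom_iff {A : Type*} [CommRing A] (n : ℕ) (p : MvPolynomial L A) :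
    Deg359.Hom (n : ℤ) p ↔ p.IsHomogeneous n := by
  constructor
  · intro h α hα
    have h2 : α.degree = n := by exact_mod_cast h α hα
    rw [Finsupp.degree_eq_weight_one] at h2
    exact h2
  · intro h α hα
    by_contra hc
    exact hα (h.coeff_eq_zero fun h' => hc (by rw [h']))

/-! ### the merging substitution -/

section Merge

variable [DecidableEq L] {A : Type*} [CommRing A]

/-- inner variables: `X j ↦ v`, the others to zero -/
noncomputable def rho1 (A : Type*) [CommRing A] (j : L) : MvPolynomial L A →+* Polynomial A :=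
  eval₂Hom Polynomial.C (fun l => if l = j then Polynomial.X else 0)

/-- outer variables are kept -/
noncomputable def rho (A : Type*) [CommRing A] (j : L) :
    MvPolynomial L (MvPolynomial L A) →+* Polynomial (MvPolynomial L A) :=
  eval₂Hom ((Polynomial.mapRingHom C).comp (rho1 A j)) (fun l => Polynomial.C (X l))

lemma rho_sft (i j : L) (y : MvPolynomial L A) :
    rho A j (sft (Function.update id j i) y) = psi i j y := by
  have : (rho A j).comp (sft (Function.update id j i)) = (psi i j).toRingHom := by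
    refine MvPolynomial.ringHom_ext (fun c => ?_) (fun l => ?_)
    · simp [rho, rho1, psi]
    · by_cases h : l = j
      · subst h
        simp [rho, rho1, psi, add_comm]
      · simp [rho, rho1, psi, h]
  exact congrArg (fun φ : MvPolynomial L A →+* _ => φ y) this

lemma coeff_rho (j : L) {M : ℤ} (z : MvPolynomial L (MvPolynomial L A))
    (hz : ∀ γ : L →₀ ℕ, M < ((γ.degree : ℕ) : ℤ) → coeff γ z = 0) (r : ℕ) (γ : L →₀ ℕ)
    (hγ : M < ((γ.degree : ℕ) : ℤ)) : coeff γ ((rho A j z).coeff r) = 0 := by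
  classical
  rw [z.as_sum, map_sum, Polynomial.finsetSum_coeff, coeff_sum]
  refine Finset.sum_eq_zero fun α hα => ?_
  have hαM : ((α.degree : ℕ) : ℤ) ≤ M := by
    by_contra h
    rw [mem_support_iff] at hα
    exact hα (hz α (by omega))
  have h1 : rho A j (monomial α (coeff α z))
      = Polynomial.map C (rho1 A j (coeff α z)) * Polynomial.C (monomial α 1) := by
    rw [rho, coe_eval₂Hom, eval₂_monomial]
    congr 1
    rw [monomial_eq, C_1, one_mul, Finsupp.prod, Finsupp.prod, map_prod]
    exact Finset.prod_congr rfl fun a _ => by rw [map_pow]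
  rw [h1, Polynomial.coeff_mul_C, Polynomial.coeff_map, C_mul_monomial, coeff_monomial, if_neg]
  rintro rfl
  omega

end Merge

/-- merging `j` into `i` -/
def mg [DecidableEq L] (i j : L) : L → L := Function.update id j i

/-- **T divisible, one pair.** -/
theorem merge_top [DecidableEq L] (arr : P → P → ℕ) (th : P → V) (f : P → L) (hf : Good th f)
    {i j : L} {m : ℤ} {p : ℕ} {x : MvPolynomial P F} (hx : ud F arr th f m x)
    (hx' : ud F arr th (mg i j ∘ f) (m - p) x) :
    (X j - X i) ^ p ∣ Deg359.top m (sh F arr th f x) := by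
  classical
  have hx1 : Deg359.TD m (Esh f (JJ F arr th f) x) := by
    have := hx
    rwa [ud, sh_eq_Esh] at this
  have hx2 : Deg359.TD (m - p) (Esh (mg i j ∘ f) (JJ F arr th (mg i j ∘ f)) x) := by
    have := hx'
    rwa [ud, sh_eq_Esh] at this
  have hJ : JJ F arr th (mg i j ∘ f) ≤ JJ F arr th f := JJ_le_of_refine arr f (mg i j) hf
  have hk : Kill f (JJ F arr th f) := by
    apply Kill_of_le_ker
    rw [← sh_eq_Esh]
    exact ThinRef971.JJ_le_ker arr th f
  rw [sh_eq_Esh]
  rcases lt_or_ge m 0 with hm | hm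
  · rw [Deg359.eq_zero_of_TD hm hx1, Deg359.top_zero]
    exact dvd_zero _
  obtain ⟨n, rfl⟩ := Int.eq_ofNat_of_zero_le hm
  have hhom : (Deg359.top (n : ℤ) (Esh f (JJ F arr th f) x)).IsHomogeneous n :=
    (Hom_iff n _).1 (Deg359.top_hom _ _)
  apply pow_dvd_of_coeff_psi
  intro r hr
  ext γ
  rw [coeff_zero]
  by_contra hne
  have h2 := psi_biHom hhom r γ hne
  apply hne
  rw [← rho_sft]
  apply coeff_rho (M := (n : ℤ) - p)
  · intro γ' hγ'
    exact coarsen_zero_top f (mg i j) hJ hk hx2 hx1 γ' hγ'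
  · omega

section Prod

variable [Fintype L] [LinearOrder L]

/-- arrows from block `i` to block `j` -/
noncomputable def arrL (arr : P → P → ℕ) (f : P → L) (i j : L) : ℕ :=
  ∑ a ∈ fib f i, ∑ b ∈ fib f j, arr a b

/-- the ordered pairs of labels -/
def prs (L : Type*) [Fintype L] [LinearOrder L] : Finset (L × L) :=
  univ.filter fun e => e.1 < e.2

@[simp] lemma mem_prs (e : L × L) : e ∈ prs L ↔ e.1 < e.2 := by simp [prs]

/-- `∑_{i<j} arrL i j` -/
noncomputable def arrS (arr : P → P → ℕ) (f : P → L) : ℕ := ∑ e ∈ prs L, arrL arr f e.1 e.2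

/-- `∏_{i<j} (X j - X i)^{arrL i j}` -/
noncomputable def dpr (A : Type*) [CommRing A] (arr : P → P → ℕ) (f : P → L) : MvPolynomial L A :=
  dprod A (prs L) fun e => arrL arr f e.1 e.2

lemma dpr_isHomogeneous (A : Type*) [CommRing A] (arr : P → P → ℕ) (f : P → L) :
    (dpr A arr f).IsHomogeneous (arrS arr f) :=
  dprod_isHomogeneous _ _

lemma prs_ne {e : L × L} (he : e ∈ prs L) : e.1 ≠ e.2 := by
  rw [mem_prs] at he
  exact he.ne

lemma dpr_mul_inj {A : Type*} [CommRing A] (arr : P → P → ℕ) (f : P → L)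
    {S S' : MvPolynomial L A} (h : dpr A arr f * S = dpr A arr f * S') : S = S' :=
  dprod_mul_inj _ _ (fun _ he => prs_ne he) h

/-- **T divisible, all pairs.** -/
theorem dpr_dvd_top (arr : P → P → ℕ) (th : P → V) (f : P → L) (hf : Good th f)
    {m : ℤ} {x : MvPolynomial P F} (hx : ud F arr th f m x)
    (hx' : ∀ i j : L, i < j → ud F arr th (mg i j ∘ f) (m - arrL arr f i j) x) :
    dpr _ arr f ∣ Deg359.top m (sh F arr th f x) := by
  refine dprod_dvd _ _ (fun e he => prs_ne he) ?_ ?_
  · intro e he e' he' h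
    rw [mem_prs] at he he'
    rw [Sym2.eq_iff] at h
    rcases h with ⟨h1, h2⟩ | ⟨h1, h2⟩
    · exact Prod.ext h1 h2
    · rw [h1, h2] at he
      exact absurd he (lt_asymm he')
  · intro e he
    rw [mem_prs] at he
    exact merge_top arr th f hf hx (hx' e.1 e.2 he)

/-- **T_b = ∏ · t** with `t` homogeneous of degree `m - ∑_{i<j} arrL i j`. -/
theorem top_factor (arr : P → P → ℕ) (th : P → V) (f : P → L) (hf : Good th f)
    {m : ℤ} {x : MvPolynomial P F} (hx : ud F arr th f m x)
    (hx' : ∀ i j : L, i < j → ud F arr th (mg i j ∘ f) (m - arrL arr f i j) x) :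
    ∃ t : MvPolynomial L (MvPolynomial P F ⧸ JJ F arr th f),
      Deg359.Hom (m - arrS arr f) t ∧
        Deg359.top m (sh F arr th f x) = dpr _ arr f * t := by
  have hd := dpr_dvd_top arr th f hf hx hx'
  rcases lt_or_ge m (arrS arr f : ℤ) with hm | hm
  · refine ⟨0, Deg359.Hom_zero _, ?_⟩
    rw [mul_zero]
    rcases lt_or_ge m 0 with hm0 | hm0
    · rw [Deg359.eq_zero_of_TD hm0 hx, Deg359.top_zero]
    · obtain ⟨n, rfl⟩ := Int.eq_ofNat_of_zero_le hm0
      exact eq_zero_of_dvd_of_lt (dpr_isHomogeneous _ arr f)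
        ((Hom_iff n _).1 (Deg359.top_hom _ _)) (by exact_mod_cast hm) hd
  · obtain ⟨n, hn⟩ := Int.eq_ofNat_of_zero_le (sub_nonneg.2 hm)
    have hmn : m = ((arrS arr f + n : ℕ) : ℤ) := by push_cast; omega
    subst hmn
    obtain ⟨t, ht, h⟩ := exists_homogeneous_quotient (dpr_isHomogeneous _ arr f)
      ((Hom_iff _ _).1 (Deg359.top_hom _ _)) hd
    refine ⟨t, ?_, h⟩
    have h2 := (Hom_iff _ _).2 ht
    rw [hn]
    exact h2

end Prod

/-! ### counting arrows after merging -/

theorem N2_merge [DecidableEq L] (arr : P → P → ℕ) (th : P → V) (hS : Sym arr th) (f : P → L)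
    (hf : Good th f) {i j : L} (hij : i ≠ j) :
    N2 arr (mg i j ∘ f) + 2 * (∑ a ∈ fib f i, ∑ b ∈ fib f j, arr a b) = N2 arr f := by
  classical
  have hdis : Disjoint (fib f i) (fib f j) := by
    rw [Finset.disjoint_left]
    intro a ha hb
    rw [mem_fib] at ha hb
    exact hij (ha.symm.trans hb)
  have hs := hS (fib f i) (fib f j) hdis (hf i) (hf j)
  have h1 : ∀ (s t : L), ∑ a ∈ fib f s, ∑ b ∈ fib f t, arr a b
      = ∑ a, ∑ b, if f a = s ∧ f b = t then arr a b else 0 := by
    intro s t
    unfold fib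
    rw [Finset.sum_filter]
    refine Finset.sum_congr rfl fun a _ => ?_
    rw [Finset.sum_filter]
    by_cases ha : f a = s
    · rw [if_pos ha]
      refine Finset.sum_congr rfl fun b _ => ?_
      by_cases hb : f b = t <;> simp [ha, hb]
    · simp [ha]
  have h2 : ∑ a ∈ fib f i, ∑ b ∈ fib f j, arr b a
      = ∑ a ∈ fib f j, ∑ b ∈ fib f i, arr a b := Finset.sum_comm
  rw [two_mul]
  conv_lhs => rw [← add_assoc]; arg 2; rw [hs, h2]
  rw [h1, h1]
  unfold N2
  rw [← Finset.sum_add_distrib, ← Finset.sum_add_distrib]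
  refine Finset.sum_congr rfl fun a _ => ?_
  rw [← Finset.sum_add_distrib, ← Finset.sum_add_distrib]
  refine Finset.sum_congr rfl fun b _ => ?_
  by_cases ha : f a = j
  · by_cases hb : f b = j
    · simp [mg, ha, hb, Ne.symm hij]
    · by_cases hb' : f b = i
      · simp [mg, ha, hb', hij, Ne.symm hij]
      · simp [mg, ha, hb, hb', Ne.symm hij, Ne.symm hb', Ne.symm hb]
  · by_cases hb : f b = j
    · by_cases ha' : f a = i
      · simp [mg, hb, ha', hij, Ne.symm hij]
      · simp [mg, ha, hb, ha', Ne.symm hij]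
    · simp [mg, ha, hb]

end Crest.Agent.R059.ThinDiv971
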