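/-
Row 59, TEAM THIN, leaf T6 (helper226): HALF 1 of Theorem B in the thin model.

`GG k s` : growth `≤ NF f + k` at every good labelling `f`, and `≤ NF f + k - 1` if `f` has at
least `s` blocks.
* `exists_symbol` : for `x ∈ GG k (s+1)` and a good surjective `b : P → Fin s` the top part (degree
  `NF b + k`) of the shift of `x` at `b` is `∏_{i<j} (X j - X i)^{arrL i j} * t`, `t` homogeneous
  of degree `k` with coefficients in `V_b`; `t` is unique.
* `mem_GG_iff` : all top parts at the labellings with `s` blocks vanish iff `x ∈ GG k s`.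
* `onto` : every `t` occurs, with zero top part at the other partitions with `s` blocks.
* `GG_zero`, `mem_GG_of_homogeneous`, `GG_J0` : both ends of the filtration.
-/
import Mathlib
import Crest.Agent.R059.Thin4c_613
import Crest.Agent.R059.ThinDiv_971
import Crest.Agent.R059.NoPole_359

set_option autoImplicit false
set_option linter.unusedSectionVars false

namespace Crest.Agent.R059.Half1

open MvPolynomial Finset Crest.Agent.R059.Thin613 Crest.Agent.R059.Shift359
  Crest.Agent.R059.ThinDiv971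

variable {P : Type*} [Fintype P] [DecidableEq P]
variable {F : Type*} [Field F]
variable {V : Type*} [AddCommGroup V] [LinearOrder V] [IsOrderedAddMonoid V]
variable {L : Type*} {L' : Type*}

lemma good_comp {th : P → V} {c : P → L} (hc : Good th c) (g : L → L') : Good th (g ∘ c) := by
  classical
  intro l
  unfold wt
  rw [← Finset.sum_fiberwise_of_maps_to (s := fib (g ∘ c) l) (t := univ.image c) (g := c)
    (fun a _ => Finset.mem_image_of_mem _ (Finset.mem_univ a)) th]
  refine Finset.sum_eq_zero fun m _ => ?_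
  by_cases hm : g m = l
  · have := hc m
    unfold wt at this
    rw [← this]
    refine Finset.sum_congr ?_ fun _ _ => rfl
    ext a
    simp only [Finset.mem_filter, mem_fib, Function.comp_apply]
    constructor
    · exact fun h => h.2
    · exact fun h => ⟨by rw [h, hm], h⟩
  · rw [Finset.filter_eq_empty_iff.2]
    · simp
    · intro a ha hcm
      simp only [mem_fib, Function.comp_apply] at ha
      exact hm (hcm ▸ ha)

/-! ### block count -/

/-- the number of nonempty blocks -/
noncomputable def bc (f : P → L) : ℕ := (univ.image fun a => fib f (f a)).card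

/-- a map factors through a surjective finer labelling -/
lemma exists_comp {c : P → L} (hc : Function.Surjective c) {f' : P → L'}
    (h : Fine c f') : ∃ g : L → L', f' = g ∘ c :=
  ⟨f' ∘ Function.surjInv hc, by
    ext a
    exact (h _ _ (Function.surjInv_eq hc (c a))).symm⟩

lemma bc_congr {f : P → L} {g : P → L'} (h : Same f g) : bc f = bc g := by
  unfold bc
  congr 1
  refine Finset.image_congr fun a _ => fib_eq_of_same h a

lemma bc_of_surj {n : ℕ} {c : P → Fin n} (hc : Function.Surjective c) : bc c = n := by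
  have h1 : (univ.image fun a => fib c (c a)) = univ.image (fib c) := by
    ext B
    simp only [Finset.mem_image, Finset.mem_univ, true_and]
    constructor
    · rintro ⟨a, rfl⟩
      exact ⟨c a, rfl⟩
    · rintro ⟨l, rfl⟩
      obtain ⟨a, rfl⟩ := hc l
      exact ⟨a, rfl⟩
  unfold bc
  rw [h1, Finset.card_image_of_injective, Finset.card_univ, Fintype.card_fin]
  intro i j hij
  obtain ⟨a, rfl⟩ := hc i
  have : a ∈ fib c j := by rw [← hij]; simp
  simpa using this

lemma le_of_fine {m n : ℕ} {c : P → Fin m} {d : P → Fin n} (hc : Function.Surjective c)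
    (hd : Function.Surjective d) (h : Fine c d) : n ≤ m := by
  obtain ⟨e, rfl⟩ := exists_comp hc h
  have : Function.Surjective e := Function.Surjective.of_comp hd
  simpa using Fintype.card_le_of_surjective e this

lemma bc_le_of_fine {f : P → L} {g : P → L'} (h : Fine f g) : bc g ≤ bc f := by
  obtain ⟨m, c, hc, hfc⟩ := exists_same_Fin f
  obtain ⟨n, d, hd, hgd⟩ := exists_same_Fin g
  rw [bc_congr hfc, bc_congr hgd, bc_of_surj hc, bc_of_surj hd]
  exact le_of_fine hc hd fun a b hab => (hgd a b).1 (h a b ((hfc a b).2 hab))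

lemma fine_of_bc_le {f : P → L} {g : P → L'} (h : Fine f g) (hb : bc f ≤ bc g) : Fine g f := by
  obtain ⟨m, c, hc, hfc⟩ := exists_same_Fin f
  obtain ⟨n, d, hd, hgd⟩ := exists_same_Fin g
  rw [bc_congr hfc, bc_congr hgd, bc_of_surj hc, bc_of_surj hd] at hb
  have hcd : Fine c d := fun a b hab => (hgd a b).1 (h a b ((hfc a b).2 hab))
  obtain rfl : m = n := le_antisymm hb (le_of_fine hc hd hcd)
  obtain ⟨e, rfl⟩ := exists_comp hc hcd
  have he : Function.Surjective e := Function.Surjective.of_comp hd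
  have hi : Function.Injective e := Finite.injective_iff_surjective.2 he
  intro a b hab
  exact (hfc a b).2 (hi ((hgd a b).1 hab))

lemma bc_lt_of_fine {f : P → L} {g : P → L'} (h : Fine f g) (hn : ¬ Fine g f) : bc g < bc f := by
  by_contra hlt
  exact hn (fine_of_bc_le h (not_lt.1 hlt))

lemma bc_le_card (f : P → L) : bc f ≤ Fintype.card P := by
  unfold bc
  exact Finset.card_image_le

/-! ### the filtration -/

section defs

variable (F) (arr : P → P → ℕ) (th : P → V)

/-- growth `≤ NF f + k` at every good `f`, `≤ NF f + k - 1` if `f` has at least `s` blocks -/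
noncomputable def GG (k : ℤ) (s : ℕ) : Submodule F (MvPolynomial P F) where
  carrier := {x | ∀ f : P → P, Good th f → ud F arr th f ((NF arr f : ℤ) + k) x ∧
    (s ≤ bc f → ud F arr th f ((NF arr f : ℤ) + k - 1) x)}
  zero_mem' := fun f _ => ⟨ud_zero arr th f _, fun _ => ud_zero arr th f _⟩
  add_mem' := fun {x y} hx hy f hf => ⟨ud_add arr th f (hx f hf).1 (hy f hf).1,
    fun h => ud_add arr th f ((hx f hf).2 h) ((hy f hf).2 h)⟩
  smul_mem' := fun c x hx f hf => by
    have key : ∀ m : ℤ, ud F arr th f m x → ud F arr th f m (c • x) := by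
      intro m h
      rw [MvPolynomial.smul_eq_C_mul]
      have := ud_mul arr th f (ud_C arr th f c) h
      rwa [zero_add] at this
    exact ⟨key _ (hx f hf).1, fun h => key _ ((hx f hf).2 h)⟩

/-- `{w | InV b w}` as a subspace of the polynomial ring -/
noncomputable def VV (b : P → L) : Submodule F (MvPolynomial P F) where
  carrier := {w | InV F arr th b w}
  zero_mem' := fun g _ _ => ⟨ud_zero arr th g _, fun _ => ud_zero arr th g _⟩
  add_mem' := fun {x y} hx hy g hg hgf => ⟨ud_add arr th g (hx g hg hgf).1 (hy g hg hgf).1,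
    fun h => ud_add arr th g ((hx g hg hgf).2 h) ((hy g hg hgf).2 h)⟩
  smul_mem' := fun c x hx f hf hfb => by
    have key : ∀ m : ℤ, ud F arr th f m x → ud F arr th f m (c • x) := by
      intro m h
      rw [MvPolynomial.smul_eq_C_mul]
      have := ud_mul arr th f (ud_C arr th f c) h
      rwa [zero_add] at this
    exact ⟨key _ (hx f hf hfb).1, fun h => key _ ((hx f hf hfb).2 h)⟩

/-- the class map, `F`-linear -/
noncomputable def qm (b : P → L) : MvPolynomial P F →ₗ[F] (MvPolynomial P F ⧸ JJ F arr th b) :=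
  (Ideal.Quotient.mkₐ F (JJ F arr th b)).toLinearMap

end defs

@[simp] lemma qm_apply (arr : P → P → ℕ) (th : P → V) (b : P → L) (x : MvPolynomial P F) :
    qm F arr th b x = Ideal.Quotient.mk (JJ F arr th b) x := rfl

lemma mem_VV {arr : P → P → ℕ} {th : P → V} {b : P → L} {w : MvPolynomial P F} :
    w ∈ VV F arr th b ↔ InV F arr th b w := Iff.rfl

lemma JJ_le_VV {arr : P → P → ℕ} {th : P → V} {b : P → L} {w : MvPolynomial P F}
    (hw : w ∈ JJ F arr th b) : w ∈ VV F arr th b := fun g hg hgb =>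
  ⟨ud_of_mem arr th g _ (JJ_le_of_fine arr hgb hg hw),
    fun _ => ud_of_mem arr th g _ (JJ_le_of_fine arr hgb hg hw)⟩

lemma ud_smul (arr : P → P → ℕ) (th : P → V) (f : P → L) {m : ℤ} (c : F)
    {x : MvPolynomial P F} (h : ud F arr th f m x) : ud F arr th f m (c • x) := by
  rw [MvPolynomial.smul_eq_C_mul]
  have := ud_mul arr th f (ud_C arr th f c) h
  rwa [zero_add] at this

lemma ud_le {arr : P → P → ℕ} {th : P → V} {k : ℤ} {s : ℕ} {x : MvPolynomial P F}
    (hx : x ∈ GG F arr th k s) {f : P → L} (hf : Good th f) :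
    ud F arr th f ((NF arr f : ℤ) + k) x := by
  obtain ⟨g, hg⟩ := exists_same_P f
  rw [ud_congr arr th hg, NF_congr arr hg]
  exact (hx g (hf.congr hg)).1

lemma ud_lt {arr : P → P → ℕ} {th : P → V} {k : ℤ} {s : ℕ} {x : MvPolynomial P F}
    (hx : x ∈ GG F arr th k s) {f : P → L} (hf : Good th f) (hs : s ≤ bc f) :
    ud F arr th f ((NF arr f : ℤ) + k - 1) x := by
  obtain ⟨g, hg⟩ := exists_same_P f
  rw [ud_congr arr th hg, NF_congr arr hg]
  exact (hx g (hf.congr hg)).2 (by rwa [← bc_congr hg])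

/-- membership may be tested on the surjective labellings `P → Fin n` -/
lemma mem_GG_of_Fin {arr : P → P → ℕ} {th : P → V} {k : ℤ} {s : ℕ} {x : MvPolynomial P F}
    (h : ∀ (n : ℕ) (f : P → Fin n), Function.Surjective f → Good th f →
      ud F arr th f ((NF arr f : ℤ) + k) x ∧
        (s ≤ n → ud F arr th f ((NF arr f : ℤ) + k - 1) x)) :
    x ∈ GG F arr th k s := by
  intro f hf
  obtain ⟨n, c, hc, hfc⟩ := exists_same_Fin f
  rw [ud_congr arr th hfc, ud_congr arr th hfc, NF_congr arr hfc, bc_congr hfc, bc_of_surj hc]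
  exact h n c hc (hf.congr hfc)

lemma GG_mono {arr : P → P → ℕ} {th : P → V} {k k' : ℤ} {s s' : ℕ} (h : k < k' ∨ (k = k' ∧ s ≤ s')) :
    GG F arr th k s ≤ GG F arr th k' s' := by
  intro x hx f hf
  rcases h with h | ⟨rfl, h⟩
  · exact ⟨ud_mono arr th f (by omega) (hx f hf).1,
      fun _ => ud_mono arr th f (by omega) (hx f hf).1⟩
  · exact ⟨(hx f hf).1, fun h' => (hx f hf).2 (h.trans h')⟩

/-- `GG k 0 = GG (k-1) s` for `s > card P` -/
theorem GG_zero {arr : P → P → ℕ} {th : P → V} (k : ℤ) {s : ℕ} (hs : Fintype.card P < s) :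
    GG F arr th k 0 = GG F arr th (k - 1) s := by
  apply le_antisymm
  · intro x hx f hf
    have h1 := (hx f hf).2 (Nat.zero_le _)
    refine ⟨ud_mono arr th f (by omega) h1, fun h => ?_⟩
    exact absurd (lt_of_lt_of_le hs (h.trans (bc_le_card f))) (lt_irrefl _)
  · exact GG_mono (Or.inl (by omega))

/-- the bottom of the filtration is `J0` -/
theorem GG_bot {arr : P → P → ℕ} {th : P → V} (hP : wt th univ = 0) :
    GG F arr th 0 0 = (J0 F arr th univ).restrictScalars F := by
  apply le_antisymm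
  · intro x hx
    have hg : Good th (fun _ : P => ()) := by
      intro l
      have : fib (fun _ : P => ()) l = univ := by ext a; simp
      rw [this, hP]
    have h1 := ud_lt hx hg (Nat.zero_le _)
    rw [NF_const] at h1
    have h2 := (ud_neg_iff arr th (fun _ : P => ()) (by norm_num)).1 h1
    rw [JJ_const] at h2
    exact h2
  · intro x hx f hf
    have h1 : x ∈ JJ F arr th f := by
      refine JJ_le_of_fine (g := fun _ : P => ()) arr (fun _ _ _ => rfl) hf ?_
      rw [JJ_const]
      exact hx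
    exact ⟨ud_of_mem arr th f _ h1, fun _ => ud_of_mem arr th f _ h1⟩

/-- `J0` lies in all the pieces with `k ≥ 0` -/
theorem J0_le_GG {arr : P → P → ℕ} {th : P → V} (k : ℤ) (s : ℕ) {x : MvPolynomial P F}
    (hx : x ∈ J0 F arr th univ) : x ∈ GG F arr th k s := by
  intro f hf
  have h1 : x ∈ JJ F arr th f := by
    refine JJ_le_of_fine (g := fun _ : P => ()) arr (fun _ _ _ => rfl) hf ?_
    rw [JJ_const]
    exact hx
  exact ⟨ud_of_mem arr th f _ h1, fun _ => ud_of_mem arr th f _ h1⟩

lemma ud_of_TD {arr : P → P → ℕ} {th : P → V} {f : P → L} {n : ℤ} {x : MvPolynomial P F}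
    (hx : Deg359.TD n x) : ud F arr th f n x := by
  rw [ud, sh_eq_Esh]
  intro α hα
  rw [coeff_Esh] at hα
  by_contra hlt
  apply hα
  have h1 := JD_sft f hx α
  rw [Deg359.eq_zero_of_TD (by omega) h1, map_zero]

/-- exhaustion -/
theorem mem_GG_of_TD {arr : P → P → ℕ} {th : P → V} {n : ℤ} {x : MvPolynomial P F}
    (hx : Deg359.TD n x) (s : ℕ) : x ∈ GG F arr th (n + 1) s := fun f _ =>
  ⟨ud_mono arr th f (by omega) (ud_of_TD hx), fun _ => ud_mono arr th f (by omega) (ud_of_TD hx)⟩

/-! ### counting the arrows -/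

section lin
variable [Fintype L] [LinearOrder L]

lemma prod_fiberwise {M : Type*} [CommMonoid M] (b : P → L) (φ : P → P → M) :
    ∏ x ∈ (univ : Finset (P × P)).filter (fun x => b x.1 < b x.2), φ x.1 x.2 =
      ∏ e ∈ prs L, ∏ a ∈ fib b e.1, ∏ c ∈ fib b e.2, φ a c := by
  classical
  rw [← Finset.prod_fiberwise_of_maps_to
    (s := (univ : Finset (P × P)).filter (fun x => b x.1 < b x.2))
    (t := prs L) (g := fun x => (b x.1, b x.2))]
  · refine Finset.prod_congr rfl fun e he => ?_
    rw [← Finset.prod_product']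
    refine Finset.prod_congr ?_ fun _ _ => rfl
    ext ⟨a, c⟩
    rw [mem_prs] at he
    simp only [Finset.mem_filter, Finset.mem_univ, true_and, Finset.mem_product, mem_fib,
      Prod.ext_iff]
    constructor
    · rintro ⟨_, h1, h2⟩; exact ⟨h1, h2⟩
    · rintro ⟨h1, h2⟩
      exact ⟨by rw [h1, h2]; exact he, h1, h2⟩
  · rintro ⟨a, c⟩ hx
    simp only [Finset.mem_filter, Finset.mem_univ, true_and] at hx
    rw [mem_prs]
    exact hx

lemma NR_eq_arrS (arr : P → P → ℕ) (b : P → L) :
    NR arr (fun a c => b a < b c) = arrS arr b := by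
  classical
  have h := prod_fiberwise (M := Multiplicative ℕ) b (fun a c => Multiplicative.ofAdd (arr a c))
  have h2 := congrArg Multiplicative.toAdd h
  simp only [toAdd_prod, toAdd_ofAdd] at h2
  unfold NR arrS arrL
  convert h2

lemma NF_eq_arrS {arr : P → P → ℕ} {th : P → V} (hs : Sym arr th) {b : P → L} (hb : Good th b) :
    NF arr b = arrS arr b := by
  rw [NF_eq arr hs hb, NR_eq_arrS]

lemma DP_eq_dpr (A : Type*) [CommRing A] (arr : P → P → ℕ) (b : P → L) :
    DP A arr b = dpr A arr b := by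
  classical
  unfold DP dpr DivT547.dprod arrL
  rw [prod_fiberwise b (fun a c => (X (b c) - X (b a) : MvPolynomial L A) ^ arr a c)]
  refine Finset.prod_congr rfl fun e _ => ?_
  rw [← Finset.prod_pow_eq_pow_sum]
  refine Finset.prod_congr rfl fun a ha => ?_
  rw [← Finset.prod_pow_eq_pow_sum]
  refine Finset.prod_congr rfl fun c hc => ?_
  rw [mem_fib] at ha hc
  rw [ha, hc]

lemma NF_mg {arr : P → P → ℕ} {th : P → V} (hs : Sym arr th) {b : P → L} (hb : Good th b)
    {i j : L} (hij : i < j) : NF arr (mg i j ∘ b) + arrL arr b i j = NF arr b := by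
  have h1 := N2_merge arr th hs b hb hij.ne
  have hg : Good th (mg i j ∘ b) := good_comp hb _
  have h2 := two_mul_NF arr hs hb
  have h3 := two_mul_NF arr hs hg
  unfold arrL
  omega

end lin

/-! ### values -/

/-- REFINE for arbitrary labels -/
lemma ud_coeff {arr : P → P → ℕ} {th : P → V} {g : P → L'} {b : P → L} (hgb : Fine g b) {N : ℤ}
    {x : MvPolynomial P F} (h : ud F arr th g N x) (α : L →₀ ℕ) :
    ud F arr th g (N - ((α.degree : ℕ) : ℤ)) (coeff α (sft b x)) := by
  obtain ⟨m, c, hc, hsame⟩ := exists_same_Fin g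
  rw [ud_congr arr th hsame] at h ⊢
  obtain ⟨e, rfl⟩ := exists_comp hc (f' := b) (fun a b' hab => hgb a b' ((hsame a b').2 hab))
  rw [ud, sh_eq_Esh] at h ⊢
  exact refine_TD c e (JJ F arr th c) h α

theorem coeff_mem_VV {arr : P → P → ℕ} {th : P → V} {k : ℤ} {s : ℕ} {x : MvPolynomial P F}
    (hx : x ∈ GG F arr th k (s + 1)) {b : P → L} (hbc : bc b = s)
    {α : L →₀ ℕ} (hα : ((α.degree : ℕ) : ℤ) = (NF arr b : ℤ) + k) :
    coeff α (sft b x) ∈ VV F arr th b := by
  intro g hg hgb
  constructor
  · refine ud_mono arr th g (le_of_eq ?_) (ud_coeff hgb (ud_le hx hg) α)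
    rw [hα]; ring
  · intro hbg
    have h1 : s + 1 ≤ bc g := by
      have := bc_lt_of_fine hgb hbg
      omega
    refine ud_mono arr th g (le_of_eq ?_) (ud_coeff hgb (ud_lt hx hg h1) α)
    rw [hα]; ring

lemma coeff_top_mem {arr : P → P → ℕ} {th : P → V} {k : ℤ} {s : ℕ} {x : MvPolynomial P F}
    (hx : x ∈ GG F arr th k (s + 1)) {b : P → L} (hbc : bc b = s) (α : L →₀ ℕ) :
    coeff α (Deg359.top ((NF arr b : ℤ) + k) (sh F arr th b x)) ∈
      (VV F arr th b).map (qm F arr th b) := by
  rw [Deg359.coeff_top]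
  split_ifs with h
  · rw [sh_eq_Esh, coeff_Esh]
    exact Submodule.mem_map_of_mem (f := qm F arr th b) (coeff_mem_VV hx hbc h)
  · exact zero_mem _

section sym

variable [Fintype L] [LinearOrder L]

/-- **HALF 1 (a)**: divisibility and values, with an additional subspace `U` containing the
coefficients of the unreduced shift (homogeneous polynomials, alternating polynomials, ...). -/
theorem exists_symbol' {arr : P → P → ℕ} {th : P → V} (hs : Sym arr th) {k : ℤ} {s : ℕ}
    {x : MvPolynomial P F} (hx : x ∈ GG F arr th k (s + 1)) {b : P → L} (hb : Good th b)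
    (hbc : bc b = s) (U : Submodule F (MvPolynomial P F))
    (hU : ∀ α : L →₀ ℕ, ((α.degree : ℕ) : ℤ) = (NF arr b : ℤ) + k → coeff α (sft b x) ∈ U) :
    ∃ t : MvPolynomial L (MvPolynomial P F ⧸ JJ F arr th b), Deg359.Hom k t ∧
      (∀ α, coeff α t ∈ (VV F arr th b ⊓ U).map (qm F arr th b)) ∧
      Deg359.top ((NF arr b : ℤ) + k) (sh F arr th b x) = dpr _ arr b * t := by
  obtain ⟨t, ht, h⟩ := top_factor arr th b hb (ud_le hx hb) (fun i j hij => by
    refine ud_mono arr th _ (le_of_eq ?_) (ud_le hx (good_comp hb (mg i j)))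
    have := NF_mg hs hb hij
    omega)
  refine ⟨t, ?_, ?_, h⟩
  · rw [NF_eq_arrS hs hb] at ht
    have e : (arrS arr b : ℤ) + k - arrS arr b = k := by ring
    rwa [e] at ht
  · intro α
    refine NoPole359.coeff_mem_of_mul (F := F) ((VV F arr th b ⊓ U).map (qm F arr th b)) (prs L)
      (fun e => arrL arr b e.1 e.2) (fun e he => prs_ne he) (t := t) (fun α => ?_) α
    have h1 : coeff α (Deg359.top ((NF arr b : ℤ) + k) (sh F arr th b x)) ∈
        (VV F arr th b ⊓ U).map (qm F arr th b) := by
      rw [Deg359.coeff_top]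
      split_ifs with h
      · rw [sh_eq_Esh, coeff_Esh]
        exact Submodule.mem_map_of_mem (f := qm F arr th b)
          (Submodule.mem_inf.2 ⟨coeff_mem_VV hx hbc h, hU α h⟩)
      · exact zero_mem _
    rw [h] at h1
    exact h1

/-- **HALF 1 (a)**: divisibility and values. -/
theorem exists_symbol {arr : P → P → ℕ} {th : P → V} (hs : Sym arr th) {k : ℤ} {s : ℕ}
    {x : MvPolynomial P F} (hx : x ∈ GG F arr th k (s + 1)) {b : P → L} (hb : Good th b)
    (hbc : bc b = s) :
    ∃ t : MvPolynomial L (MvPolynomial P F ⧸ JJ F arr th b), Deg359.Hom k t ∧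
      (∀ α, coeff α t ∈ (VV F arr th b).map (qm F arr th b)) ∧
      Deg359.top ((NF arr b : ℤ) + k) (sh F arr th b x) = dpr _ arr b * t := by
  obtain ⟨t, h1, h2, h3⟩ := exists_symbol' hs hx hb hbc ⊤ (fun _ _ => Submodule.mem_top)
  refine ⟨t, h1, fun α => ?_, h3⟩
  have := h2 α
  rwa [inf_top_eq] at this

/-- coefficients of the shift of a homogeneous polynomial -/
lemma coeff_sft_homogeneous (b : P → L) {n m : ℕ} {x : MvPolynomial P F}
    (hx : x.IsHomogeneous n) (α : L →₀ ℕ) (hα : α.degree + m = n) :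
    (coeff α (sft b x)).IsHomogeneous m := by
  rw [← Hom_iff] at hx ⊢
  have := JH_sft b hx α
  have e : (n : ℤ) - ((α.degree : ℕ) : ℤ) = m := by omega
  rwa [e] at this

/-- **HALF 1 (a)**, graded: `n = NF b + k + m`. -/
theorem exists_symbol_hom {arr : P → P → ℕ} {th : P → V} (hs : Sym arr th) {k m n : ℕ} {s : ℕ}
    {x : MvPolynomial P F} (hx : x ∈ GG F arr th k (s + 1)) (hn : x.IsHomogeneous n)
    {b : P → L} (hb : Good th b) (hbc : bc b = s) (hm : NF arr b + k + m = n) :
    ∃ t : MvPolynomial L (MvPolynomial P F ⧸ JJ F arr th b), Deg359.Hom k t ∧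
      (∀ α, coeff α t ∈
        (VV F arr th b ⊓ homogeneousSubmodule P F m).map (qm F arr th b)) ∧
      Deg359.top ((NF arr b : ℤ) + k) (sh F arr th b x) = dpr _ arr b * t := by
  refine exists_symbol' hs hx hb hbc _ fun α hα => ?_
  rw [mem_homogeneousSubmodule]
  exact coeff_sft_homogeneous b hn α (by omega)

/-- if the degree of `x` is too small the top part vanishes -/
lemma top_eq_zero_of_homogeneous {arr : P → P → ℕ} {th : P → V} {k n : ℕ}
    {x : MvPolynomial P F} (hn : x.IsHomogeneous n) (b : P → L) (h : n < NF arr b + k) :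
    Deg359.top ((NF arr b : ℤ) + k) (sh F arr th b x) = 0 := by
  refine Deg359.top_eq_zero_of_TD (n := n) ?_ (by omega)
  have h1 : Deg359.TD (n : ℤ) x := ((Hom_iff n x).2 hn).td
  exact ud_of_TD (arr := arr) (th := th) (f := b) h1

/-- **HALF 1 (a')**: uniqueness. -/
theorem symbol_unique {arr : P → P → ℕ} {A : Type*} [CommRing A] {b : P → L}
    {t t' : MvPolynomial L A} (h : dpr A arr b * t = dpr A arr b * t') : t = t' :=
  dpr_mul_inj arr b h

end sym

/-- **HALF 1 (b)**: the kernel. -/
theorem mem_GG_iff {arr : P → P → ℕ} {th : P → V} {k : ℤ} {s : ℕ} {x : MvPolynomial P F}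
    (hx : x ∈ GG F arr th k (s + 1)) :
    x ∈ GG F arr th k s ↔ ∀ b : P → Fin s, Function.Surjective b → Good th b →
      Deg359.top ((NF arr b : ℤ) + k) (sh F arr th b x) = 0 := by
  constructor
  · intro h b hb hg
    have h1 := ud_lt h hg (bc_of_surj hb).ge
    exact Deg359.top_eq_zero_of_TD (show Deg359.TD _ _ from h1) (by omega)
  · intro h
    refine mem_GG_of_Fin fun n f hf hg => ⟨ud_le hx hg, fun hn => ?_⟩
    rcases Nat.lt_or_ge s n with hlt | hge
    · exact ud_lt hx hg (by rw [bc_of_surj hf]; omega)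
    · obtain rfl : s = n := le_antisymm hn hge
      have h1 := ud_le hx hg
      exact Deg359.TD.of_top_eq_zero (show Deg359.TD _ _ from h1) (h f hf hg)

/-! ### onto -/

section onto

variable [Fintype L] [LinearOrder L]

/-- the family elements -/
noncomputable def fam (arr : P → P → ℕ) (b : P → L) (a : L → P) (w : MvPolynomial P F)
    (α : L →₀ ℕ) : MvPolynomial P F :=
  KL F arr b * (w * ∏ l, X (a l) ^ α l)

lemma degree_eq_sum (α : L →₀ ℕ) : α.degree = ∑ l, α l := by
  rw [Finsupp.degree_apply]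
  exact Finset.sum_subset (Finset.subset_univ _) (fun l _ hl => by simpa using hl)

lemma ud_monom (arr : P → P → ℕ) (th : P → V) (f : P → L') (a : L → P) (α : L →₀ ℕ) :
    ud F arr th f ((α.degree : ℕ) : ℤ) (∏ l, X (a l) ^ α l) := by
  unfold ud
  rw [map_prod, degree_eq_sum]
  push_cast
  refine Deg359.TD.prod _ _ _ fun l _ => ?_
  rw [map_pow]
  have := (show Deg359.TD 1 (sh F arr th f (X (a l))) from ud_X arr th f (a l)).pow (α l)
  simpa using this

/-- the family elements lie in the filtration -/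
theorem fam_mem {arr : P → P → ℕ} {th : P → V} (hs : Sym arr th) {b : P → L} (hb : Good th b)
    (a : L → P) {w : MvPolynomial P F} (hw : w ∈ VV F arr th b) (α : L →₀ ℕ) :
    fam arr b a w α ∈ GG F arr th ((α.degree : ℕ) : ℤ) (bc b + 1) := by
  intro f hf
  refine ⟨ud_family arr hs hf hb hw (fun _ => ud_monom arr th _ a α), fun h => ?_⟩
  refine ud_family_strict arr hs hf hb ?_ hw (fun _ => ud_monom arr th _ a α)
  intro hc
  have := bc_le_of_fine hc
  omega

/-- top part at another partition with at least as many blocks -/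
theorem top_fam_of_ne {arr : P → P → ℕ} {th : P → V} (hs : Sym arr th) {b : P → L}
    (hb : Good th b) (a : L → P) {w : MvPolynomial P F} (hw : w ∈ VV F arr th b) (α : L →₀ ℕ)
    {f : P → L'} (hf : Good th f) (hbc : bc b ≤ bc f) (hne : ¬ Same b f) :
    Deg359.top ((NF arr f : ℤ) + ((α.degree : ℕ) : ℤ)) (sh F arr th f (fam arr b a w α)) = 0 := by
  have h1 := ud_family_strict arr hs hf hb (f' := b) (k := ((α.degree : ℕ) : ℤ)) ?_ hw
    (M := ∏ l, X (a l) ^ α l) (fun _ => ud_monom arr th _ a α)
  · exact Deg359.top_eq_zero_of_TD (show Deg359.TD _ _ from h1) (by omega)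
  · intro hc
    have h2 := fine_of_bc_le hc hbc
    exact hne fun x y => ⟨hc x y, h2 x y⟩

/-- top part at its own labelling -/
theorem top_fam {arr : P → P → ℕ} {th : P → V} (hs : Sym arr th) {b : P → L}
    (hb : Good th b) (a : L → P) (ha : ∀ l, b (a l) = l) {w : MvPolynomial P F}
    (hw : w ∈ VV F arr th b) (α : L →₀ ℕ) :
    Deg359.top ((NF arr b : ℤ) + ((α.degree : ℕ) : ℤ)) (sh F arr th b (fam arr b a w α)) =
      dpr _ arr b * monomial α (qm F arr th b w) := by
  have hw0 : ud F arr th b 0 w := by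
    have := InV.ud_le (mem_VV.1 hw) hb (fun _ _ h => h)
    rwa [sub_self] at this
  have h := top_family (F := F) arr hs hb hw0 a ha α
  rw [← degree_eq_sum, DP_eq_dpr] at h
  unfold fam
  rw [h, qm_apply, monomial_eq, Finsupp.prod_fintype _ _ (fun _ => pow_zero _)]

/-- the family elements are homogeneous: degree `NF b + |α| + deg w` -/
lemma fam_homogeneous {arr : P → P → ℕ} {th : P → V} (hs : Sym arr th) {b : P → L}
    (hb : Good th b) (a : L → P) {m : ℕ} {w : MvPolynomial P F} (hw : w.IsHomogeneous m)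
    (α : L →₀ ℕ) : (fam arr b a w α).IsHomogeneous (NF arr b + (m + α.degree)) := by
  classical
  unfold fam
  refine IsHomogeneous.mul ?_ (hw.mul ?_)
  · rw [KL_eq_KR, NF_eq arr hs hb]
    unfold KR NR
    refine IsHomogeneous.prod _ _ _ fun x _ => ?_
    have := ((isHomogeneous_X F x.2).sub (isHomogeneous_X F x.1)).pow (arr x.1 x.2)
    rwa [one_mul] at this
  · rw [degree_eq_sum]
    refine IsHomogeneous.prod _ _ _ fun l _ => ?_
    have := (isHomogeneous_X F (a l)).pow (α l)
    rwa [one_mul] at this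

/-- **HALF 1 (c)**: onto. The lift is in the span of the family elements with `w` in a given
subspace `W` of `V_b` (for instance the homogeneous ones). -/
theorem onto {arr : P → P → ℕ} {th : P → V} (hs : Sym arr th) {b : P → L}
    (hb : Good th b) (a : L → P) (ha : ∀ l, b (a l) = l) {k : ℤ}
    {W : Submodule F (MvPolynomial P F)} (hW : W ≤ VV F arr th b)
    {t : MvPolynomial L (MvPolynomial P F ⧸ JJ F arr th b)} (ht : Deg359.Hom k t)
    (htW : ∀ α, coeff α t ∈ W.map (qm F arr th b)) :
    ∃ x ∈ Submodule.span F {y | ∃ w ∈ W, ∃ α : L →₀ ℕ, ((α.degree : ℕ) : ℤ) = k ∧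
        y = fam arr b a w α},
      x ∈ GG F arr th k (bc b + 1) ∧
      Deg359.top ((NF arr b : ℤ) + k) (sh F arr th b x) = dpr _ arr b * t ∧
      ∀ {L'' : Type} (f : P → L''), Good th f → bc b ≤ bc f → ¬ Same b f →
        Deg359.top ((NF arr f : ℤ) + k) (sh F arr th f x) = 0 := by
  classical
  choose w hwW hw using htW
  have hdeg : ∀ α ∈ t.support, ((α.degree : ℕ) : ℤ) = k := fun α hα =>
    ht α (mem_support_iff.1 hα)
  refine ⟨∑ α ∈ t.support, fam arr b a (w α) α, ?_, ?_, ?_, ?_⟩
  · exact Submodule.sum_mem _ fun α hα =>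
      Submodule.subset_span ⟨w α, hwW α, α, hdeg α hα, rfl⟩
  · refine Submodule.sum_mem _ fun α hα => ?_
    rw [← hdeg α hα]
    exact fam_mem hs hb a (hW (hwW α)) α
  · rw [map_sum, Deg359.top_sum]
    conv_rhs => rw [t.as_sum]
    rw [Finset.mul_sum]
    refine Finset.sum_congr rfl fun α hα => ?_
    rw [← hdeg α hα, top_fam hs hb a ha (hW (hwW α)) α, hw]
  · intro L'' f hf hbc hne
    rw [map_sum, Deg359.top_sum]
    refine Finset.sum_eq_zero fun α hα => ?_
    rw [← hdeg α hα]
    exact top_fam_of_ne hs hb a (hW (hwW α)) α hf hbc hne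

/-- **HALF 1 (c)**, graded. -/
theorem onto_hom {arr : P → P → ℕ} {th : P → V} (hs : Sym arr th) {b : P → L}
    (hb : Good th b) (a : L → P) (ha : ∀ l, b (a l) = l) {k m n : ℕ} (hm : NF arr b + k + m = n)
    {t : MvPolynomial L (MvPolynomial P F ⧸ JJ F arr th b)} (ht : Deg359.Hom k t)
    (htW : ∀ α, coeff α t ∈
      (VV F arr th b ⊓ homogeneousSubmodule P F m).map (qm F arr th b)) :
    ∃ x : MvPolynomial P F, x.IsHomogeneous n ∧
      x ∈ GG F arr th k (bc b + 1) ∧
      Deg359.top ((NF arr b : ℤ) + k) (sh F arr th b x) = dpr _ arr b * t ∧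
      ∀ {L'' : Type} (f : P → L''), Good th f → bc b ≤ bc f → ¬ Same b f →
        Deg359.top ((NF arr f : ℤ) + k) (sh F arr th f x) = 0 := by
  obtain ⟨x, hx, h1, h2, h3⟩ := onto hs hb a ha inf_le_left ht htW
  refine ⟨x, ?_, h1, h2, h3⟩
  rw [← mem_homogeneousSubmodule]
  refine (Submodule.span_le.2 ?_) hx
  rintro y ⟨w, hw, α, hα, rfl⟩
  rw [SetLike.mem_coe, mem_homogeneousSubmodule]
  have h4 := fam_homogeneous hs hb a ((mem_homogeneousSubmodule m w).1 hw.2) α
  have e : NF arr b + (m + α.degree) = n := by omega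
  rwa [e] at h4

end onto

end Crest.Agent.R059.Half1
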