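import Mathlib
import Crest.Agent.R059.PLloc_830
import Crest.Agent.R059.ThinEq_494
import Crest.Agent.R059.Thin4c_613

/-!
# Row 59, Theorem B, half 2 (helper830): equivariance of the symbols of the words at a place (model)
-/

set_option autoImplicit false
set_option linter.unusedSectionVars false

namespace Crest.Agent.R059.PLloc830

open MvPolynomial Finset Thin613 Deg359 PL547

section words

variable {I : Type} [Fintype I] [DecidableEq I] {k : I → I → ℕ} {θ : I → ℤ}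
  {T : Type} [Fintype T] [LinearOrder T] {cl : T → I → ℕ} {𝓛 : Letters k θ cl} {m : T → ℕ}

/-- the word moved by the block permutation `ρ` -/
def act (ρ : ∀ t, Equiv.Perm (Fin (m t))) (φ : Wd 𝓛 m) : Wd 𝓛 m := fun t r => φ t ((ρ t).symm r)

theorem act_at (ρ : ∀ t, Equiv.Perm (Fin (m t))) (φ : Wd 𝓛 m) (j : Jm m) :
    (act ρ φ).at (⟨j.1, ρ j.1 j.2⟩ : Jm m) = φ.at j := by
  simp [act, Wd.at]

theorem act_one (φ : Wd 𝓛 m) : act (fun _ => 1) φ = φ := rfl

theorem act_injective (ρ : ∀ t, Equiv.Perm (Fin (m t))) :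
    Function.Injective (act (𝓛 := 𝓛) ρ) := by
  intro φ φ' h
  funext t r
  have := congrFun (congrFun h t) (ρ t r)
  simpa [act] using this

theorem tot_act (ρ : ∀ t, Equiv.Perm (Fin (m t))) (φ : Wd 𝓛 m) : (act ρ φ).tot = φ.tot := by
  unfold Wd.tot
  rw [← Equiv.sum_comp (pr ρ)]
  refine Finset.sum_congr rfl fun j _ => ?_
  change ((act ρ φ).at (⟨j.1, ρ j.1 j.2⟩ : Jm m)).a = _
  rw [act_at]

theorem rename_pol {t : T} (v : Equiv.Perm (Vt (cl t))) (hv : ∀ x, (v x).1 = x.1) (l : 𝓛.L t) :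
    rename v (𝓛.pol t l) = sg v • 𝓛.pol t l :=
  (𝓛.mem t l).1 v hv

theorem rename_lp (ρ : ∀ t, Equiv.Perm (Fin (m t))) (v : ∀ j : Jm m, Equiv.Perm (Vt (cl j.1)))
    (hv : ∀ j x, (v j x).1 = x.1) (φ : Wd 𝓛 m) :
    rename (wr ρ * Equiv.sigmaCongrRight v : Equiv.Perm (Sm cl m)) φ.lp =
      (∏ j, sg (v j)) • (act ρ φ).lp := by
  have h1 : (act ρ φ).lp = ∏ j : Jm m, rename (Sigma.mk (⟨j.1, ρ j.1 j.2⟩ : Jm m))
      (𝓛.pol j.1 (φ.at j).l) := by
    unfold Wd.lp
    rw [← Equiv.prod_comp (pr ρ)]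
    refine Finset.prod_congr rfl fun j _ => ?_
    change rename (Sigma.mk (β := fun j : Jm m => Vt (cl j.1)) (⟨j.1, ρ j.1 j.2⟩ : Jm m))
      (𝓛.pol j.1 ((act ρ φ).at (⟨j.1, ρ j.1 j.2⟩ : Jm m)).l) = _
    rw [act_at]
  rw [h1, ← Finset.prod_smul]
  unfold Wd.lp
  rw [map_prod]
  refine Finset.prod_congr rfl fun j _ => ?_
  rw [rename_rename]
  have h2 : (⇑(wr ρ * Equiv.sigmaCongrRight v : Equiv.Perm (Sm cl m)) ∘ Sigma.mk j) =
      Sigma.mk (⟨j.1, ρ j.1 j.2⟩ : Jm m) ∘ (v j) := by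
    funext x
    rfl
  rw [h2, ← rename_rename, rename_pol (v j) (hv j), map_smul]

variable (k θ cl m) in
/-- the quotient ring of the model -/
abbrev QM := MvPolynomial (Sm cl m) ℚ ⧸ JJ ℚ (ar k (colS cl m)) (tw θ (colS cl m)) (blk cl m)

/-- the symbol of a word -/
noncomputable def sE (φ : Wd 𝓛 m) : MvPolynomial (Jm m) (QM k θ cl m) :=
  DP _ (ar k (colS cl m)) (blk cl m) *
    (C (Ideal.Quotient.mk _ φ.lp) * ∏ j : Jm m, X j ^ (φ.at j).a)

theorem mor_BP {w : Equiv.Perm (Sm cl m)} (hw : ∀ x, colS cl m (w x) = colS cl m x)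
    {ρ : ∀ t, Equiv.Perm (Fin (m t))} (h : BP w ρ) :
    ThinEq494.Mor (ar k (colS cl m)) (tw θ (colS cl m)) (blk cl m) (ar k (colS cl m))
      (tw θ (colS cl m)) (blk cl m) w (pr ρ) where
  inj := w.injective
  arr_eq a b := by simp [ar, hw]
  th_eq a := by simp [tw, hw]
  lab := h
  full a b' hb := by
    refine ⟨w.symm b', ?_, by simp⟩
    rw [h a] at hb
    have h1 := h (w.symm b')
    rw [Equiv.apply_symm_apply, hb] at h1
    exact ((pr ρ).injective h1).symm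

variable (k θ) in
/-- the action on symbols -/
noncomputable def Phi {w : Equiv.Perm (Sm cl m)} (hw : ∀ x, colS cl m (w x) = colS cl m x)
    {ρ : ∀ t, Equiv.Perm (Fin (m t))} (h : BP w ρ) :
    MvPolynomial (Jm m) (QM k θ cl m) →ₗ[ℚ] MvPolynomial (Jm m) (QM k θ cl m) :=
  AddMonoidHom.toRatLinearMap
    { toFun := fun x => rename (pr ρ) (MvPolynomial.map ((mor_BP (k := k) (θ := θ) hw h).quot ℚ) x)
      map_zero' := by rw [map_zero, map_zero]
      map_add' := fun x y => by rw [map_add, map_add] }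

theorem Phi_apply {w : Equiv.Perm (Sm cl m)} (hw : ∀ x, colS cl m (w x) = colS cl m x)
    {ρ : ∀ t, Equiv.Perm (Fin (m t))} (h : BP w ρ) (x : MvPolynomial (Jm m) (QM k θ cl m)) :
    Phi k θ hw h x =
      rename (pr ρ) (MvPolynomial.map ((mor_BP (k := k) (θ := θ) hw h).quot ℚ) x) := rfl

/-- naturality of the symbol -/
theorem symL_rename {w : Equiv.Perm (Sm cl m)} (hw : ∀ x, colS cl m (w x) = colS cl m x)
    {ρ : ∀ t, Equiv.Perm (Fin (m t))} (h : BP w ρ) {M : ℤ} {x : MvPolynomial (Sm cl m) ℚ}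
    (hx : x ∈ udS (ar k (colS cl m)) (tw θ (colS cl m)) (blk cl m) M) :
    symL (ar k (colS cl m)) (tw θ (colS cl m)) (blk cl m) M (rename w x) =
      Phi k θ hw h (symL (ar k (colS cl m)) (tw θ (colS cl m)) (blk cl m) M x) := by
  rw [symL_apply, symL_apply, Phi_apply, (mor_BP (k := k) (θ := θ) hw h).sh_rename,
    top_rename (TD.map hx _), top_map]

/-- `w` preserves the growth spaces of the model labelling -/
theorem rename_mem_udS {w : Equiv.Perm (Sm cl m)} (hw : ∀ x, colS cl m (w x) = colS cl m x)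
    {ρ : ∀ t, Equiv.Perm (Fin (m t))} (h : BP w ρ) {M : ℤ} {x : MvPolynomial (Sm cl m) ℚ}
    (hx : x ∈ udS (ar k (colS cl m)) (tw θ (colS cl m)) (blk cl m) M) :
    rename w x ∈ udS (ar k (colS cl m)) (tw θ (colS cl m)) (blk cl m) M :=
  (mor_BP (k := k) (θ := θ) hw h).ud hx

theorem map_DP {A B : Type*} [CommRing A] [CommRing B] (g : A →+* B) {P L : Type*} [Fintype P]
    [DecidableEq P] [LinearOrder L] (arr : P → P → ℕ) (f : P → L) :
    MvPolynomial.map g (DP A arr f) = DP B arr f := by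
  unfold DP
  rw [map_prod]
  refine Finset.prod_congr rfl fun x _ => ?_
  rw [map_pow, map_sub, map_X, map_X]

/-- the action on the symbol of a word -/
theorem Phi_sE {w : Equiv.Perm (Sm cl m)} (hw : ∀ x, colS cl m (w x) = colS cl m x)
    {ρ : ∀ t, Equiv.Perm (Fin (m t))} (h : BP w ρ)
    (hsym : ∀ t t', kf k (cl t) (cl t') = kf k (cl t') (cl t))
    (v : ∀ j : Jm m, Equiv.Perm (Vt (cl j.1))) (hv : ∀ j x, (v j x).1 = x.1)
    (hwv : w = wr ρ * Equiv.sigmaCongrRight v) (φ : Wd 𝓛 m) :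
    Phi k θ hw h (sE φ) =
      ((∏ t, sg (ρ t) ^ kf k (cl t) (cl t)) * ∏ j, sg (v j)) • sE (act ρ φ) := by
  have h1 : rename (pr ρ) (DP (QM k θ cl m) (ar k (colS cl m)) (blk cl m)) =
      (∏ t, sg (ρ t) ^ kf k (cl t) (cl t) : ℚ) • DP (QM k θ cl m) (ar k (colS cl m)) (blk cl m) :=
    rename_DP_pr_smul cl m (QM k θ cl m) k hsym ρ
  have h2 : rename w φ.lp = (∏ j, sg (v j)) • (act ρ φ).lp := by
    subst hwv
    exact rename_lp ρ v hv φ
  have h3 : ∏ j : Jm m, (X (pr ρ j) : MvPolynomial (Jm m) (QM k θ cl m)) ^ (φ.at j).a =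
      ∏ j : Jm m, X j ^ ((act ρ φ).at j).a := by
    conv_rhs => rw [← Equiv.prod_comp (pr ρ)]
    refine Finset.prod_congr rfl fun j _ => ?_
    change _ = X (pr ρ j) ^ ((act ρ φ).at (⟨j.1, ρ j.1 j.2⟩ : Jm m)).a
    rw [act_at]
  rw [Phi_apply]
  unfold sE
  simp only [map_mul, map_prod, map_pow, map_DP, map_C, map_X, rename_C, rename_X]
  rw [h1, h3, (mor_BP (k := k) (θ := θ) hw h).quot_mk, h2]
  have h4 : (Ideal.Quotient.mk (JJ ℚ (ar k (colS cl m)) (tw θ (colS cl m)) (blk cl m))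
      ((∏ j, sg (v j)) • (act ρ φ).lp)) = (∏ j, sg (v j)) • Ideal.Quotient.mk _ (act ρ φ).lp := rfl
  rw [h4, mul_smul]
  have h5 : (C ((∏ j, sg (v j)) • (Ideal.Quotient.mk
      (JJ ℚ (ar k (colS cl m)) (tw θ (colS cl m)) (blk cl m)) (act ρ φ).lp)) :
      MvPolynomial (Jm m) (QM k θ cl m)) =
      (∏ j, sg (v j)) • C (Ideal.Quotient.mk _ (act ρ φ).lp) := by
    exact map_rat_smul (C : QM k θ cl m →+* MvPolynomial (Jm m) (QM k θ cl m)) _ _
  rw [h5, smul_mul_assoc, smul_mul_assoc, mul_smul_comm]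

/-- the sign of a colour preserving permutation which permutes the blocks -/
theorem sg_eq (ρ : ∀ t, Equiv.Perm (Fin (m t))) (v : ∀ j : Jm m, Equiv.Perm (Vt (cl j.1))) :
    sg (wr ρ * Equiv.sigmaCongrRight v : Equiv.Perm (Sm cl m)) =
      (∏ t, sg (ρ t) ^ (∑ i, cl t i)) * ∏ j, sg (v j) := by
  rw [sg_mul]
  congr 1
  · unfold sg
    rw [sign_wr]
    push_cast
    rfl
  · unfold sg
    rw [PL547.sign_sigmaCongrRight]
    push_cast
    rfl

theorem chi_eq (ρ : ∀ t, Equiv.Perm (Fin (m t))) (v : ∀ j : Jm m, Equiv.Perm (Vt (cl j.1))) :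
    sg (wr ρ * Equiv.sigmaCongrRight v : Equiv.Perm (Sm cl m)) *
      ((∏ t, sg (ρ t) ^ kf k (cl t) (cl t)) * ∏ j, sg (v j)) =
      ((WordsS3_537.chi (fun t => par k (cl t)) ρ : ℤ) : ℚ) := by
  rw [sg_eq]
  have h1 : (∏ j, sg (v j)) * (∏ j, sg (v j)) = 1 := by
    rw [← Finset.prod_mul_distrib]
    exact Finset.prod_eq_one fun j _ => sg_mul_self _
  have h2 : ((WordsS3_537.chi (fun t => par k (cl t)) ρ : ℤ) : ℚ) =
      (∏ t, sg (ρ t) ^ (∑ i, cl t i)) * ∏ t, sg (ρ t) ^ kf k (cl t) (cl t) := by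
    unfold WordsS3_537.chi
    rw [← Finset.prod_mul_distrib]
    push_cast
    refine Finset.prod_congr rfl fun t _ => ?_
    rw [← pow_add]
    rfl
  rw [h2]
  calc _ = (∏ t, sg (ρ t) ^ (∑ i, cl t i)) * (∏ t, sg (ρ t) ^ kf k (cl t) (cl t)) *
      ((∏ j, sg (v j)) * (∏ j, sg (v j))) := by ring
    _ = _ := by rw [h1, mul_one]

/-! ### signs and orbits -/

/-- no repeated odd letters -/
def adm0 (φ : Wd 𝓛 m) : Prop := ∀ t, Odd (par k (cl t)) → Function.Injective (φ t)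

theorem chi_one_of_fix {φ : Wd 𝓛 m} (hφ : adm0 φ) {ρ : ∀ t, Equiv.Perm (Fin (m t))}
    (h : act ρ φ = φ) : WordsS3_537.chi (fun t => par k (cl t)) ρ = 1 := by
  unfold WordsS3_537.chi
  refine Finset.prod_eq_one fun t _ => ?_
  rcases Nat.even_or_odd (par k (cl t)) with he | ho
  · rcases Int.units_eq_one_or (Equiv.Perm.sign (ρ t)) with h1 | h1
    · rw [h1, one_pow]
    · rw [h1, he.neg_one_pow]
  · have h1 : ρ t = 1 := by
      ext x
      have h2 := congrFun (congrFun h t) (ρ t x)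
      simp only [act, Equiv.symm_apply_apply] at h2
      have h3 := hφ t ho h2
      simp [← h3]
    rw [h1, Equiv.Perm.sign_one, one_pow]

theorem exists_neg {φ : Wd 𝓛 m} (hφ : ¬ adm0 φ) :
    ∃ ρ : ∀ t, Equiv.Perm (Fin (m t)), act ρ φ = φ ∧
      WordsS3_537.chi (fun t => par k (cl t)) ρ = -1 := by
  classical
  unfold adm0 at hφ
  push Not at hφ
  obtain ⟨t, ho, hni⟩ := hφ
  simp only [Function.Injective, not_forall] at hni
  obtain ⟨a, b, hab, hne⟩ := hni
  refine ⟨Pi.mulSingle t (Equiv.swap a b), ?_, ?_⟩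
  · funext t'
    by_cases ht : t' = t
    · subst ht
      funext x
      simp only [act, Pi.mulSingle_eq_same, Equiv.symm_swap, Equiv.swap_apply_def]
      split_ifs with h3 h4
      · rw [h3, hab]
      · rw [h4, hab]
      · rfl
    · funext x
      simp only [act, Pi.mulSingle_eq_of_ne ht]
      rfl
  · unfold WordsS3_537.chi
    rw [Finset.prod_eq_single t]
    · rw [Pi.mulSingle_eq_same, Equiv.Perm.sign_swap hne, ho.neg_one_pow]
    · intro t' _ ht
      rw [Pi.mulSingle_eq_of_ne ht]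
      simp
    · intro h; exact absurd (mem_univ _) h

theorem adm0_of_Adm {φ : Wd 𝓛 m} (h : φ.Adm) : adm0 φ := fun t => (h t).2

/-- every word without repeated odd letters is a permutation of an admissible one -/
theorem exists_sorted {φ : Wd 𝓛 m} (hφ : adm0 φ) :
    ∃ (φ₀ : Wd 𝓛 m) (ρ : ∀ t, Equiv.Perm (Fin (m t))), φ₀.Adm ∧ act ρ φ₀ = φ := by
  classical
  let := fun t => 𝓛.lo t
  refine ⟨fun t => φ t ∘ Tuple.sort (φ t), fun t => Tuple.sort (φ t), fun t => ⟨?_, ?_⟩, ?_⟩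
  · exact Tuple.monotone_sort (φ t)
  · exact fun ho => (hφ t ho).comp (Tuple.sort (φ t)).injective
  · funext t r
    simp [act]

/-- two admissible words in one orbit are equal -/
theorem Adm_unique {φ φ' : Wd 𝓛 m} (h : φ.Adm) (h' : φ'.Adm)
    {ρ : ∀ t, Equiv.Perm (Fin (m t))} (hρ : act ρ φ = φ') : φ = φ' := by
  classical
  let := fun t => 𝓛.lo t
  funext t
  refine (WordsS3_537.eq_of_comp_eq (h' t).1 (h t).1 (ρ t).symm ?_).symm
  funext r
  exact congrFun (congrFun hρ t) r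

end words

end Crest.Agent.R059.PLloc830
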