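/-
Row 59, TEAM THIN, leaf T4 (helper559), binding, part 2: every element of `V_f` is, modulo `JJ f`,
a sum of products of elements of the block spaces.
-/
import Crest.Agent.R059.ThinTens_559

set_option autoImplicit false
set_option linter.unusedSectionVars false

namespace Crest.Agent.R059.ThinTens559

open MvPolynomial Finset
open Crest.Agent.R059.Thin613 Crest.Agent.R059.Deg359 Crest.Agent.R059.Tens559

variable {P : Type*} [Fintype P] [DecidableEq P]
variable {V : Type*} [AddCommGroup V] [LinearOrder V] [IsOrderedAddMonoid V]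
variable {L' : Type*} {L'' : Type*}

/-! ### refining one block -/

section glue

variable {F : Type*} [Field F]
variable {L : Type*} {Q : Type*} [Fintype Q] [DecidableEq Q]

open scoped Classical in
/-- the labelling `f` with the block parametrised by `e` refined by `ρ` -/
noncomputable def glue (f : P → L) (e : Q ↪ P) (ρ : Q → L'') : P → L ⊕ L'' := fun a =>
  if h : ∃ q, e q = a then Sum.inr (ρ h.choose) else Sum.inl (f a)

lemma glue_emb (f : P → L) (e : Q ↪ P) (ρ : Q → L'') (q : Q) :
    glue f e ρ (e q) = Sum.inr (ρ q) := by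
  have h : ∃ q', e q' = e q := ⟨q, rfl⟩
  unfold glue
  rw [dif_pos h, e.injective h.choose_spec]

lemma glue_not (f : P → L) (e : Q ↪ P) (ρ : Q → L'') {a : P} (h : a ∉ Set.range e) :
    glue f e ρ a = Sum.inl (f a) := by
  unfold glue
  exact dif_neg h

lemma glue_comp (f : P → L) (e : Q ↪ P) (ρ : Q → L'') : glue f e ρ ∘ e = Sum.inr ∘ ρ := by
  funext q
  exact glue_emb f e ρ q

variable {f : P → L} {e : Q ↪ P} {l : L}

lemma fine_glue (hl : ∀ a, f a = l ↔ a ∈ Set.range e) (ρ : Q → L'') : Fine (glue f e ρ) f := by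
  intro a b hab
  by_cases ha : a ∈ Set.range e
  · by_cases hb : b ∈ Set.range e
    · rw [(hl a).2 ha, (hl b).2 hb]
    · obtain ⟨q, rfl⟩ := ha
      rw [glue_emb, glue_not f e ρ hb] at hab
      exact absurd hab (by simp)
  · by_cases hb : b ∈ Set.range e
    · obtain ⟨q, rfl⟩ := hb
      rw [glue_emb, glue_not f e ρ ha] at hab
      exact absurd hab (by simp)
    · rw [glue_not f e ρ ha, glue_not f e ρ hb] at hab
      exact Sum.inl_injective hab

lemma fib_glue_inr (ρ : Q → L'') (m : L'') :
    fib (glue f e ρ) (Sum.inr m) = (fib ρ m).map e := by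
  ext a
  rw [mem_fib, Finset.mem_map]
  constructor
  · intro ha
    by_cases h : a ∈ Set.range e
    · obtain ⟨q, rfl⟩ := h
      rw [glue_emb] at ha
      exact ⟨q, by rw [mem_fib]; exact Sum.inr_injective ha, rfl⟩
    · rw [glue_not f e ρ h] at ha
      exact absurd ha (by simp)
  · rintro ⟨q, hq, rfl⟩
    rw [mem_fib] at hq
    rw [glue_emb, hq]

lemma fib_glue_inl (hl : ∀ a, f a = l ↔ a ∈ Set.range e) (ρ : Q → L'') {l' : L} (h : l' ≠ l) :
    fib (glue f e ρ) (Sum.inl l') = fib f l' := by
  ext a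
  rw [mem_fib, mem_fib]
  by_cases ha : a ∈ Set.range e
  · have h1 := (hl a).2 ha
    obtain ⟨q, rfl⟩ := ha
    rw [glue_emb, h1]
    simp [Ne.symm h]
  · rw [glue_not f e ρ ha]
    simp

lemma fib_glue_self (hl : ∀ a, f a = l ↔ a ∈ Set.range e) (ρ : Q → L'') :
    fib (glue f e ρ) (Sum.inl l) = ∅ := by
  ext a
  rw [mem_fib]
  by_cases ha : a ∈ Set.range e
  · obtain ⟨q, rfl⟩ := ha
    rw [glue_emb]
    simp
  · rw [glue_not f e ρ ha]
    have : f a ≠ l := fun h => ha ((hl a).1 h)
    simp [this]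

lemma good_glue (hl : ∀ a, f a = l ↔ a ∈ Set.range e) {th : P → V} (hf : Good th f)
    {ρ : Q → L''} (hρ : Good (thB th e) ρ) : Good th (glue f e ρ) := by
  rintro (l' | m)
  · by_cases h : l' = l
    · rw [h, fib_glue_self hl, wt_empty]
    · rw [fib_glue_inl hl ρ h]; exact hf l'
  · rw [fib_glue_inr, wt_map]; exact hρ m

/-- generators of the ideal of the block `l` -/
def gens (F : Type*) [CommRing F] (arr : P → P → ℕ) (th : P → V) (f : P → L) (l : L) :
    Set (MvPolynomial P F) :=
  {q | ∃ T : Finset P, T ⊆ fib f l ∧ 0 < wt th T ∧ q = KK F arr T (fib f l \ T)}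

lemma J0_eq_span (arr : P → P → ℕ) (th : P → V) (f : P → L) (l : L) :
    J0 F arr th (fib f l) = Ideal.span (gens F arr th f l) := rfl

lemma JJ_eq_iSup (arr : P → P → ℕ) (th : P → V) (f : P → L) :
    JJ F arr th f = ⨆ l, Ideal.span (gens F arr th f l) := rfl

lemma KK_mem_supported (arr : P → P → ℕ) {S T : Finset P} {Y : Set P} (hS : ∀ a ∈ S, a ∈ Y)
    (hT : ∀ a ∈ T, a ∈ Y) : KK F arr S T ∈ supported F Y := by
  unfold KK
  refine Subalgebra.prod_mem _ fun a ha => Subalgebra.prod_mem _ fun b hb =>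
    Subalgebra.pow_mem _ (Subalgebra.sub_mem _ ?_ ?_) _
  · exact (X_mem_supported).2 (hT b hb)
  · exact (X_mem_supported).2 (hS a ha)

lemma gens_mem_RL (arr : P → P → ℕ) (th : P → V) (f : P → L) (l : L) :
    ∀ q ∈ gens F arr th f l, q ∈ RL F f l := by
  rintro q ⟨T, hT, _, rfl⟩
  unfold RL
  rw [Subalgebra.mem_toSubmodule]
  refine KK_mem_supported arr (fun a ha => ?_) (fun a ha => ?_)
  · exact (mem_fib f l a).1 (hT ha)
  · exact (mem_fib f l a).1 (Finset.sdiff_subset ha)

lemma gens_homogeneous (arr : P → P → ℕ) (th : P → V) (f : P → L) (l : L) :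
    ∀ q ∈ gens F arr th f l, ∃ k, q.IsHomogeneous k := by
  rintro q ⟨T, _, _, rfl⟩
  unfold KK
  refine ⟨_, IsHomogeneous.prod _ _ (fun a => ∑ b ∈ fib f l \ T, arr a b) fun a _ =>
    IsHomogeneous.prod _ _ (fun b => arr a b) fun b _ => ?_⟩
  have := ((isHomogeneous_X F b).sub (isHomogeneous_X F a)).pow (arr a b)
  simpa using this

/-- generators of the ideal of the refined block, as polynomials in the variables `P` -/
def gensR (F : Type*) [CommRing F] (arr : P → P → ℕ) (th : P → V) (e : Q ↪ P) (ρ : Q → L'') :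
    Set (MvPolynomial P F) :=
  {q | ∃ (m : L'') (T : Finset Q), T ⊆ fib ρ m ∧ 0 < wt (thB th e) T ∧
    q = rename e (KK F (arrB arr e) T (fib ρ m \ T))}

lemma gensR_mem_RL (hl : ∀ a, f a = l ↔ a ∈ Set.range e) (arr : P → P → ℕ) (th : P → V)
    (ρ : Q → L'') : ∀ q ∈ gensR F arr th e ρ, q ∈ RL F f l := by
  rintro q ⟨m, T, _, _, rfl⟩
  unfold RL
  rw [Subalgebra.mem_toSubmodule, rename_KK]
  refine KK_mem_supported arr (fun a ha => ?_) (fun a ha => ?_)
  · obtain ⟨q, _, rfl⟩ := Finset.mem_map.1 ha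
    exact (hl _).2 ⟨q, rfl⟩
  · obtain ⟨q, _, rfl⟩ := Finset.mem_map.1 ha
    exact (hl _).2 ⟨q, rfl⟩

/-- the generators of the other blocks -/
def gensO (F : Type*) [CommRing F] (arr : P → P → ℕ) (th : P → V) (f : P → L) (l : L) :
    Set (MvPolynomial P F) :=
  {q | ∃ l', l' ≠ l ∧ q ∈ gens F arr th f l'}

lemma gensO_mem_RO (arr : P → P → ℕ) (th : P → V) (f : P → L) (l : L) :
    ∀ q ∈ gensO F arr th f l, q ∈ RO F f l := by
  rintro q ⟨l', hl', hq⟩
  exact RL_le_RO hl' (gens_mem_RL arr th f l' q hq)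

lemma JJ_glue_le (hl : ∀ a, f a = l ↔ a ∈ Set.range e) (arr : P → P → ℕ) (th : P → V)
    (ρ : Q → L'') : JJ F arr th (glue f e ρ) ≤
      Ideal.span (gensR F arr th e ρ) ⊔ Ideal.span (gensO F arr th f l) := by
  classical
  rw [JJ_le_iff]
  rintro (l' | m) T hT hw
  · by_cases h : l' = l
    · rw [h, fib_glue_self hl, Finset.subset_empty] at hT
      rw [hT, wt_empty] at hw
      exact absurd hw (lt_irrefl _)
    · rw [fib_glue_inl hl ρ h] at hT ⊢
      exact (le_sup_right : _ ≤ Ideal.span (gensR F arr th e ρ) ⊔ _)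
        (Ideal.subset_span ⟨l', h, T, hT, hw, rfl⟩)
  · rw [fib_glue_inr] at hT ⊢
    obtain ⟨T', hT', rfl⟩ := Finset.subset_map_iff.1 hT
    refine (le_sup_left : _ ≤ _ ⊔ Ideal.span (gensO F arr th f l)) (Ideal.subset_span
      ⟨m, T', hT', by rw [← wt_map]; exact hw, ?_⟩)
    rw [rename_KK, Finset.map_sdiff]

/-- pulling back an ideal membership to the block -/
lemma mem_JJ_of_rename (arr : P → P → ℕ) (th : P → V) (ρ : Q → L'')
    {y : MvPolynomial Q F} (hy : rename e y ∈ Ideal.span (gensR F arr th e ρ)) :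
    y ∈ JJ F (arrB arr e) (thB th e) ρ := by
  have h1 : Ideal.span (gensR F arr th e ρ) ≤
      Ideal.comap (killCompl e.injective : MvPolynomial P F →ₐ[F] MvPolynomial Q F)
        (JJ F (arrB arr e) (thB th e) ρ) := by
    rw [Ideal.span_le]
    rintro q ⟨m, T, hT, hw, rfl⟩
    rw [SetLike.mem_coe, Ideal.mem_comap, killCompl_rename_app]
    exact KK_mem_JJ _ ρ m hT hw
  have h2 := h1 hy
  rwa [Ideal.mem_comap, killCompl_rename_app] at h2

/-- the shift of one block only -/
noncomputable def psh (F : Type*) [Field F] (f : P → L) (e : Q ↪ P) (ρ : Q → L'') :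
    MvPolynomial P F →+* MvPolynomial L'' (MvPolynomial P F) :=
  (killCompl (R := MvPolynomial P F) (Sum.inr_injective (α := L) (β := L''))).toRingHom.comp
    (tsh F (glue f e ρ))

lemma coeff_psh (ρ : Q → L'') (x : MvPolynomial P F) (α : L'' →₀ ℕ) :
    coeff α (psh F f e ρ x) = coeff (α.mapDomain Sum.inr) (tsh F (glue f e ρ) x) :=
  coeff_killCompl _

lemma psh_rename (ρ : Q → L'') (w : MvPolynomial Q F) :
    psh F f e ρ (rename e w) = MvPolynomial.map
      ((rename e : MvPolynomial Q F →ₐ[F] MvPolynomial P F) : MvPolynomial Q F →+* _)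
      (tsh F ρ w) := by
  change killCompl _ (tsh F (glue f e ρ) (rename e w)) = _
  rw [tsh_rename, glue_comp, tsh_comp]
  have h := killCompl_map (Sum.inr_injective (α := L) (β := L''))
    ((rename e : MvPolynomial Q F →ₐ[F] MvPolynomial P F) : MvPolynomial Q F →+* MvPolynomial P F)
    (rename Sum.inr (tsh F ρ w))
  rw [killCompl_rename_app] at h
  exact h

lemma psh_off (hl : ∀ a, f a = l ↔ a ∈ Set.range e) (ρ : Q → L'') {s : MvPolynomial P F}
    (hs : s ∈ RO F f l) : psh F f e ρ s = C s := by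
  unfold RO at hs
  rw [Subalgebra.mem_toSubmodule, supported_eq_range_rename] at hs
  obtain ⟨s', rfl⟩ := hs
  have h : (psh F f e ρ).comp ((rename ((↑) : {a | f a ≠ l} → P) :
        MvPolynomial {a | f a ≠ l} F →ₐ[F] MvPolynomial P F) :
        MvPolynomial {a | f a ≠ l} F →+* MvPolynomial P F) =
      (C : MvPolynomial P F →+* MvPolynomial L'' (MvPolynomial P F)).comp
        ((rename ((↑) : {a | f a ≠ l} → P) :
        MvPolynomial {a | f a ≠ l} F →ₐ[F] MvPolynomial P F) :
        MvPolynomial {a | f a ≠ l} F →+* MvPolynomial P F) := by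
    apply MvPolynomial.ringHom_ext
    · intro r
      simp only [RingHom.comp_apply, RingHom.coe_coe, rename_C]
      change killCompl _ (tsh F (glue f e ρ) (C r)) = _
      rw [tsh_C, killCompl_C]
    · rintro ⟨a, ha⟩
      simp only [RingHom.comp_apply, RingHom.coe_coe, rename_X]
      change killCompl _ (tsh F (glue f e ρ) (X a)) = _
      have ha' : a ∉ Set.range e := fun h => ha ((hl a).2 h)
      rw [tsh_X, glue_not f e ρ ha', map_add, killCompl_C]
      have h0 : (killCompl (R := MvPolynomial P F) (Sum.inr_injective (α := L) (β := L'')))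
          (X (Sum.inl (f a))) = 0 := by
        unfold killCompl
        rw [aeval_X, dif_neg]
        rintro ⟨y, hy⟩
        exact absurd hy (by simp)
      rw [h0, add_zero]
  exact congrArg (fun φ : MvPolynomial {a | f a ≠ l} F →+* _ => φ s') h

/-- the coefficients of the shift of one block, as linear operators -/
noncomputable def Psi (F : Type*) [Field F] (f : P → L) (e : Q ↪ P) (ρ : Q → L'')
    (α : L'' →₀ ℕ) : MvPolynomial P F →ₗ[F] MvPolynomial P F where
  toFun x := coeff α (psh F f e ρ x)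
  map_add' x y := by rw [map_add, coeff_add]
  map_smul' c x := by
    rw [smul_eq_C_mul, map_mul, RingHom.id_apply, smul_eq_C_mul]
    have h : psh F f e ρ (C c) = C (C c) := by
      change killCompl _ (tsh F (glue f e ρ) (C c)) = _
      rw [tsh_C, killCompl_C]
    rw [h, coeff_C_mul]

lemma Psi_apply (ρ : Q → L'') (α : L'' →₀ ℕ) (x : MvPolynomial P F) :
    Psi F f e ρ α x = coeff α (psh F f e ρ x) := rfl

lemma Psi_mul (hl : ∀ a, f a = l ↔ a ∈ Set.range e) (ρ : Q → L'') (α : L'' →₀ ℕ)
    (r : MvPolynomial P F) {s : MvPolynomial P F} (hs : s ∈ RO F f l) :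
    Psi F f e ρ α (r * s) = Psi F f e ρ α r * s := by
  rw [Psi_apply, map_mul, psh_off hl ρ hs, mul_comm, coeff_C_mul, mul_comm]
  rfl

lemma exists_rename (hl : ∀ a, f a = l ↔ a ∈ Set.range e) {r : MvPolynomial P F}
    (hr : r ∈ RL F f l) : ∃ w : MvPolynomial Q F, rename e w = r := by
  unfold RL at hr
  rw [Subalgebra.mem_toSubmodule, mem_supported] at hr
  refine exists_rename_eq_of_vars_subset_range r e e.injective ?_
  intro a ha
  exact (hl a).1 (hr ha)

lemma rename_mem_RL (hl : ∀ a, f a = l ↔ a ∈ Set.range e) (w : MvPolynomial Q F) :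
    rename e w ∈ RL F f l := by
  classical
  unfold RL
  rw [Subalgebra.mem_toSubmodule, mem_supported]
  intro a ha
  obtain ⟨q, _, rfl⟩ := Finset.mem_image.1 (vars_rename e w (Finset.mem_coe.1 ha))
  exact (hl _).2 ⟨q, rfl⟩

lemma Psi_rename (ρ : Q → L'') (α : L'' →₀ ℕ) (w : MvPolynomial Q F) :
    Psi F f e ρ α (rename e w) = rename e (coeff α (tsh F ρ w)) := by
  rw [Psi_apply, psh_rename, coeff_map]
  rfl

lemma degree_mapDomain_inr (α : L'' →₀ ℕ) :
    (α.mapDomain (Sum.inr : L'' → L ⊕ L'')).degree = α.degree := by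
  exact Finsupp.degree_mapDomain _ _

end glue

/-! ### the block decomposition of `V_f` -/

section main

variable {F : Type*} [Field F]
variable {L : Type*} [Fintype L] {Q : L → Type*} [∀ l, Fintype (Q l)] [∀ l, DecidableEq (Q l)]
variable {f : P → L} {e : ∀ l, Q l ↪ P}

lemma NF_glue (h : Par f e) {arr : P → P → ℕ} {th : P → V} (hs : Sym arr th)
    (hf : Good th f) (l : L) {ρ : Q l → L''} (hρ : Good (thB th (e l)) ρ) :
    NF arr (glue f (e l) ρ) = NF arr f + NF (arrB arr (e l)) ρ := by
  rw [h.NF_sum hs hf (good_glue (h l) hf hρ) (fine_glue (h l) ρ), Finset.sum_eq_single l]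
  · rw [glue_comp]
    congr 1
    refine NF_congr _ fun a b => ?_
    simp
  · intro l' _ hl'
    have h1 : glue f (e l) ρ ∘ e l' = fun _ => Sum.inl l' := by
      funext q
      have : e l' q ∉ Set.range (e l) := by
        rw [← h l, h.apply l' q]; exact hl'
      simp only [Function.comp_apply]
      rw [glue_not f (e l) ρ this, h.apply l' q]
    rw [h1, NF_congr (g := fun _ : Q l' => ()) _ (fun a b => by simp), NF_unit]
  · intro h2; exact absurd (Finset.mem_univ _) h2

/-- the block subspace inside `MvPolynomial P F` -/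
noncomputable def WB (F : Type*) [Field F] (arr : P → P → ℕ) (th : P → V) (e : ∀ l, Q l ↪ P)
    (l : L) : Submodule F (MvPolynomial P F) :=
  (VB F arr th e l).map (rename (e l) : MvPolynomial (Q l) F →ₐ[F] MvPolynomial P F).toLinearMap

lemma WB_le (h : Par f e) (arr : P → P → ℕ) (th : P → V) (l : L) :
    WB F arr th e l ≤ RL F f l := by
  rintro _ ⟨w, _, rfl⟩
  exact rename_mem_RL (h l) w

open scoped Classical in
/-- the bound of the block refinement `ρ` -/
noncomputable def bd {Q₀ : Type*} [Fintype Q₀] [DecidableEq Q₀] (a : Q₀ → Q₀ → ℕ)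
    (ρ : Q₀ → Q₀) : ℤ :=
  (NF a ρ : ℤ) - if Fine (fun _ : Q₀ => ()) ρ then 0 else 1

lemma mem_VB_iff {arr : P → P → ℕ} {th : P → V} {l : L} {w : MvPolynomial (Q l) F} :
    w ∈ VB F arr th e l ↔ ∀ ρ : Q l → Q l, Good (thB th (e l)) ρ →
      ud F (arrB arr (e l)) (thB th (e l)) ρ (bd (arrB arr (e l)) ρ) w := by
  unfold VB bd
  rw [mem_VV]
  constructor
  · intro hw ρ hρ
    have h1 := hw ρ hρ (fun _ _ _ => rfl)
    rw [NF_unit, Nat.cast_zero, sub_zero] at h1
    split_ifs with hfine
    · rw [sub_zero]; exact h1.1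
    · exact h1.2 hfine
  · intro hw ρ hρ _
    have h1 := hw ρ hρ
    rw [NF_unit, Nat.cast_zero, sub_zero]
    split_ifs at h1 with hfine
    · rw [sub_zero] at h1
      exact ⟨h1, fun h2 => absurd hfine h2⟩
    · exact ⟨ud_mono _ _ _ (by omega) h1, fun _ => h1⟩

/-- generators of a block ideal times monomials lie in the block subspace -/
lemma gens_mul_mem_WB (h : Par f e) {arr : P → P → ℕ} {th : P → V} (l : L)
    (m : P →₀ ℕ) {g : MvPolynomial P F} (hg : g ∈ gens F arr th f l) :
    monomial (res f l m) 1 * g ∈ WB F arr th e l := by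
  obtain ⟨m', hm'⟩ := exists_rename (h l) (monomial_res_mem (F := F) f l m 1)
  obtain ⟨T, hT, hw, rfl⟩ := hg
  have hfib : fib f l = (univ : Finset (Q l)).map (e l) := by
    ext a
    rw [mem_fib, h l a]
    simp
  have hT' : T ⊆ (univ : Finset (Q l)).map (e l) := by rw [← hfib]; exact hT
  obtain ⟨T', _, rfl⟩ := Finset.subset_map_iff.1 hT'
  refine ⟨m' * KK F (arrB arr (e l)) T' (univ \ T'), ?_, ?_⟩
  · refine mem_VV_of_mem ?_
    rw [JJ_const]
    refine Ideal.mul_mem_left _ _ (KK_mem_J0 _ (Finset.subset_univ _) ?_)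
    rw [← wt_map]; exact hw
  · change rename (e l) _ = _
    rw [map_mul, hm', rename_KK, Finset.map_sdiff, hfib]

/-- **(V2)** elements of `V_f` are, modulo `JJ f`, in the span of the products of elements of the
block subspaces. -/
theorem mem_PW_of_InV (h : Par f e) {arr : P → P → ℕ} {th : P → V} (hs : Sym arr th)
    (hf : Good th f) {x : MvPolynomial P F} (hx : InV F arr th f x) :
    x ∈ PW (WB F arr th e) ⊔ (JJ F arr th f).restrictScalars F := by
  classical
  rw [JJ_eq_iSup]
  refine slot f (gens_mem_RL arr th f) (WB F arr th e) (WB_le h arr th)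
    (fun l m g hg => gens_mul_mem_WB h l m hg) fun l => ?_
  -- the condition at the block `l`
  have key : x ∈ Off f l (WB F arr th e l) ⊔ (Ideal.span (gensO F arr th f l)).restrictScalars F := by
    refine transfer f l
      (κ := {k : (Q l → Q l) × (Q l →₀ ℕ) // Good (thB th (e l)) k.1 ∧
        bd (arrB arr (e l)) k.1 < ((k.2.degree : ℕ) : ℤ)})
      (fun k => Psi F f (e l) k.1.1 k.1.2)
      (fun k r _ s hs => Psi_mul (h l) _ _ r hs)
      (fun k r hr => ?_)
      (fun k => gensR F arr th (e l) k.1.1)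
      (fun k => gensR_mem_RL (h l) arr th k.1.1)
      (gensO F arr th f l) (gensO_mem_RO arr th f l)
      (WB F arr th e l) (fun w hw hk => ?_) (fun k => ?_)
    · obtain ⟨w, rfl⟩ := exists_rename (h l) hr
      rw [Psi_rename]
      exact rename_mem_RL (h l) _
    · obtain ⟨w', rfl⟩ := exists_rename (h l) hw
      refine ⟨w', ?_, rfl⟩
      rw [SetLike.mem_coe, mem_VB_iff]
      intro ρ hρ
      rw [ud_iff]
      intro α hα
      refine mem_JJ_of_rename arr th ρ ?_
      have := hk ⟨(ρ, α), hρ, hα⟩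
      rwa [Psi_rename] at this
    · obtain ⟨⟨ρ, α⟩, hρ, hα⟩ := k
      simp only at hρ hα ⊢
      refine JJ_glue_le (h l) arr th ρ ?_
      rw [Psi_apply, coeff_psh]
      have hg := good_glue (h l) hf hρ
      have hgf := fine_glue (h l) ρ
      have hNF := NF_glue h hs hf l hρ
      have hud : ud F arr th (glue f (e l) ρ) (bd (arrB arr (e l)) ρ) x := by
        unfold bd
        split_ifs with hfine
        · have := hx.ud_le hg hgf
          refine ud_mono arr th _ ?_ this
          rw [hNF]; push_cast; omega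
        · have h1 : ¬ Fine f (glue f (e l) ρ) := by
            intro h2
            apply hfine
            intro q q' _
            have h3 := h2 (e l q) (e l q') (by rw [h.apply, h.apply])
            rw [glue_emb, glue_emb] at h3
            exact Sum.inr_injective h3
          have := hx.ud_lt hg hgf h1
          refine ud_mono arr th _ ?_ this
          rw [hNF]; push_cast; omega
      rw [ud_iff] at hud
      refine hud _ ?_
      rw [degree_mapDomain_inr]
      exact hα
  have hle : (Ideal.span (gensO F arr th f l)).restrictScalars F ≤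
      (⨆ l, Ideal.span (gens F arr th f l)).restrictScalars F := by
    intro y hy
    rw [Submodule.restrictScalars_mem] at hy ⊢
    refine (Ideal.span_le.2 ?_) hy
    rintro q ⟨l', _, hq⟩
    exact (le_iSup (fun l => Ideal.span (gens F arr th f l)) l') (Ideal.subset_span hq)
  exact (sup_le_sup_left hle (Off f l (WB F arr th e l)) :
    Off f l (WB F arr th e l) ⊔ _ ≤ _) key

/-- `JJ f` is graded -/
lemma JJ_graded (arr : P → P → ℕ) (th : P → V) (f : P → L) :
    Gr ((JJ F arr th f).restrictScalars F) := by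
  rw [JJ_eq_iSup, ← Ideal.span_iUnion]
  refine span_graded ?_
  intro g hg
  obtain ⟨l, hl⟩ := Set.mem_iUnion.1 hg
  exact gens_homogeneous arr th f l g hl

end main

end Crest.Agent.R059.ThinTens559
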