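/-
Row 59, TEAM THIN, leaf T4 (helper559), binding, part 3: independence of the products modulo `JJ f`,
graded versions.
-/
import Crest.Agent.R059.ThinTens2_559
import Crest.Agent.R059.Shift_359

set_option autoImplicit false
set_option linter.unusedSectionVars false

namespace Crest.Agent.R059.ThinTens559

open MvPolynomial Finset
open Crest.Agent.R059.Thin613 Crest.Agent.R059.Deg359 Crest.Agent.R059.Tens559

variable {P : Type*} [Fintype P] [DecidableEq P]
variable {V : Type*} [AddCommGroup V] [LinearOrder V] [IsOrderedAddMonoid V]
variable {L' : Type*} {L'' : Type*}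
variable {F : Type*} [Field F]

section indep

variable {L : Type*} [Fintype L] {Q : L → Type*} [∀ l, Fintype (Q l)] [∀ l, DecidableEq (Q l)]
variable {f : P → L} {e : ∀ l, Q l ↪ P}

/-- the retraction `killCompl` maps the ideal of the block into `J0 univ` of the block -/
lemma gens_le_comap (h : Par f e) (arr : P → P → ℕ) (th : P → V) (l : L) :
    Ideal.span (gens F arr th f l) ≤
      Ideal.comap (killCompl (e l).injective : MvPolynomial P F →ₐ[F] MvPolynomial (Q l) F)
        (J0 F (arrB arr (e l)) (thB th (e l)) univ) := by
  classical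
  rw [Ideal.span_le]
  rintro q ⟨T, hT, hw, rfl⟩
  have hfib : fib f l = (univ : Finset (Q l)).map (e l) := by
    ext a
    rw [mem_fib, h l a]
    simp
  rw [hfib] at hT ⊢
  obtain ⟨T', _, rfl⟩ := Finset.subset_map_iff.1 hT
  rw [SetLike.mem_coe, Ideal.mem_comap, ← Finset.map_sdiff, ← rename_KK, killCompl_rename_app]
  exact KK_mem_J0 _ (Finset.subset_univ _) (by rw [← wt_map]; exact hw)

/-- `rename (e l)` maps `J0 univ` of the block into `JJ f`. -/
lemma rename_mem_JJ (h : Par f e) (arr : P → P → ℕ) (th : P → V) (l : L)
    {x : MvPolynomial (Q l) F} (hx : x ∈ J0 F (arrB arr (e l)) (thB th (e l)) univ) :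
    rename (e l) x ∈ JJ F arr th f := by
  classical
  refine JJ_rename arr th (h.sat (fun _ _ hab => hab) l) ?_
  have hsame : Same (fun _ : Q l => ()) (f ∘ e l) := fun a b => by
    simp [h.apply l a, h.apply l b]
  rw [← JJ_congr _ _ hsame, JJ_const]
  exact hx

/-- **(V0)** products of families independent modulo the block ideals are independent
modulo `JJ f`. -/
theorem indep_JJ (h : Par f e) (arr : P → P → ℕ) (th : P → V) {ι : L → Type*}
    (w : ∀ l, ι l → MvPolynomial (Q l) F)
    (hind : ∀ l, LinearIndependent F fun i =>
      Ideal.Quotient.mk (J0 F (arrB arr (e l)) (thB th (e l)) univ) (w l i)) :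
    LinearIndependent F fun φ : (∀ l, ι l) =>
      Ideal.Quotient.mk (JJ F arr th f) (∏ l, rename (e l) (w l (φ l))) := by
  classical
  refine Tens559.indep f (G := gens F arr th f) (gens_mem_RL arr th f)
    (fun l i => rename (e l) (w l i)) (fun l i => rename_mem_RL (h l) _) fun l => ?_
  refine LinearIndependent.of_comp
    (Ideal.quotientMapₐ (J0 F (arrB arr (e l)) (thB th (e l)) univ)
      (killCompl (e l).injective : MvPolynomial P F →ₐ[F] MvPolynomial (Q l) F)
      (gens_le_comap h arr th l)).toLinearMap ?_
  have h1 : (⇑(Ideal.quotientMapₐ (J0 F (arrB arr (e l)) (thB th (e l)) univ)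
      (killCompl (e l).injective : MvPolynomial P F →ₐ[F] MvPolynomial (Q l) F)
      (gens_le_comap h arr th l)).toLinearMap ∘ fun i =>
        Ideal.Quotient.mk (Ideal.span (gens F arr th f l)) (rename (e l) (w l i)))
      = fun i => Ideal.Quotient.mk (J0 F (arrB arr (e l)) (thB th (e l)) univ) (w l i) := by
    funext i
    have h2 : (Ideal.quotientMapₐ (J0 F (arrB arr (e l)) (thB th (e l)) univ)
        (killCompl (e l).injective : MvPolynomial P F →ₐ[F] MvPolynomial (Q l) F)
        (gens_le_comap h arr th l)) (Ideal.Quotient.mk (Ideal.span (gens F arr th f l))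
          (rename (e l) (w l i))) =
        Ideal.Quotient.mk (J0 F (arrB arr (e l)) (thB th (e l)) univ)
          (killCompl (e l).injective (rename (e l) (w l i))) :=
      Ideal.quotient_map_mkₐ (J0 F (arrB arr (e l)) (thB th (e l)) univ)
        (killCompl (e l).injective : MvPolynomial P F →ₐ[F] MvPolynomial (Q l) F)
        (gens_le_comap h arr th l)
    rw [killCompl_rename_app] at h2
    exact h2
  rw [h1]
  exact hind l

end indep

/-! ### graded versions -/

lemma tsh_eq_sft (f : P → L') (x : MvPolynomial P F) : tsh F f x = Shift359.sft f x := by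
  have : tsh F f = Shift359.sft f := by
    apply MvPolynomial.ringHom_ext
    · intro r; rw [tsh_C, Shift359.sft_C]
    · intro a; rw [tsh_X, Shift359.sft_X]
  rw [this]

lemma Hom_of_isHomogeneous {n : ℕ} {y : MvPolynomial P F} (hy : y.IsHomogeneous n) :
    Hom (n : ℤ) y := by
  intro α hα
  have h1 := hy hα
  have h2 : Finsupp.weight (1 : P → ℕ) α = α.degree := by
    rw [Finsupp.degree_eq_weight_one]; rfl
  rw [h2] at h1
  exact_mod_cast h1

/-- the coefficients of the shift of a homogeneous component -/
lemma coeff_tsh_hc (f : P → L') (x : MvPolynomial P F) (n : ℕ) (α : L' →₀ ℕ) :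
    coeff α (tsh F f (homogeneousComponent n x)) =
      if α.degree ≤ n then homogeneousComponent (n - α.degree) (coeff α (tsh F f x)) else 0 := by
  classical
  have hH : ∀ (k : ℕ) (α : L' →₀ ℕ), Hom ((k : ℤ) - ((α.degree : ℕ) : ℤ))
      (coeff α (tsh F f (homogeneousComponent k x))) := by
    intro k α
    rw [tsh_eq_sft]
    exact Shift359.JH_sft f (Hom_of_isHomogeneous (homogeneousComponent_isHomogeneous k x)) α
  split_ifs with hle
  · ext m
    rw [coeff_homogeneousComponent]
    have hx : coeff α (tsh F f x) = ∑ k ∈ range (x.totalDegree + 1),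
        coeff α (tsh F f (homogeneousComponent k x)) := by
      conv_lhs => rw [← x.sum_homogeneousComponent, map_sum, coeff_sum]
    have h0 : ∀ k, k ≠ m.degree + α.degree →
        coeff m (coeff α (tsh F f (homogeneousComponent k x))) = 0 := by
      intro k hk
      by_contra hc
      have := hH k α m hc
      omega
    split_ifs with hm
    · rw [hx, coeff_sum]
      have hn : n = m.degree + α.degree := by omega
      by_cases hnr : n ∈ range (x.totalDegree + 1)
      · rw [Finset.sum_eq_single n]
        · intro k _ hk
          exact h0 k (by omega)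
        · intro h; exact absurd hnr h
      · have h1 : homogeneousComponent n x = 0 := by
          apply homogeneousComponent_eq_zero
          rw [Finset.mem_range] at hnr
          omega
        rw [h1, map_zero, coeff_zero, coeff_zero]
        symm
        refine Finset.sum_eq_zero fun k hk => h0 k ?_
        rintro rfl
        exact hnr (hn ▸ hk)
    · exact h0 n (by omega)
  · ext m
    by_contra hc
    rw [coeff_zero] at hc
    have := hH n α m hc
    omega

/-- growth bounds are inherited by the homogeneous components -/
lemma ud_hc (arr : P → P → ℕ) (th : P → V) (f : P → L') {m : ℤ} {x : MvPolynomial P F}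
    (hx : ud F arr th f m x) (n : ℕ) : ud F arr th f m (homogeneousComponent n x) := by
  rw [ud_iff] at hx ⊢
  intro α hα
  rw [coeff_tsh_hc]
  split_ifs
  · -- JJ is graded, for any label type
    have hgr : ∀ y ∈ JJ F arr th f, ∀ k, homogeneousComponent k y ∈ JJ F arr th f := by
      have h1 : Gr ((JJ F arr th f).restrictScalars F) := by
        rw [JJ_eq_iSup, ← Ideal.span_iUnion]
        refine span_graded ?_
        intro g hg
        obtain ⟨l, hl⟩ := Set.mem_iUnion.1 hg
        exact gens_homogeneous arr th f l g hl
      exact fun y hy k => h1 y hy k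
    exact hgr _ (hx α hα) _
  · exact Ideal.zero_mem _

/-- `V_f` is graded -/
lemma VV_graded (arr : P → P → ℕ) (th : P → V) (f : P → L') : Gr (VV F arr th f) := by
  intro w hw n g hg hgf
  exact ⟨ud_hc arr th g (hw g hg hgf).1 n, fun h => ud_hc arr th g ((hw g hg hgf).2 h) n⟩

section main

variable {L : Type*} [Fintype L] {Q : L → Type*} [∀ l, Fintype (Q l)] [∀ l, DecidableEq (Q l)]
variable {f : P → L} {e : ∀ l, Q l ↪ P}

lemma hc_rename {Q₀ : Type*} (e₀ : Q₀ ↪ P) (w : MvPolynomial Q₀ F) (n : ℕ) :
    homogeneousComponent n (rename e₀ w) = rename e₀ (homogeneousComponent n w) := by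
  classical
  have h : rename e₀ w = ∑ k ∈ range (w.totalDegree + 1), rename e₀ (homogeneousComponent k w) := by
    conv_lhs => rw [← w.sum_homogeneousComponent, map_sum]
  rw [h, map_sum]
  by_cases hn : n ∈ range (w.totalDegree + 1)
  · rw [Finset.sum_eq_single n]
    · rw [hc_of ((homogeneousComponent_isHomogeneous n w).rename_isHomogeneous), if_pos rfl]
    · intro k _ hk
      rw [hc_of ((homogeneousComponent_isHomogeneous k w).rename_isHomogeneous), if_neg hk]
    · intro h'; exact absurd hn h'
  · have h1 : homogeneousComponent n w = 0 := by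
      apply homogeneousComponent_eq_zero
      rw [Finset.mem_range] at hn
      omega
    rw [h1, map_zero]
    refine Finset.sum_eq_zero fun k hk => ?_
    rw [hc_of ((homogeneousComponent_isHomogeneous k w).rename_isHomogeneous), if_neg]
    rintro rfl
    exact hn hk

lemma WB_graded (arr : P → P → ℕ) (th : P → V) (l : L) : Gr (WB F arr th e l) := by
  rintro _ ⟨w, hw, rfl⟩ n
  refine ⟨homogeneousComponent n w, VV_graded _ _ _ w hw n, ?_⟩
  change rename (e l) _ = homogeneousComponent n (rename (e l) w)
  rw [hc_rename]

/-- **(V2), graded**: a homogeneous element of `V_f` is, modulo `JJ f`, in the span of the products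
of homogeneous elements of the block subspaces of total degree `n`. -/
theorem mem_PWn_of_InV (h : Par f e) {arr : P → P → ℕ} {th : P → V} (hs : Sym arr th)
    (hf : Good th f) {x : MvPolynomial P F} (hx : InV F arr th f x) {n : ℕ}
    (hn : x.IsHomogeneous n) :
    x ∈ PWn (WB F arr th e) n ⊔ (JJ F arr th f).restrictScalars F :=
  mem_PWn (WB F arr th e) (WB_graded arr th) _ (JJ_graded arr th f) hn
    (mem_PW_of_InV h hs hf hx)

end main

end Crest.Agent.R059.ThinTens559
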