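import Mathlib
import Crest.Agent.R059.PLloc2_830
import Crest.Agent.R059.ThinTens3_559
import Crest.Agent.R059.Half1_226

/-!
# Row 59, Theorem B, half 2 (helper830): the instance of `Loc` at a place and a level (model)
-/

set_option autoImplicit false
set_option linter.unusedSectionVars false

namespace Crest.Agent.R059.PLloc830

open MvPolynomial Finset Thin613 Deg359 PL547

/-! ### independence of monomials with independent coefficients -/

theorem indep_mon {A ι L : Type*} [CommRing A] [Algebra ℚ A] {v : ι → A}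
    (hv : LinearIndependent ℚ v) :
    LinearIndependent ℚ (fun p : ι × (L →₀ ℕ) => (monomial p.2 (v p.1) : MvPolynomial L A)) := by
  classical
  rw [linearIndependent_iff']
  rintro s c hc ⟨i₀, α₀⟩ h₀
  have h1 := congrArg (coeff α₀) hc
  rw [coeff_sum, coeff_zero] at h1
  have h2 : ∑ p ∈ s, coeff α₀ (c p • (monomial p.2 (v p.1) : MvPolynomial L A)) =
      ∑ i ∈ (s.filter (fun p => p.2 = α₀)).image Prod.fst, c (i, α₀) • v i := by
    rw [Finset.sum_image]
    · rw [Finset.sum_filter]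
      refine Finset.sum_congr rfl fun p _ => ?_
      rw [coeff_smul, coeff_monomial]
      by_cases h : p.2 = α₀
      · rw [if_pos h, if_pos h, ← h]
      · rw [if_neg h, if_neg h, smul_zero]
    · rintro ⟨i, α⟩ h ⟨i', α'⟩ h' hii
      simp only [Finset.coe_filter, Set.mem_setOf_eq] at h h'
      simp only at hii
      rw [hii, h.2, h'.2]
  rw [h2] at h1
  refine linearIndependent_iff'.1 hv _ (fun i => c (i, α₀)) h1 i₀ ?_
  rw [Finset.mem_image]
  exact ⟨(i₀, α₀), Finset.mem_filter.2 ⟨h₀, rfl⟩, rfl⟩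

/-! ### good labellings and symmetry for coloured sets -/

section good

variable {I : Type} [Fintype I] [DecidableEq I] {k : I → I → ℕ} {θ : I → ℤ}

theorem sum_colour {P : Type*} (c : P → I) (S : Finset P) {M : Type*} [AddCommMonoid M]
    (F : I → M) : ∑ a ∈ S, F (c a) = ∑ i, (S.filter fun a => c a = i).card • F i := by
  classical
  rw [← Finset.sum_fiberwise S c]
  refine Finset.sum_congr rfl fun i _ => ?_
  rw [Finset.sum_congr rfl (g := fun _ => F i) (fun a ha => by rw [(Finset.mem_filter.1 ha).2]),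
    Finset.sum_const]

theorem sym_col (hk : ∀ c e : I → ℕ, thc θ c = 0 → thc θ e = 0 → PL547.kk k c e = PL547.kk k e c)
    {P : Type*} [Fintype P] [DecidableEq P] (c : P → I) : Sym (ar k c) (tw θ c) := by
  classical
  intro S T _ hS hT
  have hw : ∀ S : Finset P, wt (tw θ c) S = thc θ (fun i => (S.filter fun a => c a = i).card) := by
    intro S
    unfold wt thc
    have := sum_colour c S θ
    unfold tw
    rw [this]
    refine Finset.sum_congr rfl fun i _ => ?_
    rw [nsmul_eq_mul, mul_comm]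
  have hb : ∀ (k' : I → I → ℕ) (S T : Finset P), ∑ a ∈ S, ∑ b ∈ T, k' (c a) (c b) =
      PL547.kk k' (fun i => (S.filter fun a => c a = i).card)
        (fun i => (T.filter fun a => c a = i).card) := by
    intro k' S T
    unfold PL547.kk
    have h1 : ∀ a, ∑ b ∈ T, k' (c a) (c b) =
        ∑ j, (T.filter fun a => c a = j).card • k' (c a) j := fun a =>
      sum_colour c T (fun j => k' (c a) j)
    rw [Finset.sum_congr rfl (fun a _ => h1 a),
      sum_colour c S (fun i => ∑ j, (T.filter fun a => c a = j).card • k' i j)]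
    refine Finset.sum_congr rfl fun i _ => ?_
    rw [Finset.smul_sum]
    refine Finset.sum_congr rfl fun j _ => ?_
    simp only [smul_eq_mul]
    ring
  have h1 := hb k S T
  have h2 := hb (fun i j => k j i) S T
  have h3 := hk (fun i => (S.filter fun a => c a = i).card)
    (fun i => (T.filter fun a => c a = i).card) (by rw [← hw]; exact hS) (by rw [← hw]; exact hT)
  change ∑ a ∈ S, ∑ b ∈ T, k (c a) (c b) = ∑ a ∈ S, ∑ b ∈ T, k (c b) (c a)
  rw [h1, h2, h3]
  unfold PL547.kk
  rw [Finset.sum_comm]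
  refine Finset.sum_congr rfl fun i _ => Finset.sum_congr rfl fun j _ => ?_
  ring

variable {T : Type} [Fintype T] [LinearOrder T] {cl : T → I → ℕ} (m : T → ℕ)

theorem good_model (hcl : ∀ t, thc θ (cl t) = 0) :
    Good (tw θ (colS cl m)) (blk cl m) := by
  intro j
  unfold wt
  rw [sum_blk]
  change ∑ x : Vt (cl j.1), θ x.1 = 0
  rw [sum_Vt (cl j.1) θ]
  have h := hcl j.1
  unfold thc at h
  rw [← h]
  refine Finset.sum_congr rfl fun i _ => ?_
  rw [nsmul_eq_mul, mul_comm]

/-- the embeddings of the blocks -/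
def eb (cl : T → I → ℕ) (m : T → ℕ) (j : Jm m) : Vt (cl j.1) ↪ Sm cl m := Function.Embedding.sigmaMk (β := fun j : Jm m => Vt (cl j.1)) j

theorem par_model : ThinTens559.Par (blk cl m) (eb cl m) := by
  rintro j ⟨j', x⟩
  constructor
  · intro h
    change j' = j at h
    subst h
    exact ⟨x, rfl⟩
  · rintro ⟨y, hy⟩
    rw [← hy]
    rfl

end good

/-! ### the family elements on the model -/

section family

variable {I : Type} [Fintype I] [DecidableEq I] {k : I → I → ℕ} {θ : I → ℤ}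
  {T : Type} [Fintype T] [LinearOrder T] {cl : T → I → ℕ} {𝓛 : Letters k θ cl} {m : T → ℕ}
  (hcl : ∀ t, thc θ (cl t) = 0)
  (hk : ∀ c e : I → ℕ, thc θ c = 0 → thc θ e = 0 → PL547.kk k c e = PL547.kk k e c)
  (pt : ∀ t, Vt (cl t))

include hcl hk in
theorem inV_lp (φ : Wd 𝓛 m) :
    InV ℚ (ar k (colS cl m)) (tw θ (colS cl m)) (blk cl m) φ.lp :=
  ThinTens559.prod_mem_VV (par_model m) (sym_col hk _) (good_model m hcl)
    (fun j => 𝓛.pol j.1 (φ.at j).l) (fun j => (𝓛.mem j.1 (φ.at j).l).2)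

/-- the monomial part -/
noncomputable def mo (φ : Wd 𝓛 m) : MvPolynomial (Sm cl m) ℚ :=
  ∏ j : Jm m, X (⟨j, pt j.1⟩ : Sm cl m) ^ (φ.at j).a

theorem Kh_eq (φ : Wd 𝓛 m) :
    φ.Kh pt = KL ℚ (ar k (colS cl m)) (blk cl m) * (φ.lp * mo pt φ) := rfl

theorem ud_mo {L : Type*} (f : Sm cl m → L) (φ : Wd 𝓛 m) :
    ud ℚ (ar k (colS cl m)) (tw θ (colS cl m)) f (φ.tot : ℤ) (mo pt φ) := by
  unfold mo Wd.tot
  push_cast
  refine ThinTens559.ud_prod _ _ _ _ _ _ fun j _ => ?_
  have h := TD.pow (ud_X (F := ℚ) (ar k (colS cl m)) (tw θ (colS cl m)) f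
    (⟨j, pt j.1⟩ : Sm cl m)) (φ.at j).a
  unfold ud
  rw [map_pow]
  rwa [mul_one] at h

include hcl hk in
/-- growth at any good labelling -/
theorem ud_Kh {L : Type*} {f : Sm cl m → L} (hf : Good (tw θ (colS cl m)) f) (φ : Wd 𝓛 m) :
    ud ℚ (ar k (colS cl m)) (tw θ (colS cl m)) f
      ((NF (ar k (colS cl m)) f : ℤ) + φ.tot) (φ.Kh pt) :=
  ud_family _ (sym_col hk _) hf (good_model m hcl) (inV_lp hcl hk φ) fun _ => ud_mo pt _ φ

include hcl hk in
theorem ud_Kh_strict {L : Type*} {f : Sm cl m → L} (hf : Good (tw θ (colS cl m)) f)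
    (hne : ¬ Fine (blk cl m) f) (φ : Wd 𝓛 m) :
    ud ℚ (ar k (colS cl m)) (tw θ (colS cl m)) f
      ((NF (ar k (colS cl m)) f : ℤ) + φ.tot - 1) (φ.Kh pt) :=
  ud_family_strict _ (sym_col hk _) hf (good_model m hcl) hne (inV_lp hcl hk φ)
    fun _ => ud_mo pt _ φ

include hcl hk in
theorem symL_Kh (φ : Wd 𝓛 m) :
    symL (ar k (colS cl m)) (tw θ (colS cl m)) (blk cl m)
      ((NF (ar k (colS cl m)) (blk cl m) : ℤ) + φ.tot) (φ.Kh pt) = sE φ := by
  have hw0 : ud ℚ (ar k (colS cl m)) (tw θ (colS cl m)) (blk cl m) 0 φ.lp := by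
    have := (inV_lp hcl hk φ).ud_le (good_model m hcl) (fun _ _ h => h)
    rwa [sub_self] at this
  have h := top_family (F := ℚ) (ar k (colS cl m)) (sym_col hk _) (good_model m hcl) hw0
    (fun j : Jm m => (⟨j, pt j.1⟩ : Sm cl m)) (fun _ => rfl) (fun j => (φ.at j).a)
  rw [symL_apply, Kh_eq]
  unfold mo sE
  rw [← h]
  congr 2

/-- the exponent of a word -/
noncomputable def ex (φ : Wd 𝓛 m) : Jm m →₀ ℕ := Finsupp.equivFunOnFinite.symm fun j => (φ.at j).a

theorem sE_eq (φ : Wd 𝓛 m) :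
    sE φ = DP (QM k θ cl m) (ar k (colS cl m)) (blk cl m) *
      monomial (ex φ) (Ideal.Quotient.mk _ φ.lp) := by
  unfold sE
  rw [monomial_eq, Finsupp.prod_fintype _ _ (fun _ => pow_zero _)]
  rfl

theorem DP_mul_injective (x : MvPolynomial (Jm m) (QM k θ cl m))
    (h : DP (QM k θ cl m) (ar k (colS cl m)) (blk cl m) * x = 0) : x = 0 := by
  rw [Half1.DP_eq_dpr] at h
  exact ThinDiv971.dpr_mul_inj (ar k (colS cl m)) (blk cl m) (h.trans (mul_zero _).symm)

/-- the symbols of the words are independent -/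
theorem indep_sE : LinearIndependent ℚ (fun φ : Wd 𝓛 m => sE φ) := by
  have h1 := ThinTens559.indep_JJ (F := ℚ) (par_model (cl := cl) m) (ar k (colS cl m))
    (tw θ (colS cl m)) (ι := fun j => 𝓛.L j.1) (fun j l => 𝓛.pol j.1 l) (fun j => by
      rw [linearIndependent_iff]
      intro c hc
      apply 𝓛.indep j.1 c
      have h2 : Ideal.Quotient.mk (J0 ℚ (ar k (colV (cl j.1))) (tw θ (colV (cl j.1))) univ)
          (c.sum fun l a => a • 𝓛.pol j.1 l) = 0 := by
        rw [Finsupp.linearCombination_apply] at hc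
        refine Eq.trans ?_ hc
        rw [Finsupp.sum, Finsupp.sum, map_sum]
        rfl
      exact Ideal.Quotient.eq_zero_iff_mem.1 h2)
  have h2 := indep_mon (L := Jm m) h1
  have h3 : Function.Injective (fun φ : Wd 𝓛 m => ((fun j => (φ.at j).l : ∀ j : Jm m, 𝓛.L j.1),
      ex φ)) := by
    intro φ φ' h
    simp only [Prod.mk.injEq] at h
    funext t r
    apply Al.ext'
    · exact congrFun h.1 ⟨t, r⟩
    · exact DFunLike.congr_fun h.2 (⟨t, r⟩ : Jm m)
  have h4 := (h2.comp _ h3).map' (LinearMap.mulLeft ℚ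
    (DP (QM k θ cl m) (ar k (colS cl m)) (blk cl m))) (by
      rw [LinearMap.ker_eq_bot']
      intro x hx
      exact DP_mul_injective x hx)
  have h5 : (fun φ : Wd 𝓛 m => sE φ) = (LinearMap.mulLeft ℚ
    (DP (QM k θ cl m) (ar k (colS cl m)) (blk cl m))) ∘
      ((fun p : (∀ j : Jm m, 𝓛.L j.1) × (Jm m →₀ ℕ) => (monomial p.2 (Ideal.Quotient.mk
        (JJ ℚ (ar k (colS cl m)) (tw θ (colS cl m)) (blk cl m))
        (∏ l, rename (eb cl m l) (𝓛.pol l.1 (p.1 l)))) :
          MvPolynomial (Jm m) (QM k θ cl m))) ∘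
      (fun φ : Wd 𝓛 m => ((fun j => (φ.at j).l : ∀ j : Jm m, 𝓛.L j.1), ex φ))) := by
    funext φ
    rw [sE_eq]
    rfl
  rw [h5]
  exact h4

end family

end Crest.Agent.R059.PLloc830
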