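import Crest.Agent.R059.Val_944
import Crest.Agent.R059.ThinTens_559
import Crest.Agent.R059.ThinTens2_559
import Crest.Agent.R059.ThinTens3_559

/-!
# Alternating elements of `V_b` and words of letters (row 59, Theorem B, HALF 2, (P7) = (S1))
-/

set_option autoImplicit false
set_option linter.unusedSectionVars false

open MvPolynomial Finset

namespace Crest.Agent.R059.Val944

open Crest.Agent.R059.Thin613 Crest.Agent.R059.ThinEq494 Crest.Agent.R059.PL547
open Crest.Agent.R059.ThinTens559 (Par arrB thB VB VV)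

variable {P : Type*} [Fintype P] [DecidableEq P]
variable {V : Type*} [AddCommGroup V] [LinearOrder V] [IsOrderedAddMonoid V]
variable {L : Type*} [Fintype L] [DecidableEq L]
variable {Q : L → Type*} [∀ l, Fintype (Q l)] [∀ l, DecidableEq (Q l)]
variable {b : P → L} {e : ∀ l, Q l ↪ P} {I : Type*}

/-! ### permutations acting in the blocks -/

noncomputable def glueE (h : Par b e) : (Σ l, Q l) ≃ P := Equiv.ofBijective _ h.bijective

theorem glueE_apply (h : Par b e) (l : L) (q : Q l) : glueE h ⟨l, q⟩ = e l q := rfl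

/-- a family of permutations of the blocks -/
noncomputable def glue (h : Par b e) (σ : ∀ l, Equiv.Perm (Q l)) : Equiv.Perm P :=
  ((glueE h).symm.trans (Equiv.sigmaCongrRight σ)).trans (glueE h)

theorem glue_apply (h : Par b e) (σ : ∀ l, Equiv.Perm (Q l)) (l : L) (q : Q l) :
    glue h σ (e l q) = e l (σ l q) := by
  have h1 : (glueE h).symm (e l q) = ⟨l, q⟩ := by
    rw [Equiv.symm_apply_eq]; rfl
  simp only [glue, Equiv.trans_apply, h1]
  rfl

theorem exists_eq (h : Par b e) (a : P) : ∃ l, ∃ q : Q l, e l q = a := by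
  obtain ⟨q, hq⟩ := (h (b a) a).1 rfl
  exact ⟨b a, q, hq⟩

theorem b_glue (h : Par b e) (σ : ∀ l, Equiv.Perm (Q l)) (a : P) : b (glue h σ a) = b a := by
  obtain ⟨l, q, rfl⟩ := exists_eq h a
  rw [glue_apply, h.apply, h.apply]

theorem col_glue (h : Par b e) {c : P → I} {σ : ∀ l, Equiv.Perm (Q l)}
    (hσ : ∀ l q, c (e l (σ l q)) = c (e l q)) (a : P) : c (glue h σ a) = c a := by
  obtain ⟨l, q, rfl⟩ := exists_eq h a
  rw [glue_apply, hσ]

theorem sg_glue (h : Par b e) (σ : ∀ l, Equiv.Perm (Q l)) :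
    sg (glue h σ) = ∏ l, sg (σ l) := by
  unfold glue
  rw [sg_trans_symm]
  unfold sg
  rw [sign_sigmaCongrRight]
  push_cast
  rfl

/-- products of placed alternating elements -/
theorem prod_alt (h : Par b e) (c : P → I) (y : ∀ l, MvPolynomial (Q l) ℚ) :
    ∏ l, rename (e l) (alt (c ∘ e l) (y l)) =
      ∑ σ ∈ Fintype.piFinset (fun l => GG (c ∘ e l)),
        sg (glue h σ) • rename (glue h σ) (∏ l, rename (e l) (y l)) := by
  classical
  have h1 : ∀ l, rename (e l) (alt (c ∘ e l) (y l)) =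
      ∑ σ ∈ GG (c ∘ e l), sg σ • rename (e l) (rename σ (y l)) := by
    intro l
    unfold alt
    rw [map_sum]
    exact Finset.sum_congr rfl fun σ _ => by rw [map_smul]
  simp_rw [h1]
  rw [Finset.prod_univ_sum]
  refine Finset.sum_congr rfl fun σ _ => ?_
  have h2 : ∏ l, sg (σ l) • rename (e l) (rename (σ l) (y l))
      = (∏ l, sg (σ l)) • ∏ l, rename (e l) (rename (σ l) (y l)) := by
    simp_rw [MvPolynomial.smul_eq_C_mul]
    rw [Finset.prod_mul_distrib, map_prod]
  rw [h2, sg_glue, map_prod]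
  congr 1
  refine Finset.prod_congr rfl fun l _ => ?_
  rw [rename_rename, rename_rename]
  congr 1
  ext q
  simp [glue_apply]

/-- products of elements of subspaces, placed in the blocks -/
def PS (e : ∀ l, Q l ↪ P) (W : ∀ l, Submodule ℚ (MvPolynomial (Q l) ℚ)) :
    Set (MvPolynomial P ℚ) :=
  {z | ∃ y : ∀ l, MvPolynomial (Q l) ℚ, (∀ l, y l ∈ W l) ∧ z = ∏ l, rename (e l) (y l)}

/-! ### equivariance of `V` -/

theorem InV_rename_const {P' : Type*} [Fintype P'] [DecidableEq P'] {F : Type*} [CommRing F]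
    {arr : P' → P' → ℕ} {th : P' → V} (σ : Equiv.Perm P')
    (harr : ∀ a c, arr a c = arr (σ a) (σ c)) (hth : ∀ a, th a = th (σ a))
    {y : MvPolynomial P' F} (hy : InV F arr th (fun _ => ()) y) :
    InV F arr th (fun _ => ()) (rename σ y) := by
  intro g' hg' _
  have M : Mor arr th (g' ∘ σ) arr th g' σ id := mor_equiv' σ harr hth (fun _ => rfl)
  have hgood : Good th (g' ∘ σ) := (Good_equiv M).1 hg'
  have hN : NF arr g' = NF arr (g' ∘ σ) := by
    unfold NF; rw [N2_equiv M]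
  have h0 := hy (g' ∘ σ) hgood (fun _ _ _ => rfl)
  constructor
  · rw [ud_equiv M, hN]
    exact h0.1
  · intro hne
    rw [ud_equiv M, hN]
    apply h0.2
    intro hf
    apply hne
    intro a c _
    have := hf (σ.symm a) (σ.symm c) rfl
    simpa using this

/-! ### (V2) for alternating elements -/

section V2

variable {arr : P → P → ℕ} {th : P → V} {c : P → I}

theorem alt_mem_VB (harr : ∀ a a' d d', c a = c a' → c d = c d' → arr a d = arr a' d')
    (hth : ∀ a a', c a = c a' → th a = th a') (l : L) {y : MvPolynomial (Q l) ℚ}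
    (hy : y ∈ VB ℚ arr th e l) : alt (c ∘ e l) y ∈ VB ℚ arr th e l := by
  unfold alt
  apply Submodule.sum_mem
  intro σ hσ
  rw [mem_GG] at hσ
  apply Submodule.smul_mem
  exact InV_rename_const σ (fun a d => harr _ _ _ _ (hσ a).symm (hσ d).symm)
    (fun a => hth _ _ (hσ a).symm) hy

theorem rename_mem_JJ {F : Type*} [CommRing F] {σ : Equiv.Perm P}
    (harr : ∀ a d, arr a d = arr (σ a) (σ d))
    (hth : ∀ a, th a = th (σ a)) (hσ : ∀ a, b (σ a) = b a) {w : MvPolynomial P F}
    (hw : w ∈ JJ F arr th b) : rename σ w ∈ JJ F arr th b :=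
  (mem_JJ_equiv (mor_perm σ harr hth b hσ) w).2 hw

/-- **(V2), alternating**: from the plain (V2) by averaging over the block permutations. -/
theorem V2alt (h : Par b e)
    (harr : ∀ a a' d d', c a = c a' → c d = c d' → arr a d = arr a' d')
    (hth : ∀ a a', c a = c a' → th a = th a') {w : MvPolynomial P ℚ}
    (hV2 : w ∈ Submodule.span ℚ (PS e (VB ℚ arr th e)) ⊔
      (JJ ℚ arr th b).restrictScalars ℚ)
    (halt : ∀ σ : Equiv.Perm P, (∀ a, c (σ a) = c a) → (∀ a, b (σ a) = b a) →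
      rename σ w - C (sg σ) * w ∈ JJ ℚ arr th b) :
    w ∈ Submodule.span ℚ (PS e (fun l => VB ℚ arr th e l ⊓ Anti (c ∘ e l))) ⊔
      (JJ ℚ arr th b).restrictScalars ℚ := by
  classical
  set G := Fintype.piFinset (fun l => GG (c ∘ e l)) with hG
  have hcol : ∀ σ ∈ G, ∀ a, c (glue h σ a) = c a := by
    intro σ hσ a
    apply col_glue h
    intro l q
    have := Fintype.mem_piFinset.1 hσ l
    rw [mem_GG] at this
    exact this q
  let A : MvPolynomial P ℚ →ₗ[ℚ] MvPolynomial P ℚ :=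
    ∑ σ ∈ G, sg (glue h σ) • (rename (glue h σ)).toLinearMap
  have hA : ∀ x, A x = ∑ σ ∈ G, sg (glue h σ) • rename (glue h σ) x := by
    intro x
    simp [A, LinearMap.sum_apply]
  set T : Submodule ℚ (MvPolynomial P ℚ) :=
    Submodule.span ℚ (PS e (fun l => VB ℚ arr th e l ⊓ Anti (c ∘ e l))) ⊔
      (JJ ℚ arr th b).restrictScalars ℚ with hT
  have hJT : (JJ ℚ arr th b).restrictScalars ℚ ≤ T := le_sup_right
  have h1 : A w - (G.card : ℚ) • w ∈ T := by
    apply hJT
    have h2 : A w - (G.card : ℚ) • w =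
        ∑ σ ∈ G, sg (glue h σ) • (rename (glue h σ) w - C (sg (glue h σ)) * w) := by
      have h9 : ∀ σ ∈ G, sg (glue h σ) • (rename (glue h σ) w - C (sg (glue h σ)) * w)
          = sg (glue h σ) • rename (glue h σ) w - w := by
        intro σ _
        rw [smul_sub, ← MvPolynomial.smul_eq_C_mul, smul_smul, sg_mul_self, one_smul]
      rw [hA, Finset.sum_congr rfl h9, Finset.sum_sub_distrib, Finset.sum_const,
        Nat.cast_smul_eq_nsmul]
    rw [h2]
    apply Submodule.sum_mem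
    intro σ hσ
    apply Submodule.smul_mem
    exact halt _ (hcol σ hσ) (b_glue h σ)
  have h3 : ∀ x ∈ Submodule.span ℚ (PS e (VB ℚ arr th e)) ⊔
      (JJ ℚ arr th b).restrictScalars ℚ, A x ∈ T := by
    intro x hx
    have h4 : Submodule.span ℚ (PS e (VB ℚ arr th e)) ⊔
      (JJ ℚ arr th b).restrictScalars ℚ ≤ T.comap A := by
      apply sup_le
      · rw [Submodule.span_le]
        rintro z ⟨y, hy, rfl⟩
        change A _ ∈ T
        rw [hA, ← prod_alt h c y]
        apply Submodule.mem_sup_left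
        apply Submodule.subset_span
        refine ⟨fun l => alt (c ∘ e l) (y l), fun l => ⟨?_, alt_mem _ _⟩, rfl⟩
        exact alt_mem_VB harr hth l (hy l)
      · intro z hz
        change A z ∈ T
        apply hJT
        rw [hA]
        apply Submodule.sum_mem
        intro σ hσ
        apply Submodule.smul_mem
        exact rename_mem_JJ (fun a d => harr _ _ _ _ (hcol σ hσ a).symm (hcol σ hσ d).symm)
          (fun a => hth _ _ (hcol σ hσ a).symm) (b_glue h σ) hz
    exact h4 hx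
  have h5 : (G.card : ℚ) • w ∈ T := by
    have := T.sub_mem (h3 w hV2) h1
    rwa [sub_sub_cancel] at this
  have hGc : (G.card : ℚ) ≠ 0 := by
    rw [hG, Fintype.card_piFinset]
    push_cast
    exact Finset.prod_ne_zero_iff.2 fun l _ => GG_card_ne_zero _
  have h6 := T.smul_mem (G.card : ℚ)⁻¹ h5
  rwa [smul_smul, inv_mul_cancel₀ hGc, one_smul] at h6

/-- expansion in letters -/
theorem span_letters (h : Par b e) {Λ : L → Type*} (pol : ∀ l, Λ l → MvPolynomial (Q l) ℚ)
    (W : ∀ l, Submodule ℚ (MvPolynomial (Q l) ℚ))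
    (hpol : ∀ l, W l ≤ Submodule.span ℚ (Set.range (pol l)) ⊔
      (J0 ℚ (arrB arr (e l)) (thB th (e l)) univ).restrictScalars ℚ) :
    Submodule.span ℚ (PS e W) ⊔ (JJ ℚ arr th b).restrictScalars ℚ ≤
      Submodule.span ℚ (Set.range fun s : ∀ l, Λ l => ∏ l, rename (e l) (pol l (s l))) ⊔
        (JJ ℚ arr th b).restrictScalars ℚ := by
  classical
  apply sup_le _ le_sup_right
  rw [Submodule.span_le]
  rintro z ⟨y, hy, rfl⟩
  choose p hp j hj hpj using fun l => Submodule.mem_sup.1 (hpol l (hy l))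
  have hj2 : ∀ l, rename (e l) (j l) ∈ JJ ℚ arr th b := by
    intro l
    apply ThinTens559.JJ_rename arr th (h.sat (g := b) (fun _ _ h => h) l)
    have h1 : b ∘ e l = fun _ => l := by
      funext q; exact h.apply l q
    rw [h1, JJ_const]
    exact hj l
  have h2 : ∏ l, rename (e l) (y l) - ∏ l, rename (e l) (p l) ∈ JJ ℚ arr th b := by
    rw [← Ideal.Quotient.eq_zero_iff_mem, map_sub, map_prod, map_prod, sub_eq_zero]
    refine Finset.prod_congr rfl fun l _ => ?_
    rw [← hpj l, map_add, map_add, Ideal.Quotient.eq_zero_iff_mem.2 (hj2 l), add_zero]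
  have h3 : ∏ l, rename (e l) (p l) ∈
      Submodule.span ℚ (Set.range fun s : ∀ l, Λ l => ∏ l, rename (e l) (pol l (s l))) := by
    choose k hk using fun l => (Finsupp.mem_span_range_iff_exists_finsupp).1 (hp l)
    have h4 : ∀ l, rename (e l) (p l) =
        ∑ i ∈ (k l).support, (k l i) • rename (e l) (pol l i) := by
      intro l
      rw [← hk l, Finsupp.sum, map_sum]
      exact Finset.sum_congr rfl fun i _ => by rw [map_smul]
    simp_rw [h4]
    rw [Finset.prod_univ_sum]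
    apply Submodule.sum_mem
    intro s _
    have h5 : ∏ l, (k l (s l)) • rename (e l) (pol l (s l))
        = (∏ l, k l (s l)) • ∏ l, rename (e l) (pol l (s l)) := by
      simp_rw [MvPolynomial.smul_eq_C_mul]
      rw [Finset.prod_mul_distrib, map_prod]
    rw [h5]
    apply Submodule.smul_mem
    exact Submodule.subset_span ⟨s, rfl⟩
  have h6 : ∏ l, rename (e l) (y l) = ∏ l, rename (e l) (p l) +
      (∏ l, rename (e l) (y l) - ∏ l, rename (e l) (p l)) := by ring
  rw [SetLike.mem_coe, h6]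
  exact Submodule.add_mem_sup h3 h2

end V2

/-- 559's (V2) in the language of `PS` -/
theorem V2_of_InV (h : Par b e) {arr : P → P → ℕ} {th : P → V} (hs : Sym arr th)
    (hb : Good th b) {w : MvPolynomial P ℚ} (hw : InV ℚ arr th b w) :
    w ∈ Submodule.span ℚ (PS e (VB ℚ arr th e)) ⊔ (JJ ℚ arr th b).restrictScalars ℚ := by
  have h1 := ThinTens559.mem_PW_of_InV h hs hb hw
  have h2 : Tens559.PW (ThinTens559.WB ℚ arr th e) ≤
      Submodule.span ℚ (PS e (VB ℚ arr th e)) := by
    unfold Tens559.PW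
    apply Submodule.span_mono
    rintro z ⟨y, hy, rfl⟩
    choose u hu huy using hy
    exact ⟨u, hu, Finset.prod_congr rfl fun l _ => (huy l).symm⟩
  have h3 := sup_le_sup_right h2 ((JJ ℚ arr th b).restrictScalars ℚ)
  exact h3 h1

end Crest.Agent.R059.Val944

namespace Crest.Agent.R059.Val944

open Crest.Agent.R059.Thin613 Crest.Agent.R059.ThinEq494 Crest.Agent.R059.PL547
open Crest.Agent.R059.ThinTens559 (Par arrB thB VB VV)

section final

variable {P : Type} [Fintype P] [DecidableEq P]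
variable {V : Type*} [AddCommGroup V] [LinearOrder V] [IsOrderedAddMonoid V]
variable {L : Type} [Fintype L] [LinearOrder L]
variable {Q : L → Type*} [∀ l, Fintype (Q l)] [∀ l, DecidableEq (Q l)]
variable {b : P → L} {e : ∀ l, Q l ↪ P} {I : Type*} {arr : P → P → ℕ} {th : P → V} {c : P → I}
variable {Λ : L → Type*}

/-- the symbol of a word: letters `s l`, exponents `a l` -/
noncomputable def sym (arr : P → P → ℕ) (th : P → V) (b : P → L) (e : ∀ l, Q l ↪ P)
    (pol : ∀ l, Λ l → MvPolynomial (Q l) ℚ) (s : ∀ l, Λ l) (a : L → ℕ) :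
    MvPolynomial L (MvPolynomial P ℚ ⧸ JJ ℚ arr th b) :=
  DP _ arr b * (C (Ideal.Quotient.mk _ (∏ l, rename (e l) (pol l (s l)))) * ∏ l, X l ^ a l)

theorem monomial_eq_prod {A : Type*} [CommRing A] (α : L →₀ ℕ) (r : A) :
    monomial α r = C r * ∏ l, X l ^ α l := by
  rw [MvPolynomial.monomial_eq, Finsupp.prod_fintype]
  intro l
  rw [pow_zero]

/-- **(B) span_words** -/
theorem span_words (hs : Sym arr th) (hb : Good th b) (h : Par b e)
    (harr : ∀ a a' d d', c a = c a' → c d = c d' → arr a d = arr a' d')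
    (hth : ∀ a a', c a = c a' → th a = th a')
    (pol : ∀ l, Λ l → MvPolynomial (Q l) ℚ)
    (hpol : ∀ l, VB ℚ arr th e l ⊓ Anti (c ∘ e l) ≤ Submodule.span ℚ (Set.range (pol l)) ⊔
      (J0 ℚ (arrB arr (e l)) (thB th (e l)) univ).restrictScalars ℚ)
    {g : ℤ} {x : MvPolynomial P ℚ} (hx : x ∈ Anti c)
    (h1 : ∀ g' : P → P, Good th g' → ud ℚ arr th g' ((NF arr g' : ℤ) + g) x)
    (h2 : ∀ g' : P → P, Good th g' → Fine g' b → ¬ Fine b g' →
      ud ℚ arr th g' ((NF arr g' : ℤ) + g - 1) x) :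
    Deg359.top ((NF arr b : ℤ) + g) (sh ℚ arr th b x) ∈
      Submodule.span ℚ {z | ∃ (s : ∀ l, Λ l) (a : L → ℕ), ((∑ l, a l : ℕ) : ℤ) = g ∧
        z = sym arr th b e pol s a} := by
  classical
  obtain ⟨t, ht1, ht2, ht3⟩ := coeff_values hs hb h1 h2
  rw [ht2]
  set U : Submodule ℚ (MvPolynomial L (MvPolynomial P ℚ ⧸ JJ ℚ arr th b)) :=
    Submodule.span ℚ {z | ∃ (s : ∀ l, Λ l) (a : L → ℕ), ((∑ l, a l : ℕ) : ℤ) = g ∧
        z = sym arr th b e pol s a} with hU
  let D : MvPolynomial L (MvPolynomial P ℚ ⧸ JJ ℚ arr th b) →ₗ[ℚ]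
      MvPolynomial L (MvPolynomial P ℚ ⧸ JJ ℚ arr th b) := LinearMap.mulLeft ℚ (DP _ arr b)
  change D t ∈ U
  rw [t.as_sum, map_sum]
  apply Submodule.sum_mem
  intro α hα
  have hdeg : ((α.degree : ℕ) : ℤ) = g := ht1 α (by rwa [mem_support_iff] at hα)
  obtain ⟨w, hw⟩ := Ideal.Quotient.mk_surjective (coeff α t)
  have hInV := ht3 α w hw
  have hwT : w ∈ Submodule.span ℚ (Set.range fun s : ∀ l, Λ l =>
      ∏ l, rename (e l) (pol l (s l))) ⊔ (JJ ℚ arr th b).restrictScalars ℚ := by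
    apply span_letters h pol (fun l => VB ℚ arr th e l ⊓ Anti (c ∘ e l)) hpol
    apply V2alt h harr hth (V2_of_InV h hs hb hInV)
    intro σ hσ hσb
    apply coeff_eigen ht2 σ (fun a d => harr _ _ _ _ (hσ a).symm (hσ d).symm)
      (fun a => hth _ _ (hσ a).symm) hσb ?_ α w hw
    rw [hx σ hσ, MvPolynomial.smul_eq_C_mul]
  obtain ⟨p, hp, j, hj, hpj⟩ := Submodule.mem_sup.1 hwT
  have hmk : coeff α t = Ideal.Quotient.mk (JJ ℚ arr th b) p := by
    rw [← hw, ← hpj, map_add, Ideal.Quotient.eq_zero_iff_mem.2 hj, add_zero]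
  rw [hmk]
  let Φ : MvPolynomial P ℚ →ₗ[ℚ] MvPolynomial L (MvPolynomial P ℚ ⧸ JJ ℚ arr th b) :=
    D ∘ₗ ((monomial α : (MvPolynomial P ℚ ⧸ JJ ℚ arr th b) →ₗ[MvPolynomial P ℚ ⧸ JJ ℚ arr th b]
      MvPolynomial L (MvPolynomial P ℚ ⧸ JJ ℚ arr th b)).restrictScalars ℚ) ∘ₗ
      (Ideal.Quotient.mkₐ ℚ (JJ ℚ arr th b)).toLinearMap
  change Φ p ∈ U
  have hle : Submodule.span ℚ (Set.range fun s : ∀ l, Λ l =>
      ∏ l, rename (e l) (pol l (s l))) ≤ U.comap Φ := by
    rw [Submodule.span_le]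
    rintro _ ⟨s, rfl⟩
    change Φ _ ∈ U
    apply Submodule.subset_span
    refine ⟨s, α, ?_, ?_⟩
    · rw [← hdeg, Finsupp.degree_eq_sum]
    · change DP _ arr b * monomial α _ = _
      rw [monomial_eq_prod]
      rfl
  exact hle hp

/-- **(C) indep_words** -/
theorem indep_words (h : Par b e) (pol : ∀ l, Λ l → MvPolynomial (Q l) ℚ)
    (hind : ∀ l, LinearIndependent ℚ fun i =>
      Ideal.Quotient.mk (J0 ℚ (arrB arr (e l)) (thB th (e l)) univ) (pol l i)) :
    LinearIndependent ℚ (fun φ : (∀ l, Λ l) × (L → ℕ) => sym arr th b e pol φ.1 φ.2) := by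
  classical
  have h0 := ThinTens559.indep_JJ h arr th pol hind
  have h0 := linearIndependent_iff'.1 h0
  refine (linearIndependent_iff' (R := ℚ)
    (M := MvPolynomial L (MvPolynomial P ℚ ⧸ JJ ℚ arr th b))).2 ?_
  intro S k hk φ₀ hφ₀
  -- remove `DP`
  have h1 : DP _ arr b * (∑ φ ∈ S, k φ • (C (Ideal.Quotient.mk (JJ ℚ arr th b)
      (∏ l, rename (e l) (pol l (φ.1 l)))) * ∏ l, X l ^ φ.2 l)) = DP _ arr b * 0 := by
    rw [mul_zero, Finset.mul_sum, ← hk]
    refine Finset.sum_congr rfl fun φ _ => ?_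
    rw [mul_smul_comm]
    rfl
  have h2 := DP_mul_inj arr b h1
  -- coefficient at the exponent of `φ₀`
  have h3 := congrArg (coeff (Finsupp.equivFunOnFinite.symm φ₀.2)) h2
  rw [coeff_sum, coeff_zero] at h3
  have h4 : ∀ φ ∈ S, coeff (Finsupp.equivFunOnFinite.symm φ₀.2)
      (k φ • (C (Ideal.Quotient.mk (JJ ℚ arr th b)
        (∏ l, rename (e l) (pol l (φ.1 l)))) * ∏ l, X l ^ φ.2 l))
      = if φ.2 = φ₀.2 then k φ • Ideal.Quotient.mk (JJ ℚ arr th b)
        (∏ l, rename (e l) (pol l (φ.1 l))) else 0 := by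
    intro φ _
    have h5 : (C (Ideal.Quotient.mk (JJ ℚ arr th b)
        (∏ l, rename (e l) (pol l (φ.1 l)))) * ∏ l, X l ^ φ.2 l :
          MvPolynomial L (MvPolynomial P ℚ ⧸ JJ ℚ arr th b))
        = monomial (Finsupp.equivFunOnFinite.symm φ.2) (Ideal.Quotient.mk (JJ ℚ arr th b)
        (∏ l, rename (e l) (pol l (φ.1 l)))) := by
      rw [monomial_eq_prod]
      rfl
    rw [coeff_smul, h5, coeff_monomial]
    by_cases h6 : φ.2 = φ₀.2
    · rw [if_pos (by rw [h6]), if_pos h6]
    · rw [if_neg, if_neg h6, smul_zero]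
      intro h7
      exact h6 (Finsupp.equivFunOnFinite.symm.injective h7)
  rw [Finset.sum_congr rfl h4, ← Finset.sum_filter] at h3
  -- transport to the index set of the letters
  have h8 := h0 ((S.filter fun φ => φ.2 = φ₀.2).image Prod.fst) (fun s => k (s, φ₀.2)) (by
    rw [Finset.sum_image]
    · rw [← h3]
      refine Finset.sum_congr rfl fun φ hφ => ?_
      rw [Finset.mem_filter] at hφ
      rw [← hφ.2]
    · intro φ hφ ψ hψ hφψ
      rw [Finset.mem_coe, Finset.mem_filter] at hφ hψ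
      exact Prod.ext hφψ (hφ.2.trans hψ.2.symm)) φ₀.1
    (Finset.mem_image.2 ⟨φ₀, Finset.mem_filter.2 ⟨hφ₀, rfl⟩, rfl⟩)
  exact h8

end final

end Crest.Agent.R059.Val944
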