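import Mathlib
import Crest.Agent.R059.PLloc3_830
import Crest.Agent.R059.Val2_944

/-!
# Row 59, Theorem B, half 2 (helper830): the instance of `Loc` at a place and a level (model), and
local independence / spanning on the standard set
-/

set_option autoImplicit false
set_option linter.unusedSectionVars false

namespace Crest.Agent.R059.PLloc830

open MvPolynomial Finset Thin613 Deg359 PL547

section inst

variable {I : Type} [Fintype I] [DecidableEq I] {k : I → I → ℕ} {θ : I → ℤ}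
  {T : Type} [Fintype T] [LinearOrder T] {cl : T → I → ℕ} {𝓛 : Letters k θ cl} {m : T → ℕ}

open scoped Classical in
/-- the block permutation of `w` -/
noncomputable def rhw (w : Equiv.Perm (Sm cl m)) : ∀ t, Equiv.Perm (Fin (m t)) :=
  if h : ∃ ρ, BP w ρ then h.choose else fun _ => 1

theorem rhw_spec {w : Equiv.Perm (Sm cl m)} (h : ∃ ρ, BP w ρ) : BP w (rhw w) := by
  unfold rhw
  rw [dif_pos h]
  exact h.choose_spec

theorem rhw_eq (pt : ∀ t, Vt (cl t)) {w : Equiv.Perm (Sm cl m)}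
    {ρ : ∀ t, Equiv.Perm (Fin (m t))} (h : BP w ρ) : rhw w = ρ :=
  BP_unique pt (rhw_spec ⟨ρ, h⟩) h

open scoped Classical in
variable (k) in
/-- the sign `η` -/
noncomputable def eta (w : Equiv.Perm (Sm cl m)) : ℚ :=
  if h : (∀ x, colS cl m (w x) = colS cl m x) ∧ ∃ ρ, BP w ρ then
    (∏ t, sg (rhw w t) ^ kf k (cl t) (cl t)) * ∏ j, sg ((exists_v h.1 (rhw_spec h.2)).choose j)
  else 1

open scoped Classical in
variable (k θ) in
/-- the action on the symbols -/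
noncomputable def PhiW (w : Equiv.Perm (Sm cl m)) :
    MvPolynomial (Jm m) (QM k θ cl m) →ₗ[ℚ] MvPolynomial (Jm m) (QM k θ cl m) :=
  if h : (∀ x, colS cl m (w x) = colS cl m x) ∧ ∃ ρ, BP w ρ then Phi k θ h.1 (rhw_spec h.2) else 0

theorem PhiW_eq {w : Equiv.Perm (Sm cl m)} (hw : ∀ x, colS cl m (w x) = colS cl m x)
    (h : ∃ ρ, BP w ρ) : PhiW k θ w = Phi k θ hw (rhw_spec h) := by
  unfold PhiW
  rw [dif_pos ⟨hw, h⟩]

theorem PhiW_sE (hsym : ∀ t t', kf k (cl t) (cl t') = kf k (cl t') (cl t))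
    {w : Equiv.Perm (Sm cl m)} (hw : ∀ x, colS cl m (w x) = colS cl m x)
    (h : ∃ ρ, BP w ρ) (φ : Wd 𝓛 m) : PhiW k θ w (sE φ) = eta k w • sE (act (rhw w) φ) := by
  have hv := (exists_v hw (rhw_spec h)).choose_spec
  rw [PhiW_eq hw h, Phi_sE hw (rhw_spec h) hsym _ hv.1 hv.2]
  unfold eta
  rw [dif_pos ⟨hw, h⟩]

theorem chi_eta {w : Equiv.Perm (Sm cl m)} (hw : ∀ x, colS cl m (w x) = colS cl m x)
    (h : ∃ ρ, BP w ρ) :
    sg w * eta k w = ((WordsS3_537.chi (fun t => par k (cl t)) (rhw w) : ℤ) : ℚ) := by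
  have hv := (exists_v hw (rhw_spec h)).choose_spec
  rw [← chi_eq (k := k) (rhw w) (exists_v hw (rhw_spec h)).choose]
  unfold eta
  rw [dif_pos ⟨hw, h⟩, ← hv.2]

variable (hinj : Function.Injective cl) (hcl : ∀ t, thc θ (cl t) = 0)
  (hk : ∀ c e : I → ℕ, thc θ c = 0 → thc θ e = 0 → PL547.kk k c e = PL547.kk k e c)
  (pt : ∀ t, Vt (cl t))

include hcl hk in
theorem ksym (t t' : T) : kf k (cl t) (cl t') = kf k (cl t') (cl t) :=
  hk _ _ (hcl t) (hcl t')

/-- the growth exponent of level `g` at the place -/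
noncomputable abbrev lvl (k : I → I → ℕ) (cl : T → I → ℕ) (m : T → ℕ) (g : ℕ) : ℤ :=
  (NF (ar k (colS cl m)) (blk cl m) : ℤ) + g

include hinj hcl hk in
/-- **the instance** -/
noncomputable def locI (𝓛 : Letters k θ cl) (m : T → ℕ) (g : ℕ) :
    Loc830.Loc ℚ (MvPolynomial (Sm cl m) ℚ) (MvPolynomial (Jm m) (QM k θ cl m))
      (GS (colS cl m)) {φ : Wd 𝓛 m // φ.tot = g} {φ : Wd 𝓛 m // φ.Adm ∧ φ.tot = g} where
  ρ w := (rename (w : Equiv.Perm (Sm cl m))).toLinearMap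
  ρ_mul w w' x := by
    simp only [AlgHom.toLinearMap_apply, rename_rename, Subgroup.coe_mul]
    rfl
  sg w := sg (w : Equiv.Perm (Sm cl m))
  sg_mul w w' := by rw [Subgroup.coe_mul, sg_mul]
  sg_sq w := sg_mul_self _
  A := udS (ar k (colS cl m)) (tw θ (colS cl m)) (blk cl m) (lvl k cl m g)
  B := udS (ar k (colS cl m)) (tw θ (colS cl m)) (blk cl m) (lvl k cl m g - 1)
  BA := fun x hx => ud_mono _ _ _ (by omega) hx
  T := symL (ar k (colS cl m)) (tw θ (colS cl m)) (blk cl m) (lvl k cl m g)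
  ker x hx := symL_ker _ _ _ hx
  N w := ∃ ρ, BP (w : Equiv.Perm (Sm cl m)) ρ
  N_one := ⟨fun _ => 1, fun _ => rfl⟩
  N_A w hw x hx := rename_mem_udS w.2 (rhw_spec hw) hx
  a w φ := ⟨act (rhw (w : Equiv.Perm (Sm cl m))) φ.1, by rw [tot_act]; exact φ.2⟩
  a_one φ := by
    apply Subtype.ext
    change act (rhw (1 : Equiv.Perm (Sm cl m))) φ.1 = φ.1
    rw [rhw_eq pt (ρ := fun _ => 1) (fun _ => rfl), act_one]
  a_inj w _ φ φ' h := by
    apply Subtype.ext
    exact act_injective _ (congrArg Subtype.val h)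
  e φ := sE φ.1
  ind := (indep_sE (𝓛 := 𝓛) (m := m)).comp _ Subtype.val_injective
  Mo φ := φ.1.Kh pt
  Mo_A φ := by
    have h := ud_Kh hcl hk pt (good_model m hcl) φ.1
    rw [φ.2] at h
    exact h
  T_Mo φ := by
    have h := symL_Kh hcl hk pt φ.1
    rw [φ.2] at h
    exact h
  Mo_B w hw φ := by
    have hne : ¬ Fine (blk cl m) (blk cl m ∘ (w : Equiv.Perm (Sm cl m))) := fun hf =>
      hw (exists_BP cl m hinj pt w.2 hf)
    have hmor : ThinEq494.Mor (ar k (colS cl m)) (tw θ (colS cl m))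
        (blk cl m ∘ (w : Equiv.Perm (Sm cl m))) (ar k (colS cl m)) (tw θ (colS cl m)) (blk cl m)
        (w : Equiv.Perm (Sm cl m)) id :=
      ThinEq494.mor_equiv' _ (fun a b => by simp [ar, w.2 a, w.2 b]) (fun a => by simp [tw, w.2 a])
        (fun _ => rfl)
    have hgood : Good (tw θ (colS cl m)) (blk cl m ∘ (w : Equiv.Perm (Sm cl m))) :=
      (ThinEq494.Good_equiv hmor).1 (good_model m hcl)
    have h := ud_Kh_strict hcl hk pt hgood hne φ.1
    have hNF : NF (ar k (colS cl m)) (blk cl m ∘ (w : Equiv.Perm (Sm cl m))) =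
        NF (ar k (colS cl m)) (blk cl m) := by
      unfold NF
      rw [ThinEq494.N2_equiv hmor]
    rw [φ.2, hNF] at h
    exact (ThinEq494.ud_equiv hmor _ _).2 h
  Φ w := PhiW k θ (w : Equiv.Perm (Sm cl m))
  T_ρ w hw x hx := by
    rw [PhiW_eq w.2 hw]
    exact symL_rename w.2 (rhw_spec hw) hx
  η w := eta k (w : Equiv.Perm (Sm cl m))
  Φ_e w hw φ := PhiW_sE (ksym hcl hk) w.2 hw φ.1
  adm φ := adm0 φ.1
  rep t := ⟨t.1, t.2.2⟩
  adm_rep t := adm0_of_Adm t.2.1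
  orbit φ hφ := by
    obtain ⟨φ₀, ρ, h1, h2⟩ := exists_sorted hφ
    refine ⟨⟨φ₀, h1, by rw [← tot_act ρ, h2]; exact φ.2⟩,
      ⟨wr ρ, fun x => colS_wr ρ x⟩, ⟨ρ, BP_wr ρ⟩, ?_⟩
    apply Subtype.ext
    change act (rhw (wr ρ)) φ₀ = φ.1
    rw [rhw_eq pt (BP_wr ρ), h2]
  orbit_inj t t' w _ h := by
    apply Subtype.ext
    exact Adm_unique t.2.1 t'.2.1 (congrArg Subtype.val h)
  sign_pos φ hφ w hw h := by
    rw [chi_eta w.2 hw, chi_one_of_fix hφ (congrArg Subtype.val h)]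
    simp
  sign_neg φ hφ := by
    obtain ⟨ρ, h1, h2⟩ := exists_neg hφ
    refine ⟨⟨wr ρ, fun x => colS_wr ρ x⟩, ⟨ρ, BP_wr ρ⟩, ?_, ?_⟩
    · apply Subtype.ext
      change act (rhw (wr ρ)) φ.1 = φ.1
      rw [rhw_eq pt (BP_wr ρ), h1]
    · rw [chi_eta (fun x => colS_wr ρ x) ⟨ρ, BP_wr ρ⟩, rhw_eq pt (BP_wr ρ), h2]
      simp

include hinj hcl hk in
/-- the signed orbit sum is the antisymmetrised family element -/
theorem P_eq (g : ℕ) (t : {φ : Wd 𝓛 m // φ.Adm ∧ φ.tot = g}) :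
    Loc830.P (locI hinj hcl hk pt 𝓛 m g) t = alt (colS cl m) (t.1.Kh pt) := by
  rw [alt_eq_sum]
  rfl

include hinj hcl hk in
/-- **local independence on the model** -/
theorem LI_model (g : ℕ) (c : {φ : Wd 𝓛 m // φ.Adm ∧ φ.tot = g} →₀ ℚ)
    (hc : (c.sum fun t x => x • alt (colS cl m) (t.1.Kh pt)) ∈
      udS (ar k (colS cl m)) (tw θ (colS cl m)) (blk cl m) (lvl k cl m g - 1)) : c = 0 := by
  apply Loc830.LI (locI hinj hcl hk pt 𝓛 m g) c
  simp only [P_eq]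
  exact hc

include hinj hcl hk in
/-- **local spanning on the model** -/
theorem LS_model (g : ℕ) {f : MvPolynomial (Sm cl m) ℚ} (hf : f ∈ Anti (colS cl m))
    (h1 : ∀ g' : Sm cl m → Sm cl m, Good (tw θ (colS cl m)) g' →
      ud ℚ (ar k (colS cl m)) (tw θ (colS cl m)) g' ((NF (ar k (colS cl m)) g' : ℤ) + g) f)
    (h2 : ∀ g' : Sm cl m → Sm cl m, Good (tw θ (colS cl m)) g' → Fine g' (blk cl m) →
      ¬ Fine (blk cl m) g' →
      ud ℚ (ar k (colS cl m)) (tw θ (colS cl m)) g' ((NF (ar k (colS cl m)) g' : ℤ) + g - 1) f) :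
    ∃ h ∈ Submodule.span ℚ (Set.range fun t : {φ : Wd 𝓛 m // φ.Adm ∧ φ.tot = g} =>
      alt (colS cl m) (t.1.Kh pt)),
      f - h ∈ udS (ar k (colS cl m)) (tw θ (colS cl m)) (blk cl m) (lvl k cl m g - 1) := by
  have hfA : f ∈ udS (ar k (colS cl m)) (tw θ (colS cl m)) (blk cl m) (lvl k cl m g) := by
    obtain ⟨g', hg'⟩ := exists_same_P (blk cl m)
    have := h1 g' ((good_model m hcl).congr hg')
    rw [← ud_congr _ _ hg', ← NF_congr _ hg'] at this
    exact this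
  have hT : symL (ar k (colS cl m)) (tw θ (colS cl m)) (blk cl m) (lvl k cl m g) f ∈
      Submodule.span ℚ (Set.range (locI hinj hcl hk pt 𝓛 m g).e) := by
    have h3 := Val944.span_words (arr := ar k (colS cl m)) (th := tw θ (colS cl m))
      (b := blk cl m) (c := colS cl m) (sym_col hk _) (good_model m hcl) (par_model m)
      (fun a a' d d' h h' => by unfold ar; rw [h, h']) (fun a a' h => by unfold tw; rw [h])
      (Λ := fun j => 𝓛.L j.1) (fun j l => 𝓛.pol j.1 l) (fun j => by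
        intro x hx
        have h4 := 𝓛.span j.1 (show x ∈ Wt k θ (cl j.1) from ⟨hx.2, hx.1⟩)
        rw [sup_comm] at h4
        exact h4) (g := (g : ℤ)) hf h1 h2
    refine (Submodule.span_mono ?_) h3
    rintro z ⟨s, a, ha, rfl⟩
    refine ⟨⟨fun t r => ⟨s ⟨t, r⟩, a ⟨t, r⟩⟩, ?_⟩, ?_⟩
    · have : (∑ l, a l : ℕ) = g := by exact_mod_cast ha
      exact this
    · rfl
  obtain ⟨h, hh, hB⟩ := Loc830.LS (locI hinj hcl hk pt 𝓛 m g) hfA (fun w _ => hf w w.2) hT
  refine ⟨h, ?_, hB⟩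
  have h5 : (Set.range fun t : {φ : Wd 𝓛 m // φ.Adm ∧ φ.tot = g} =>
      alt (colS cl m) (t.1.Kh pt)) = Set.range (Loc830.P (locI hinj hcl hk pt 𝓛 m g)) := by
    congr 1
    funext t
    exact (P_eq hinj hcl hk pt g t).symm
  rw [h5]
  exact hh

end inst

end Crest.Agent.R059.PLloc830
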