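import Mathlib
import Crest.Agent.R059.PLloc4_830
import Crest.Agent.R059.PL5_547
import Crest.Agent.R059.Places2_494
import Crest.Agent.R059.Letters_613
import Crest.Agent.R059.Cnt2_231

/-!
# Row 59, Theorem B (helper830): the basis theorem

Transport of the local lemmas `LI_model`, `LS_model` to the standard coloured set, the growth of the
family elements at all places, and the filtration engine `Eng_830`.
-/

set_option autoImplicit false
set_option linter.unusedSectionVars false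

namespace Crest.Agent.R059.Fin830

open MvPolynomial Finset Thin613 Deg359 PL547 PLloc830 Places494

section transport

variable {I : Type} [Fintype I] [DecidableEq I] {k : I → I → ℕ} {θ : I → ℤ}
  {T : Type} [Fintype T] [LinearOrder T] {cl : T → I → ℕ} {d : I → ℕ} {𝓛 : Letters k θ cl}

/-- colour preserving bijections from the model of a place -/
theorem mor_col (m : Pl cl d) {L : Type*} (e : Sm cl m.1 ≃ Vt d)
    (he : ∀ x, colV d (e x) = colS cl m.1 x) (b : Vt d → L) :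
    ThinEq494.Mor (ar k (colS cl m.1)) (PL547.tw θ (colS cl m.1)) (b ∘ e)
      (ar k (colV d)) (PL547.tw θ (colV d)) b e id :=
  ThinEq494.mor_equiv' e (fun a b => by simp [ar, he]) (fun a => by simp [PL547.tw, he])
    (fun _ => rfl)

theorem NF_col (m : Pl cl d) {L : Type*} (e : Sm cl m.1 ≃ Vt d)
    (he : ∀ x, colV d (e x) = colS cl m.1 x) (b : Vt d → L) :
    NF (ar k (colV d)) b = NF (ar k (colS cl m.1)) (b ∘ e) := by
  unfold NF
  rw [ThinEq494.N2_equiv (mor_col (k := k) (θ := fun _ => 0) m e he b)]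

variable (hinj : Function.Injective cl) (hcl0 : ∀ t, cl t ≠ 0) (hcl : ∀ t, thc θ (cl t) = 0)
  (hk : ∀ c e : I → ℕ, thc θ c = 0 → thc θ e = 0 → PL547.kk k c e = PL547.kk k e c)
  (pt : ∀ t, Vt (cl t))

include hcl hk in
/-- growth of a placed family element at a place -/
theorem place_mem (m σ : Pl cl d) (e : Sm cl m.1 ≃ Vt d)
    (he : ∀ x, colV d (e x) = colS cl m.1 x) (φ : Wd 𝓛 m.1) :
    rename e (φ.Kh pt) ∈ Gr k θ (colV d) (lab cl d σ) φ.tot := by
  have hm := mor_col (k := k) (θ := θ) m e he (lab cl d σ)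
  rw [mem_Gr, ThinEq494.ud_equiv hm, NF_col m e he]
  exact ud_Kh hcl hk pt ((ThinEq494.Good_equiv hm).1 (good_lab hcl σ)) φ

include hcl hk in
theorem place_lt (m σ : Pl cl d) (e : Sm cl m.1 ≃ Vt d)
    (he : ∀ x, colV d (e x) = colS cl m.1 x) (hf : ¬ Fine (blk cl m.1) (lab cl d σ ∘ e))
    (φ : Wd 𝓛 m.1) :
    rename e (φ.Kh pt) ∈ Gr k θ (colV d) (lab cl d σ) ((φ.tot : ℤ) - 1) := by
  have hm := mor_col (k := k) (θ := θ) m e he (lab cl d σ)
  rw [mem_Gr, ThinEq494.ud_equiv hm, NF_col m e he, ← add_sub_assoc]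
  exact ud_Kh_strict hcl hk pt ((ThinEq494.Good_equiv hm).1 (good_lab hcl σ)) hf φ

include hcl hk in
/-- **mem** -/
theorem el_mem (m σ : Pl cl d) (φ : Wd 𝓛 m.1) :
    φ.el pt ∈ Gr k θ (colV d) (lab cl d σ) φ.tot := by
  unfold Wd.el alt
  refine Submodule.sum_mem _ fun w hw => Submodule.smul_mem _ _ ?_
  rw [rename_rename]
  have h := place_mem hcl hk pt m σ ((Em cl d m).trans w)
    (fun x => by rw [Equiv.trans_apply, (mem_GG.1 hw), Em_col]) φ
  exact h

include hinj hcl0 hcl hk in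
/-- **memlt** -/
theorem el_lt {m σ : Pl cl d} (hne : m ≠ σ) (hcard : m.card ≤ σ.card) (φ : Wd 𝓛 m.1) :
    φ.el pt ∈ Gr k θ (colV d) (lab cl d σ) ((φ.tot : ℤ) - 1) := by
  unfold Wd.el alt
  refine Submodule.sum_mem _ fun w hw => Submodule.smul_mem _ _ ?_
  rw [rename_rename]
  have hw' := mem_GG.1 hw
  refine place_lt hcl hk pt m σ ((Em cl d m).trans w)
    (fun x => by rw [Equiv.trans_apply, hw', Em_col]) ?_ φ
  intro hf
  apply not_fine_of_ne hinj hcl0 hne hcard w hw'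
  intro a b hab
  have h := hf ((Em cl d m).symm (w.symm a)) ((Em cl d m).symm (w.symm b)) hab
  simpa using h

/-- the family element is the transport of the model one -/
theorem el_eq {m : Pl cl d} (φ : Wd 𝓛 m.1) :
    φ.el pt = rename (Em cl d m) (alt (colS cl m.1) (φ.Kh pt)) :=
  alt_rename_equiv _ _ _ (Em_col cl d m) _

theorem udS_Em (m : Pl cl d) (n : ℤ) (x : MvPolynomial (Sm cl m.1) ℚ) :
    rename (Em cl d m) x ∈ Gr k θ (colV d) (lab cl d m) n ↔
      x ∈ udS (ar k (colS cl m.1)) (PL547.tw θ (colS cl m.1)) (blk cl m.1)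
        ((NF (ar k (colS cl m.1)) (blk cl m.1) : ℤ) + n) := by
  rw [mem_Gr, ThinEq494.ud_equiv (mor_Em m), NF_lab]
  rfl

/-! ### the index set -/

variable (𝓛 d) in
/-- the index set of the family -/
abbrev AA := Σ m : Pl cl d, {φ : Wd 𝓛 m.1 // φ.Adm}

/-- inclusion of the words of a place and a level -/
def inc (m : Pl cl d) (g : ℕ) (x : {φ : Wd 𝓛 m.1 // φ.Adm ∧ φ.tot = g}) : AA d 𝓛 :=
  ⟨m, ⟨x.1, x.2.1⟩⟩

theorem inc_inj (m : Pl cl d) (g : ℕ) : Function.Injective (inc (𝓛 := 𝓛) m g) := by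
  rintro ⟨x, hx⟩ ⟨y, hy⟩ h
  unfold inc at h
  simpa using h

include hinj hcl hk in
/-- **local independence** -/
theorem loc_ind (m : Pl cl d) (g : ℕ) (c : AA d 𝓛 →₀ ℚ)
    (hc : ∀ x ∈ c.support, x.1 = m ∧ x.2.1.tot = g)
    (h : (c.sum fun x a => a • x.2.1.el pt) ∈ Gr k θ (colV d) (lab cl d m) ((g : ℤ) - 1)) :
    c = 0 := by
  classical
  have hr : ∀ x ∈ c.support, x ∈ Set.range (inc (𝓛 := 𝓛) m g) := by
    rintro ⟨m', φ, hφ⟩ hx
    obtain ⟨h1, h2⟩ := hc _ hx
    change m' = m at h1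
    subst h1
    exact ⟨⟨φ, hφ, h2⟩, rfl⟩
  obtain ⟨c', hc'⟩ : ∃ c' : {φ : Wd 𝓛 m.1 // φ.Adm ∧ φ.tot = g} →₀ ℚ,
      c'.mapDomain (inc m g) = c := by
    refine ⟨c.comapDomain (inc m g) (inc_inj m g).injOn, ?_⟩
    exact Finsupp.mapDomain_comapDomain _ (inc_inj m g) c (fun x hx => hr x hx)
  rw [← hc']
  have h1 : (c.sum fun x a => a • x.2.1.el pt) =
      rename (Em cl d m) (c'.sum fun t a => a • alt (colS cl m.1) (t.1.Kh pt)) := by
    rw [← hc', Finsupp.sum_mapDomain_index_inj (inc_inj m g), Finsupp.sum, Finsupp.sum, map_sum]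
    refine Finset.sum_congr rfl fun t _ => ?_
    rw [map_smul]
    congr 1
    exact el_eq pt t.1
  rw [h1, udS_Em] at h
  have h2 : c' = 0 := LI_model hinj hcl hk pt g c' (by
    have e : lvl k cl m.1 g - 1 = (NF (ar k (colS cl m.1)) (blk cl m.1) : ℤ) + ((g : ℤ) - 1) := by
      unfold lvl; ring
    rw [e]
    exact h)
  rw [h2, Finsupp.mapDomain_zero]

theorem nblk_blk (hcl0 : ∀ t, cl t ≠ 0) (m : Pl cl d) : nblk (blk cl m.1) = m.card := by
  rw [← nblk_lab hcl0 m]
  classical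
  unfold nblk
  congr 1
  ext j
  simp only [Finset.mem_image, Finset.mem_univ, true_and]
  constructor
  · rintro ⟨a, ha⟩
    exact ⟨Em cl d m a, by rw [lab_Em, ha]⟩
  · rintro ⟨a, ha⟩
    exact ⟨(Em cl d m).symm a, ha⟩

theorem nblk_comp_symm {m : Pl cl d} {L : Type*} (g : Sm cl m.1 → L) :
    nblk (g ∘ (Em cl d m).symm) = nblk g := by
  classical
  unfold nblk
  congr 1
  ext j
  simp only [Finset.mem_image, Finset.mem_univ, true_and, Function.comp_apply]
  constructor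
  · rintro ⟨a, ha⟩
    exact ⟨_, ha⟩
  · rintro ⟨a, ha⟩
    exact ⟨Em cl d m a, by simpa using ha⟩

include hinj hcl0 hcl hk in
/-- **local spanning** -/
theorem loc_span (hT : AllTypes θ cl d) (m : Pl cl d) (g : ℕ) {f : MvPolynomial (Vt d) ℚ}
    (hf : f ∈ Anti (colV d)) (h1 : ∀ σ : Pl cl d, f ∈ Gr k θ (colV d) (lab cl d σ) g)
    (h2 : ∀ σ : Pl cl d, m.card < σ.card → f ∈ Gr k θ (colV d) (lab cl d σ) ((g : ℤ) - 1)) :
    ∃ h ∈ Submodule.span ℚ ((fun x : AA d 𝓛 => x.2.1.el pt) '' {x | x.1 = m ∧ x.2.1.tot = g}),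
      f - h ∈ Gr k θ (colV d) (lab cl d m) ((g : ℤ) - 1) := by
  classical
  set E := Em cl d m with hE
  set f' := rename E.symm f with hf'
  have hff : rename E f' = f := by
    rw [hf', rename_rename]
    have : (⇑E ∘ ⇑E.symm) = id := funext fun a => E.apply_symm_apply a
    rw [this, rename_id_apply]
  have hcolsymm : ∀ a, colS cl m.1 (E.symm a) = colV d a := by
    intro a
    rw [← Em_col cl d m, ← hE, Equiv.apply_symm_apply]
  have hf'A : f' ∈ Anti (colS cl m.1) := by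
    intro w hw
    have h3 := hf ((E.symm.trans w).trans E) (fun a => by
      rw [Equiv.trans_apply, Equiv.trans_apply, hE, Em_col, ← hE, hw, hcolsymm])
    rw [sg_trans_symm] at h3
    have h4 := congrArg (rename E.symm) h3
    rw [map_smul, rename_rename] at h4
    rw [hf', rename_rename, ← h4]
    congr 1
    have e : (⇑w ∘ ⇑E.symm) = (⇑E.symm ∘ ⇑((E.symm.trans w).trans E)) := by
      funext a
      simp
    rw [e]
  have hmor : ∀ {L : Type} (g' : Sm cl m.1 → L),
      ThinEq494.Mor (ar k (colS cl m.1)) (PL547.tw θ (colS cl m.1)) g'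
        (ar k (colV d)) (PL547.tw θ (colV d)) (g' ∘ E.symm) E id := fun g' =>
    ThinEq494.mor_equiv' E (fun a b => by simp [ar, hE, Em_col]) (fun a => by simp [PL547.tw, hE, Em_col])
      (fun a => by simp)
  have hNF : ∀ {L : Type} (g' : Sm cl m.1 → L),
      NF (ar k (colV d)) (g' ∘ E.symm) = NF (ar k (colS cl m.1)) g' := by
    intro L g'
    unfold NF
    rw [ThinEq494.N2_equiv (hmor g')]
  have h3 : ∀ g' : Sm cl m.1 → Sm cl m.1, Good (PL547.tw θ (colS cl m.1)) g' →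
      ud ℚ (ar k (colS cl m.1)) (PL547.tw θ (colS cl m.1)) g'
        ((NF (ar k (colS cl m.1)) g' : ℤ) + g) f' := by
    intro g' hg'
    rw [← ThinEq494.ud_equiv (hmor g'), hff, ← hNF g']
    exact ud_of_Pl (k := k) hT hf (fun σ => h1 σ) _ ((ThinEq494.Good_equiv (hmor g')).2 hg')
  have h4 : ∀ g' : Sm cl m.1 → Sm cl m.1, Good (PL547.tw θ (colS cl m.1)) g' → Fine g' (blk cl m.1) →
      ¬ Fine (blk cl m.1) g' →
      ud ℚ (ar k (colS cl m.1)) (PL547.tw θ (colS cl m.1)) g'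
        ((NF (ar k (colS cl m.1)) g' : ℤ) + g - 1) f' := by
    intro g' hg' hfine hnf
    rw [← ThinEq494.ud_equiv (hmor g'), hff, ← hNF g', add_sub_assoc]
    refine ud_of_Pl_lt (k := k) hT hf (g := (g : ℤ) - 1) (s := m.card) (fun σ hσ => h2 σ hσ) _
      ((ThinEq494.Good_equiv (hmor g')).2 hg') ?_
    rw [hE, nblk_comp_symm, ← nblk_blk hcl0 m]
    exact nblk_lt_of_fine hfine hnf
  obtain ⟨h, hh, hB⟩ := LS_model (𝓛 := 𝓛) hinj hcl hk pt g hf'A h3 h4
  refine ⟨rename E h, ?_, ?_⟩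
  · have h5 : rename E h ∈ (Submodule.span ℚ (Set.range fun t : {φ : Wd 𝓛 m.1 // φ.Adm ∧ φ.tot = g} =>
        alt (colS cl m.1) (t.1.Kh pt))).map (rename E : _ →ₐ[ℚ] _).toLinearMap :=
      Submodule.mem_map_of_mem hh
    rw [Submodule.map_span] at h5
    refine Submodule.span_mono ?_ h5
    rintro _ ⟨_, ⟨t, rfl⟩, rfl⟩
    exact ⟨inc m g t, ⟨rfl, t.2.2⟩, el_eq pt t.1⟩
  · rw [← hff, ← map_sub, hE, udS_Em]
    have e : lvl k cl m.1 g - 1 = (NF (ar k (colS cl m.1)) (blk cl m.1) : ℤ) + ((g : ℤ) - 1) := by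
      unfold lvl; ring
    rw [← e]
    exact hB

/-! ### the engine -/

theorem Pl_finite (hcl0 : ∀ t, cl t ≠ 0) : Finite (Pl cl d) := by
  classical
  have h1 : ∀ t, ∃ i, cl t i ≠ 0 := by
    intro t
    by_contra hcon
    push Not at hcon
    exact hcl0 t (funext hcon)
  choose i hi using h1
  have h2 : ∀ (m : Pl cl d) (t : T), m.1 t ≤ d (i t) := by
    intro m t
    have h3 := m.2 (i t)
    have h4 : m.1 t * cl t (i t) ≤ ∑ t', m.1 t' * cl t' (i t) :=
      Finset.single_le_sum (f := fun t' => m.1 t' * cl t' (i t)) (fun _ _ => Nat.zero_le _)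
        (Finset.mem_univ t)
    rw [h3] at h4
    exact le_trans (Nat.le_mul_of_pos_right _ (Nat.pos_of_ne_zero (hi t))) h4
  refine Finite.of_injective (fun m : Pl cl d => (fun t => (⟨m.1 t, Nat.lt_succ_of_le (h2 m t)⟩ :
    Fin (d (i t) + 1)) : ∀ t, Fin (d (i t) + 1))) ?_
  intro m m' h
  apply Subtype.ext
  funext t
  have := congrFun h t
  simpa using this

variable (cl d k θ) in
/-- the growth data -/
noncomputable def growth : Eng830.Growth ℚ (MvPolynomial (Vt d) ℚ) (Pl cl d) where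
  card := Pl.card
  Gr σ g := Gr k θ (colV d) (lab cl d σ) g
  mono _ := Gr_mono _ _

include hinj hcl0 hcl hk in
variable (𝓛 d) in
/-- the adapted family -/
noncomputable def family : Eng830.Fam (growth k θ cl d) (AA d 𝓛) where
  e x := x.2.1.el pt
  k x := x.2.1.tot
  p x := x.1
  mem x σ := el_mem hcl hk pt x.1 σ x.2.1
  memlt x σ hne hcard := el_lt hinj hcl0 hcl hk pt (fun h => hne h.symm) hcard x.2.1

include hinj hcl0 hcl hk in
/-- **independence** -/
theorem el_indep :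
    LinearIndependent ℚ (fun x : AA d 𝓛 => (J0s k θ (colV d)).mkQ (x.2.1.el pt)) :=
  Eng830.ind_quot (family d 𝓛 hinj hcl0 hcl hk pt) (J0s k θ (colV d))
    (fun σ g => J0s_le_Gr _ _ (good_lab hcl σ) g)
    (fun q g c h1 h2 => loc_ind hinj hcl hk pt q g c h1 h2)

include hinj hcl0 hcl hk in
/-- **spanning** -/
theorem el_span (hT : AllTypes θ cl d) (hd : thc θ d = 0) :
    Anti (colV d) ≤ J0s k θ (colV d) ⊔
      Submodule.span ℚ (Set.range fun x : AA d 𝓛 => x.2.1.el pt) := by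
  classical
  have : Finite (Pl cl d) := Pl_finite hcl0
  have : Fintype (Pl cl d) := Fintype.ofFinite _
  refine Eng830.span_all (family d 𝓛 hinj hcl0 hcl hk pt) (Anti (colV d)) (J0s k θ (colV d))
    (fun x => alt_mem _ _) (fun f _ => exists_growth_Pl f)
    (fun f hf h => mem_J0s_of_Pl hT hd hf h) (fun q g f hf h1 h2 => ?_)
  exact loc_span hinj hcl0 hcl hk pt hT q g hf h1 h2

end transport

/-- **the basis theorem** -/
theorem basisThm : Cnt231.BasisThm := by
  intro I _ _ k θ hk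
  obtain ⟨𝓖⟩ := exists_letters k θ (T := I → ℕ) (fun c => c)
  refine ⟨𝓖, fun d hd => ?_⟩
  obtain ⟨pt⟩ := Cnt231.TT.exists_pt (θ := θ) d
  refine ⟨pt, ?_, ?_⟩
  · exact el_indep Cnt231.TT.cl_inj Cnt231.TT.cl_ne Cnt231.TT.cl_th hk pt
  · exact el_span Cnt231.TT.cl_inj Cnt231.TT.cl_ne Cnt231.TT.cl_th hk pt
      (fun c h0 h1 h2 => Cnt231.TT.all c h0 h1 h2) hd

/-- **ABOut** -/
theorem abOut : ABOut := Cnt231.abOut_of_basis basisThm

end Crest.Agent.R059.Fin830
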