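import Mathlib

/-!
# Row 59, WALL: the flow theorem for functionals with values in any ordered group (helper999)

755's path-free form: no reals, no times.  `G` = the lattice (torsion free abelian group), `M` = the
set of classes (any type with finite lower boxes), `j : M → G`, `s : G →+ G →+ ℤ` skew,
`Z V x a` = part of slope zero of `a` for the functional `x : G →+ V`.
-/

set_option autoImplicit false
set_option linter.unusedSectionVars false

open Finset

namespace Crest.Agent.R059.FlowV999

section basics

variable {G : Type*} [AddCommGroup G]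

/-- `v` is proportional to `d` -/
def Par (v d : G) : Prop := ∃ a b : ℤ, a ≠ 0 ∧ a • v = b • d

variable {V : Type*} [AddCommGroup V] [LinearOrder V] [IsOrderedAddMonoid V]

/-- the kernel of `x` is the line of `d` -/
def Ker (x : G →+ V) (d : G) : Prop := x d = 0 ∧ ∀ v, x v = 0 → Par v d

/-- `x` is a joint containing `d`: the classes killed by `x` span a plane on which `s` is not zero -/
def IsJoint (s : G →+ G →+ ℤ) (x : G →+ V) (d : G) : Prop :=
  (∀ u v w, x u = 0 → x v = 0 → x w = 0 → s u w • v = s u v • w + s v w • u) ∧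
    ∃ e, x e = 0 ∧ s d e ≠ 0

/-- same strict signs -/
def SameSg {A B : Type*} [Zero A] [LT A] [Zero B] [LT B] (a : A) (b : B) : Prop :=
  (0 < a ↔ 0 < b) ∧ (a < 0 ↔ b < 0)

/-- lexicographic refinement of `x` by the integral functional `y` -/
def lexF (x : G →+ V) (y : G →+ ℤ) : G →+ (V ×ₗ ℤ) where
  toFun v := toLex (x v, y v)
  map_zero' := by simp
  map_add' u v := by rw [map_add, map_add]; rfl

@[simp] theorem lexF_apply (x : G →+ V) (y : G →+ ℤ) (v : G) : lexF x y v = toLex (x v, y v) := rfl

theorem lexF_eq_zero {x : G →+ V} {y : G →+ ℤ} {v : G} : lexF x y v = 0 ↔ x v = 0 ∧ y v = 0 := by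
  rw [lexF_apply]
  constructor
  · intro h
    have := congrArg ofLex h
    simpa [Prod.ext_iff] using this
  · rintro ⟨h1, h2⟩
    rw [h1, h2]; rfl

theorem lexF_pos {x : G →+ V} {y : G →+ ℤ} {v : G} :
    0 < lexF x y v ↔ 0 < x v ∨ x v = 0 ∧ 0 < y v := by
  rw [lexF_apply, show (0 : V ×ₗ ℤ) = toLex ((0 : V), (0 : ℤ)) from rfl, Prod.Lex.toLex_lt_toLex]
  simp only [eq_comm]

theorem lexF_neg {x : G →+ V} {y : G →+ ℤ} {v : G} :
    lexF x y v < 0 ↔ x v < 0 ∨ x v = 0 ∧ y v < 0 := by
  rw [lexF_apply, show (0 : V ×ₗ ℤ) = toLex ((0 : V), (0 : ℤ)) from rfl, Prod.Lex.toLex_lt_toLex]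

/-- the functional of the first joint on the flow of `d`, `c` = the class that is hit -/
def jointF (s : G →+ G →+ ℤ) (x : G →+ V) (d c : G) : G →+ V :=
  |s d c| • x + (zmultiplesHom V |x c|).comp (s d)

@[simp] theorem jointF_apply (s : G →+ G →+ ℤ) (x : G →+ V) (d c v : G) :
    jointF s x d c v = |s d c| • x v + s d v • |x c| := by
  simp [jointF]

/-- opposite strict signs -/
def Opp (n : ℤ) (p : V) : Prop := (p < 0 ∧ 0 < n) ∨ (0 < p ∧ n < 0)

theorem Opp.ne {n : ℤ} {p : V} (h : Opp n p) : n ≠ 0 ∧ p ≠ 0 := by
  rcases h with ⟨h1, h2⟩ | ⟨h1, h2⟩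
  · exact ⟨h2.ne', h1.ne⟩
  · exact ⟨h2.ne, h1.ne'⟩

theorem Opp.cancel {n : ℤ} {p : V} (h : Opp n p) : |n| • p + n • |p| = 0 := by
  rcases h with ⟨h1, h2⟩ | ⟨h1, h2⟩
  · rw [abs_of_pos h2, abs_of_neg h1, smul_neg, add_neg_cancel]
  · rw [abs_of_neg h2, abs_of_pos h1, neg_smul, neg_add_cancel]

theorem zsmul_eq_zero' {n : ℤ} {v : V} (hn : n ≠ 0) (h : n • v = 0) : v = 0 := by
  have : n • v = n • (0 : V) := by rw [h, smul_zero]
  exact zsmul_right_injective hn this

variable [IsAddTorsionFree G]

theorem Par.sf {s : G →+ G →+ ℤ} (hs : ∀ u v, s v u = - s u v) {v d : G} (h : Par v d) :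
    s d v = 0 := by
  obtain ⟨a, b, ha, hab⟩ := h
  have hdd : s d d = 0 := by have := hs d d; omega
  have h1 : a * s d v = 0 := by
    have := congrArg (fun z => s d z) hab
    simp only [map_zsmul, smul_eq_mul, hdd, mul_zero] at this
    exact this
  exact (mul_eq_zero.1 h1).resolve_left ha

/-- linear algebra of a joint -/
theorem isJoint_jointF {s : G →+ G →+ ℤ} (hs : ∀ u v, s v u = - s u v) {x : G →+ V} {d : G}
    (hx : Ker x d) {c : G} (hc : Opp (s d c) (x c)) : IsJoint s (jointF s x d c) d := by
  have hself : ∀ v, s v v = 0 := fun v => by have := hs v v; omega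
  have hsc : |s d c| ≠ 0 := abs_ne_zero.2 hc.ne.1
  have key : ∀ u v, jointF s x d c u = 0 → jointF s x d c v = 0 →
      s d v • u - s d u • v = s u v • d := by
    intro u v hu hv
    rw [jointF_apply] at hu hv
    have h1 : |s d c| • x u = - (s d u • |x c|) := eq_neg_of_add_eq_zero_left hu
    have h2 : |s d c| • x v = - (s d v • |x c|) := eq_neg_of_add_eq_zero_left hv
    have h0 : x (s d v • u - s d u • v) = 0 := by
      refine zsmul_eq_zero' hsc ?_
      rw [map_sub, map_zsmul, map_zsmul, smul_sub, smul_comm _ (s d v), smul_comm _ (s d u), h1, h2,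
        smul_neg, smul_neg, smul_comm (s d v) (s d u), sub_self]
    obtain ⟨a, b, ha, hab⟩ := hx.2 _ h0
    by_cases hv0 : s d v = 0
    · have hxv : x v = 0 := by
        rw [hv0, zero_smul, neg_zero] at h2
        exact zsmul_eq_zero' hsc h2
      obtain ⟨a', b', ha', hab'⟩ := hx.2 _ hxv
      have h4 : a' * s u v = b' * s u d := by
        have := congrArg (fun z => s u z) hab'
        simpa only [map_zsmul, smul_eq_mul] using this
      refine zsmul_right_injective ha' ?_
      change a' • (s d v • u - s d u • v) = a' • (s u v • d)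
      rw [hv0, zero_smul, zero_sub, smul_neg, smul_comm a' (s d u) v, hab', smul_smul a',
        h4, hs d u, smul_smul, ← neg_smul]
      congr 1
      ring
    · have h6 : a * (s d v * s u v) = b * s d v := by
        have := congrArg (fun z => s z v) hab
        simp only [map_zsmul, map_sub, AddMonoidHom.sub_apply, AddMonoidHom.zsmul_apply,
          smul_eq_mul, hself v, mul_zero, sub_zero] at this
        exact this
      have h7 : a * s u v = b := by
        have : (a * s u v) * s d v = b * s d v := by linarith
        exact mul_right_cancel₀ hv0 this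
      refine zsmul_right_injective ha ?_
      change a • (s d v • u - s d u • v) = a • (s u v • d)
      rw [hab, smul_smul, h7]
  have hce : jointF s x d c c = 0 := by rw [jointF_apply]; exact hc.cancel
  refine ⟨?_, c, hce, hc.ne.1⟩
  intro u v w hu hv hw
  have gu : s d c • u = s u c • d + s d u • c := by rw [← key u c hu hce]; abel
  have gv : s d c • v = s v c • d + s d v • c := by rw [← key v c hv hce]; abel
  have gw : s d c • w = s w c • d + s d w • c := by rw [← key w c hw hce]; abel
  have fuv : s d c * s u v = s u c * s d v - s d u * s v c := by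
    have := congrArg (fun z => s z v) gu
    simp only [map_zsmul, map_add, AddMonoidHom.add_apply, AddMonoidHom.zsmul_apply,
      smul_eq_mul] at this
    rw [this, hs v c]; ring
  have fuw : s d c * s u w = s u c * s d w - s d u * s w c := by
    have := congrArg (fun z => s z w) gu
    simp only [map_zsmul, map_add, AddMonoidHom.add_apply, AddMonoidHom.zsmul_apply,
      smul_eq_mul] at this
    rw [this, hs w c]; ring
  have fvw : s d c * s v w = s v c * s d w - s d v * s w c := by
    have := congrArg (fun z => s z w) gv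
    simp only [map_zsmul, map_add, AddMonoidHom.add_apply, AddMonoidHom.zsmul_apply,
      smul_eq_mul] at this
    rw [this, hs w c]; ring
  refine zsmul_right_injective (mul_ne_zero hc.ne.1 hc.ne.1) ?_
  change (s d c * s d c) • (s u w • v) = (s d c * s d c) • (s u v • w + s v w • u)
  have e1 : (s d c * s d c) • (s u w • v) = (s d c * s u w) • (s d c • v) := by
    rw [smul_smul, smul_smul]; congr 1; ring
  have e2 : (s d c * s d c) • (s u v • w + s v w • u) =
      (s d c * s u v) • (s d c • w) + (s d c * s v w) • (s d c • u) := by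
    rw [smul_add, smul_smul, smul_smul, smul_smul, smul_smul]
    congr 1 <;> · congr 1; ring
  rw [e1, e2, fuv, fuw, fvw, gu, gv, gw]
  module

/-- at a joint, `s(k,v) = 0` forces `v` proportional to `k` -/
theorem IsJoint.par {s : G →+ G →+ ℤ} {x : G →+ V} {d : G} (hj : IsJoint s x d)
    (hd : x d = 0) {k v : G} (hk : x k = 0) (hk0 : k ≠ 0) (hv : x v = 0)
    (h : s k v = 0) : Par v k := by
  obtain ⟨hid, e, he, hde⟩ := hj
  by_cases hkd : s k d = 0 ∧ s k e = 0
  · exfalso
    apply hk0
    have := hid k d e hk hd he
    rw [hkd.1, hkd.2, zero_smul, zero_smul, zero_add] at this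
    refine zsmul_right_injective hde ?_
    change s d e • k = s d e • (0 : G)
    rw [smul_zero]; exact this.symm
  · obtain ⟨w, hw, hkw⟩ : ∃ w, x w = 0 ∧ s k w ≠ 0 := by
      by_contra hcon
      push Not at hcon
      exact hkd ⟨hcon d hd, hcon e he⟩
    have := hid k v w hk hv hw
    rw [h, zero_smul, zero_add] at this
    exact ⟨s k w, s v w, hkw, this⟩

omit [IsAddTorsionFree G] in
/-- a class with minimal ratio -/
theorem exists_min_ratio {M : Type*} (S : Finset M) (hS : S.Nonempty) (n : M → ℤ) (p : M → V)
    (hn : ∀ c ∈ S, 0 < n c) : ∃ c ∈ S, ∀ c' ∈ S, n c' • p c ≤ n c • p c' := by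
  classical
  induction hS using Finset.Nonempty.cons_induction with
  | singleton a => exact ⟨a, by simp, fun c' hc' => by rw [Finset.mem_singleton.1 hc']⟩
  | cons a s ha hs ih =>
    obtain ⟨c, hc, hmin⟩ := ih (fun c hc => hn c (Finset.mem_cons_of_mem hc))
    have hna : 0 < n a := hn a (Finset.mem_cons_self a s)
    have hnc : 0 < n c := hn c (Finset.mem_cons_of_mem hc)
    by_cases h : n a • p c ≤ n c • p a
    · refine ⟨c, Finset.mem_cons_of_mem hc, fun c' hc' => ?_⟩
      rcases Finset.mem_cons.1 hc' with rfl | hc'
      · exact h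
      · exact hmin c' hc'
    · have h' : n c • p a ≤ n a • p c := (not_le.1 h).le
      refine ⟨a, Finset.mem_cons_self a s, fun c' hc' => ?_⟩
      rcases Finset.mem_cons.1 hc' with rfl | hc'
      · exact le_refl _
      · have hnc' : 0 < n c' := hn c' (Finset.mem_cons_of_mem hc')
        by_contra hcon
        have hcon' : n a • p c' < n c' • p a := not_le.1 hcon
        have h1 : n c • (n a • p c') < n c • (n c' • p a) := zsmul_lt_zsmul_right hnc hcon'
        have h2 : n c' • (n c • p a) ≤ n c' • (n a • p c) := zsmul_le_zsmul_right hnc'.le h'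
        have h3 : n a • (n c' • p c) ≤ n a • (n c • p c') := zsmul_le_zsmul_right hna.le (hmin c' hc')
        rw [smul_comm (n c') (n c), smul_comm (n c') (n a)] at h2
        rw [smul_comm (n a) (n c)] at h3
        exact absurd (lt_of_lt_of_le h1 (h2.trans h3)) (lt_irrefl _)

end basics

section main

variable {G : Type*} [AddCommGroup G] [IsAddTorsionFree G]

/-- **the flow theorem**, path free, functionals with values in arbitrary ordered groups.
`Z V x a` = zero part of `a` with respect to `x`; `co b c` = coefficient of `b` at the class `c`. -/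
theorem flowV {M : Type*} [Zero M] [PartialOrder M] [WellFoundedLT M]
    (hfin : ∀ d : M, (Set.Iic d).Finite) (j : M → G) (hj0 : ∀ k, k ≠ 0 → j k ≠ 0)
    (s : G →+ G →+ ℤ) (hs : ∀ u v, s v u = - s u v)
    {E K : Type*} (co : E → M → K)
    (Z : ∀ (V : Type) [AddCommGroup V] [LinearOrder V] [IsOrderedAddMonoid V], (G →+ V) → E → E)
    (a : E)
    (hR1 : ∀ (V V' : Type) [AddCommGroup V] [LinearOrder V] [IsOrderedAddMonoid V]
      [AddCommGroup V'] [LinearOrder V'] [IsOrderedAddMonoid V'] (x : G →+ V) (x' : G →+ V')
      (d : M), (∀ c ≤ d, SameSg (x (j c)) (x' (j c))) → ∀ c ≤ d, co (Z V x a) c = co (Z V' x' a) c)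
    (hR2 : ∀ (V : Type) [AddCommGroup V] [LinearOrder V] [IsOrderedAddMonoid V] (x : G →+ V)
      (y : G →+ ℤ) (d : M), ∀ c ≤ d,
      co (Z (V ×ₗ ℤ) (lexF x y) a) c = co (Z ℤ y (Z V x a)) c)
    (Pos : M → E → Prop)
    (hloc : ∀ k b b', (∀ c ≤ k, co b c = co b' c) → Pos k b → Pos k b')
    (h2D : ∀ (V : Type) [AddCommGroup V] [LinearOrder V] [IsOrderedAddMonoid V] (x : G →+ V)
      (d : M), d ≠ 0 → IsJoint s x (j d) → x (j d) = 0 →
      (∀ k ≤ d, k ≠ 0 → x (j k) = 0 → Pos k (Z ℤ (s (j k)) (Z V x a))) →
      Pos d (Z ℤ (- s (j d)) (Z V x a)))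
    (hAT : ∀ (V : Type) [AddCommGroup V] [LinearOrder V] [IsOrderedAddMonoid V] (x : G →+ V)
      (d : M), d ≠ 0 → Ker x (j d) →
      (∀ c ≤ d, s (j d) (j c) ≠ 0 → SameSg (x (j c)) (s (j d) (j c))) →
      (∀ k ≤ d, k ≠ d → k ≠ 0 → x (j k) = 0 → Pos k (Z V x a)) → Pos d (Z V x a)) :
    ∀ (d : M), d ≠ 0 → ∀ (V : Type) [AddCommGroup V] [LinearOrder V] [IsOrderedAddMonoid V]
      (x : G →+ V), Ker x (j d) → Pos d (Z V x a) := by
  classical
  intro d
  induction d using WellFoundedLT.induction with
  | ind d IH =>
  intro hd0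
  have hself : ∀ v, s v v = 0 := fun v => by have := hs v v; omega
  have main : ∀ (n : ℕ) (V : Type) [AddCommGroup V] [LinearOrder V] [IsOrderedAddMonoid V]
      (x : G →+ V), Ker x (j d) →
      (((hfin d).toFinset.filter fun c => Opp (s (j d) (j c)) (x (j c))).card = n) →
      Pos d (Z V x a) := by
    intro n
    induction n using Nat.strong_induction_on with
    | _ n ih =>
    intro V _ _ _ x hx hn
    by_cases hemp : ((hfin d).toFinset.filter fun c => Opp (s (j d) (j c)) (x (j c))) = ∅
    · refine hAT V x d hd0 hx ?_ ?_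
      · intro c hc h
        have hnot : ¬ Opp (s (j d) (j c)) (x (j c)) := fun ho => by
          have : c ∈ ((hfin d).toFinset.filter fun c => Opp (s (j d) (j c)) (x (j c))) :=
            Finset.mem_filter.2 ⟨(hfin d).mem_toFinset.2 hc, ho⟩
          rw [hemp] at this
          simp at this
        have hxc : x (j c) ≠ 0 := fun h0 => h (Par.sf hs (hx.2 _ h0))
        have hA : ¬ (x (j c) < 0 ∧ 0 < s (j d) (j c)) := fun h' => hnot (Or.inl h')
        have hB : ¬ (0 < x (j c) ∧ s (j d) (j c) < 0) := fun h' => hnot (Or.inr h')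
        rcases lt_or_gt_of_ne hxc with h1 | h1 <;> rcases lt_or_gt_of_ne h with h2 | h2
        · exact ⟨⟨fun h3 => absurd h3 h1.not_gt, fun h3 => absurd h3 h2.not_gt⟩,
            ⟨fun _ => h2, fun _ => h1⟩⟩
        · exact absurd ⟨h1, h2⟩ hA
        · exact absurd ⟨h1, h2⟩ hB
        · exact ⟨⟨fun _ => h2, fun _ => h1⟩,
            ⟨fun h3 => absurd h3 h1.not_gt, fun h3 => absurd h3 h2.not_gt⟩⟩
      · intro k hk hkd hk0 hxk
        refine IH k (lt_of_le_of_ne hk hkd) hk0 V x ⟨hxk, fun v hv => ?_⟩
        obtain ⟨p, q, hp, hpq⟩ := hx.2 v hv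
        obtain ⟨p', q', hp', hpq'⟩ := hx.2 (j k) hxk
        have hq' : q' ≠ 0 := by
          rintro rfl
          rw [zero_smul] at hpq'
          refine hj0 k hk0 (zsmul_right_injective hp' ?_)
          change p' • j k = p' • (0 : G)
          rw [hpq', smul_zero]
        refine ⟨q' * p, q * p', mul_ne_zero hq' hp, ?_⟩
        rw [mul_smul, hpq, smul_comm q' q, ← hpq', ← mul_smul]
    · -- the first joint
      have hne := Finset.nonempty_iff_ne_empty.2 hemp
      obtain ⟨c, hcS, hmin⟩ := exists_min_ratio _ hne (fun c => |s (j d) (j c)|)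
        (fun c => |x (j c)|) (fun c hc => abs_pos.2 (Finset.mem_filter.1 hc).2.ne.1)
      have hc := (Finset.mem_filter.1 hcS).2
      have hjoint := isJoint_jointF hs hx hc
      have hx'd : jointF s x (j d) (j c) (j d) = 0 := by
        rw [jointF_apply, hx.1, hself, smul_zero, zero_smul, add_zero]
      have hscpos : 0 < |s (j d) (j c)| := abs_pos.2 hc.ne.1
      have hxcpos : 0 < |x (j c)| := abs_pos.2 hc.ne.2
      -- kernels of the refined functionals
      have hker : ∀ k, k ≠ 0 → jointF s x (j d) (j c) (j k) = 0 →
          Ker (lexF (jointF s x (j d) (j c)) (s (j k))) (j k) := by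
        intro k hk0 hk
        refine ⟨lexF_eq_zero.2 ⟨hk, hself _⟩, fun v hv => ?_⟩
        obtain ⟨h1, h2⟩ := lexF_eq_zero.1 hv
        exact hjoint.par hx'd hk (hj0 k hk0) h1 h2
      -- comparison of signs on the box
      have hbox : ∀ e ≤ d, jointF s x (j d) (j c) (j e) ≠ 0 →
          SameSg (jointF s x (j d) (j c) (j e)) (x (j e)) := by
        intro e he h0
        rw [jointF_apply] at h0 ⊢
        -- sign of x e
        rcases lt_trichotomy (x (j e)) 0 with h1 | h1 | h1
        · -- x e < 0
          have hlt : |s (j d) (j c)| • x (j e) + s (j d) (j e) • |x (j c)| < 0 := by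
            rcases le_or_gt (s (j d) (j e)) 0 with h2 | h2
            · have a1 : |s (j d) (j c)| • x (j e) < 0 := by
                have := zsmul_lt_zsmul_right hscpos h1
                simpa using this
              have a2 : s (j d) (j e) • |x (j c)| ≤ 0 := by
                have := zsmul_nonneg hxcpos.le (neg_nonneg.2 h2)
                rw [neg_smul] at this
                exact neg_nonneg.1 this
              exact add_neg_of_neg_of_nonpos a1 a2
            · have hopp : e ∈ ((hfin d).toFinset.filter fun c => Opp (s (j d) (j c)) (x (j c))) :=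
                Finset.mem_filter.2 ⟨(hfin d).mem_toFinset.2 he, Or.inl ⟨h1, h2⟩⟩
              have := hmin e hopp
              rw [abs_of_neg h1, abs_of_pos h2, smul_neg] at this
              refine lt_of_le_of_ne ?_ h0
              have h3 := add_le_add_right this (|s (j d) (j c)| • x (j e))
              simpa [add_comm] using h3
          exact ⟨⟨fun h3 => absurd h3 hlt.not_gt, fun h3 => absurd h3 h1.not_gt⟩,
            ⟨fun _ => h1, fun _ => hlt⟩⟩
        · exfalso
          have h2 : s (j d) (j e) = 0 := Par.sf hs (hx.2 _ h1)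
          rw [h1, h2, smul_zero, zero_smul, add_zero] at h0
          exact h0 rfl
        · have hgt : 0 < |s (j d) (j c)| • x (j e) + s (j d) (j e) • |x (j c)| := by
            rcases le_or_gt 0 (s (j d) (j e)) with h2 | h2
            · have a1 : 0 < |s (j d) (j c)| • x (j e) := by
                have := zsmul_lt_zsmul_right hscpos h1
                simpa using this
              exact add_pos_of_pos_of_nonneg a1 (zsmul_nonneg hxcpos.le h2)
            · have hopp : e ∈ ((hfin d).toFinset.filter fun c => Opp (s (j d) (j c)) (x (j c))) :=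
                Finset.mem_filter.2 ⟨(hfin d).mem_toFinset.2 he, Or.inr ⟨h1, h2⟩⟩
              have := hmin e hopp
              rw [abs_of_pos h1, abs_of_neg h2, neg_smul] at this
              refine lt_of_le_of_ne ?_ (Ne.symm h0)
              have h3 := add_le_add_right this (s (j d) (j e) • |x (j c)|)
              simpa [add_comm] using h3
          exact ⟨⟨fun _ => h1, fun _ => hgt⟩,
            ⟨fun h3 => absurd h3 hgt.not_gt, fun h3 => absurd h3 h1.not_gt⟩⟩
      -- positivity after the joint
      have hcard : ((hfin d).toFinset.filter fun e => Opp (s (j d) (j e))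
          (lexF (jointF s x (j d) (j c)) (s (j d)) (j e))).card < n := by
        rw [← hn]
        refine Finset.card_lt_card ⟨fun e he => ?_, fun hsub => ?_⟩
        · obtain ⟨he1, he2⟩ := Finset.mem_filter.1 he
          have hed : e ≤ d := (hfin d).mem_toFinset.1 he1
          refine Finset.mem_filter.2 ⟨he1, ?_⟩
          rcases he2 with ⟨h1, h2⟩ | ⟨h1, h2⟩
          · rcases lexF_neg.1 h1 with h3 | ⟨h3, h4⟩
            · exact Or.inl ⟨(hbox e hed h3.ne).2.1 h3, h2⟩
            · exact absurd h4 h2.not_gt
          · rcases lexF_pos.1 h1 with h3 | ⟨h3, h4⟩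
            · exact Or.inr ⟨(hbox e hed h3.ne').1.1 h3, h2⟩
            · exact absurd h4 h2.not_gt
        · have h1 := (Finset.mem_filter.1 (hsub hcS)).2
          have h0 : jointF s x (j d) (j c) (j c) = 0 := by
            rw [jointF_apply]; exact hc.cancel
          rcases h1 with ⟨h1, h2⟩ | ⟨h1, h2⟩
          · rcases lexF_neg.1 h1 with h3 | ⟨_, h4⟩
            · rw [h0] at h3; exact lt_irrefl _ h3
            · exact absurd h4 h2.not_gt
          · rcases lexF_pos.1 h1 with h3 | ⟨_, h4⟩
            · rw [h0] at h3; exact lt_irrefl _ h3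
            · exact absurd h4 h2.not_gt
      have hposd : Pos d (Z ℤ (s (j d)) (Z V (jointF s x (j d) (j c)) a)) :=
        hloc d _ _ (fun e he => hR2 V _ _ d e he)
          (ih _ hcard (V ×ₗ ℤ) _ (hker d hd0 hx'd) rfl)
      have h2 : Pos d (Z ℤ (- s (j d)) (Z V (jointF s x (j d) (j c)) a)) := by
        refine h2D V _ d hd0 hjoint hx'd ?_
        intro k hk hk0 hxk
        by_cases hkd : k = d
        · subst hkd; exact hposd
        · exact hloc k _ _ (fun e he => hR2 V _ _ k e he)
            (IH k (lt_of_le_of_ne hk hkd) hk0 (V ×ₗ ℤ) _ (hker k hk0 hxk))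
      -- back to `x`
      refine hloc d _ _ (fun e he => ?_) h2
      rw [← hR2 V (jointF s x (j d) (j c)) (- s (j d)) d e he]
      refine hR1 (V ×ₗ ℤ) V _ x d (fun e he => ?_) e he
      by_cases h0 : jointF s x (j d) (j c) (j e) = 0
      · -- sign of x e is the sign of - s d e
        have hval : |s (j d) (j c)| • x (j e) = - (s (j d) (j e) • |x (j c)|) := by
          rw [jointF_apply] at h0
          exact eq_neg_of_add_eq_zero_left h0
        have hneg : (- s (j d)) (j e) = - (s (j d) (j e)) := rfl
        constructor
        · rw [lexF_pos, hneg]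
          constructor
          · rintro (h1 | ⟨_, h1⟩)
            · rw [h0] at h1; exact absurd h1 (lt_irrefl _)
            · have h3 : 0 < |s (j d) (j c)| • x (j e) := by
                rw [hval, ← neg_smul]
                have := zsmul_lt_zsmul_left hxcpos h1
                simpa using this
              by_contra h4
              have h5 := zsmul_le_zsmul_right hscpos.le (not_lt.1 h4)
              rw [smul_zero] at h5
              exact absurd h3 h5.not_gt
          · intro h1
            right
            refine ⟨h0, ?_⟩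
            have h3 : 0 < |s (j d) (j c)| • x (j e) := by
              have := zsmul_lt_zsmul_right hscpos h1
              simpa using this
            rw [hval, ← neg_smul] at h3
            by_contra h4
            have h5 : (- s (j d) (j e)) • |x (j c)| ≤ 0 := by
              have := zsmul_nonneg hxcpos.le (neg_nonneg.2 (not_lt.1 h4))
              rw [neg_smul] at this
              exact neg_nonneg.1 this
            exact absurd h3 h5.not_gt
        · rw [lexF_neg, hneg]
          constructor
          · rintro (h1 | ⟨_, h1⟩)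
            · rw [h0] at h1; exact absurd h1 (lt_irrefl _)
            · have h3 : |s (j d) (j c)| • x (j e) < 0 := by
                rw [hval]
                have := zsmul_lt_zsmul_left hxcpos (neg_neg_iff_pos.1 h1)
                rw [zero_smul] at this
                exact neg_neg_iff_pos.2 this
              by_contra h4
              have h5 := zsmul_le_zsmul_right hscpos.le (not_lt.1 h4)
              rw [smul_zero] at h5
              exact absurd h3 h5.not_gt
          · intro h1
            right
            refine ⟨h0, ?_⟩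
            have h3 : |s (j d) (j c)| • x (j e) < 0 := by
              have := zsmul_lt_zsmul_right hscpos h1
              simpa using this
            rw [hval] at h3
            by_contra h4
            have h5 : 0 ≤ - (s (j d) (j e) • |x (j c)|) := by
              rw [← neg_smul]
              exact zsmul_nonneg hxcpos.le (not_lt.1 h4)
            exact absurd h3 h5.not_gt
      · have h1 := hbox e he h0
        constructor
        · rw [lexF_pos, ← h1.1]
          constructor
          · rintro (h2 | ⟨h2, _⟩)
            · exact h2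
            · exact absurd h2 h0
          · exact fun h2 => Or.inl h2
        · rw [lexF_neg, ← h1.2]
          constructor
          · rintro (h2 | ⟨h2, _⟩)
            · exact h2
            · exact absurd h2 h0
          · exact fun h2 => Or.inl h2
  intro V _ _ _ x hx
  exact main _ V x hx rfl

end main

end Crest.Agent.R059.FlowV999
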