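import Mathlib

/-!
# Row 59, FL3: the flow theorem (owner helper999)

Abstract form: `Z x a` = the part of slope zero of `a` with respect to the functional `x`.
If the attractor walls are positive and two dimensional positivity holds, all walls are positive.
Nothing about the ring is used: elements are functions `(I → ℕ) → K`, `Z` is any operation with the
refinement property `ZRef`.
-/

set_option autoImplicit false

open Finset

namespace Crest.Agent.R059.Flow999

variable {I : Type*} [Fintype I]

/-- value of a real functional on an integral class -/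
def ev (x : I → ℝ) (v : I → ℤ) : ℝ := ∑ i, x i * (v i : ℝ)

/-- a class of `ℕ^I` as an integral class -/
def cz (c : I → ℕ) : I → ℤ := fun i => (c i : ℤ)

/-- the bilinear form -/
def sf (s : I → I → ℤ) (v w : I → ℤ) : ℤ := ∑ i, ∑ j, v i * w j * s i j

/-- the functional `s(d, ·)` -/
def sfun (s : I → I → ℤ) (d : I → ℤ) : I → ℝ := fun j => ∑ i, (d i : ℝ) * (s i j : ℝ)

theorem ev_sfun (s : I → I → ℤ) (d v : I → ℤ) : ev (sfun s d) v = (sf s d v : ℝ) := by
  unfold ev sfun sf
  push_cast
  simp_rw [Finset.sum_mul]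
  rw [Finset.sum_comm]
  refine Finset.sum_congr rfl fun i _ => Finset.sum_congr rfl fun j _ => ?_
  ring

theorem ev_add (x y : I → ℝ) (v : I → ℤ) : ev (x + y) v = ev x v + ev y v := by
  simp [ev, add_mul, Finset.sum_add_distrib]

theorem ev_smul (r : ℝ) (x : I → ℝ) (v : I → ℤ) : ev (r • x) v = r * ev x v := by
  simp [ev, Finset.mul_sum, mul_assoc]

theorem ev_neg (x : I → ℝ) (v : I → ℤ) : ev (-x) v = - ev x v := by
  simp [ev]

@[simp] theorem ev_zero (v : I → ℤ) : ev (0 : I → ℝ) v = 0 := by simp [ev]

theorem ev_vadd (x : I → ℝ) (v w : I → ℤ) : ev x (v + w) = ev x v + ev x w := by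
  simp [ev, mul_add, Finset.sum_add_distrib]

theorem ev_vsub (x : I → ℝ) (v w : I → ℤ) : ev x (v - w) = ev x v - ev x w := by
  simp [ev, mul_sub, Finset.sum_sub_distrib]

theorem ev_vsmul (x : I → ℝ) (n : ℤ) (v : I → ℤ) : ev x (n • v) = n * ev x v := by
  simp only [ev, Pi.smul_apply, smul_eq_mul, Finset.mul_sum]
  push_cast
  refine Finset.sum_congr rfl fun i _ => ?_
  ring

theorem sf_add_left (s : I → I → ℤ) (u v w : I → ℤ) : sf s (u + v) w = sf s u w + sf s v w := by
  simp [sf, add_mul, Finset.sum_add_distrib]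

theorem sf_smul_left (s : I → I → ℤ) (n : ℤ) (v w : I → ℤ) : sf s (n • v) w = n * sf s v w := by
  simp only [sf, Pi.smul_apply, smul_eq_mul, Finset.mul_sum]
  refine Finset.sum_congr rfl fun i _ => Finset.sum_congr rfl fun j _ => ?_
  ring

theorem sf_smul_right (s : I → I → ℤ) (n : ℤ) (v w : I → ℤ) : sf s v (n • w) = n * sf s v w := by
  simp only [sf, Pi.smul_apply, smul_eq_mul, Finset.mul_sum]
  refine Finset.sum_congr rfl fun i _ => Finset.sum_congr rfl fun j _ => ?_
  ring

theorem sf_add_right (s : I → I → ℤ) (u v w : I → ℤ) : sf s u (v + w) = sf s u v + sf s u w := by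
  simp [sf, mul_add, add_mul, Finset.sum_add_distrib]

theorem sf_sub_left (s : I → I → ℤ) (u v w : I → ℤ) : sf s (u - v) w = sf s u w - sf s v w := by
  simp [sf, sub_mul, Finset.sum_sub_distrib]

theorem sf_sub_right (s : I → I → ℤ) (u v w : I → ℤ) : sf s u (v - w) = sf s u v - sf s u w := by
  simp [sf, mul_sub, sub_mul, Finset.sum_sub_distrib]

/-- skew symmetry -/
def Skew (s : I → I → ℤ) : Prop := ∀ i j, s j i = - s i j

theorem Skew.sf {s : I → I → ℤ} (hs : Skew s) (v w : I → ℤ) : sf s w v = - sf s v w := by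
  unfold Flow999.sf
  rw [Finset.sum_comm, ← Finset.sum_neg_distrib]
  refine Finset.sum_congr rfl fun i _ => ?_
  rw [← Finset.sum_neg_distrib]
  refine Finset.sum_congr rfl fun j _ => ?_
  rw [hs i j]
  ring

theorem Skew.self {s : I → I → ℤ} (hs : Skew s) (v : I → ℤ) : Flow999.sf s v v = 0 := by
  have := hs.sf v v
  omega

/-- `v` is proportional to `d` -/
def Par (v d : I → ℤ) : Prop := ∃ a b : ℤ, a ≠ 0 ∧ a • v = b • d

/-- the kernel of `x` is the line of `d` -/
def Ker (x : I → ℝ) (d : I → ℤ) : Prop := ev x d = 0 ∧ ∀ v, ev x v = 0 → Par v d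

theorem Par.sf_left {s : I → I → ℤ} (hs : Skew s) {v d : I → ℤ} (h : Par v d) :
    sf s d v = 0 := by
  obtain ⟨a, b, ha, hab⟩ := h
  have h1 : a * sf s d v = 0 := by
    rw [← sf_smul_right, hab, sf_smul_right, hs.self, mul_zero]
  exact (mul_eq_zero.1 h1).resolve_left ha

/-- `x` is a joint containing `d`: the classes killed by `x` span a plane on which `s` is not zero -/
def IsJoint (s : I → I → ℤ) (x : I → ℝ) (d : I → ℤ) : Prop :=
  (∀ u v w, ev x u = 0 → ev x v = 0 → ev x w = 0 →
    sf s u w • v = sf s u v • w + sf s v w • u) ∧ ∃ e, ev x e = 0 ∧ sf s d e ≠ 0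

/-- signs of the pair `(x, y)` in lexicographic order -/
noncomputable def lexSign (x y : I → ℝ) (v : I → ℤ) : SignType :=
  if ev x v = 0 then SignType.sign (ev y v) else SignType.sign (ev x v)

variable {K : Type*}

/-- refinement property of the zero part -/
def ZRef (Z : (I → ℝ) → ((I → ℕ) → K) → ((I → ℕ) → K)) (a : (I → ℕ) → K) : Prop :=
  ∀ (x x' y : I → ℝ) (d : I → ℕ),
    (∀ c ≤ d, SignType.sign (ev x' (cz c)) = lexSign x y (cz c)) →
    ∀ c ≤ d, Z x' a c = Z y (Z x a) c

/-- the linear algebra of a joint on the line `x + τ s(d,·)` -/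
theorem isJoint_line {s : I → I → ℤ} (hs : Skew s) {x : I → ℝ} {d : I → ℤ} (hx : Ker x d)
    {τ : ℝ} {e : I → ℤ} (he : sf s d e ≠ 0) (hxe : ev (x + τ • sfun s d) e = 0) :
    IsJoint s (x + τ • sfun s d) d := by
  have hval : ∀ v, ev (x + τ • sfun s d) v = ev x v + τ * (sf s d v : ℝ) := by
    intro v; rw [ev_add, ev_smul, ev_sfun]
  -- first: the identity with `d`
  have key : ∀ u v, ev (x + τ • sfun s d) u = 0 → ev (x + τ • sfun s d) v = 0 →
      sf s d v • u - sf s d u • v = sf s u v • d := by
    intro u v hu hv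
    rw [hval] at hu hv
    have h0 : ev x (sf s d v • u - sf s d u • v) = 0 := by
      rw [ev_vsub, ev_vsmul, ev_vsmul]
      have h1 : ev x u = - (τ * (sf s d u : ℝ)) := by linarith
      have h2 : ev x v = - (τ * (sf s d v : ℝ)) := by linarith
      rw [h1, h2]
      ring
    obtain ⟨a, b, ha, hab⟩ := hx.2 _ h0
    -- pair with `e`-like classes
    by_cases hv0 : sf s d v = 0
    · -- then `v` is parallel to `d`
      have hxv : ev x v = 0 := by
        rw [hv0] at hv; simpa using hv
      obtain ⟨a', b', ha', hab'⟩ := hx.2 _ hxv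
      have h3 : a' • (sf s d v • u - sf s d u • v) = a' • (sf s u v • d) := by
        have h4 : a' * sf s u v = b' * sf s u d := by
          rw [← sf_smul_right, hab', sf_smul_right]
        rw [hv0, zero_smul, zero_sub, smul_neg, smul_comm a' (sf s d u) v, hab', smul_smul a',
          h4, hs.sf d u, smul_smul, ← neg_smul]
        congr 1
        ring
      have h5 : ∀ i, (sf s d v • u - sf s d u • v) i = (sf s u v • d) i := by
        intro i
        have := congrFun h3 i
        simp only [Pi.smul_apply, smul_eq_mul] at this ⊢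
        exact mul_left_cancel₀ ha' this
      exact funext h5
    · have h6 : a * (sf s d v * sf s u v) = b * sf s d v := by
        have := congrArg (fun z => sf s z v) hab
        simp only [sf_smul_left, sf_sub_left] at this
        rw [hs.self v] at this
        linarith
      have h7 : a * sf s u v = b := by
        have : (a * sf s u v) * sf s d v = b * sf s d v := by linarith
        exact mul_right_cancel₀ hv0 this
      have h8 : a • (sf s d v • u - sf s d u • v) = a • (sf s u v • d) := by
        rw [hab, smul_smul, h7]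
      funext i
      have := congrFun h8 i
      simp only [Pi.smul_apply, smul_eq_mul] at this ⊢
      exact mul_left_cancel₀ ha this
  refine ⟨?_, e, hxe, he⟩
  intro u v w hu hv hw
  have ku := key u e hu hxe
  have kv := key v e hv hxe
  have kw := key w e hw hxe
  -- values of the form
  have fuv : sf s d e * sf s u v = sf s d v * sf s u e - sf s d u * sf s v e := by
    have := congrArg (fun z => sf s z v) ku
    simp only [sf_smul_left, sf_sub_left] at this
    rw [hs.sf v e] at this
    linarith
  have fuw : sf s d e * sf s u w = sf s d w * sf s u e - sf s d u * sf s w e := by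
    have := congrArg (fun z => sf s z w) ku
    simp only [sf_smul_left, sf_sub_left] at this
    rw [hs.sf w e] at this
    linarith
  have fvw : sf s d e * sf s v w = sf s d w * sf s v e - sf s d v * sf s w e := by
    have := congrArg (fun z => sf s z w) kv
    simp only [sf_smul_left, sf_sub_left] at this
    rw [hs.sf w e] at this
    linarith
  funext i
  have cu := congrFun ku i
  have cv := congrFun kv i
  have cw := congrFun kw i
  simp only [Pi.smul_apply, Pi.sub_apply, Pi.add_apply, smul_eq_mul] at cu cv cw ⊢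
  have h9 : (sf s d e * sf s d e) * (sf s u w * v i) =
      (sf s d e * sf s d e) * (sf s u v * w i + sf s v w * u i) := by
    have e1 : (sf s d e * sf s d e) * (sf s u w * v i) =
        (sf s d e * sf s u w) * (sf s d e * v i) := by ring
    have e2 : (sf s d e * sf s d e) * (sf s u v * w i + sf s v w * u i) =
        (sf s d e * sf s u v) * (sf s d e * w i) + (sf s d e * sf s v w) * (sf s d e * u i) := by
      ring
    have gu : sf s d e * u i = sf s u e * d i + sf s d u * e i := by linarith
    have gv : sf s d e * v i = sf s v e * d i + sf s d v * e i := by linarith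
    have gw : sf s d e * w i = sf s w e * d i + sf s d w * e i := by linarith
    rw [e1, e2, fuv, fuw, fvw, gu, gv, gw]
    ring
  exact mul_left_cancel₀ (mul_ne_zero he he) h9

/-- at a joint, `s(k,v) = 0` forces `v` proportional to `k` -/
theorem IsJoint.par {s : I → I → ℤ} {x : I → ℝ} {d : I → ℤ} (hj : IsJoint s x d)
    (hd : ev x d = 0) {k v : I → ℤ} (hk : ev x k = 0) (hk0 : k ≠ 0) (hv : ev x v = 0)
    (h : sf s k v = 0) : Par v k := by
  obtain ⟨hid, e, he, hde⟩ := hj
  -- some `w` with `s(k,w) ≠ 0`
  by_cases hkd : sf s k d = 0 ∧ sf s k e = 0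
  · exfalso
    apply hk0
    have := hid k d e hk hd he
    rw [hkd.1, hkd.2, zero_smul, zero_smul, zero_add] at this
    have h1 : sf s d e • k = 0 := this.symm
    exact (smul_eq_zero.1 h1).resolve_left hde
  · obtain ⟨w, hw, hkw⟩ : ∃ w, ev x w = 0 ∧ sf s k w ≠ 0 := by
      by_contra hcon
      push Not at hcon
      exact hkd ⟨hcon d hd, hcon e he⟩
    have := hid k v w hk hv hw
    rw [h, zero_smul, zero_add] at this
    exact ⟨sf s k w, sf s v w, hkw, this⟩

/-- generic small real numbers -/
theorem exists_good {s : I → I → ℤ} (x : I → ℝ) (k : I → ℤ) {lo hi : ℝ} (h : lo < hi) :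
    ∃ ε, lo < ε ∧ ε < hi ∧ ∀ v, sf s k v ≠ 0 → ev x v + ε * (sf s k v : ℝ) ≠ 0 := by
  let B : Set ℝ := ⋃ v : I → ℤ, {ε : ℝ | ε = - ev x v / (sf s k v : ℝ)}
  have hB : B.Countable := Set.countable_iUnion fun v => by
    have : {ε : ℝ | ε = - ev x v / (sf s k v : ℝ)} = {- ev x v / (sf s k v : ℝ)} := by
      ext; simp
    rw [this]
    exact Set.countable_singleton _
  obtain ⟨ε, hε, h1, h2⟩ := (hB.dense_compl ℝ).exists_between h
  refine ⟨ε, h1, h2, fun v hv h0 => hε ?_⟩
  refine Set.mem_iUnion.2 ⟨v, ?_⟩
  have hv' : (sf s k v : ℝ) ≠ 0 := by exact_mod_cast hv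
  change ε = - ev x v / (sf s k v : ℝ)
  rw [eq_div_iff hv']
  linarith

theorem sign_add_small {A B ε : ℝ} (hA : A ≠ 0) (h : |ε * B| < |A|) :
    SignType.sign (A + ε * B) = SignType.sign A := by
  rcases lt_or_gt_of_ne hA with h0 | h0
  · rw [sign_neg h0]
    rw [abs_of_neg h0] at h
    exact sign_neg (by linarith [le_abs_self (ε * B)])
  · rw [sign_pos h0]
    rw [abs_of_pos h0] at h
    exact sign_pos (by linarith [neg_abs_le (ε * B)])

/-- sign patterns of `x + ε y` on a finite set of classes, `ε` small -/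
theorem exists_small (x y : I → ℝ) (d : I → ℕ) :
    ∃ δ : ℝ, 0 < δ ∧ ∀ ε : ℝ, 0 < ε → ε < δ → ∀ c ≤ d,
      SignType.sign (ev (x + ε • y) (cz c)) = lexSign x y (cz c) := by
  classical
  have hfin : (Set.Iic d).Finite := Set.finite_Iic d
  -- one class at a time
  have h1 : ∀ c : I → ℕ, ∃ δ : ℝ, 0 < δ ∧ ∀ ε : ℝ, 0 < ε → ε < δ →
      SignType.sign (ev (x + ε • y) (cz c)) = lexSign x y (cz c) := by
    intro c
    by_cases h : ev x (cz c) = 0
    · refine ⟨1, one_pos, fun ε hε _ => ?_⟩
      rw [lexSign, if_pos h, ev_add, h, zero_add, ev_smul, sign_mul, sign_pos hε, one_mul]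
    · refine ⟨|ev x (cz c)| / (|ev y (cz c)| + 1), by positivity, fun ε hε h' => ?_⟩
      rw [lexSign, if_neg h, ev_add, ev_smul]
      refine sign_add_small h ?_
      rw [abs_mul, abs_of_pos hε]
      rw [lt_div_iff₀ (by positivity)] at h'
      nlinarith [abs_nonneg (ev y (cz c))]
  choose δ hδ hδ' using h1
  obtain ⟨m, hm0, hm⟩ : ∃ m : ℝ, 0 < m ∧ ∀ c ≤ d, m ≤ δ c := by
    have hne : (Set.Iic d).Nonempty := ⟨d, le_refl d⟩
    obtain ⟨c0, hc0, hmin⟩ := Set.exists_min_image (Set.Iic d) δ hfin hne
    exact ⟨δ c0, hδ c0, fun c hc => hmin c hc⟩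
  exact ⟨m, hm0, fun ε h0 h1 c hc => hδ' c ε h0 (lt_of_lt_of_le h1 (hm c hc))⟩

/-- **the flow theorem** -/
theorem flow (s : I → I → ℤ) (hs : Skew s)
    (Z : (I → ℝ) → ((I → ℕ) → K) → ((I → ℕ) → K)) (a : (I → ℕ) → K) (hZ : ZRef Z a)
    (Pos : (I → ℕ) → ((I → ℕ) → K) → Prop)
    (hloc : ∀ k b b', (∀ c ≤ k, b c = b' c) → Pos k b → Pos k b')
    (h2D : ∀ (x : I → ℝ) (d : I → ℕ), d ≠ 0 → IsJoint s x (cz d) → ev x (cz d) = 0 →
      (∀ k ≤ d, k ≠ 0 → ev x (cz k) = 0 → Pos k (Z (sfun s (cz k)) (Z x a))) →
      Pos d (Z (- sfun s (cz d)) (Z x a)))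
    (hAT : ∀ (x : I → ℝ) (d : I → ℕ), d ≠ 0 → Ker x (cz d) →
      (∀ c ≤ d, sf s (cz d) (cz c) ≠ 0 →
        SignType.sign (ev x (cz c)) = SignType.sign (sf s (cz d) (cz c) : ℝ)) →
      (∀ k ≤ d, k ≠ d → k ≠ 0 → ev x (cz k) = 0 → Pos k (Z x a)) → Pos d (Z x a)) :
    ∀ (d : I → ℕ), d ≠ 0 → ∀ x : I → ℝ, Ker x (cz d) → Pos d (Z x a) := by
  classical
  -- induction on the class
  intro d
  induction d using WellFoundedLT.induction with
  | ind d IH =>
  intro hd0 x hx
  have hcz : ∀ {k : I → ℕ}, k ≠ 0 → cz k ≠ 0 := by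
    intro k hk h
    apply hk
    funext i
    have := congrFun h i
    simpa [cz] using this
  have hval : ∀ (τ : ℝ) v, ev (x + τ • sfun s (cz d)) v = ev x v + τ * (sf s (cz d) v : ℝ) := by
    intro τ v; rw [ev_add, ev_smul, ev_sfun]
  -- good times
  let Good : ℝ → Prop := fun τ => ∀ v, sf s (cz d) v ≠ 0 → ev x v + τ * (sf s (cz d) v : ℝ) ≠ 0
  have hGoodKer : ∀ τ, Good τ → Ker (x + τ • sfun s (cz d)) (cz d) := by
    intro τ hτ
    refine ⟨?_, fun v hv => ?_⟩
    · rw [hval, hx.1, hs.self]; simp
    · rw [hval] at hv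
      by_cases h : sf s (cz d) v = 0
      · rw [h] at hv
        exact hx.2 v (by simpa using hv)
      · exact absurd hv (hτ v h)
  -- crossing times of the classes below `d`
  let tc : (I → ℕ) → ℝ := fun c => - ev x (cz c) / (sf s (cz d) (cz c) : ℝ)
  have hfin : (Set.Iic d).Finite := Set.finite_Iic d
  let J : Finset ℝ := (hfin.toFinset.filter fun c => sf s (cz d) (cz c) ≠ 0).image tc
  have hJ : ∀ c ≤ d, sf s (cz d) (cz c) ≠ 0 → tc c ∈ J := by
    intro c hc h
    exact Finset.mem_image_of_mem _ (Finset.mem_filter.2 ⟨hfin.mem_toFinset.2 hc, h⟩)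
  have htc : ∀ c, sf s (cz d) (cz c) ≠ 0 → ∀ τ, ev (x + τ • sfun s (cz d)) (cz c) =
      (τ - tc c) * (sf s (cz d) (cz c) : ℝ) := by
    intro c h τ
    have h' : (sf s (cz d) (cz c) : ℝ) ≠ 0 := by exact_mod_cast h
    rw [hval]
    simp only [tc]
    field_simp
    ring
  have main : ∀ n : ℕ, ∀ τ, Good τ → (J.filter (τ < ·)).card = n →
      Pos d (Z (x + τ • sfun s (cz d)) a) := by
    intro n
    induction n using Nat.strong_induction_on with
    | _ n ih =>
    intro τ hτ hn
    by_cases hemp : (J.filter (τ < ·)) = ∅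
    · -- attractor chamber
      refine hAT _ d hd0 (hGoodKer τ hτ) ?_ ?_
      · intro c hc h
        have h1 : ¬ τ < tc c := by
          intro hlt
          have : tc c ∈ J.filter (τ < ·) := Finset.mem_filter.2 ⟨hJ c hc h, hlt⟩
          rw [hemp] at this
          simp at this
        have h2 : τ ≠ tc c := by
          intro heq
          apply hτ (cz c) h
          rw [← hval, htc c h, heq]
          simp
        have h3 : 0 < τ - tc c := sub_pos.2 (lt_of_le_of_ne (not_lt.1 h1) (Ne.symm h2))
        rw [htc c h, sign_mul, sign_pos h3, one_mul]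
      · intro k hk hkd hk0 hxk
        refine IH k (lt_of_le_of_ne hk hkd) hk0 _ ⟨hxk, fun v hv => ?_⟩
        -- kernel of x_τ is the line of d, hence of k
        obtain ⟨p, q, hp, hpq⟩ := (hGoodKer τ hτ).2 v hv
        obtain ⟨p', q', hp', hpq'⟩ := (hGoodKer τ hτ).2 (cz k) hxk
        have hq' : q' ≠ 0 := by
          rintro rfl
          rw [zero_smul] at hpq'
          exact hcz hk0 ((smul_eq_zero.1 hpq').resolve_left hp')
        refine ⟨q' * p, q * p', mul_ne_zero hq' hp, ?_⟩
        rw [mul_smul, hpq, smul_comm q' q, ← hpq', ← mul_smul]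
    · -- the first joint after `τ`
      have hne : (J.filter (τ < ·)).Nonempty := Finset.nonempty_iff_ne_empty.2 hemp
      obtain ⟨τ0, hτ0, hmin⟩ := Finset.exists_min_image _ id hne
      have hτ0' := Finset.mem_filter.1 hτ0
      have hlt : τ < τ0 := hτ0'.2
      -- the class responsible for it
      obtain ⟨e, he, heτ⟩ := Finset.mem_image.1 hτ0'.1
      have he' := Finset.mem_filter.1 he
      have hxe : ev (x + τ0 • sfun s (cz d)) (cz e) = 0 := by
        rw [htc e he'.2, heτ, sub_self, zero_mul]
      have hjoint : IsJoint s (x + τ0 • sfun s (cz d)) (cz d) := isJoint_line hs hx he'.2 hxe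
      have hx0d : ev (x + τ0 • sfun s (cz d)) (cz d) = 0 := by
        rw [hval, hx.1, hs.self]; simp
      -- a gap after `τ0`
      obtain ⟨τ1, hτ1, hgap⟩ : ∃ τ1, τ0 < τ1 ∧ ∀ t ∈ J, τ0 < t → τ1 < t := by
        by_cases h : (J.filter (τ0 < ·)).Nonempty
        · obtain ⟨t0, ht0, hm⟩ := Finset.exists_min_image _ id h
          have := (Finset.mem_filter.1 ht0).2
          refine ⟨(τ0 + t0) / 2, by linarith, fun t ht h' => ?_⟩
          have h2 : t0 ≤ t := hm t (Finset.mem_filter.2 ⟨ht, h'⟩)
          linarith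
        · refine ⟨τ0 + 1, by linarith, fun t ht h' => ?_⟩
          exact absurd ⟨t, Finset.mem_filter.2 ⟨ht, h'⟩⟩ h
      obtain ⟨τ', h01, h02, hgood'⟩ := exists_good (s := s) x (cz d) hτ1
      -- positivity after the joint
      have hcard : (J.filter (τ' < ·)).card < n := by
        rw [← hn]
        refine Finset.card_lt_card ?_
        refine ⟨fun t ht => ?_, fun hsub => ?_⟩
        · have := Finset.mem_filter.1 ht
          exact Finset.mem_filter.2 ⟨this.1, by linarith [this.2]⟩
        · have := Finset.mem_filter.1 (hsub hτ0)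
          linarith [this.2]
      have hpos' := ih _ hcard τ' hgood' rfl
      -- signs after the joint
      have hsign' : ∀ c ≤ d, SignType.sign (ev (x + τ' • sfun s (cz d)) (cz c)) =
          lexSign (x + τ0 • sfun s (cz d)) (sfun s (cz d)) (cz c) := by
        intro c hc
        by_cases h : sf s (cz d) (cz c) = 0
        · rw [lexSign, ev_sfun, h, hval, hval, h]
          by_cases h' : ev x (cz c) = 0 <;> simp [h']
        · rw [lexSign, ev_sfun, htc c h, htc c h]
          have hR : (sf s (cz d) (cz c) : ℝ) ≠ 0 := by exact_mod_cast h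
          by_cases h0 : τ0 = tc c
          · rw [if_pos (by rw [h0]; simp), ← h0, sign_mul, sign_pos (by linarith), one_mul]
          · rw [if_neg (mul_ne_zero (sub_ne_zero.2 h0) hR), sign_mul, sign_mul]
            congr 1
            rcases lt_or_gt_of_ne h0 with h3 | h3
            · have := hgap _ (hJ c hc h) h3
              rw [sign_neg (by linarith), sign_neg (by linarith)]
            · rw [sign_pos (by linarith), sign_pos (by linarith)]
      have hposd : Pos d (Z (sfun s (cz d)) (Z (x + τ0 • sfun s (cz d)) a)) :=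
        hloc d _ _ (fun c hc => hZ _ _ _ d hsign' c hc) hpos'
      -- two dimensional positivity
      have h2 : Pos d (Z (- sfun s (cz d)) (Z (x + τ0 • sfun s (cz d)) a)) := by
        refine h2D _ d hd0 hjoint hx0d ?_
        intro k hk hk0 hxk
        by_cases hkd : k = d
        · subst hkd; exact hposd
        · -- smaller class: use the induction hypothesis at a generic point near the joint
          obtain ⟨δ, hδ, hsm⟩ := exists_small (x + τ0 • sfun s (cz d)) (sfun s (cz k)) k
          obtain ⟨ε, hε0, hε1, hεg⟩ := exists_good (s := s) (x + τ0 • sfun s (cz d)) (cz k) hδ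
          refine hloc k _ _ (fun c hc => hZ _ _ _ k (hsm ε hε0 hε1) c hc)
            (IH k (lt_of_le_of_ne hk hkd) hk0 _ ⟨?_, fun v hv => ?_⟩)
          · rw [ev_add, ev_smul, ev_sfun, hxk, hs.self]; simp
          · rw [ev_add, ev_smul, ev_sfun] at hv
            by_cases h : sf s (cz k) v = 0
            · rw [h] at hv
              exact hjoint.par hx0d hxk (hcz hk0) (by simpa using hv) h
            · exact absurd hv (hεg v h)
      -- signs before the joint
      have hsign : ∀ c ≤ d, SignType.sign (ev (x + τ • sfun s (cz d)) (cz c)) =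
          lexSign (x + τ0 • sfun s (cz d)) (- sfun s (cz d)) (cz c) := by
        intro c hc
        by_cases h : sf s (cz d) (cz c) = 0
        · rw [lexSign, ev_neg, ev_sfun, h, hval, hval, h]
          by_cases h' : ev x (cz c) = 0 <;> simp [h']
        · rw [lexSign, ev_neg, ev_sfun, htc c h, htc c h]
          have hR : (sf s (cz d) (cz c) : ℝ) ≠ 0 := by exact_mod_cast h
          by_cases h0 : τ0 = tc c
          · rw [if_pos (by rw [h0]; simp), ← h0, sign_mul, sign_neg (by linarith),
              ← neg_one_mul (sf s (cz d) (cz c) : ℝ), sign_mul]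
            congr 1
            rw [sign_neg (by norm_num : (-1 : ℝ) < 0)]
          · rw [if_neg (mul_ne_zero (sub_ne_zero.2 h0) hR), sign_mul, sign_mul]
            congr 1
            rcases lt_or_gt_of_ne h0 with h3 | h3
            · rw [sign_neg (by linarith), sign_neg (by linarith)]
            · -- tc c < τ0: then tc c ≤ τ, and ≠ τ
              have h4 : ¬ τ < tc c := by
                intro hlt'
                have : τ0 ≤ tc c := hmin _ (Finset.mem_filter.2 ⟨hJ c hc h, hlt'⟩)
                linarith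
              have h5 : τ ≠ tc c := by
                intro heq
                apply hτ (cz c) h
                rw [← hval, htc c h, heq]
                simp
              have h6 : tc c < τ := lt_of_le_of_ne (not_lt.1 h4) (Ne.symm h5)
              rw [sign_pos (by linarith), sign_pos (by linarith)]
      exact hloc d _ _ (fun c hc => (hZ _ _ _ d hsign c hc).symm) h2
  -- start at time 0
  have h0 : Good 0 := by
    intro v hv h
    rw [zero_mul, add_zero] at h
    exact hv (Par.sf_left hs (hx.2 v h))
  have := main _ 0 h0 rfl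
  simpa using this

end Crest.Agent.R059.Flow999
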