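import Crest.Agent.R059.TPS_883

/-!
# Row 59, track T: change-of-ring homomorphisms of twisted power series

* `scale χ`  : `Y_m ↦ χ(m) Y_m`;
* `mapR φ`   : coefficientwise ring homomorphism;
* `Emb`, `Emb.hom` : extension by zero along a saturated embedding of exponent monoids;
* `Y_mul`    : `Y_f g = scale(v^{β(f,·) - β(·,f)})(g) Y_f`.
-/

set_option autoImplicit false

namespace Crest.Agent.R059.Sc998

open Finset TPS

/-! ### the scaling homomorphism -/

section scale

variable {M : Type*} [AddCommMonoid M] [HasAntidiagonal M] {R : Type*} [CommRing R] {T : Tw M R}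

/-- `Y_m ↦ χ(m) Y_m`. -/
noncomputable def scale (χ : Multiplicative M →* R) : TPS T →+* TPS T where
  toFun f := ⟨fun m => χ (Multiplicative.ofAdd m) * f.co m⟩
  map_one' := by
    classical
    ext d
    by_cases h : d = 0
    · subst h
      show χ (Multiplicative.ofAdd 0) * (1 : TPS T).co 0 = (1 : TPS T).co 0
      rw [ofAdd_zero, map_one, one_mul]
    · show χ (Multiplicative.ofAdd d) * (1 : TPS T).co d = (1 : TPS T).co d
      rw [co_one_ne h, mul_zero]
  map_zero' := by
    ext d
    show χ (Multiplicative.ofAdd d) * (0 : TPS T).co d = (0 : TPS T).co d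
    rw [co_zero, mul_zero]
  map_add' f g := by
    ext d
    show χ (Multiplicative.ofAdd d) * (f + g).co d = _
    rw [co_add, mul_add]; rfl
  map_mul' f g := by
    ext d
    show χ (Multiplicative.ofAdd d) * (f * g).co d = _
    rw [co_mul, co_mul, Finset.mul_sum]
    refine Finset.sum_congr rfl (fun p hp => ?_)
    rw [HasAntidiagonal.mem_antidiagonal] at hp
    show χ (Multiplicative.ofAdd d) * (wt T p.1 p.2 * (f.co p.1 * g.co p.2)) =
      wt T p.1 p.2 * ((χ (Multiplicative.ofAdd p.1) * f.co p.1) *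
        (χ (Multiplicative.ofAdd p.2) * g.co p.2))
    rw [← hp, ofAdd_add, map_mul]; ring

@[simp] theorem co_scale (χ : Multiplicative M →* R) (f : TPS T) (m : M) :
    (scale χ f).co m = χ (Multiplicative.ofAdd m) * f.co m := rfl

theorem scale_mono (χ : Multiplicative M →* R) (m : M) (r : R) :
    scale χ (mono T m r) = mono T m (χ (Multiplicative.ofAdd m) * r) := by
  classical
  ext d
  rw [co_scale, co_mono, co_mono]
  by_cases h : d = m
  · rw [if_pos h, if_pos h, h]
  · rw [if_neg h, if_neg h, mul_zero]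

theorem scale_eq_self (χ : Multiplicative M →* R) (f : TPS T)
    (h : ∀ m, f.co m ≠ 0 → χ (Multiplicative.ofAdd m) = 1) : scale χ f = f := by
  ext d
  rw [co_scale]
  by_cases hd : f.co d = 0
  · rw [hd, mul_zero]
  · rw [h d hd, one_mul]

end scale

/-! ### characters -/

section chi

variable {M : Type*} [AddCommMonoid M] {R : Type*} [CommRing R]

/-- the character `m ↦ t ^ ℓ(m)` of a unit `t`. -/
def chiZ (t : Rˣ) (ℓ : M →+ ℤ) : Multiplicative M →* R where
  toFun m := ((t ^ (ℓ (Multiplicative.toAdd m)) : Rˣ) : R)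
  map_one' := by simp
  map_mul' a b := by
    rw [toAdd_mul, map_add, zpow_add, Units.val_mul]

theorem chiZ_apply (t : Rˣ) (ℓ : M →+ ℤ) (m : M) :
    chiZ t ℓ (Multiplicative.ofAdd m) = ((t ^ (ℓ m) : Rˣ) : R) := rfl

/-- the character `m ↦ z ^ deg(m)`. -/
def chiN (z : R) (deg : M →+ ℕ) : Multiplicative M →* R where
  toFun m := z ^ (deg (Multiplicative.toAdd m))
  map_one' := by simp
  map_mul' a b := by
    rw [toAdd_mul, map_add, pow_add]

theorem chiN_apply (z : R) (deg : M →+ ℕ) (m : M) :
    chiN z deg (Multiplicative.ofAdd m) = z ^ (deg m) := rfl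

end chi

/-! ### change of coefficients -/

section mapR

variable {M : Type*} [AddCommMonoid M] {R R' : Type*} [CommRing R] [CommRing R']

/-- the twist datum over another ring. -/
def TwMap (T : Tw M R) (φ : R →+* R') : Tw M R' := ⟨Units.map φ.toMonoidHom T.v, T.β⟩

theorem wt_map (T : Tw M R) (φ : R →+* R') (a b : M) :
    wt (TwMap T φ) a b = φ (wt T a b) := by
  show (((Units.map φ.toMonoidHom T.v) ^ (T.β a b) : R'ˣ) : R') = φ _
  rw [← map_zpow]; rfl

variable [HasAntidiagonal M]

/-- coefficientwise ring homomorphism, target datum `T'` with `v' = φ v`, `β' = β`. -/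
noncomputable def mapR (T : Tw M R) (T' : Tw M R') (φ : R →+* R')
    (hv : (T'.v : R') = φ T.v) (hβ : T'.β = T.β) : TPS T →+* TPS T' where
  toFun f := ⟨fun m => φ (f.co m)⟩
  map_one' := by
    classical
    ext d
    show φ ((1 : TPS T).co d) = (1 : TPS T').co d
    rw [co_one, co_one]
    split_ifs <;> simp
  map_zero' := by
    ext d
    show φ ((0 : TPS T).co d) = (0 : TPS T').co d
    rw [co_zero, co_zero, map_zero]
  map_add' f g := by
    ext d
    show φ ((f + g).co d) = _
    rw [co_add, map_add]; rfl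
  map_mul' f g := by
    ext d
    show φ ((f * g).co d) = _
    rw [co_mul, co_mul, map_sum]
    refine Finset.sum_congr rfl (fun p _ => ?_)
    rw [map_mul, map_mul]
    have h1 : φ (wt T p.1 p.2) = wt T' p.1 p.2 := by
      have hv' : T'.v = Units.map φ.toMonoidHom T.v := Units.ext hv
      unfold wt
      rw [hv', hβ, ← map_zpow]; rfl
    rw [h1]

theorem co_mapR (T : Tw M R) (T' : Tw M R') (φ : R →+* R')
    (hv : (T'.v : R') = φ T.v) (hβ : T'.β = T.β) (f : TPS T) (m : M) :
    (mapR T T' φ hv hβ f).co m = φ (f.co m) := rfl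

theorem mapR_mono (T : Tw M R) (T' : Tw M R') (φ : R →+* R')
    (hv : (T'.v : R') = φ T.v) (hβ : T'.β = T.β) (m : M) (r : R) :
    mapR T T' φ hv hβ (mono T m r) = mono T' m (φ r) := by
  classical
  ext d
  rw [co_mapR, co_mono, co_mono]
  split_ifs <;> simp

end mapR

/-! ### embeddings of exponent monoids -/

section emb

variable {M M' : Type*} [AddCommMonoid M] [AddCommMonoid M'] {R : Type*} [CommRing R]

/-- a saturated embedding of twisted exponent monoids. -/
structure Emb (T : Tw M R) (T' : Tw M' R) where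
  /-- the embedding. -/
  j : M →+ M'
  inj : Function.Injective j
  sat : ∀ a b : M', a + b ∈ Set.range j → a ∈ Set.range j ∧ b ∈ Set.range j
  hv : T'.v = T.v
  hβ : ∀ a b : M, T'.β (j a) (j b) = T.β a b

namespace Emb

variable {T : Tw M R} {T' : Tw M' R} (e : Emb T T')

include e in
theorem wt_eq (a b : M) : wt T' (e.j a) (e.j b) = wt T a b := by
  unfold wt; rw [e.hβ, e.hv]

/-- extension by zero. -/
noncomputable def ext (f : M → R) : M' → R := Function.extend e.j f 0

theorem ext_j (f : M → R) (m : M) : e.ext f (e.j m) = f m := e.inj.extend_apply _ _ _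

theorem ext_off (f : M → R) {m' : M'} (h : m' ∉ Set.range e.j) : e.ext f m' = 0 := by
  unfold ext
  rw [Function.extend_apply' _ _ _ (fun hc => h hc)]; rfl

variable [HasAntidiagonal M] [HasAntidiagonal M']

open Classical in
theorem antidiag (m : M) : HasAntidiagonal.antidiagonal (e.j m) =
    (HasAntidiagonal.antidiagonal m).image (fun p => (e.j p.1, e.j p.2)) := by
  ext p
  rw [HasAntidiagonal.mem_antidiagonal, Finset.mem_image]
  constructor
  · intro h
    obtain ⟨⟨a, ha⟩, ⟨b, hb⟩⟩ := e.sat p.1 p.2 ⟨m, h.symm⟩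
    refine ⟨(a, b), ?_, ?_⟩
    · rw [HasAntidiagonal.mem_antidiagonal]
      apply e.inj
      rw [map_add, ha, hb, h]
    · exact Prod.ext ha hb
  · rintro ⟨q, hq, rfl⟩
    rw [HasAntidiagonal.mem_antidiagonal] at hq
    show e.j q.1 + e.j q.2 = e.j m
    rw [← map_add, hq]

/-- `Y_m ↦ Y_{j m}`. -/
noncomputable def hom : TPS T →+* TPS T' where
  toFun f := ⟨e.ext f.co⟩
  map_one' := by
    classical
    ext d
    show e.ext (1 : TPS T).co d = (1 : TPS T').co d
    by_cases h : d ∈ Set.range e.j
    · obtain ⟨m, rfl⟩ := h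
      rw [e.ext_j, co_one, co_one]
      by_cases hm : m = 0
      · rw [if_pos hm, hm, map_zero, if_pos rfl]
      · rw [if_neg hm, if_neg (fun hc => hm (e.inj (by rw [hc, map_zero])))]
    · rw [e.ext_off _ h, co_one_ne]
      rintro rfl
      exact h ⟨0, map_zero _⟩
  map_zero' := by
    ext d
    show e.ext (0 : TPS T).co d = (0 : TPS T').co d
    by_cases h : d ∈ Set.range e.j
    · obtain ⟨m, rfl⟩ := h
      rw [e.ext_j, co_zero, co_zero]
    · rw [e.ext_off _ h, co_zero]
  map_add' f g := by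
    ext d
    show e.ext (f + g).co d = e.ext f.co d + e.ext g.co d
    by_cases h : d ∈ Set.range e.j
    · obtain ⟨m, rfl⟩ := h
      rw [e.ext_j, e.ext_j, e.ext_j, co_add]
    · rw [e.ext_off _ h, e.ext_off _ h, e.ext_off _ h, add_zero]
  map_mul' f g := by
    classical
    ext d
    show e.ext (f * g).co d = _
    rw [co_mul]
    by_cases h : d ∈ Set.range e.j
    · obtain ⟨m, rfl⟩ := h
      rw [e.ext_j, co_mul, e.antidiag, Finset.sum_image]
      · refine Finset.sum_congr rfl (fun p _ => ?_)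
        show _ = wt T' (e.j p.1) (e.j p.2) * (e.ext f.co (e.j p.1) * e.ext g.co (e.j p.2))
        rw [e.wt_eq, e.ext_j, e.ext_j]
      · rintro ⟨a, b⟩ _ ⟨a', b'⟩ _ hab
        simp only [Prod.mk.injEq] at hab
        exact Prod.ext (e.inj hab.1) (e.inj hab.2)
    · rw [e.ext_off _ h]
      symm
      apply Finset.sum_eq_zero
      rintro ⟨a, b⟩ hp
      rw [HasAntidiagonal.mem_antidiagonal] at hp
      show wt T' a b * (e.ext f.co a * e.ext g.co b) = 0
      by_cases ha : a ∈ Set.range e.j
      · by_cases hb : b ∈ Set.range e.j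
        · exfalso
          obtain ⟨a0, rfl⟩ := ha
          obtain ⟨b0, rfl⟩ := hb
          exact h ⟨a0 + b0, by rw [map_add]; exact hp⟩
        · rw [e.ext_off _ hb, mul_zero, mul_zero]
      · rw [e.ext_off _ ha, zero_mul, mul_zero]

@[simp] theorem co_hom_j (f : TPS T) (m : M) : (e.hom f).co (e.j m) = f.co m := e.ext_j _ _

theorem co_hom_off (f : TPS T) {m' : M'} (h : m' ∉ Set.range e.j) : (e.hom f).co m' = 0 :=
  e.ext_off _ h

theorem hom_injective : Function.Injective e.hom := by
  intro f g h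
  ext d
  rw [← e.co_hom_j f d, h, e.co_hom_j]

theorem hom_mono (m : M) (r : R) : e.hom (mono T m r) = mono T' (e.j m) r := by
  classical
  ext d
  by_cases h : d ∈ Set.range e.j
  · obtain ⟨k, rfl⟩ := h
    rw [e.co_hom_j, co_mono, co_mono]
    by_cases hk : k = m
    · rw [if_pos hk, if_pos (by rw [hk])]
    · rw [if_neg hk, if_neg (fun hc => hk (e.inj hc))]
  · rw [e.co_hom_off _ h, co_mono_ne]
    rintro rfl
    exact h ⟨m, rfl⟩

theorem scale_hom (χ : Multiplicative M' →* R) (χ0 : Multiplicative M →* R)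
    (hχ : ∀ m, χ (Multiplicative.ofAdd (e.j m)) = χ0 (Multiplicative.ofAdd m)) (f : TPS T) :
    scale χ (e.hom f) = e.hom (scale χ0 f) := by
  ext d
  rw [co_scale]
  by_cases h : d ∈ Set.range e.j
  · obtain ⟨k, rfl⟩ := h
    rw [e.co_hom_j, e.co_hom_j, co_scale, hχ]
  · rw [e.co_hom_off _ h, e.co_hom_off _ h, mul_zero]

end Emb

end emb

/-! ### multiplication by a monomial -/

section mono

variable {M : Type*} [AddCommMonoid M] [HasAntidiagonal M] [IsCancelAdd M]
  {R : Type*} [CommRing R] {T : Tw M R}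

theorem co_Y_mul (f m : M) (g : TPS T) :
    (Y T f * g).co (f + m) = wt T f m * g.co m := by
  classical
  rw [co_mul, Finset.sum_eq_single (f, m)]
  · show wt T f m * ((Y T f).co f * g.co m) = _
    rw [Y, co_mono_self, one_mul]
  · rintro ⟨a, b⟩ hp hne
    rw [HasAntidiagonal.mem_antidiagonal] at hp
    have ha : a ≠ f := by
      rintro rfl
      have hb : b = m := add_left_cancel hp
      exact hne (by rw [hb])
    show wt T a b * ((Y T f).co a * g.co b) = 0
    rw [Y, co_mono_ne ha, zero_mul, mul_zero]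
  · intro h
    exact absurd (HasAntidiagonal.mem_antidiagonal.2 rfl) h

theorem co_Y_mul_off (f d : M) (g : TPS T) (h : ∀ m, d ≠ f + m) :
    (Y T f * g).co d = 0 := by
  classical
  rw [co_mul]
  apply Finset.sum_eq_zero
  rintro ⟨a, b⟩ hp
  rw [HasAntidiagonal.mem_antidiagonal] at hp
  have ha : a ≠ f := by
    rintro rfl
    exact h b hp.symm
  show wt T a b * ((Y T f).co a * g.co b) = 0
  rw [Y, co_mono_ne ha, zero_mul, mul_zero]

theorem co_mul_Y (f m : M) (g : TPS T) :
    (g * Y T f).co (m + f) = wt T m f * g.co m := by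
  classical
  rw [co_mul, Finset.sum_eq_single (m, f)]
  · show wt T m f * (g.co m * (Y T f).co f) = _
    rw [Y, co_mono_self, mul_one]
  · rintro ⟨a, b⟩ hp hne
    rw [HasAntidiagonal.mem_antidiagonal] at hp
    have hb : b ≠ f := by
      rintro rfl
      have ha : a = m := add_right_cancel hp
      exact hne (by rw [ha])
    show wt T a b * (g.co a * (Y T f).co b) = 0
    rw [Y, co_mono_ne hb, mul_zero, mul_zero]
  · intro h
    exact absurd (HasAntidiagonal.mem_antidiagonal.2 rfl) h

theorem co_mul_Y_off (f d : M) (g : TPS T) (h : ∀ m, d ≠ m + f) :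
    (g * Y T f).co d = 0 := by
  classical
  rw [co_mul]
  apply Finset.sum_eq_zero
  rintro ⟨a, b⟩ hp
  rw [HasAntidiagonal.mem_antidiagonal] at hp
  have hb : b ≠ f := by
    rintro rfl
    exact h a hp.symm
  show wt T a b * (g.co a * (Y T f).co b) = 0
  rw [Y, co_mono_ne hb, mul_zero, mul_zero]

/-- `Y_f g = scale(χ_f)(g) Y_f`, `χ_f(m) = v^{β(f,m) - β(m,f)}`. -/
theorem Y_mul (f : M) (χ : Multiplicative M →* R)
    (hχ : ∀ m, χ (Multiplicative.ofAdd m) = ((T.v ^ (T.β f m - T.β m f) : Rˣ) : R))
    (g : TPS T) : Y T f * g = scale χ g * Y T f := by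
  ext d
  by_cases h : ∃ m, d = f + m
  · obtain ⟨m, rfl⟩ := h
    rw [co_Y_mul, add_comm f m, co_mul_Y, co_scale, hχ, ← mul_assoc]
    congr 1
    unfold wt
    rw [← Units.val_mul, ← zpow_add]
    congr 2
    ring
  · have h' : ∀ m, d ≠ f + m := fun m hm => h ⟨m, hm⟩
    rw [co_Y_mul_off f d g h', co_mul_Y_off f d _ (fun m hm => h' m (by rw [hm, add_comm]))]

/-- the character `χ_f(m) = v^{β(f,m) - β(m,f)}`. -/
def chiY (T : Tw M R) (f : M) : Multiplicative M →* R :=
  chiZ T.v (T.β f - T.β.flip f)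

omit [HasAntidiagonal M] [IsCancelAdd M] in
theorem chiY_apply (f m : M) :
    chiY T f (Multiplicative.ofAdd m) = ((T.v ^ (T.β f m - T.β m f) : Rˣ) : R) := rfl

theorem Y_mul' (f : M) (g : TPS T) : Y T f * g = scale (chiY T f) g * Y T f :=
  Y_mul f (chiY T f) (fun m => chiY_apply f m) g

end mono

end Crest.Agent.R059.Sc998
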