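import Mathlib
import Crest.Agent.R059.TPS_883
import Crest.Agent.R059.Sc_998

set_option autoImplicit false
set_option linter.unusedSectionVars false

/-!
Row 59 (S0081), leaf 20 FRAME, part 1 (helper436): the framed ring.

`T.frame δ` lives on `Option ι →₀ ℕ` (`none` = framing class `f`), `s(f,c) = -δ(c)`, `s(c,f) = δ(c)`.
`emb : TPS T →+* TPS (T.frame δ)` is the ring embedding supported on `{a | a none = 0}`.
-/

namespace Crest.Agent.R059

open Finset

namespace Frame436

section basic

variable {ι : Type*}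

/-- restriction of a class of the framed lattice to the unframed part. -/
noncomputable def rs : (Option ι →₀ ℕ) →+ (ι →₀ ℕ) where
  toFun := Finsupp.some
  map_zero' := Finsupp.some_zero
  map_add' := Finsupp.some_add

/-- inclusion of the unframed classes. -/
noncomputable def inc : (ι →₀ ℕ) →+ (Option ι →₀ ℕ) where
  toFun m := m.optionElim 0
  map_zero' := by rw [Finsupp.optionElim_zero, Finsupp.single_zero]
  map_add' a b := by
    have := Finsupp.optionElim_add a b 0 0
    simpa using this

/-- the framing coordinate. -/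
noncomputable def fc : (Option ι →₀ ℕ) →+ ℤ :=
  (Nat.castAddMonoidHom ℤ).comp (Finsupp.applyAddHom none)

/-- the framing class. -/
noncomputable def ff : Option ι →₀ ℕ := Finsupp.single none 1

@[simp] theorem fc_apply (a : Option ι →₀ ℕ) : fc a = (a none : ℤ) := rfl

@[simp] theorem inc_none (m : ι →₀ ℕ) : inc m none = 0 := Finsupp.optionElim_apply_none _ _

@[simp] theorem inc_some (m : ι →₀ ℕ) (i : ι) : inc m (some i) = m i :=
  Finsupp.optionElim_apply_some _ _ _

@[simp] theorem rs_apply (a : Option ι →₀ ℕ) (i : ι) : rs a i = a (some i) := rfl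

@[simp] theorem rs_inc (m : ι →₀ ℕ) : rs (inc m) = m := by ext i; simp

@[simp] theorem rs_ff : rs (ff : Option ι →₀ ℕ) = 0 := by ext i; simp [ff]

@[simp] theorem ff_none : (ff : Option ι →₀ ℕ) none = 1 := by simp [ff]

theorem inc_rs {a : Option ι →₀ ℕ} (h : a none = 0) : inc (rs a) = a := by
  ext i
  cases i with
  | none => simp [h]
  | some i => simp

theorem inc_injective : Function.Injective (inc : (ι →₀ ℕ) → (Option ι →₀ ℕ)) := fun a b h => by
  rw [← rs_inc a, h, rs_inc]

theorem inc_eq_zero {m : ι →₀ ℕ} : inc m = 0 ↔ m = 0 := by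
  constructor
  · intro h; rw [← rs_inc m, h, map_zero]
  · rintro rfl; exact map_zero _

theorem eq_smul_ff_add (a : Option ι →₀ ℕ) : a = a none • ff + inc (rs a) := by
  ext i
  cases i with
  | none => simp
  | some i => simp [ff]

theorem add_ff_injective : Function.Injective (fun m : ι →₀ ℕ => ff + inc m) := fun a b h => by
  have := congrArg rs h
  simpa using this

end basic

section frame

variable {ι : Type*} {R : Type*} [CommRing R]

/-- the framed twist. -/
noncomputable def frame (T : Tw (ι →₀ ℕ) R) (δ : (ι →₀ ℕ) →+ ℕ) : Tw (Option ι →₀ ℕ) R where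
  v := T.v
  β := (T.β.comp rs).compl₂ rs
    - (AddMonoidHom.mul.comp fc).compl₂ (((Nat.castAddMonoidHom ℤ).comp δ).comp rs)
    + (AddMonoidHom.mul.comp (((Nat.castAddMonoidHom ℤ).comp δ).comp rs)).compl₂ fc

variable {T : Tw (ι →₀ ℕ) R} {δ : (ι →₀ ℕ) →+ ℕ}

@[simp] theorem frame_v : (frame T δ).v = T.v := rfl

theorem frame_β (a b : Option ι →₀ ℕ) :
    (frame T δ).β a b = T.β (rs a) (rs b) - a none * δ (rs b) + δ (rs a) * b none := rfl

@[simp] theorem frame_β_inc (a b : ι →₀ ℕ) : (frame T δ).β (inc a) (inc b) = T.β a b := by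
  simp [frame_β]

@[simp] theorem frame_β_ff_inc (b : ι →₀ ℕ) : (frame T δ).β ff (inc b) = - δ b := by
  simp [frame_β]

@[simp] theorem frame_β_inc_ff (a : ι →₀ ℕ) : (frame T δ).β (inc a) ff = δ a := by
  simp [frame_β]

@[simp] theorem frame_β_ff_ff : (frame T δ).β ff ff = 0 := by
  simp [frame_β]

theorem frame_skew (h : ∀ a b, T.β a b = - T.β b a) (a b : Option ι →₀ ℕ) :
    (frame T δ).β a b = - (frame T δ).β b a := by
  rw [frame_β, frame_β, h (rs a) (rs b)]; ring

end frame

section emb

variable {ι : Type*} {R : Type*} [CommRing R]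

/-- the embedding of twist data (998's structure). -/
noncomputable def embF (T : Tw (ι →₀ ℕ) R) (δ : (ι →₀ ℕ) →+ ℕ) : Sc998.Emb T (frame T δ) where
  j := inc
  inj := inc_injective
  sat a b h := by
    obtain ⟨m, hm⟩ := h
    have h0 : a none + b none = 0 := by
      rw [← Finsupp.add_apply, ← hm, inc_none]
    exact ⟨⟨rs a, inc_rs (by omega)⟩, ⟨rs b, inc_rs (by omega)⟩⟩
  hv := rfl
  hβ a b := frame_β_inc a b

@[simp] theorem embF_j (T : Tw (ι →₀ ℕ) R) (δ : (ι →₀ ℕ) →+ ℕ) : (embF T δ).j = inc := rfl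

end emb

end Frame436

end Crest.Agent.R059
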