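import Crest.Agent.R059.Fac_150

set_option autoImplicit false

/-!
Row 59 (S0081).  Level one of a framed series (helper 99).

`l : M →+ ℕ` is the multiplicity of the framing class.  If `A` has level `0` and `G` has level `1`
then the zero part of `(1 + G + level ≥ 2) * A` is, up to level `1`,
`(1 + (A₊⁻¹ G A₊)_{y = 0}) * A₀`.
-/

namespace Crest.Agent.R059

open Finset HasAntidiagonal

namespace TPS

section level

variable {M : Type*} [AddCommMonoid M] [PartialOrder M] [IsOrderedCancelAddMonoid M]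
  [CanonicallyOrderedAdd M] [WellFoundedLT M] [HasAntidiagonal M]
variable {R : Type*} [CommRing R] {T : Tw M R}

/-- supported on a set of exponents. -/
def Spt (P : M → Prop) (f : TPS T) : Prop := ∀ d, ¬ P d → f.co d = 0

open Classical in
/-- restriction of a series to a set of exponents. -/
noncomputable def cut (P : M → Prop) (f : TPS T) : TPS T := ⟨fun d => if P d then f.co d else 0⟩

omit [PartialOrder M] [IsOrderedCancelAddMonoid M] [CanonicallyOrderedAdd M] [WellFoundedLT M]
  [HasAntidiagonal M] in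
theorem co_cut_of {P : M → Prop} {f : TPS T} {d : M} (h : P d) : (cut P f).co d = f.co d := by
  simp [cut, h]

omit [PartialOrder M] [IsOrderedCancelAddMonoid M] [CanonicallyOrderedAdd M] [WellFoundedLT M]
  [HasAntidiagonal M] in
theorem co_cut_not {P : M → Prop} {f : TPS T} {d : M} (h : ¬ P d) : (cut P f).co d = 0 := by
  simp [cut, h]

omit [PartialOrder M] [IsOrderedCancelAddMonoid M] [CanonicallyOrderedAdd M] [WellFoundedLT M] in
/-- supports of products -/
theorem Spt.mul {P Q S : M → Prop} (hPQ : ∀ a b, P a → Q b → S (a + b)) {f g : TPS T}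
    (hf : Spt P f) (hg : Spt Q g) : Spt S (f * g) := by
  intro d hd
  rw [co_mul]
  apply sum_eq_zero
  intro p hp
  rw [HasAntidiagonal.mem_antidiagonal] at hp
  by_cases h1 : P p.1
  · by_cases h2 : Q p.2
    · exact absurd (hp ▸ hPQ _ _ h1 h2) hd
    · rw [hg _ h2]; ring
  · rw [hf _ h1]; ring

omit [PartialOrder M] [IsOrderedCancelAddMonoid M] [CanonicallyOrderedAdd M] [WellFoundedLT M]
  [HasAntidiagonal M] in
theorem Spt.mono {P Q : M → Prop} {f : TPS T} (h : Spt P f) (hPQ : ∀ d, P d → Q d) : Spt Q f :=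
  fun d hd => h d (fun hP => hd (hPQ d hP))

omit [PartialOrder M] [IsOrderedCancelAddMonoid M] [CanonicallyOrderedAdd M] [WellFoundedLT M]
  [HasAntidiagonal M] in
theorem Spt.add {P : M → Prop} {f g : TPS T} (hf : Spt P f) (hg : Spt P g) : Spt P (f + g) := by
  intro d hd
  rw [co_add, hf d hd, hg d hd, add_zero]

omit [PartialOrder M] [IsOrderedCancelAddMonoid M] [CanonicallyOrderedAdd M] [WellFoundedLT M]
  [HasAntidiagonal M] in
theorem Spt.smul {P : M → Prop} {f : TPS T} (r : R) (hf : Spt P f) : Spt P (r • f) := by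
  intro d hd
  rw [co_smul, hf d hd, mul_zero]

omit [PartialOrder M] [IsOrderedCancelAddMonoid M] [CanonicallyOrderedAdd M] [WellFoundedLT M]
  [HasAntidiagonal M] in
theorem Spt.cut {P : M → Prop} {f : TPS T} (Q : M → Prop) (hf : Spt P f) :
    Spt (fun d => P d ∧ Q d) (cut Q f) := by
  intro d hd
  by_cases h : Q d
  · rw [co_cut_of h]; exact hf d (fun hP => hd ⟨hP, h⟩)
  · exact co_cut_not h

omit [PartialOrder M] [IsOrderedCancelAddMonoid M] [CanonicallyOrderedAdd M] [WellFoundedLT M]
  [HasAntidiagonal M] in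
theorem In1.spt {P : M → Prop} {f : TPS T} (h : In1 P f) : Spt (fun d => d = 0 ∨ P d) f := by
  intro d hd
  exact h.supp d (fun h0 => hd (Or.inl h0)) (fun hP => hd (Or.inr hP))

omit [PartialOrder M] [IsOrderedCancelAddMonoid M] [CanonicallyOrderedAdd M] [WellFoundedLT M]
  [HasAntidiagonal M] in
/-- `1 + f` with `f` supported on `P` and without constant term -/
theorem in1_one_add {P : M → Prop} {f : TPS T} (hf : Spt P f) (h0 : f.co 0 = 0) :
    In1 P (1 + f) := by
  refine ⟨by rw [co_add, h0, co_one_zero, add_zero], fun d hd hP => ?_⟩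
  rw [co_add, co_one_ne hd, hf d hP, add_zero]

omit [WellFoundedLT M] [IsOrderedCancelAddMonoid M] [PartialOrder M] [CanonicallyOrderedAdd M] in
/-- conjugating a series supported on `P` by series supported on `Q`, `P + Q ⊆ P`. -/
theorem Spt.conj {P Q : M → Prop} (hPQ : ∀ a b, P a → Q b → P (a + b)) {f g g' : TPS T}
    (hf : Spt P f) (hg : Spt (fun d => d = 0 ∨ Q d) g) (hg' : Spt (fun d => d = 0 ∨ Q d) g') :
    Spt P (g' * f * g) := by
  have h1 : Spt P (g' * f) := Spt.mul (fun a b ha hb => by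
    rcases ha with rfl | ha
    · rwa [zero_add]
    · rw [add_comm]; exact hPQ _ _ hb ha) hg' hf
  exact Spt.mul (fun a b ha hb => by
    rcases hb with rfl | hb
    · rwa [add_zero]
    · exact hPQ _ _ ha hb) h1 hg

section fac3

variable {V : Type*} [AddCommGroup V] [LinearOrder V] [IsOrderedAddMonoid V] (y : M →+ V)

/-- local uniqueness of the three-fold factorisation. -/
theorem fac3_unique_le {p z n p' z' n' : TPS T}
    (hp : In1 (fun d => 0 < y d) p) (hz : In1 (fun d => y d = 0) z)
    (hn : In1 (fun d => y d < 0) n)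
    (hp' : In1 (fun d => 0 < y d) p') (hz' : In1 (fun d => y d = 0) z')
    (hn' : In1 (fun d => y d < 0) n') (d : M)
    (h : ∀ e ≤ d, (p * z * n).co e = (p' * z' * n').co e) :
    p.co d = p'.co d ∧ z.co d = z'.co d ∧ n.co d = n'.co d := by
  have hle : ∀ {z n : TPS T}, In1 (fun d => y d = 0) z → In1 (fun d => y d < 0) n →
      In1 (fun d => y d ≤ 0) (z * n) := by
    intro z n hz hn
    refine In1.mul (fun a b ha hb => ?_) (hz.mono fun d _ h => le_of_eq h)
      (hn.mono fun d _ h => le_of_lt h)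
    rw [map_add]; exact add_nonpos ha hb
  have h1 : ∀ e ≤ d, p.co e = p'.co e ∧ (z * n).co e = (z' * n').co e := by
    intro e he
    refine fac_unique_le (P := fun d => 0 < y d) hp.one (hle hz hn).one hp'.one (hle hz' hn').one e
      (fun c _ hc hP => hp.supp c hc hP) (fun c _ hc hP => (hle hz hn).supp c hc (not_le.2 hP))
      (fun c _ hc hP => hp'.supp c hc hP) (fun c _ hc hP => (hle hz' hn').supp c hc (not_le.2 hP))
      (fun c hc => ?_)
    rw [← mul_assoc, ← mul_assoc]
    exact h c (hc.trans he)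
  have h2 := fac_unique_le (P := fun d => y d = 0) hz.one hn.one hz'.one hn'.one d
      (fun c _ hc hP => hz.supp c hc hP) (fun c _ hc hP => hn.supp c hc (by simp [hP]))
      (fun c _ hc hP => hz'.supp c hc hP) (fun c _ hc hP => hn'.supp c hc (by simp [hP]))
      (fun c hc => (h1 c hc).2)
  exact ⟨(h1 d le_rfl).1, h2⟩

variable (l : M →+ ℕ)

/-- **Level one lemma.**  `A = p * z * n` (level `0`), `G` of level one, `B` agrees with
`(1 + G) * A` up to level one, `B = P * Z * N`.  Then up to level one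
`Z = (1 + (p⁻¹ G p)_{y=0}) * z`. -/
theorem level_one {A p z n p' G B P Z N : TPS T}
    (hA : p * z * n = A) (hpp' : p * p' = 1)
    (hp : In1 (fun d => 0 < y d) p) (hz : In1 (fun d => y d = 0) z)
    (hn : In1 (fun d => y d < 0) n)
    (lp : Spt (fun d => l d = 0) p) (lp' : Spt (fun d => l d = 0) p')
    (lz : Spt (fun d => l d = 0) z) (ln : Spt (fun d => l d = 0) n)
    (lG : Spt (fun d => l d = 1) G)
    (hP : In1 (fun d => 0 < y d) P) (hZ : In1 (fun d => y d = 0) Z)
    (hN : In1 (fun d => y d < 0) N) (hB : P * Z * N = B)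
    (hAB : ∀ d, l d ≤ 1 → B.co d = ((1 + G) * A).co d) (d : M) (hd : l d ≤ 1) :
    Z.co d = ((1 + cut (fun e => y e = 0) (p' * G * p)) * z).co d := by
  set H := p' * G * p with hH
  have lH : Spt (fun d => l d = 1) H := by
    have h1 : Spt (fun d => l d = 1) (p' * G) := Spt.mul (fun a b ha hb => by
      rw [map_add, ha, hb]) lp' lG
    exact Spt.mul (fun a b ha hb => by rw [map_add, ha, hb]) h1 lp
  set Hp := cut (fun e => 0 < y e) H with hHp
  set Hz := cut (fun e => y e = 0) H with hHz
  set Hn := cut (fun e => y e < 0) H with hHn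
  have hsum : H = Hp + Hz + Hn := by
    ext e
    rw [co_add, co_add]
    have c1 : ∀ Q : M → Prop, Q e → (cut Q H).co e = H.co e := fun Q h => co_cut_of h
    have c2 : ∀ Q : M → Prop, ¬ Q e → (cut Q H).co e = 0 := fun Q h => co_cut_not h
    rcases lt_trichotomy (y e) 0 with h | h | h
    · rw [hHp, hHz, hHn, c1 (fun e => y e < 0) h, c2 (fun e => 0 < y e) (lt_asymm h),
        c2 (fun e => y e = 0) (ne_of_lt h), zero_add, zero_add]
    · rw [hHp, hHz, hHn, c1 (fun e => y e = 0) h, c2 (fun e => 0 < y e) (not_lt.2 h.le),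
        c2 (fun e => y e < 0) (not_lt.2 h.ge), zero_add, add_zero]
    · rw [hHp, hHz, hHn, c1 (fun e => 0 < y e) h, c2 (fun e => y e < 0) (lt_asymm h),
        c2 (fun e => y e = 0) (ne_of_gt h), add_zero, add_zero]
  have sp : Spt (fun e => l e = 1 ∧ 0 < y e) Hp := lH.cut _
  have sz : Spt (fun e => l e = 1 ∧ y e = 0) Hz := lH.cut _
  have sn : Spt (fun e => l e = 1 ∧ y e < 0) Hn := lH.cut _
  have hl0 : ∀ {Q : M → Prop} {f : TPS T}, Spt (fun e => l e = 1 ∧ Q e) f → f.co 0 = 0 :=
    fun h => h 0 (fun h' => by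
      have h2 := h'.1
      rw [map_zero] at h2
      exact zero_ne_one h2)
  have iz := mul_inv hz.one
  have iz' := inv_mul hz.one
  have hzi : In1 (fun d => y d = 0) (inv z) :=
    hz.inv (fun a b ha hb => by rw [map_add, ha, hb, add_zero])
  -- the candidate factors
  have hP' : In1 (fun d => 0 < y d) (p * (1 + Hp)) :=
    hp.mul (fun a b ha hb => by rw [map_add]; exact add_pos ha hb)
      (in1_one_add (sp.mono fun _ h => h.2) (hl0 sp))
  have hZ' : In1 (fun d => y d = 0) ((1 + Hz) * z) :=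
    (in1_one_add (sz.mono fun _ h => h.2) (hl0 sz)).mul
      (fun a b ha hb => by rw [map_add, ha, hb, add_zero]) hz
  have hz2 : In1 (fun d => y d = 0 ∧ l d = 0) z := by
    refine ⟨hz.one, fun d hd h => ?_⟩
    by_cases h1 : y d = 0
    · exact lz d (fun h2 => h ⟨h1, h2⟩)
    · exact hz.supp d hd h1
  have hzi2 : In1 (fun d => y d = 0 ∧ l d = 0) (inv z) :=
    hz2.inv (fun a b ha hb => by
      rw [map_add, map_add, ha.1, hb.1, ha.2, hb.2]; exact ⟨add_zero _, rfl⟩)
  have hN1 : Spt (fun d => l d = 1 ∧ y d < 0) (inv z * Hn * z) :=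
    Spt.conj (P := fun d => l d = 1 ∧ y d < 0) (Q := fun d => y d = 0 ∧ l d = 0)
      (fun a b ha hb => by
        rw [map_add, map_add, hb.1, hb.2]; exact ⟨ha.1, by rw [add_zero]; exact ha.2⟩)
      sn hz2.spt hzi2.spt
  have hN' : In1 (fun d => y d < 0) ((1 + inv z * Hn * z) * n) :=
    (in1_one_add (hN1.mono fun _ h => h.2) (hl0 hN1)).mul
      (fun a b ha hb => by rw [map_add]; exact add_neg ha hb) hn
  -- the product
  have hprod : (p * (1 + Hp)) * ((1 + Hz) * z) * ((1 + inv z * Hn * z) * n) =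
      (1 + G) * A + p * (Hp * Hz + Hp * Hn + Hz * Hn + Hp * Hz * Hn) * z * n := by
    have e1 : z * (1 + inv z * Hn * z) = (1 + Hn) * z := by
      rw [mul_add, mul_one, add_mul, one_mul, ← mul_assoc, ← mul_assoc, iz, one_mul]
    have e2 : p * (1 + H) = (1 + G) * p := by
      rw [mul_add, mul_one, add_mul, one_mul, hH, ← mul_assoc, ← mul_assoc, hpp', one_mul]
    calc (p * (1 + Hp)) * ((1 + Hz) * z) * ((1 + inv z * Hn * z) * n)
        = (p * (1 + Hp)) * (1 + Hz) * (z * (1 + inv z * Hn * z)) * n := by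
          simp only [mul_assoc]
      _ = (p * (1 + Hp)) * (1 + Hz) * ((1 + Hn) * z) * n := by rw [e1]
      _ = p * (1 + H) * z * n +
          p * (Hp * Hz + Hp * Hn + Hz * Hn + Hp * Hz * Hn) * z * n := by
          rw [hsum]; noncomm_ring
      _ = (1 + G) * A + p * (Hp * Hz + Hp * Hn + Hz * Hn + Hp * Hz * Hn) * z * n := by
          rw [e2, ← hA]; simp only [mul_assoc]
  have l2 : Spt (fun d => 2 ≤ l d)
      (p * (Hp * Hz + Hp * Hn + Hz * Hn + Hp * Hz * Hn) * z * n) := by
    have s1 : Spt (fun e => l e = 1) Hp := sp.mono fun _ h => h.1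
    have s2 : Spt (fun e => l e = 1) Hz := sz.mono fun _ h => h.1
    have s3 : Spt (fun e => l e = 1) Hn := sn.mono fun _ h => h.1
    have t1 : Spt (fun e => 2 ≤ l e) (Hp * Hz) :=
      Spt.mul (fun a b ha hb => by rw [map_add, ha, hb]) s1 s2
    have t2 : Spt (fun e => 2 ≤ l e) (Hp * Hn) :=
      Spt.mul (fun a b ha hb => by rw [map_add, ha, hb]) s1 s3
    have t3 : Spt (fun e => 2 ≤ l e) (Hz * Hn) :=
      Spt.mul (fun a b ha hb => by rw [map_add, ha, hb]) s2 s3
    have t4 : Spt (fun e => 2 ≤ l e) (Hp * Hz * Hn) :=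
      Spt.mul (fun a b ha hb => by rw [map_add, hb]; omega) t1 s3
    have t5 := ((t1.add t2).add t3).add t4
    have t6 : Spt (fun e => 2 ≤ l e) (p * (Hp * Hz + Hp * Hn + Hz * Hn + Hp * Hz * Hn)) :=
      Spt.mul (fun a b ha hb => by rw [map_add, ha]; omega) lp t5
    have t7 : Spt (fun e => 2 ≤ l e) (p * (Hp * Hz + Hp * Hn + Hz * Hn + Hp * Hz * Hn) * z) :=
      Spt.mul (fun a b ha hb => by rw [map_add, hb]; omega) t6 lz
    exact Spt.mul (fun a b ha hb => by rw [map_add, hb]; omega) t7 ln
  have hmono : ∀ e ≤ d, l e ≤ 1 := by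
    intro e he
    obtain ⟨c, rfl⟩ := exists_add_of_le he
    rw [map_add] at hd
    omega
  refine (fac3_unique_le y hP hZ hN hP' hZ' hN' d ?_).2.1
  intro e he
  rw [hB, hAB e (hmono e he), hprod, co_add, l2 e (by have := hmono e he; omega), add_zero]

/-- **Level one, generic functional**: if moreover `z` has no exponents `≤ d` then the level one
coefficient of the zero part `Z` is the coefficient of the conjugate `p⁻¹ G p`. -/
theorem level_one_co {A p z n p' G B P Z N : TPS T}
    (hA : p * z * n = A) (hpp' : p * p' = 1)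
    (hp : In1 (fun d => 0 < y d) p) (hz : In1 (fun d => y d = 0) z)
    (hn : In1 (fun d => y d < 0) n)
    (lp : Spt (fun d => l d = 0) p) (lp' : Spt (fun d => l d = 0) p')
    (lz : Spt (fun d => l d = 0) z) (ln : Spt (fun d => l d = 0) n)
    (lG : Spt (fun d => l d = 1) G)
    (hP : In1 (fun d => 0 < y d) P) (hZ : In1 (fun d => y d = 0) Z)
    (hN : In1 (fun d => y d < 0) N) (hB : P * Z * N = B)
    (hAB : ∀ d, l d ≤ 1 → B.co d = ((1 + G) * A).co d) (d : M) (hd : l d = 1) (hy : y d = 0)
    (hz1 : ∀ e ≤ d, e ≠ 0 → z.co e = 0) :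
    Z.co d = (p' * G * p).co d := by
  have hd0 : d ≠ 0 := by
    rintro rfl
    rw [map_zero] at hd
    exact zero_ne_one hd
  rw [level_one y l hA hpp' hp hz hn lp lp' lz ln lG hP hZ hN hB hAB d hd.le,
    co_mul_congr_le (f' := 1 + cut (fun e => y e = 0) (p' * G * p)) (g' := 1) d
      (fun _ _ => rfl) (fun e he => ?_), mul_one, co_add, co_one_ne hd0, zero_add]
  · exact co_cut_of (P := fun e => y e = 0) hy
  · by_cases h : e = 0
    · rw [h, hz.one, co_one_zero]
    · rw [hz1 e he h, co_one_ne h]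

end fac3

end level

end TPS

end Crest.Agent.R059
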