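import Mathlib
import Crest.Agent.R059.Fac_150
import Crest.Agent.R059.Sc_998
import Crest.Agent.R059.Grnd_883

set_option autoImplicit false
set_option linter.unusedSectionVars false

/-!
Row 59 (S0081), leaf 20 FRAME, part B0 (helper436): the parts `lft/rgt/pos/npos/zer/neg`, `inv`,
`conj` commute with the change-of-ring homomorphisms (`Emb.hom`, `scale χ`, `TPS.map T φ`).
-/

namespace Crest.Agent.R059

open Finset TPS

namespace Frame436

section general

variable {M : Type*} [AddCommMonoid M] [PartialOrder M] [IsOrderedCancelAddMonoid M]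
  [CanonicallyOrderedAdd M] [WellFoundedLT M] [HasAntidiagonal M]
variable {M' : Type*} [AddCommMonoid M'] [PartialOrder M'] [IsOrderedCancelAddMonoid M']
  [CanonicallyOrderedAdd M'] [WellFoundedLT M'] [HasAntidiagonal M']
variable {R : Type*} [CommRing R] {T : Tw M R}
variable {R' : Type*} [CommRing R'] {T' : Tw M' R'}

/-- a ring homomorphism of twisted power series rings which is graded along `j : M → M'`. -/
structure Grd (j : M → M') (Φ : TPS T →+* TPS T') : Prop where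
  /-- supports are transported. -/
  in1 : ∀ (P' : M' → Prop) (f : TPS T), In1 (fun m => P' (j m)) f → In1 P' (Φ f)

variable {j : M → M'} {Φ : TPS T →+* TPS T'}

theorem Grd.one (hΦ : Grd j Φ) {a : TPS T} (ha : a.co 0 = 1) : (Φ a).co 0 = 1 :=
  (hΦ.in1 (fun _ => True) a ⟨ha, fun _ _ h => absurd trivial h⟩).one

theorem Grd.lft_rgt (hΦ : Grd j Φ) (P' : M' → Prop) {a : TPS T} (ha : a.co 0 = 1) :
    lft P' (Φ a) = Φ (lft (fun m => P' (j m)) a) ∧
      rgt P' (Φ a) = Φ (rgt (fun m => P' (j m)) a) := by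
  have h1 : In1 P' (Φ (lft (fun m => P' (j m)) a)) := hΦ.in1 P' _ (in1_lft _ _)
  have h2 : In1 (fun d => ¬ P' d) (Φ (rgt (fun m => P' (j m)) a)) :=
    hΦ.in1 (fun d => ¬ P' d) _ (in1_rgt _ _)
  have h3 := fac_unique (P := P') (a := Φ a) h1.one h2.one (fun e he hP => h1.supp e he hP)
    (fun e he hP => h2.supp e he (fun hn => hn hP))
    (by rw [← map_mul, lft_mul_rgt _ ha])
  exact ⟨h3.1.symm, h3.2.symm⟩

theorem Grd.lft (hΦ : Grd j Φ) (P' : M' → Prop) {a : TPS T} (ha : a.co 0 = 1) :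
    TPS.lft P' (Φ a) = Φ (TPS.lft (fun m => P' (j m)) a) := (hΦ.lft_rgt P' ha).1

theorem Grd.rgt (hΦ : Grd j Φ) (P' : M' → Prop) {a : TPS T} (ha : a.co 0 = 1) :
    TPS.rgt P' (Φ a) = Φ (TPS.rgt (fun m => P' (j m)) a) := (hΦ.lft_rgt P' ha).2

theorem Grd.inv (hΦ : Grd j Φ) {a : TPS T} (ha : a.co 0 = 1) :
    TPS.inv (Φ a) = Φ (TPS.inv a) := by
  refine inv_eq_of_mul (hΦ.one ha) ?_
  rw [← map_mul, mul_inv ha, map_one]

end general

section functional

variable {M : Type*} [AddCommMonoid M] [PartialOrder M] [IsOrderedCancelAddMonoid M]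
  [CanonicallyOrderedAdd M] [WellFoundedLT M] [HasAntidiagonal M]
variable {M' : Type*} [AddCommMonoid M'] [PartialOrder M'] [IsOrderedCancelAddMonoid M']
  [CanonicallyOrderedAdd M'] [WellFoundedLT M'] [HasAntidiagonal M']
variable {R : Type*} [CommRing R] {T : Tw M R}
variable {R' : Type*} [CommRing R'] {T' : Tw M' R'}
variable {V : Type*} [AddCommGroup V] [LinearOrder V] [IsOrderedAddMonoid V]
variable {j : M →+ M'} {Φ : TPS T →+* TPS T'}

theorem Grd.pos (hΦ : Grd j Φ) (x' : M' →+ V) {a : TPS T} (ha : a.co 0 = 1) :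
    TPS.pos x' (Φ a) = Φ (TPS.pos (x'.comp j) a) := hΦ.lft (fun d => 0 < x' d) ha

theorem Grd.npos (hΦ : Grd j Φ) (x' : M' →+ V) {a : TPS T} (ha : a.co 0 = 1) :
    TPS.npos x' (Φ a) = Φ (TPS.npos (x'.comp j) a) := hΦ.rgt (fun d => 0 < x' d) ha

theorem Grd.zer (hΦ : Grd j Φ) (x' : M' →+ V) {a : TPS T} (ha : a.co 0 = 1) :
    TPS.zer x' (Φ a) = Φ (TPS.zer (x'.comp j) a) := by
  unfold TPS.zer
  rw [hΦ.npos x' ha]
  exact hΦ.lft (fun d => x' d = 0) (npos_co_zero _ _)

theorem Grd.neg (hΦ : Grd j Φ) (x' : M' →+ V) {a : TPS T} (ha : a.co 0 = 1) :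
    TPS.neg x' (Φ a) = Φ (TPS.neg (x'.comp j) a) := by
  unfold TPS.neg
  rw [hΦ.npos x' ha]
  exact hΦ.rgt (fun d => x' d = 0) (npos_co_zero _ _)

theorem Grd.cj (hΦ : Grd j Φ) {g : TPS T} (hg : g.co 0 = 1) (F : TPS T) :
    TPS.cj (Φ g) (Φ F) = Φ (TPS.cj g F) := by
  unfold TPS.cj
  rw [hΦ.inv hg, map_mul, map_mul]

theorem Grd.conj (hΦ : Grd j Φ) (x' : M' →+ V) {a : TPS T} (ha : a.co 0 = 1) (F : TPS T) :
    TPS.conj x' (Φ a) (Φ F) = Φ (TPS.conj (x'.comp j) a F) := by
  unfold TPS.conj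
  rw [hΦ.pos x' ha, hΦ.cj (pos_co_zero _ _)]

end functional

section instances

variable {M : Type*} [AddCommMonoid M] [PartialOrder M] [IsOrderedCancelAddMonoid M]
  [CanonicallyOrderedAdd M] [WellFoundedLT M] [HasAntidiagonal M]
variable {M' : Type*} [AddCommMonoid M'] [PartialOrder M'] [IsOrderedCancelAddMonoid M']
  [CanonicallyOrderedAdd M'] [WellFoundedLT M'] [HasAntidiagonal M']
variable {R : Type*} [CommRing R] {T : Tw M R}
variable {R' : Type*} [CommRing R'] {T' : Tw M' R}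

theorem grd_hom (e : Sc998.Emb T T') : Grd e.j e.hom where
  in1 P' f hf := by
    refine ⟨?_, fun d hd hP => ?_⟩
    · rw [← map_zero e.j, e.co_hom_j, hf.one]
    · by_cases h : d ∈ Set.range e.j
      · obtain ⟨m, rfl⟩ := h
        rw [e.co_hom_j]
        exact hf.supp m (fun h0 => hd (by rw [h0, map_zero])) hP
      · exact e.co_hom_off f h

theorem grd_scale (χ : Multiplicative M →* R) :
    Grd (AddMonoidHom.id M) (Sc998.scale χ : TPS T →+* TPS T) where
  in1 P' f hf := by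
    refine ⟨?_, fun d hd hP => ?_⟩
    · rw [Sc998.co_scale, hf.one, ofAdd_zero, map_one, one_mul]
    · rw [Sc998.co_scale, hf.supp d hd hP, mul_zero]

theorem grd_map (φ : R →+* R') : Grd (AddMonoidHom.id M) (TPS.map T φ) where
  in1 P' f hf := by
    refine ⟨?_, fun d hd hP => ?_⟩
    · rw [co_map, hf.one, map_one]
    · rw [co_map, hf.supp d hd hP, map_zero]

end instances

end Frame436

end Crest.Agent.R059
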