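import Mathlib
import Crest.Agent.R059.TPS_883
import Crest.Agent.R059.Fac_150
import Crest.Agent.R059.Tr_201
import Crest.Agent.R059.TransA_569

set_option autoImplicit false
set_option linter.unusedSectionVars false

/-!
Row 59 (S0081), leaf 20 FRAME, part T (helper436): terminal values of the framed element.

`A` supported on classes `c` with `s(f,c) ≤ 0`; for every class `g` and every functional `x` the
coefficient at `g` of `Y_f` conjugated at the functional `lex (s(g,·), x)` is `δ_{g,f}`.
-/

namespace Crest.Agent.R059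

open Finset TPS

namespace Frame436

section terminal

variable {M : Type*} [AddCommMonoid M] [PartialOrder M] [IsOrderedCancelAddMonoid M]
  [CanonicallyOrderedAdd M] [WellFoundedLT M] [HasAntidiagonal M]
variable {R : Type*} [CommRing R] {T : Tw M R}

omit [PartialOrder M] [IsOrderedCancelAddMonoid M] [CanonicallyOrderedAdd M]
  [WellFoundedLT M] [HasAntidiagonal M] in
theorem skew_self {T : Tw M R} (hs : ∀ a b, T.β a b = - T.β b a) (a : M) : T.β a a = 0 := by
  have := hs a a; omega

/-- support of `g⁻¹ Y_f g` for `g ∈ 1 + {P}`. -/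
theorem supp_cj_Y {P : M → Prop} (hP : ∀ a b, P a → P b → P (a + b)) {g : TPS T} (hg : In1 P g)
    (f : M) : Supp (fun d => ∃ c, d = f + c ∧ (c = 0 ∨ P c)) (cj g (Y T f)) := by
  classical
  unfold cj
  have h1 : Supp (fun d => d = 0 ∨ P d) (TPS.inv g) := (hg.inv hP).toSupp
  have h2 : Supp (fun d => d = 0 ∨ P d) g := hg.toSupp
  have h3 : Supp (fun d => d = f) (Y T f) := fun d hd => by
    unfold Y; exact co_mono_ne hd 1
  have h4 : Supp (fun d => ∃ c, d = f + c ∧ (c = 0 ∨ P c)) (TPS.inv g * Y T f) := by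
    refine h1.mul h3 ?_
    rintro a b ha rfl
    exact ⟨a, by rw [add_comm], ha⟩
  refine h4.mul h2 ?_
  rintro a b ⟨c, rfl, hc⟩ hb
  refine ⟨c + b, by rw [add_assoc], ?_⟩
  rcases hc with rfl | hc
  · simpa using hb
  · rcases hb with rfl | hb
    · right; simpa using hc
    · exact Or.inr (hP _ _ hc hb)

/-- coefficient at `f` of `g⁻¹ Y_f g`. -/
theorem cj_Y_self {g : TPS T} (hg : g.co 0 = 1) (f : M) : (cj g (Y T f)).co f = 1 := by
  classical
  unfold cj
  have key : ∀ (u : TPS T), (u * g).co f = u.co f * g.co 0 +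
      ∑ p ∈ (HasAntidiagonal.antidiagonal f).erase (f, 0), wt T p.1 p.2 * (u.co p.1 * g.co p.2) := by
    intro u
    rw [co_mul, ← Finset.add_sum_erase _ _ (a := (f, 0))]
    · simp [wt_zero_right]
    · simp [HasAntidiagonal.mem_antidiagonal]
  have hu : ∀ e, ¬ f ≤ e → (TPS.inv g * Y T f).co e = 0 := by
    intro e he
    rw [co_mul]
    apply Finset.sum_eq_zero
    rintro ⟨a, b⟩ hp
    rw [HasAntidiagonal.mem_antidiagonal] at hp
    have hb : b ≠ f := by
      rintro rfl
      exact he (by rw [← hp]; exact le_add_self)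
    simp [Y, co_mono_ne hb]
  rw [key, hg, mul_one]
  have h1 : (TPS.inv g * Y T f).co f = 1 := by
    rw [co_mul, Finset.sum_eq_single (0, f)]
    · simp [wt_zero_left, Y, co_mono_self]
    · rintro ⟨a, b⟩ hp hne
      rw [HasAntidiagonal.mem_antidiagonal] at hp
      have hb : b ≠ f := by
        rintro rfl
        apply hne
        have ha : a = 0 := by
          simpa using hp
        rw [ha]
      simp [Y, co_mono_ne hb]
    · intro h; exact absurd (by simp [HasAntidiagonal.mem_antidiagonal]) h
  rw [h1]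
  have h2 : ∑ p ∈ (HasAntidiagonal.antidiagonal f).erase (f, 0),
      wt T p.1 p.2 * ((TPS.inv g * Y T f).co p.1 * g.co p.2) = 0 := by
    apply Finset.sum_eq_zero
    rintro ⟨a, b⟩ hp
    rw [Finset.mem_erase, HasAntidiagonal.mem_antidiagonal] at hp
    obtain ⟨hne, hp⟩ := hp
    have : ¬ f ≤ a := by
      intro hfa
      apply hne
      simp only at hp
      have hab : a ≤ f := by rw [← hp]; exact le_self_add
      have : a = f := le_antisymm hab hfa
      subst this
      have hb : b = 0 := by simpa using hp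
      rw [hb]
    rw [hu a this]; simp
  rw [h2, add_zero]

variable {V : Type*} [AddCommGroup V] [LinearOrder V] [IsOrderedAddMonoid V]
variable {W : Type*} [AddCommGroup W] [LinearOrder W] [IsOrderedAddMonoid W]

/-- **terminal values**: `[Y_g]` of `Y_f` conjugated at a functional with the signs of
`lex (s(g,·), x)` is `δ_{g,f}`. -/
theorem terminal (hs : ∀ a b, T.β a b = - T.β b a) {S : M → Prop}
    (hS : ∀ a b, S a → S b → S (a + b)) {A : TPS T} (hA : In1 S A) (f : M)
    (hf : ∀ c, S c → T.β f c ≤ 0) (g : M) (x : M →+ V) (y : M →+ W)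
    (hy : ∀ e, (0 < y e ↔ 0 < T.β g e ∨ (T.β g e = 0 ∧ 0 < x e))) :
    (conj y A (Y T f)).co g = (Y T f).co g := by
  classical
  by_cases hgf : g = f
  · subst hgf
    unfold Y
    rw [co_mono_self]
    exact cj_Y_self (pos_co_zero _ _) _
  have hY0 : (Y T f).co g = 0 := by unfold Y; exact co_mono_ne hgf 1
  rw [hY0]
  have hA0 : A.co 0 = 1 := hA.one
  rw [conj_refine (T.β g) x y hA0 (Y T f) g (fun e _ => hy e)]
  -- remove the part of pairing zero by the trace
  have hz : In1 (fun d => T.β g d = 0) (pos x (zer (T.β g) A)) :=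
    ((in1_zer (T.β g) A).pos (closed_zero (T.β g)) x).mono (fun d _ h => h.2)
  have hinv : In1 (fun d => T.β g d = 0) (TPS.inv (pos x (zer (T.β g) A))) :=
    hz.inv (closed_zero (T.β g))
  have hsupp : Tr201.SuppIn (Tr201.comKer T g) (TPS.inv (pos x (zer (T.β g) A))) := by
    intro a ha
    rw [Tr201.mem_comKer, Tr201.com_apply]
    have h0 : T.β g a = 0 := by
      rcases hinv.eq_zero_or ha with rfl | h
      · exact map_zero _
      · exact h
    rw [hs a g, h0]; rfl
  have hkey : (cj (pos x (zer (T.β g) A)) (conj (T.β g) A (Y T f))).co g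
      = (conj (T.β g) A (Y T f)).co g :=
    Tr201.co_conj hsupp (mul_inv (pos_co_zero _ _)) _
  rw [hkey]
  -- now the strictly positive part
  have hp : In1 (fun d => 0 < T.β g d ∧ S d) (pos (T.β g) A) := hA.pos hS (T.β g)
  have hclosed : ∀ a b, (0 < T.β g a ∧ S a) → (0 < T.β g b ∧ S b) →
      (0 < T.β g (a + b) ∧ S (a + b)) := fun a b ha hb =>
    ⟨closed_pos (T.β g) a b ha.1 hb.1, hS a b ha.2 hb.2⟩
  refine supp_cj_Y hclosed hp f g ?_
  rintro ⟨c, hc, h0⟩
  rcases h0 with rfl | ⟨h1, h2⟩
  · exact hgf (by simpa using hc)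
  · have h3 : T.β g c = T.β f c + T.β c c := by rw [hc, map_add]; rfl
    rw [skew_self hs c, add_zero] at h3
    have := hf c h2
    omega

end terminal

end Frame436

end Crest.Agent.R059
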