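import Mathlib
import Crest.Agent.R059.Frame1_436
import Crest.Agent.R059.FrameB0_436
import Crest.Agent.R059.FrameT_436
import Crest.Agent.R059.EPsiK_998

set_option autoImplicit false
set_option linter.unusedSectionVars false

/-!
Row 59 (S0081), leaf 20 FRAME (helper436): 227's Step 3.

* `frame_pos`: for the framed element, `B⁻¹ σ(B)` has coefficients in the cone `P`, `B = pos x A`,
  for EVERY functional `x`;
* `E_pos`: if `A = Ψ A_W` and `σ(Ψ) = Ψ E` then `E^θ = conj θ A_W E` has coefficients in `P`;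
* `F_pos`: products of scaled copies `E(z)` over a bigger ring.
-/

namespace Crest.Agent.R059

open Finset TPS Sc998 Trans569

namespace Frame436

section p7

variable {ι : Type} [DecidableEq ι]
variable {V : Type} [AddCommGroup V] [LinearOrder V] [IsOrderedAddMonoid V]
variable {E : Type} [AddCommGroup E] [LinearOrder E] [IsOrderedAddMonoid E]

/-- the injective extension of `x` to the framed classes (P7). -/
noncomputable def extF (x : (ι →₀ ℕ) →+ V) (η : (ι →₀ ℕ) →+ E) :
    (Option ι →₀ ℕ) →+ V ×ₗ (ℤ ×ₗ (ℤ ×ₗ E)) :=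
  lexF (x.comp rs) (lexF (-((Nat.castAddMonoidHom ℤ).comp (Finsupp.degree.comp rs)))
    (lexF fc (η.comp rs)))

omit [DecidableEq ι] in
theorem extF_injective (x : (ι →₀ ℕ) →+ V) {η : (ι →₀ ℕ) →+ E} (hη : Function.Injective η) :
    Function.Injective (extF x η) := by
  intro a b hab
  unfold extF at hab
  rw [lexF_inj, lexF_inj, lexF_inj] at hab
  obtain ⟨-, -, h1, h2⟩ := hab
  have h3 : a none = b none := by simpa using h1
  have h4 : rs a = rs b := hη h2
  rw [eq_smul_ff_add a, eq_smul_ff_add b, h3, h4]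

omit [DecidableEq ι] in
theorem extF_pos (x : (ι →₀ ℕ) →+ V) (η : (ι →₀ ℕ) →+ E) (m : ι →₀ ℕ) :
    0 < extF x η (inc m) ↔ 0 < x m := by
  unfold extF
  rw [lexF_pos, lexF_pos, lexF_pos]
  simp only [AddMonoidHom.comp_apply, rs_inc, AddMonoidHom.neg_apply, fc_apply, inc_none,
    Nat.cast_zero, lt_irrefl, false_or, true_and, Left.neg_pos_iff, neg_eq_zero]
  constructor
  · rintro (h | ⟨h1, h2⟩)
    · exact h
    · exfalso
      rcases h2 with h2 | ⟨h2, h3⟩
      · have : (0 : ℤ) ≤ (Nat.castAddMonoidHom ℤ) (Finsupp.degree m) := by simp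
        exact absurd h2 (not_lt.2 this)
      · have h4 : Finsupp.degree m = 0 := by simpa using h2
        have h5 : m = 0 := (Finsupp.degree_eq_zero_iff m).1 h4
        rw [h5, map_zero] at h3
        exact lt_irrefl _ h3
  · intro h; exact Or.inl h

end p7

section main

variable {ι : Type} [DecidableEq ι] {R : Type*} [CommRing R]
variable {V : Type} [AddCommGroup V] [LinearOrder V] [IsOrderedAddMonoid V]

/-- the scaling character `m ↦ v^{-2 δ(m)}` (`= q^{δ(m)}`). -/
noncomputable def chiF (T : Tw (ι →₀ ℕ) R) (δ : (ι →₀ ℕ) →+ ℕ) : Multiplicative (ι →₀ ℕ) →* R :=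
  chiN ((T.v ^ (-2 : ℤ) : Rˣ) : R) δ

/-- **(P1-P8)** `B⁻¹ σ(B)` has all coefficients in `P`, `B = pos x A`, `x` arbitrary. -/
theorem frame_pos (T : Tw (ι →₀ ℕ) R) (hs : ∀ a b, T.β a b = - T.β b a)
    (δ : (ι →₀ ℕ) →+ ℕ) (P : Subsemiring R) (hv : ∀ z : ℤ, ((T.v ^ z : Rˣ) : R) ∈ P)
    {E : Type} [AddCommGroup E] [LinearOrder E] [IsOrderedAddMonoid E] {η : (ι →₀ ℕ) →+ E}
    (hη : Function.Injective η)
    {A : TPS T} (hA0 : A.co 0 = 1) (D : TData (frame T δ).β P)
    (hD : ∀ {V : Type} [AddCommGroup V] [LinearOrder V] [IsOrderedAddMonoid V]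
      (x : (Option ι →₀ ℕ) →+ V) (m : Option ι →₀ ℕ),
      D.c x m = (conj x ((embF T δ).hom A) (Y (frame T δ) ff)).co m)
    (x : (ι →₀ ℕ) →+ V) (m : ι →₀ ℕ) :
    (TPS.inv (pos x A) * scale (chiF T δ) (pos x A)).co m ∈ P := by
  classical
  set e := embF T δ with he
  have hg := grd_hom e
  set B := pos x A with hB
  -- the framed element has support in the unframed classes
  have hA1 : In1 (fun a : Option ι →₀ ℕ => a none = 0) (e.hom A) := by
    refine hg.in1 _ A ⟨hA0, fun d _ h => absurd ?_ h⟩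
    simp [he]
  have hterm : ∀ g, ∀ {V : Type} [AddCommGroup V] [LinearOrder V] [IsOrderedAddMonoid V]
      (x : (Option ι →₀ ℕ) →+ V), D.c (lexF ((frame T δ).β g) x) g
        = (Y (frame T δ) (ff : Option ι →₀ ℕ)).co g := by
    intro g V _ _ _ x
    rw [hD]
    refine terminal (S := fun a : Option ι →₀ ℕ => a none = 0) (frame_skew hs) ?_ hA1 ff ?_ g x _
      (fun e => lexF_pos)
    · intro a b ha hb
      show (a + b) none = 0
      rw [Finsupp.add_apply, ha, hb]
    · intro c hc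
      rw [← inc_rs hc, frame_β_ff_inc]
      omega
  have hY : ∀ g, (Y (frame T δ) (ff : Option ι →₀ ℕ)).co g ∈ P.toAddSubmonoid := by
    intro g
    unfold Y
    rw [co_mono]
    split_ifs
    · exact P.one_mem
    · exact P.zero_mem
  have h1 := (D.pos_of_terminal P.toAddSubmonoid (fun p hp a ha => P.mul_mem hp ha) _ hterm
    (inc m + ff) (fun g _ => hY g) (extF x η) (extF_injective x hη)).1
  rw [hD] at h1
  -- rewrite the conjugate
  have hpos : pos (extF x η) (e.hom A) = e.hom B := by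
    rw [hg.pos _ hA0, hB]
    congr 1
    unfold pos
    congr 1
    funext d
    exact propext (extF_pos x η d)
  have h2 : conj (extF x η) (e.hom A) (Y (frame T δ) ff)
      = e.hom (TPS.inv B * scale (chiF T δ) B) * Y (frame T δ) ff := by
    unfold conj cj
    rw [hpos, mul_assoc, Y_mul', hg.inv (pos_co_zero _ _)]
    rw [e.scale_hom (chiY (frame T δ) ff) (chiF T δ) ?_, ← mul_assoc, ← map_mul]
    intro a
    rw [chiY_apply]
    show (((frame T δ).v ^ ((frame T δ).β ff (inc a) - (frame T δ).β (inc a) ff) : Rˣ) : R) = _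
    rw [frame_β_ff_inc, frame_β_inc_ff, chiF, chiN_apply, frame_v, ← Units.val_pow_eq_pow_val,
      ← zpow_natCast, ← zpow_mul]
    congr 2
    ring
  rw [h2] at h1
  have h3 : (e.hom (TPS.inv B * scale (chiF T δ) B) * Y (frame T δ) ff).co (inc m + ff)
      = wt (frame T δ) (inc m) ff * (TPS.inv B * scale (chiF T δ) B).co m := by
    rw [co_mul_Y]
    congr 1
    exact e.co_hom_j _ m
  rw [h3] at h1
  have h4 : wt (frame T δ) (inc m) ff = ((T.v ^ ((δ m : ℤ)) : Rˣ) : R) := by
    unfold wt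
    rw [frame_β_inc_ff, frame_v]
  rw [h4] at h1
  have h5 := P.mul_mem (hv (-(δ m : ℤ))) h1
  rwa [← mul_assoc, ← Units.val_mul, ← zpow_add, neg_add_cancel, zpow_zero, Units.val_one,
    one_mul] at h5

/-- **(P9)** positivity of `E^θ`, every functional `θ`. -/
theorem E_pos (T : Tw (ι →₀ ℕ) R) (hs : ∀ a b, T.β a b = - T.β b a)
    (δ : (ι →₀ ℕ) →+ ℕ) (P : Subsemiring R) (hv : ∀ z : ℤ, ((T.v ^ z : Rˣ) : R) ∈ P)
    {H : Type} [AddCommGroup H] [LinearOrder H] [IsOrderedAddMonoid H] {η : (ι →₀ ℕ) →+ H}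
    (hη : Function.Injective η)
    {Ψ aW E : TPS T} (hΨ : In1 (fun d => 0 < δ d) Ψ) (haW : In1 (fun d => δ d = 0) aW)
    (hE : scale (chiF T δ) Ψ = Ψ * E) (D : TData (frame T δ).β P)
    (hD : ∀ {V : Type} [AddCommGroup V] [LinearOrder V] [IsOrderedAddMonoid V]
      (x : (Option ι →₀ ℕ) →+ V) (m : Option ι →₀ ℕ),
      D.c x m = (conj x ((embF T δ).hom (Ψ * aW)) (Y (frame T δ) ff)).co m)
    (θ : (ι →₀ ℕ) →+ V) (m : ι →₀ ℕ) : (conj θ aW E).co m ∈ P := by
  have h0 : (Ψ * aW).co 0 = 1 := by rw [co_mul_zero', hΨ.one, haW.one, one_mul]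
  have h1 := frame_pos T hs δ P hv hη h0 D hD (lexF ((Nat.castAddMonoidHom ℤ).comp δ) θ) m
  have h2 := (EPsi998.conj_form (deg := δ)
    (P := fun d => 0 < lexF ((Nat.castAddMonoidHom ℤ).comp δ) θ d) (Pθ := fun d => 0 < θ d)
    (closed_pos _) ?_ ?_ ?_ hΨ haW hE).2
  · unfold pos at h1
    rw [h2] at h1
    exact h1
  · intro d hd
    rw [lexF_pos]
    left
    show (0 : ℤ) < (δ d : ℤ)
    exact_mod_cast hd
  · intro d hd
    rw [lexF_pos]
    have h3 : ((Nat.castAddMonoidHom ℤ).comp δ) d = 0 := by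
      show ((δ d : ℕ) : ℤ) = 0
      rw [hd]; rfl
    rw [h3]
    simp
  · intro d hd
    rw [chiF, chiN_apply, hd, pow_zero]

end main

section nonneg

variable {M : Type*} [AddCommMonoid M] {R : Type*} [CommRing R] {T : Tw M R}

/-- all coefficients in `P`. -/
def CoeffIn (P : Subsemiring R) (f : TPS T) : Prop := ∀ m, f.co m ∈ P

theorem CoeffIn.one (P : Subsemiring R) : CoeffIn P (1 : TPS T) := by
  classical
  intro m
  rw [co_one]
  split_ifs
  · exact P.one_mem
  · exact P.zero_mem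

theorem CoeffIn.mul [HasAntidiagonal M] {P : Subsemiring R}
    (hv : ∀ z : ℤ, ((T.v ^ z : Rˣ) : R) ∈ P)
    {f g : TPS T} (hf : CoeffIn P f) (hg : CoeffIn P g) : CoeffIn P (f * g) := by
  intro m
  rw [co_mul]
  exact P.sum_mem fun p _ => P.mul_mem (hv _) (P.mul_mem (hf _) (hg _))

end nonneg

section bigring

variable {M : Type*} [AddCommMonoid M] [PartialOrder M] [IsOrderedCancelAddMonoid M]
  [CanonicallyOrderedAdd M] [WellFoundedLT M] [HasAntidiagonal M]
variable {R : Type*} [CommRing R] {T : Tw M R} {R' : Type*} [CommRing R'] {T' : Tw M R'}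
variable {V : Type*} [AddCommGroup V] [LinearOrder V] [IsOrderedAddMonoid V]

theorem grd_mapR (φ : R →+* R') (hv : (T'.v : R') = φ T.v) (hβ : T'.β = T.β) :
    Grd (AddMonoidHom.id M) (mapR T T' φ hv hβ) where
  in1 P' f hf := by
    refine ⟨?_, fun d hd hP => ?_⟩
    · rw [co_mapR, hf.one, map_one]
    · rw [co_mapR, hf.supp d hd hP, map_zero]

theorem cj_list_prod {g : TPS T} (hg : g.co 0 = 1) (L : List (TPS T)) :
    cj g L.prod = (L.map (cj g)).prod := by
  induction L with
  | nil =>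
    simp only [List.prod_nil, List.map_nil]
    unfold cj
    rw [mul_one, inv_mul hg]
  | cons a L ih => rw [List.prod_cons, cj_mul' hg, ih, List.map_cons, List.prod_cons]

/-- **(P10)** positivity of `F^θ`, `F = ∏_j E(z_j)`, over a bigger ring. -/
theorem F_pos (φ : R →+* R') (hv : (T'.v : R') = φ T.v) (hβ : T'.β = T.β)
    (δ : M →+ ℕ) (P : Subsemiring R) (P' : Subsemiring R') (hφ : ∀ r ∈ P, φ r ∈ P')
    (hv' : ∀ z : ℤ, ((T'.v ^ z : R'ˣ) : R') ∈ P')
    {aW E : TPS T} (haW : In1 (fun d => δ d = 0) aW) (θ : M →+ V)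
    (hE : ∀ m, (conj θ aW E).co m ∈ P) (L : List R') (hL : ∀ z ∈ L, z ∈ P') (m : M) :
    (conj θ (mapR T T' φ hv hβ aW)
      ((L.map fun z => scale (chiN z δ) (mapR T T' φ hv hβ E)).prod)).co m ∈ P' := by
  set aW' := mapR T T' φ hv hβ aW with haW'
  have hg := grd_mapR φ hv hβ
  have h1 : In1 (fun d => δ d = 0) aW' := hg.in1 (fun d => δ d = 0) aW haW
  have h2 : conj θ aW' ((L.map fun z => scale (chiN z δ) (mapR T T' φ hv hβ E)).prod)
      = (L.map fun z => scale (chiN z δ) (mapR T T' φ hv hβ (conj θ aW E))).prod := by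
    unfold conj
    rw [cj_list_prod (pos_co_zero _ _), List.map_map]
    congr 1
    refine List.map_congr_left fun z _ => ?_
    show cj (pos θ aW') (scale (chiN z δ) (mapR T T' φ hv hβ E)) = _
    have h3 : pos θ aW' = scale (chiN z δ) (pos θ aW') := by
      symm
      refine EPsi998.scale_of_in1 (S := fun d => δ d = 0) ?_ ?_
      · intro d hd; rw [chiN_apply, hd, pow_zero]
      · exact (h1.pos (fun a b ha hb => by rw [map_add, ha, hb]) θ).mono (fun d _ h => h.2)
    rw [h3, (grd_scale (chiN z δ)).cj (pos_co_zero _ _)]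
    congr 1
    rw [haW', hg.pos θ haW.one]
    exact hg.cj (pos_co_zero _ _) E
  rw [h2]
  have h4 : CoeffIn P' ((L.map fun z => scale (chiN z δ)
      (mapR T T' φ hv hβ (conj θ aW E))).prod) := by
    clear h2
    induction L with
    | nil => simp only [List.map_nil, List.prod_nil]; exact CoeffIn.one P'
    | cons z L ih =>
      rw [List.map_cons, List.prod_cons]
      refine CoeffIn.mul hv' ?_ (ih fun w hw => hL w (List.mem_cons_of_mem _ hw))
      intro d
      rw [co_scale, co_mapR, chiN_apply]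
      exact P'.mul_mem (P'.pow_mem (hL z List.mem_cons_self) _) (hφ _ (hE d))
  exact h4 m

end bigring

end Frame436

end Crest.Agent.R059
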