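import Mathlib
import Crest.Agent.R059.Frame_436
import Crest.Agent.R059.FMono_998
import Crest.Agent.R059.Trans_569

set_option autoImplicit false
set_option linter.unusedSectionVars false

/-!
Row 59 (S0081), leaf 20 FRAME (helper436): binding of 227's Step 3 in the frozen language of
`Grnd_883`.

`E1_pos` / `FF_pos`: from `CrossPos` of the framed element `emb (PsiK * AW)` one gets that every
coefficient of `conj x AW (FF h N)` is monomially positive, for EVERY functional `x`.
-/

namespace Crest.Agent.R059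

open Finset TPS Sc998 Trans569 EPsi998 FMono998 Crest.CombinatoricsR.UnitInterval

namespace Frame436

variable {n : ℕ}

/-- an injective functional on `Fin n →₀ ℕ`. -/
noncomputable def etaFin (n : ℕ) : (Fin n →₀ ℕ) →+ Lex (Fin n →₀ ℤ) where
  toFun m := toLex (m.mapRange (Nat.cast : ℕ → ℤ) Nat.cast_zero)
  map_zero' := by rw [Finsupp.mapRange_zero]; rfl
  map_add' a b := by
    rw [Finsupp.mapRange_add (fun x y => Nat.cast_add x y)]; rfl

theorem etaFin_injective (n : ℕ) : Function.Injective (etaFin n) := by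
  intro a b hab
  have h1 : a.mapRange (Nat.cast : ℕ → ℤ) Nat.cast_zero = b.mapRange Nat.cast Nat.cast_zero :=
    toLex.injective hab
  exact Finsupp.mapRange_injective _ Nat.cast_zero Nat.cast_injective h1

variable {V : Type} [AddCommGroup V] [LinearOrder V] [IsOrderedAddMonoid V]

/-- `Ψ` as an element of `TPS (twK (form h))`. -/
noncomputable def Psi1 (h : Fin n → ℕ) : TPS (twK (form h)) :=
  Psi (twK (form h)) ux (List.finRange n)

theorem tw_KK {M : Type*} [AddCommMonoid M] (β : M →+ M →+ ℤ) : tw KK β = twK β := by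
  have h : Units.map (algebraMap KK KK).toMonoidHom tau⁻¹ = tau⁻¹ := by
    ext
    rfl
  show (⟨Units.map (algebraMap KK KK).toMonoidHom tau⁻¹, β⟩ : Tw M KK) = ⟨tau⁻¹, β⟩
  rw [h]

theorem in1_Psi1 (h : Fin n → ℕ) : In1 (fun d => 0 < udeg n d) (Psi1 h) := by
  have key : ∀ T : Tw (Fin n →₀ ℕ) KK, tw KK (form h) = T →
      In1 (fun d => 0 < udeg n d) (Psi T ux (List.finRange n)) := by
    rintro T rfl
    exact in1_PsiK KK h
  exact key _ (tw_KK (form h))

theorem cls1 (h : Fin n → ℕ) (hh : IsHessenberg h) :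
    Cls (twK (form h)) (adjH h) (ux : Fin n → Fin n →₀ ℕ) := by
  have key : ∀ T : Tw (Fin n →₀ ℕ) KK, tw KK (form h) = T →
      Cls T (adjH h) (ux : Fin n → Fin n →₀ ℕ) := by
    rintro T rfl
    exact cls h hh
  exact key _ (tw_KK (form h))

theorem EI_eq_E1 (h : Fin n → ℕ) :
    EI (twK (form h)) (adjH h) ux (List.finRange n) = E1 h := by
  classical
  have hv : (((twK (form h)).v ^ (-1 : ℤ) : KKˣ) : KK) = tau := by
    show (((tau⁻¹ : KKˣ) ^ (-1 : ℤ) : KKˣ) : KK) = tau
    simp
  unfold EI Es E1 XI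
  rw [hv]
  apply Finset.sum_congr
  · ext S
    simp only [Finset.mem_filter, Finset.mem_powerset, indep, List.toFinset_finRange,
      Finset.subset_univ, true_and, Ind, adjH]
  · intro S _
    rfl

theorem sig_Psi1 (h : Fin n → ℕ) (hh : IsHessenberg h) :
    scale (chiF (twK (form h)) (udeg n)) (Psi1 h) = Psi1 h * E1 h := by
  rw [← EI_eq_E1]
  exact scale_Psi_right (cls1 h hh) qreg_KK (fun i => ux_inj' i) (chiF (twK (form h)) (udeg n))
    (fun i => by rw [chiF, chiN_apply, udeg_ux, pow_one]) _ (finRange_lt n)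

theorem twK_zpow_mem {M : Type*} [AddCommMonoid M] (β : M →+ M →+ ℤ) (z : ℤ) :
    ((((twK β).v ^ z : KKˣ)) : KK) ∈ Kpos := by
  show (((tau⁻¹ : KKˣ) ^ z : KKˣ) : KK) ∈ Kpos
  rw [inv_zpow']
  exact tau_zpow_mem _

/-- **FRAME, `E` form**: every coefficient of `E^x` is in the cone. -/
theorem E1_pos (h : Fin n → ℕ) (hh : IsHessenberg h) (AW : TPS (twK (form h)))
    (hAW : In1 (fun d => udeg n d = 0) AW)
    (hcr : CrossPos (frame (twK (form h)) (udeg n)).β Kpos
      ((embF (twK (form h)) (udeg n)).hom (Psi1 h * AW)))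
    (x : (Fin n →₀ ℕ) →+ V) (m : Fin n →₀ ℕ) : (conj x AW (E1 h)).co m ∈ Kpos := by
  have hs : ∀ a b, (twK (form h)).β a b = - (twK (form h)).β b a := form_skew h
  have hΨ : In1 (fun d => 0 < udeg n d) (Psi1 h) := in1_Psi1 h
  have h0 : (Psi1 h * AW).co 0 = 1 := by rw [co_mul_zero', hΨ.one, hAW.one, one_mul]
  have h0' : ((embF (twK (form h)) (udeg n)).hom (Psi1 h * AW)).co 0 = 1 :=
    (grd_hom (embF (twK (form h)) (udeg n))).one h0
  refine E_pos (twK (form h)) hs (udeg n) Kpos (twK_zpow_mem (form h)) (etaFin_injective n)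
    hΨ hAW ?_ (tdata (frame_skew hs) h0' hcr (Y _ ff)) (fun x m => tdata_c _ _ _ _ x m) x m
  exact sig_Psi1 h hh

/-- **FRAME, final form**: `F^x` is monomially positive, `F = ∏_{j<N} E(z_j)`. -/
theorem FF_pos (h : Fin n → ℕ) (hh : IsHessenberg h) (AW : TPS (twK (form h)))
    (hAW : In1 (fun d => udeg n d = 0) AW)
    (hcr : CrossPos (frame (twK (form h)) (udeg n)).β Kpos
      ((embF (twK (form h)) (udeg n)).hom (Psi1 h * AW)))
    (x : (Fin n →₀ ℕ) →+ V) (N : ℕ) (m : Fin n →₀ ℕ) :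
    (conj x (TPS.map (twK (form h)) (algebraMap KK (MvPolynomial (Fin N) KK)) AW) (FF h N) :
      TPS (tw (MvPolynomial (Fin N) KK) (form h))).co m ∈ PM N :=
  F_pos_of_E_pos h AW hAW x (E1_pos h hh AW hAW hcr x) N m

end Frame436

end Crest.Agent.R059
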