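import Mathlib
import Crest.Agent.R059.Frame1_436
import Crest.Agent.R059.FrameB0_436
import Crest.Agent.R059.Att_201

set_option autoImplicit false
set_option linter.unusedSectionVars false

/-!
Row 59 (S0081), leaf 20 FRAME, part P (helper436): attractor data of the framed element.

`dat h' (emb a) (inc d) = dat (h' ∘ inc) a d`, `dat h' (emb a) d' = 0` if `d'` contains the framing
class.  So `emb` of a plain element is plain for the same set of nodes.
-/

namespace Crest.Agent.R059

open Finset TPS Att201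

namespace Frame436

section general

variable {M : Type*} [AddCommMonoid M] [PartialOrder M] [IsOrderedCancelAddMonoid M]
  [CanonicallyOrderedAdd M] [WellFoundedLT M] [HasAntidiagonal M]
variable {M' : Type*} [AddCommMonoid M'] [PartialOrder M'] [IsOrderedCancelAddMonoid M']
  [CanonicallyOrderedAdd M'] [WellFoundedLT M'] [HasAntidiagonal M']
variable {R : Type*} [CommRing R] {T : Tw M R} {T' : Tw M' R}

/-- `der` commutes with an embedding. -/
theorem der_hom (e : Sc998.Emb T T') (h' : M' →+ R) (a : TPS T) :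
    Tr201.der h' (e.hom a) = e.hom (Tr201.der (h'.comp e.j) a) := by
  ext d
  by_cases hd : d ∈ Set.range e.j
  · obtain ⟨m, rfl⟩ := hd
    rw [Tr201.co_der, e.co_hom_j, e.co_hom_j, Tr201.co_der]
    rfl
  · rw [Tr201.co_der, e.co_hom_off _ hd, e.co_hom_off _ hd, mul_zero]

theorem lamI_hom_j (e : Sc998.Emb T T') (h' : M' →+ R) {a : TPS T} (ha : a.co 0 = 1) (d : M) :
    lamI h' (e.j d) (e.hom a) = lamI (h'.comp e.j) d a := by
  unfold lamI Tr201.lam
  rw [(grd_hom e).inv ha, der_hom, ← map_mul, e.co_hom_j]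

theorem lamI_hom_off (e : Sc998.Emb T T') (h' : M' →+ R) {a : TPS T} (ha : a.co 0 = 1) {d : M'}
    (hd : d ∉ Set.range e.j) : lamI h' d (e.hom a) = 0 := by
  unfold lamI Tr201.lam
  rw [(grd_hom e).inv ha, der_hom, ← map_mul, e.co_hom_off _ hd]

/-- **attractor data of the embedded element, classes of the sublattice**. -/
theorem dat_hom_j (e : Sc998.Emb T T') (h' : M' →+ R) {a : TPS T} (ha : a.co 0 = 1) (d : M) :
    dat h' (e.hom a) (e.j d) = dat (h'.comp e.j) a d := by
  unfold dat
  rw [(grd_hom e).zer _ ha, lamI_hom_j e h' (zer_co_zero _ _)]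
  congr 2
  ext m
  exact e.hβ d m

/-- **attractor data of the embedded element, other classes**. -/
theorem dat_hom_off (e : Sc998.Emb T T') (h' : M' →+ R) {a : TPS T} (ha : a.co 0 = 1) {d : M'}
    (hd : d ∉ Set.range e.j) : dat h' (e.hom a) d = 0 := by
  unfold dat
  rw [(grd_hom e).zer _ ha, lamI_hom_off e h' (zer_co_zero _ _) hd]

end general

section framed

variable {ι : Type*} [DecidableEq ι] {R : Type*} [CommRing R]

omit [DecidableEq ι] in
theorem not_mem_range_inc {d : Option ι →₀ ℕ} (hd : d none ≠ 0) :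
    d ∉ Set.range (inc : (ι →₀ ℕ) →+ (Option ι →₀ ℕ)) := by
  rintro ⟨m, rfl⟩
  exact hd (inc_none m)

theorem dat_embF_inc (T : Tw (ι →₀ ℕ) R) (δ : (ι →₀ ℕ) →+ ℕ) (h' : (Option ι →₀ ℕ) →+ R)
    {a : TPS T} (ha : a.co 0 = 1) (d : ι →₀ ℕ) :
    dat h' ((embF T δ).hom a) (inc d) = dat (h'.comp inc) a d :=
  dat_hom_j (embF T δ) h' ha d

theorem dat_embF_off (T : Tw (ι →₀ ℕ) R) (δ : (ι →₀ ℕ) →+ ℕ) (h' : (Option ι →₀ ℕ) →+ R)
    {a : TPS T} (ha : a.co 0 = 1) {d : Option ι →₀ ℕ} (hd : d none ≠ 0) :
    dat h' ((embF T δ).hom a) d = 0 :=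
  dat_hom_off (embF T δ) h' ha (not_mem_range_inc hd)

omit [DecidableEq ι] in
theorem degree_inc (d : ι →₀ ℕ) : (inc d : Option ι →₀ ℕ).degree = d.degree := by
  have key : (Finsupp.degree.comp inc : (ι →₀ ℕ) →+ ℕ) = Finsupp.degree := by
    classical
    apply Finsupp.addHom_ext
    intro i n
    show (inc (Finsupp.single i n) : Option ι →₀ ℕ).degree = (Finsupp.single i n).degree
    have h1 : (inc (Finsupp.single i n) : Option ι →₀ ℕ) = Finsupp.single (some i) n := by
      ext k
      cases k with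
      | none => simp
      | some k => simp [Finsupp.single_apply]
    rw [h1, Finsupp.degree_single, Finsupp.degree_single]
  exact DFunLike.congr_fun key d

omit [DecidableEq ι] in
theorem inc_single (i : ι) (n : ℕ) :
    (inc (Finsupp.single i n) : Option ι →₀ ℕ) = Finsupp.single (some i) n := by
  classical
  ext k
  cases k with
  | none => simp
  | some k => simp [Finsupp.single_apply]

end framed

end Frame436

end Crest.Agent.R059
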