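import Crest.Agent.R059.JQ_853
import Crest.Agent.R059.CloC_987

set_option autoImplicit false

/-!
Row 59 (S0081), JOINT block: **JMAIN** from the output of Theorems A + B.
-/

namespace Crest.Agent.R059

open Finset HasAntidiagonal PowerSeries

namespace TPS

section lists

variable {M : Type*} [AddCommMonoid M] {β : M →+ M →+ ℤ} {Q : M → ZMod 2} {n : ℕ}
  {c : Fin n → M} (av : Fin n → ℤ)

theorem vv_combine (x y : ℤ) (P : ZMod 2) (a b : ℤ) (m : ℕ) (h : x + y + a * m = b * m) :
    ((vv ^ x : KKˣ) : KK) * (eco vv P a m * ((vv ^ y : KKˣ) : KK)) = eco vv P b m := by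
  rw [eco, eco]
  have : ((vv ^ (b * (m : ℤ)) : KKˣ) : KK) =
      ((vv ^ x : KKˣ) : KK) * ((vv ^ y : KKˣ) : KK) * ((vv ^ (a * (m : ℤ)) : KKˣ) : KK) := by
    rw [← Units.val_mul, ← Units.val_mul, ← zpow_add, ← zpow_add, h]
  rw [this]
  ring

/-- image of a letter. -/
theorem push_letter (hβ : ∀ a b, β a b = - β b a) (hord : ∀ i j, i < j → β (c i) (c j) ≤ 0)
    (hQ : ∀ a b, Q (a + b) = Q a + Q b + (β a b : ZMod 2)) (ht : M →+ ℕ)
    (hht : ∀ m, ht m = 0 → m = 0) (hc : ∀ i, c i ≠ 0) [HasAntidiagonal M] {d : Fin n →₀ ℕ}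
    (hd : d ≠ 0) (p : ℕ) :
    push (pushD (Q := Q) av hβ hord ht hht hc) (ABOut.letter (kq β Q c) d p) =
      QDil (twK β) Q (phi c d)
        (lin β Q c av d + 2 * p - ABOut.kk (kq β Q c) d d) := by
  have hd' : phi c d ≠ 0 := fun h => hd (phi_ne_zero ht hht hc h)
  have h0 : β (phi c d) (phi c d) = 0 := by have := hβ (phi c d) (phi c d); omega
  rw [ABOut.letter, push_ray _ (nsmul_inj hd) (nsmul_inj_of_ht ht hht (by exact hd')),
    QDil_eq_ray β Q h0, ← par_phi hβ hord hQ]
  congr 1
  funext m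
  rw [pushD_lam]
  apply vv_combine
  rw [lexp_nsmul]
  have hm : ((m * (m - 1) : ℕ) : ℤ) = m * m - m := by
    cases m with
    | zero => simp
    | succ m => rw [Nat.add_sub_cancel]; push_cast; ring
  rw [hm]
  ring

/-- image of a one vertex series. -/
theorem push_vertex (hβ : ∀ a b, β a b = - β b a) (hord : ∀ i j, i < j → β (c i) (c j) ≤ 0)
    (ht : M →+ ℕ) (hht : ∀ m, ht m = 0 → m = 0) (hc : ∀ i, c i ≠ 0) [HasAntidiagonal M]
    (i : Fin n) :
    push (pushD (Q := Q) av hβ hord ht hht hc)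
      (ray (ABOut.TW (kq β Q c)) (Finsupp.single i 1) (eco vv 1 0)) =
      QDil (twK β) Q (c i) (av i) := by
  have h0 : β (c i) (c i) = 0 := by have := hβ (c i) (c i); omega
  have hphi : (pushD (Q := Q) av hβ hord ht hht hc).φ (Finsupp.single i 1) = c i := by
    rw [pushD_φ, phi_single, one_nsmul]
  rw [push_ray _ (single_inj i) (by rw [hphi]; exact nsmul_inj_of_ht ht hht (hc i)), hphi,
    QDil_eq_ray β Q h0]
  congr 1
  funext m
  rw [pushD_lam, lexp_nsmul]
  have hl : lin β Q c av (Finsupp.single i 1) = av i + (kq β Q c i i : ℤ) := by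
    rw [lin_apply, Finset.sum_eq_single i]
    · rw [Finsupp.single_eq_same]; push_cast; ring
    · intro j _ hj
      rw [Finsupp.single_eq_of_ne hj]; simp
    · simp
  have hk : ABOut.kk (kq β Q c) (Finsupp.single i 1) (Finsupp.single i 1) =
      (kq β Q c i i : ℤ) := by
    rw [ABOut.kk_apply, Finset.sum_eq_single i, Finset.sum_eq_single i]
    · rw [Finsupp.single_eq_same]; push_cast; ring
    · intro j _ hj
      rw [Finsupp.single_eq_of_ne hj]; simp
    · simp
    · intro j _ hj
      rw [Finsupp.single_eq_of_ne hj]; simp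
    · simp
  rw [hl, hk]
  have hcase : Q (c i) = 0 ∨ Q (c i) = 1 := by
    generalize Q (c i) = x
    revert x; decide
  have hm : ((m * (m - 1) : ℕ) : ℤ) = m * m - m := by
    cases m with
    | zero => simp
    | succ m => rw [Nat.add_sub_cancel]; push_cast; ring
  have hpow : (vv : KK) ^ (m * (m - 1)) = ((vv ^ ((m : ℤ) * m - m) : KKˣ) : KK) := by
    rw [← hm, zpow_natCast, Units.val_pow_eq_pow_val]
  rcases hcase with h | h
  · have hk0 : (kq β Q c i i : ℤ) = 1 := by
      rw [kq, if_pos rfl, if_neg (by rw [h]; decide)]; rfl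
    rw [hk0, h, eco, eco, if_neg one_ne_zero, if_pos rfl, hpow, zero_mul, zpow_zero, Units.val_one,
      one_mul, mul_one, ← mul_div_assoc, ← Units.val_mul, ← zpow_add]
    have e1 : (m : ℤ) * (av i + 1) - (m : ℤ) * m + ((m : ℤ) * m - m) = av i * m := by ring
    rw [e1, mul_one]
  · have hk0 : (kq β Q c i i : ℤ) = 0 := by
      rw [kq, if_pos rfl, if_pos h]; rfl
    rw [hk0, h, eco, eco, if_neg one_ne_zero, zero_mul, zpow_zero, Units.val_one, one_mul,
      ← mul_div_assoc]
    have e1 : (m : ℤ) * (av i + 0) - (m : ℤ) * m * 0 = av i * m := by ring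
    rw [e1]

end lists

section main

variable {M : Type*} [AddCommMonoid M] [PartialOrder M] [IsOrderedCancelAddMonoid M]
  [CanonicallyOrderedAdd M] [WellFoundedLT M] [HasAntidiagonal M]

/-- **JMAIN in GRND's ring**, from the output of Theorems A + B. -/
theorem jmain (hAB : ABOut) (β : M →+ M →+ ℤ) (hβ : ∀ a b, β a b = - β b a) (Q : M → ZMod 2)
    (hQ : ∀ a b, Q (a + b) = Q a + Q b + (β a b : ZMod 2)) (ht : M →+ ℕ)
    (hht : ∀ m, ht m = 0 → m = 0) (L : AddSubmonoid M)
    (hsym : ∀ k ∈ L, k ≠ 0 → ∀ a ∈ L, ∀ b ∈ L, β k a = 0 → β k b = 0 → β a b = 0) :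
    JMAIN (twK β) L β (QDil (twK β) Q) (DT (twK β) Q L β) := by
  intro l hl hord k hk hk0 p z nn hp hz hn hprod
  set N := l.length with hN
  set c : Fin N → M := fun i => (l.get i).1 with hcdef
  set av : Fin N → ℤ := fun i => (l.get i).2 with havdef
  have hc : ∀ i, c i ≠ 0 := fun i => (hl _ (List.get_mem l i)).2
  have hcL : ∀ i, c i ∈ L := fun i => (hl _ (List.get_mem l i)).1
  have hord' : ∀ i j, i < j → β (c i) (c j) ≤ 0 := by
    intro i j hij
    exact (List.pairwise_iff_get.1 hord) i j hij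
  -- the functional on the quiver side
  let θ : Fin N → ℤ := fun i => - β k (c i)
  have hθ : ∀ d, ABOut.th θ d = - β k (phi c d) := by
    intro d
    rw [ABOut.th_apply, phi_apply, map_sum, ← Finset.sum_neg_distrib]
    refine Finset.sum_congr rfl fun i _ => ?_
    rw [map_nsmul, nsmul_eq_mul]
    simp only [θ]
    push_cast
    ring
  have hphiL : ∀ d : Fin N →₀ ℕ, phi c d ∈ L := by
    intro d
    rw [phi_apply]
    exact L.sum_mem fun i _ => L.nsmul_mem (hcL i) _
  have hkk : ∀ d e : Fin N →₀ ℕ, ABOut.th θ d = 0 → ABOut.th θ e = 0 →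
      ABOut.kk (kq β Q c) d e = ABOut.kk (kq β Q c) e d := by
    intro d e hd he
    rw [hθ, neg_eq_zero] at hd he
    have h := hsym k hk hk0 _ (hphiL d) _ (hphiL e) hd he
    rw [beta_phi (Q := Q) hβ hord'] at h
    omega
  have hAB' := hAB (Fin N) (kq β Q c) θ hkk
  set D := pushD (Q := Q) av hβ hord' ht hht hc with hD
  have hφ0 : ∀ m, D.φ m = 0 → m = 0 := fun m hm => phi_ne_zero ht hht hc hm
  -- the quiver series is the ordered product
  have hT : ∀ i j : Fin N, j < i →
      (ABOut.TW (kq β Q c)).β (Finsupp.single j 1) (Finsupp.single i 1) = 0 := by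
    intro i j hji
    show ABOut.kk (kq β Q c) _ _ = 0
    rw [ABOut.kk_apply, Finset.sum_eq_single j, Finset.sum_eq_single i]
    · rw [kq, if_neg hji.ne, if_neg (not_lt.2 hji.le)]; simp
    · intro a _ ha
      rw [Finsupp.single_eq_of_ne ha]; simp
    · simp
    · intro a _ ha
      rw [Finsupp.single_eq_of_ne ha]; simp
    · simp
  have hgser : ABOut.gser (kq β Q c) = (List.ofFn fun i : Fin N =>
      ray (ABOut.TW (kq β Q c)) (Finsupp.single i 1) (eco vv 1 0)).prod := by
    rw [prod_ray (eco vv 1 0) _ hT]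
    · rfl
    · rw [eco]; simp [qpo]
  have hpush : push D (ABOut.gser (kq β Q c)) = (l.map fun u => QDil (twK β) Q u.1 u.2).prod := by
    rw [hgser, map_list_prod, List.map_ofFn]
    congr 1
    have h1 : (fun i : Fin N => push D
        (ray (ABOut.TW (kq β Q c)) (Finsupp.single i 1) (eco vv 1 0))) =
        fun i => QDil (twK β) Q (l.get i).1 (l.get i).2 := by
      funext i
      exact push_vertex av hβ hord' ht hht hc i
    show List.ofFn (fun i : Fin N => push D
        (ray (ABOut.TW (kq β Q c)) (Finsupp.single i 1) (eco vv 1 0))) = _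
    rw [h1]
    have h2 : List.map (fun u : M × ℤ => QDil (twK β) Q u.1 u.2) (List.ofFn l.get) =
        List.ofFn ((fun u : M × ℤ => QDil (twK β) Q u.1 u.2) ∘ l.get) := List.map_ofFn
    rw [List.ofFn_get] at h2
    rw [h2]
    rfl
  -- factorisation
  have hg0 : (ABOut.gser (kq β Q c)).co 0 = 1 := by
    show ∏ i, eco vv 1 0 ((0 : Fin N →₀ ℕ) i) = 1
    refine Finset.prod_eq_one fun i _ => ?_
    rw [Finsupp.zero_apply, eco]; simp [qpo]
  have hfac := pos_mul_zer_mul_neg (ABOut.th θ) hg0
  have hfac' : push D (pos (ABOut.th θ) (ABOut.gser (kq β Q c))) *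
      push D (zer (ABOut.th θ) (ABOut.gser (kq β Q c))) *
      push D (neg (ABOut.th θ) (ABOut.gser (kq β Q c))) =
      (l.map fun u => QDil (twK β) Q u.1 u.2).prod := by
    rw [← map_mul, ← map_mul, hfac, hpush]
  have hp' : In1 (fun m => 0 < (-(β k)) m) (push D (pos (ABOut.th θ) (ABOut.gser (kq β Q c)))) :=
    (in1_pos _ _).push hφ0 fun m hm => by
      rw [hθ] at hm
      exact hm
  have hz' : In1 (fun m => (-(β k)) m = 0)
      (push D (zer (ABOut.th θ) (ABOut.gser (kq β Q c)))) :=
    (in1_zer _ _).push hφ0 fun m hm => by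
      rw [hθ] at hm
      exact hm
  have hn' : In1 (fun m => (-(β k)) m < 0)
      (push D (neg (ABOut.th θ) (ABOut.gser (kq β Q c)))) :=
    (in1_neg _ _).push hφ0 fun m hm => by
      rw [hθ] at hm
      exact hm
  have hu' := pzn_unique' (-(β k)) hp' hz' hn' hfac'
  have hu := pzn_unique' (-(β k)) (hp.mono fun m _ h => by
      show 0 < -(β k m); omega) (hz.mono fun m _ h => by
      show -(β k m) = 0; omega) (hn.mono fun m _ h => by
      show -(β k m) < 0; omega) hprod
  have hzz : z = push D (zer (ABOut.th θ) (ABOut.gser (kq β Q c))) := by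
    rw [← hu.2.1, hu'.2.1]
  rw [hzz]
  -- closure
  have hmaps : Set.MapsTo (push D)
      (Submonoid.closure (ABOut.Letters (kq β Q c) θ) : Set (TPS (ABOut.TW (kq β Q c))))
      (Submonoid.closure (RayGen (twK β) Q L β k) : Set (TPS (twK β))) := by
    intro f hf
    have h1 : Submonoid.closure (ABOut.Letters (kq β Q c) θ) ≤
        (Submonoid.closure (RayGen (twK β) Q L β k)).comap (push D).toMonoidHom := by
      rw [Submonoid.closure_le]
      rintro g ⟨d, q, hd, hdθ, rfl⟩
      apply Submonoid.subset_closure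
      refine ⟨phi c d, _, hphiL d, fun h => hd (hφ0 d h), ?_,
        push_letter av hβ hord' hQ ht hht hc hd q⟩
      rw [hθ, neg_eq_zero] at hdθ
      exact hdθ
    exact h1 hf
  exact hmaps.closure (continuous_push D) hAB'

end main

end TPS

end Crest.Agent.R059
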