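import Crest.Agent.R059.Wall3_999
import Crest.Agent.R059.JMain_853
import Crest.Agent.R059.CloD_987
import Crest.Agent.R059.Att_201
import Crest.Agent.R059.Trans_569

/-!
# Row 59, WALL: composition `ABOut → CrossPos` for plain elements (helper999)
-/

set_option autoImplicit false
set_option linter.unusedSectionVars false

open Finset

namespace Crest.Agent.R059.Wall999

open TPS FlowV999 Tr201

section node

variable {ι : Type} [DecidableEq ι] {R : Type*} [CommRing R] [IsDomain R] {T : Tw (ι →₀ ℕ) R}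

/-- the wall of a basis vector is the node series. -/
theorem zer_node (hs : ∀ a b, T.β a b = - T.β b a) (h : (ι →₀ ℕ) →+ R)
    (hreg : ∀ d, d ≠ 0 → h d ≠ 0) {nd : ι → TPS T}
    (hnd : ∀ i, In1 (fun e => OnRay e (Finsupp.single i 1)) (nd i))
    {A : TPS T} (hA : PlainData h nd A)
    {V : Type} [AddCommGroup V] [LinearOrder V] [IsOrderedAddMonoid V]
    (x : (ι →₀ ℕ) →+ V) (i : ι) (hK : Trans569.KerRay x (Finsupp.single i 1)) :
    zer x A = nd i := by
  have key : ∀ k : ℕ, 0 < k → ∀ e ≤ Finsupp.single i k, (zer x A).co e = (nd i).co e := by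
    intro k hk
    have hr : OnRay (Finsupp.single i k) (Finsupp.single i 1) := by
      have := onRay_nsmul hk (Finsupp.single i 1)
      simpa [Finsupp.smul_single] using this
    refine att_box hs h hreg x (kerRay_onRay hK hr) hA.one (fun c hc h0 => ?_)
      ((hnd i).mono fun e _ he => he.trans hr.symm) (fun e _ he0 hed => ?_)
    · exfalso
      apply h0
      have h1 : c = Finsupp.single i (c i) := by
        ext j
        by_cases hj : j = i
        · subst hj; simp
        · have := hc j
          rw [Finsupp.single_apply, if_neg (Ne.symm hj)] at this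
          rw [Finsupp.single_apply, if_neg (Ne.symm hj)]
          omega
      have h2 : ∀ m : ℕ, Finsupp.single i m = m • (Finsupp.single i 1 : ι →₀ ℕ) := fun m => by
        rw [Finsupp.smul_single, smul_eq_mul, mul_one]
      have h3 : T.β (Finsupp.single i 1) (Finsupp.single i 1) = 0 := by
        have := hs (Finsupp.single i 1) (Finsupp.single i 1); omega
      rw [h1, h2 k, h2 (c i), map_nsmul T.β k, map_nsmul, AddMonoidHom.nsmul_apply, h3, smul_zero,
        smul_zero]
    · have h2 := onRay_single hed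
      have h3 : 0 < e i := Nat.pos_of_ne_zero fun h0 => he0 (by
        rw [h2, h0, Finsupp.single_zero])
      rw [h2]
      exact hA.node i (e i) h3
  ext e
  by_cases he0 : e = 0
  · rw [he0, zer_co_zero, (hnd i).one]
  by_cases he : OnRay e (Finsupp.single i 1)
  · have h2 := onRay_single he
    have h3 : 0 < e i := Nat.pos_of_ne_zero fun h0 => he0 (by
      rw [h2, h0, Finsupp.single_zero])
    exact key (e i) h3 e h2.le
  · rw [(hnd i).supp e he0 he]
    exact (in1_zer x A).supp e he0 fun h0 => he (onRay_of_kerRay hK he0 h0)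

end node

section final

variable {I : Type} [Fintype I] [DecidableEq I]

theorem exists_parity' (β : (I →₀ ℕ) →+ (I →₀ ℕ) →+ ℤ) (hβ : ∀ a b, β a b = - β b a)
    (q0 : I → ZMod 2) :
    ∃ Q : (I →₀ ℕ) → ZMod 2, (∀ a b, Q (a + b) = Q a + Q b + (β a b : ZMod 2)) ∧
      ∀ i, Q (Finsupp.single i 1) = q0 i := by
  let _ : LinearOrder I := LinearOrder.lift' (Fintype.equivFin I) (Fintype.equivFin I).injective
  exact exists_parity β hβ q0

/-- the degree with values in `KK` -/
noncomputable def hK : (I →₀ ℕ) →+ KK := (Nat.castAddMonoidHom KK).comp dg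

theorem hK_ne (d : I →₀ ℕ) (hd : d ≠ 0) : (hK d : KK) ≠ 0 := by
  have : CharZero KK := algebraRat.charZero KK
  change ((dg d : ℕ) : KK) ≠ 0
  exact Nat.cast_ne_zero.2 fun h => hd (dg_eq_zero d h)

open Classical in
/-- node series: `P(τ X_i)` for `i ∈ S`. -/
noncomputable def ndS (β : (I →₀ ℕ) →+ (I →₀ ℕ) →+ ℤ) (S : Set I) (i : I) : TPS (twK β) :=
  if i ∈ S then dil (twK β) (Finsupp.single i 1) true 1 else 1

/-- plain elements with nodes `single i 1`, `i ∈ S`. -/
def PlainS (β : (I →₀ ℕ) →+ (I →₀ ℕ) →+ ℤ) (S : Set I) (A : TPS (twK β)) : Prop :=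
  PlainData hK (ndS β S) A

theorem single_ne (i : I) : (Finsupp.single i 1 : I →₀ ℕ) ≠ 0 := by
  simp

theorem in1_ndS (β : (I →₀ ℕ) →+ (I →₀ ℕ) →+ ℤ) (S : Set I) (i : I) :
    In1 (fun e => OnRay e (Finsupp.single i 1)) (ndS β S i) := by
  unfold ndS
  split_ifs
  · exact in1_QDil' (T := twK β) (fun _ => 1) (Finsupp.single i 1) 1 (single_ne i)
  · exact in1_one _

/-- **from Theorems A + B to the crossing positivity of every plain element.** -/
theorem crossPos_plain (hAB : ABOut) (β : (I →₀ ℕ) →+ (I →₀ ℕ) →+ ℤ)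
    (hβ : ∀ a b, β a b = - β b a) (S : Set I) (A : TPS (twK β)) (hA : PlainS β S A) :
    Trans569.CrossPos β Kpos A := by
  obtain ⟨Q, hQ, hQ1⟩ := exists_parity' β hβ (fun _ => 1)
  have hnd : ∀ i, ndS β S i ∈ DTr (QDil (twK β) Q) (Finsupp.single i 1) := by
    intro i
    unfold ndS
    split_ifs
    · have : dil (twK β) (Finsupp.single i 1) true 1 = QDil (twK β) Q (Finsupp.single i 1) 1 := by
        unfold QDil TPS.par
        rw [hQ1 i]
        simp
      rw [this]
      exact dil_mem_DTr _ _ (OnRay.refl _)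
    · exact one_mem_DTr _ _
  intro V _ _ _ p c hc m
  have hw := wall_of_jmain (T := twK β) hβ hK hK_ne Q (fun L hL => by
      refine jmain hAB β hβ Q hQ dg dg_eq_zero L ?_
      intro k hk hk0 a ha b hb hka hkb
      by_cases ha0 : a = 0
      · rw [ha0]; simp
      by_cases hb0 : b = 0
      · rw [hb0]; simp
      have h1 := hL.2 k hk hk0 a ha ha0 hka
      have h2 := hL.2 k hk hk0 b hb hb0 hkb
      have h3 : OnRay b a := h2.trans h1.symm
      have h4 : β a a = 0 := by have := hβ a a; omega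
      exact h3.apply_eq_zero (x := β a) h4)
    (ndS β S) hnd hA V p c hc
  have hv1 : ((twK β).v : KK) ∈ Kpos := by
    have := vv_zpow_mem 1
    rw [zpow_one] at this
    exact this
  have hv2 : (((twK β).v⁻¹ : KKˣ) : KK) ∈ Kpos := by
    have := vv_zpow_mem (-1)
    rw [zpow_neg, zpow_one] at this
    exact this
  have hcr := crossPos_of_mem (T := twK β) hβ (S := Kpos) isClosed_Kpos hv1 hv2 qreg_vv (c := c)
    (Gen := RGen (QDil (twK β) Q) c) (by
      rintro f ⟨e, a, he, rfl⟩
      obtain ⟨i, j, hi, hj, hij⟩ := he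
      exact ⟨e, par Q e, a, ⟨OnRay.ne_zero ⟨i, j, hi, hj, hij⟩ hc.1, i, j, hi, hij⟩, rfl⟩) hw m 1
    Kpos.one_mem
  exact ⟨fun hm => hcr.1 hm.le, fun hm => hcr.2 hm.le⟩

/-- the walls of the basis vectors. -/
theorem zer_plain (β : (I →₀ ℕ) →+ (I →₀ ℕ) →+ ℤ)
    (hβ : ∀ a b, β a b = - β b a) (S : Set I) (A : TPS (twK β)) (hA : PlainS β S A)
    {V : Type} [AddCommGroup V] [LinearOrder V] [IsOrderedAddMonoid V]
    (x : (I →₀ ℕ) →+ V) (i : I) (hi : i ∈ S)
    (hx : Trans569.KerRay x (Finsupp.single i 1)) :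
    zer x A = dil (twK β) (Finsupp.single i 1) true 1 := by
  rw [zer_node (T := twK β) hβ hK hK_ne (in1_ndS β S) hA x i hx, ndS, if_pos hi]

end final

end Crest.Agent.R059.Wall999
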