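import Mathlib
import Crest.Agent.R059.FrameP_436
import Crest.Agent.R059.Dilog_344
import Crest.Agent.R059.Wall4_999

set_option autoImplicit false
set_option linter.unusedSectionVars false

/-!
Row 59 (S0081), leaf 20 FRAME, part P2 (helper436): the framed element is plain.

`PlainS β S A → PlainS (frame (twK β) δ).β (some '' S) ((embF (twK β) δ).hom A)` (999's predicate).
-/

namespace Crest.Agent.R059

open Finset TPS Dilog344

namespace Frame436

section ev

variable {M M' : Type*} [AddCommMonoid M] [AddCommMonoid M'] [HasAntidiagonal M]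
  [HasAntidiagonal M'] {R : Type*} [CommRing R] {T : Tw M R} {T' : Tw M' R}

theorem pw_hom (e : Sc998.Emb T T') (c : M) (k : ℕ) : pw T' (e.j c) k = pw T c k := by
  induction k with
  | zero => rfl
  | succ k ih => rw [pw, pw, ih, ← map_nsmul, e.wt_eq]

theorem hom_ev (e : Sc998.Emb T T') {c : M} (hc : Function.Injective (fun k : ℕ => k • c))
    (f : PowerSeries R) : e.hom (ev T c f) = ev T' (e.j c) f := by
  have hc' : Function.Injective (fun k : ℕ => k • e.j c) := by
    intro a b hab
    apply hc
    apply e.inj
    simpa using hab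
  ext d
  by_cases hd : ∃ k : ℕ, d = k • e.j c
  · obtain ⟨k, rfl⟩ := hd
    rw [co_ev_nsmul hc', ← map_nsmul, e.co_hom_j, co_ev_nsmul hc, pw_hom]
  · push Not at hd
    rw [co_ev_of_not f hd]
    by_cases h : d ∈ Set.range e.j
    · obtain ⟨m, rfl⟩ := h
      rw [e.co_hom_j]
      refine co_ev_of_not f (fun k hk => hd k ?_)
      rw [hk, map_nsmul]
    · exact e.co_hom_off _ h

theorem hom_dil (e : Sc998.Emb T T') {c : M} (hc : Function.Injective (fun k : ℕ => k • c))
    (p : Bool) (a : ℤ) : e.hom (dil T c p a) = dil T' (e.j c) p a := by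
  unfold dil
  rw [hom_ev e hc, e.hv]

end ev

section plain

open Wall999 Att201

variable {ι : Type} [DecidableEq ι] {R : Type*} [CommRing R] [IsDomain R] [TopologicalSpace R]
  [T1Space R]

/-- **plain data of the framed element** (general node series). -/
theorem plainData_embF (T : Tw (ι →₀ ℕ) R) (δ : (ι →₀ ℕ) →+ ℕ) (h' : (Option ι →₀ ℕ) →+ R)
    {nd : ι → TPS T} (hnd : ∀ i, (nd i).co 0 = 1) {A : TPS T}
    (hA : PlainData (h'.comp inc) nd A) :
    PlainData (T := frame T δ) h' (fun i => i.elim 1 (fun i => (embF T δ).hom (nd i)))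
      ((embF T δ).hom A) where
  one := (grd_hom (embF T δ)).one hA.one
  node i k hk := by
    cases i with
    | none =>
      have h1 := dat_embF_off T δ h' hA.one (d := Finsupp.single none k)
        (by rw [Finsupp.single_eq_same]; omega)
      exact h1.trans (lamI_one h' _).symm
    | some i =>
      have h1 := dat_embF_inc T δ h' hA.one (Finsupp.single i k)
      have h2 := lamI_hom_j (embF T δ) h' (hnd i) (Finsupp.single i k)
      have h3 := hA.node i k hk
      have h4 : (embF T δ).j (Finsupp.single i k) = Finsupp.single (some i) k := inc_single i k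
      rw [h4] at h2
      rw [inc_single] at h1
      exact h1.trans (h3.trans h2.symm)
  zero d hd hns := by
    by_cases h : d none = 0
    · have h0 : inc (rs d) = d := inc_rs h
      have h1 := dat_embF_inc T δ h' hA.one (rs d)
      rw [h0] at h1
      refine h1.trans (hA.zero (rs d) ?_ ?_)
      · intro hc
        apply hd
        rw [← h0, hc, map_zero]
      · intro i k hc
        apply hns (some i) k
        rw [← h0, hc, inc_single]
    · exact dat_embF_off T δ h' hA.one h

end plain

section K

open Wall999

variable {ι : Type} [Fintype ι] [DecidableEq ι]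

theorem hK_comp_inc : (hK : (Option ι →₀ ℕ) →+ KK).comp inc = hK := by
  refine DFunLike.ext _ _ fun d => ?_
  show ((dg (inc d : Option ι →₀ ℕ) : ℕ) : KK) = ((dg d : ℕ) : KK)
  have : dg (inc d : Option ι →₀ ℕ) = dg d := degree_inc d
  rw [this]

/-- **P4**: the framed element is plain, nodes `some '' S`. -/
theorem plainS_embF (β : (ι →₀ ℕ) →+ (ι →₀ ℕ) →+ ℤ) (δ : (ι →₀ ℕ) →+ ℕ) (S : Set ι)
    (A : TPS (twK β)) (hA : PlainS β S A) :
    PlainS (frame (twK β) δ).β (some '' S) ((embF (twK β) δ).hom A) := by
  classical
  have h1 : PlainData ((hK : (Option ι →₀ ℕ) →+ KK).comp inc) (ndS β S) A := by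
    rw [hK_comp_inc]; exact hA
  have h2 := plainData_embF (twK β) δ (hK : (Option ι →₀ ℕ) →+ KK)
    (fun i => (in1_ndS β S i).one) h1
  have h3 : (fun i : Option ι => i.elim (1 : TPS (frame (twK β) δ))
      (fun i => (embF (twK β) δ).hom (ndS β S i))) = ndS (frame (twK β) δ).β (some '' S) := by
    funext i
    cases i with
    | none =>
      have hn : (none : Option ι) ∉ some '' S := by
        rintro ⟨j, _, hj⟩
        exact absurd hj (by simp)
      show (1 : TPS (frame (twK β) δ)) = _
      unfold ndS
      rw [if_neg hn]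
      rfl
    | some i =>
      show (embF (twK β) δ).hom (ndS β S i) = _
      unfold ndS
      by_cases hi : i ∈ S
      · rw [if_pos hi, if_pos ⟨i, hi, rfl⟩, hom_dil (embF (twK β) δ) (nsmul_inj (single_ne i)),
          embF_j, inc_single]
        rfl
      · rw [if_neg hi, if_neg, map_one]
        · rfl
        · rintro ⟨j, hj, hij⟩
          rw [Option.some.injEq] at hij
          exact hi (hij ▸ hj)
  rw [h3] at h2
  exact h2

end K

end Frame436

end Crest.Agent.R059
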