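import Crest.Agent.R059.Trans_569
import Crest.Agent.R059.CrossT_195
import Crest.Agent.R059.Path_227
import Crest.Agent.R059.EPsiK_998

/-!
# Row 59 (S0081): the full bend (`Path227.FullBend`) in the frozen ring

A simple class `c = single i 1` spans a face, so the part `zer p a` on a wall `p` with kernel the
ray of `c` is just the part of `a` supported on the multiples of `c`.
-/

set_option autoImplicit false
set_option linter.unusedSectionVars false

namespace Crest.Agent.R059.Full409

open Finset TPS Trans569 Dilog344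

section face

variable {ι : Type} [DecidableEq ι] {R : Type*} [CommRing R] {T : Tw (ι →₀ ℕ) R}

theorem le_nsmul_single {i : ι} {k : ℕ} {e : ι →₀ ℕ} (h : e ≤ k • Finsupp.single i 1) :
    ∃ l : ℕ, e = l • Finsupp.single i 1 := by
  refine ⟨e i, ?_⟩
  ext j
  by_cases hj : i = j
  · subst hj; simp
  · have h1 := h j
    rw [Finsupp.smul_apply, Finsupp.single_eq_of_ne (Ne.symm hj), smul_zero] at h1
    rw [Finsupp.smul_apply, Finsupp.single_eq_of_ne (Ne.symm hj), smul_zero]
    omega

/-- the kernel of a simple ray functional. -/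
theorem ker_single {V : Type} [AddCommGroup V] [LinearOrder V] [IsOrderedAddMonoid V]
    {p : (ι →₀ ℕ) →+ V} {i : ι} (hp : KerRay p (Finsupp.single i 1)) {e : ι →₀ ℕ}
    (he : p e = 0) : ∃ l : ℕ, e = l • Finsupp.single i 1 := by
  by_cases h0 : e = 0
  · exact ⟨0, by rw [h0, zero_smul]⟩
  obtain ⟨k, j, hk, hj, hkj⟩ := hp.sgn he h0
  refine ⟨e i, ?_⟩
  ext t
  by_cases ht : i = t
  · subst ht; simp
  · have h1 := DFunLike.congr_fun hkj t
    rw [Finsupp.smul_apply, Finsupp.smul_apply, Finsupp.single_eq_of_ne (Ne.symm ht), smul_zero,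
      smul_eq_mul, mul_eq_zero] at h1
    rw [Finsupp.smul_apply, Finsupp.single_eq_of_ne (Ne.symm ht), smul_zero]
    omega

/-- the wall part on a simple ray is the face part of `a`. -/
theorem zer_face {V : Type} [AddCommGroup V] [LinearOrder V] [IsOrderedAddMonoid V]
    {p : (ι →₀ ℕ) →+ V} {i : ι} (hp : KerRay p (Finsupp.single i 1)) {a b : TPS T}
    (ha : a.co 0 = 1)
    (hb : ∀ d, (∀ k : ℕ, d ≠ k • Finsupp.single i 1) → b.co d = 0)
    (hray : ∀ k : ℕ, a.co (k • Finsupp.single i 1) = b.co (k • Finsupp.single i 1)) :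
    zer p a = b := by
  ext d
  by_cases hd : ∃ k : ℕ, d = k • Finsupp.single i 1
  · obtain ⟨k, rfl⟩ := hd
    rw [← hray k]
    have hval : ∀ e ≤ k • Finsupp.single i 1, p e = 0 := by
      intro e he
      obtain ⟨l, rfl⟩ := le_nsmul_single he
      rw [map_nsmul, hp.2.1, smul_zero]
    have h1 : ∀ e ≤ k • Finsupp.single i 1, (pos p a).co e = (1 : TPS T).co e := by
      intro e he
      by_cases h0 : e = 0
      · subst h0; rw [pos_co_zero, co_one_zero]
      · rw [co_one_ne h0]
        exact (in1_pos p a).supp e h0 (by rw [hval e he]; exact lt_irrefl _)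
    have h2 : ∀ e ≤ k • Finsupp.single i 1, (neg p a).co e = (1 : TPS T).co e := by
      intro e he
      by_cases h0 : e = 0
      · subst h0; rw [neg_co_zero, co_one_zero]
      · rw [co_one_ne h0]
        exact (in1_neg p a).supp e h0 (by rw [hval e he]; exact lt_irrefl _)
    have h3 : a.co (k • Finsupp.single i 1) = (1 * zer p a * 1).co (k • Finsupp.single i 1) := by
      conv_lhs => rw [← pos_mul_zer_mul_neg p ha]
      refine co_mul_congr_le _ (fun e he => ?_) h2
      exact co_mul_congr_le e (fun e' he' => h1 e' (he'.trans he)) (fun _ _ => rfl)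
    rw [h3, one_mul, mul_one]
  · push Not at hd
    rw [hb d hd]
    by_cases h0 : d = 0
    · exact absurd h0 (by simpa using hd 0)
    · refine (in1_zer p a).supp d h0 (fun hpd => ?_)
      obtain ⟨l, hl⟩ := ker_single hp hpd
      exact hd l hl

theorem single_inj (i : ι) :
    Function.Injective (fun k : ℕ => k • (Finsupp.single i 1 : ι →₀ ℕ)) :=
  TPS.nsmul_inj (by simp)

/-- the wall part on a plain simple ray. -/
theorem zer_plain {V : Type} [AddCommGroup V] [LinearOrder V] [IsOrderedAddMonoid V]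
    {p : (ι →₀ ℕ) →+ V} {i : ι} (hp : KerRay p (Finsupp.single i 1)) {a : TPS T}
    (ha : a.co 0 = 1) (o : Bool) (w : ℤ)
    (hray : ∀ k : ℕ, a.co (k • Finsupp.single i 1) =
      (dil T (Finsupp.single i 1) o w).co (k • Finsupp.single i 1)) :
    zer p a = dil T (Finsupp.single i 1) o w :=
  zer_face hp ha (fun _ hd => co_ev_of_not _ hd) hray

theorem inv_dil {M : Type*} [AddCommMonoid M] [PartialOrder M] [IsOrderedCancelAddMonoid M]
    [CanonicallyOrderedAdd M] [WellFoundedLT M] [HasAntidiagonal M] {T : Tw M R} {c : M}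
    (hc : Function.Injective (fun k : ℕ => k • c)) (hq : QReg ((T.v : R) ^ 2)) (o : Bool)
    (w : ℤ) : TPS.inv (dil T c o w) = dili T c o w :=
  inv_eq_of_mul (co_dil_zero hc o w) (dil_mul_dili hc hq o w)

end face

section full

variable {n : ℕ} {R : Type*} [CommRing R] {T : Tw (Fin n →₀ ℕ) R}
variable {h : Fin n → ℕ} {P : Subsemiring R}

/-- **FULLBEND** for the transport data of `conj`. -/
theorem fullBend (hs : ∀ a b, form h a b = - form h b a) (hT : T.β = form h)
    (hq : QReg ((T.v : R) ^ 2)) {a : TPS T} (ha : a.co 0 = 1)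
    (hcr : CrossPos (form h) P a) (F : TPS T)
    (hray : ∀ (j : ℕ) (hj : j + 1 < n) (k : ℕ),
      a.co (k • Finsupp.single (⟨j + 1, hj⟩ : Fin n) 1) =
        (dil T (Finsupp.single (⟨j + 1, hj⟩ : Fin n) 1) true 1).co
          (k • Finsupp.single (⟨j + 1, hj⟩ : Fin n) 1)) :
    Path227.FullBend (tdata hs ha hcr F) := by
  intro V _ _ _ p j hj hp m k hk hmk
  set c : Fin n →₀ ℕ := Finsupp.single (⟨j + 1, hj⟩ : Fin n) 1 with hcdef
  have hc := single_inj (⟨j + 1, hj⟩ : Fin n)
  have hcc : form h c c = 0 := by have := hs c c; omega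
  have hb : form h (m + k • c) c = k := by
    rw [map_add, AddMonoidHom.add_apply, map_nsmul, AddMonoidHom.nsmul_apply, hcc, smul_zero,
      add_zero, hmk]
  have hb0 : 0 < form h (m + k • c) c := by rw [hb]; exact_mod_cast hk
  have hz1 := in1_zer p a
  have hz2 : In1 (fun d => p d = 0) (inv (zer p a)) := hz1.inv (closed_zero p)
  refine ⟨fun e => (zer p a * Y T e * inv (zer p a)).co (m + k • c), ?_, ?_, ?_⟩
  · intro e
    show (zer p a * Y T e * inv (zer p a)).co (m + k • c) ∈ P
    by_cases hne : (zer p a * Y T e * inv (zer p a)).co (m + k • c) = 0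
    · rw [hne]; exact P.zero_mem
    · obtain ⟨r, hr, hmr⟩ := co_sandwich_zero hz1 hz2 hne
      have he : 0 < form h e c := by
        rw [hmr, map_add, AddMonoidHom.add_apply, hp.s_self hs hr, add_zero] at hb0
        exact hb0
      obtain ⟨U, hU, hUe⟩ := (hcr p c hp e).1 he
      have : zer p a * Y T e * inv (zer p a) = U := by
        rw [hUe, mul_assoc, mul_inv (zer_co_zero p a), mul_one]
      rw [this]
      exact hU _
  · show IsUnit ((zer p a * Y T m * inv (zer p a)).co (m + k • c))
    rw [zer_plain hp ha true 1 (hray j hj), inv_dil hc hq]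
    have hm2 : T.β m c - T.β c m = 2 * (k : ℤ) := by
      rw [hT, hs c m, hmk]; ring
    obtain ⟨b, hb⟩ := full_bend hc hq (by rw [hT]; exact hcc) 1 hm2
    rw [hb]
    exact Units.isUnit _
  · exact cross_explicit ha F hp hb0

end full

end Crest.Agent.R059.Full409
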