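import Crest.Agent.R059.Grnd_883
import Crest.Agent.R059.Fac_150
import Crest.Agent.R059.Good_153
import Crest.Agent.R059.Final_157

set_option autoImplicit false

/-!
Row 59 (S0081), helper153: leaf GOOD in the frozen language of `Grnd_883` / `Fac_150`.

* dictionary `form h a (ux c) = phi h (uco a) c`, `form h a (b_{j+1}) = K h (uco a) j`;
* `supp_FF`: `FF h N` is supported on `ex m`, `m ∈ ℕ^n`;
* `good_T`: `T_g = [g] F` if `s(g, u_c) ≥ 0` for all `c`;
* `good_mem`: `T_g ∈ PE N` in that case.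
-/

namespace Crest.Agent.R059.Good

open Finset Crest.Agent.R059 TPS Crest.CombinatoricsR.UnitInterval

variable {n : ℕ}

/-! ### dictionary -/

theorem sg_eq_e (h : Fin n → ℕ) (a b : Fin n) : Kill.sg h a b = Kill59.e h a b := rfl

theorem phi_eq_s (h : Fin n → ℕ) (m : Fin n → ℤ) (c : Fin n) :
    Kill.phi h m c = Kill59.s h m (Kill59.u c) := by
  rw [Kill59.s_u]; rfl

theorem form_ux_right (h : Fin n → ℕ) (a : Fin n →₀ ℕ) (c : Fin n) :
    form h a (ux c) = Kill.phi h (uco a) c := by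
  rw [form_apply, uco_ux, phi_eq_s]

theorem W_eq (j : ℕ) (hj : j + 1 < n) : Kill.W j hj = Kill59.W j hj := rfl

theorem uco_single_eq_W (j : ℕ) (hj : j + 1 < n) :
    uco (Finsupp.single (⟨j + 1, hj⟩ : Fin n) 1) = Kill.W j hj := uco_single j hj

theorem form_single_right (h : Fin n → ℕ) (a : Fin n →₀ ℕ) (j : ℕ) (hj : j + 1 < n) :
    form h a (Finsupp.single (⟨j + 1, hj⟩ : Fin n) 1) = Kill.K h (uco a) j hj := by
  rw [form_apply, uco_single, Kill59.W, Kill59.s_sub_right, ← phi_eq_s, ← phi_eq_s]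
  rfl

/-- `s(a, b) = ∑_c s(a, u_c) b_c`. -/
theorem form_eq_sum (h : Fin n → ℕ) (a b : Fin n →₀ ℕ) :
    form h a b = ∑ c, Kill.phi h (uco a) c * uco b c := by
  rw [form_apply]
  unfold Kill59.s Kill.phi
  rw [Finset.sum_comm]
  refine Finset.sum_congr rfl fun c _ => ?_
  rw [Finset.sum_mul]
  refine Finset.sum_congr rfl fun d _ => ?_
  rw [sg_eq_e]; ring

theorem exists_ex_of_nonneg (g : Fin n →₀ ℕ) (hg : ∀ c, 0 ≤ uco g c) :
    ∃ m : Fin n → ℕ, g = ex m := by
  refine ⟨fun c => (uco g c).toNat, uco_injective ?_⟩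
  rw [uco_ex]
  funext c
  exact (Int.toNat_of_nonneg (hg c)).symm

theorem ex_add (m m' : Fin n → ℕ) : ex (m + m') = ex m + ex m' := by
  unfold ex
  rw [← Finset.sum_add_distrib]
  exact Finset.sum_congr rfl fun i _ => by rw [Pi.add_apply, add_smul]

theorem ex_zero : ex (0 : Fin n → ℕ) = 0 := by
  unfold ex; simp

theorem ex_ind (S : Finset (Fin n)) : ex (ind S) = ∑ i ∈ S, ux i := by
  unfold ex ind
  rw [← Finset.sum_filter_add_sum_filter_not Finset.univ (fun i => i ∈ S)]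
  rw [Finset.sum_congr rfl (g := fun i => ux i) (fun i hi => by
      rw [if_pos (Finset.mem_filter.1 hi).2, one_smul]),
    Finset.sum_congr rfl (g := fun _ => (0 : Fin n →₀ ℕ))
      (s₁ := Finset.univ.filter (fun i => ¬ i ∈ S)) (fun i hi => by
      rw [if_neg (Finset.mem_filter.1 hi).2, zero_smul])]
  simp

/-! ### support -/

/-- supported on the cone of the `u_i`. -/
def UCone (d : Fin n →₀ ℕ) : Prop := ∀ c, 0 ≤ uco d c

theorem uCone_iff (d : Fin n →₀ ℕ) : UCone d ↔ ∃ m : Fin n → ℕ, d = ex m := by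
  constructor
  · exact exists_ex_of_nonneg d
  · rintro ⟨m, rfl⟩ c
    rw [uco_ex]; positivity

theorem UCone.add {a b : Fin n →₀ ℕ} (ha : UCone a) (hb : UCone b) : UCone (a + b) := by
  intro c
  rw [uco_add]; exact add_nonneg (ha c) (hb c)

theorem uCone_zero : UCone (0 : Fin n →₀ ℕ) := by
  intro c
  rw [uco_zero]; exact le_rfl

theorem supp_EE (R : Type*) [CommRing R] [Algebra KK R] (h : Fin n → ℕ) (z : R)
    (d : Fin n →₀ ℕ) (hd : (EE R h z).co d ≠ 0) : UCone d := by
  classical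
  unfold EE at hd
  rw [Link157.co_sum] at hd
  obtain ⟨S, _, hS⟩ := Finset.exists_ne_zero_of_sum_ne_zero hd
  rw [co_mono] at hS
  split_ifs at hS with h1
  · rw [uCone_iff]
    exact ⟨ind S, by rw [ex_ind]; exact h1⟩
  · exact absurd rfl hS

theorem supp_list_prod {R : Type*} [CommRing R] {T : Tw (Fin n →₀ ℕ) R} (L : List (TPS T))
    (hL : ∀ f ∈ L, ∀ d, f.co d ≠ 0 → UCone d) (d : Fin n →₀ ℕ) (hd : L.prod.co d ≠ 0) :
    UCone d := by
  classical
  induction L generalizing d with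
  | nil =>
    rw [List.prod_nil, co_one] at hd
    split_ifs at hd with h0
    · subst h0; exact uCone_zero
    · exact absurd rfl hd
  | cons f L ih =>
    rw [List.prod_cons, co_mul] at hd
    obtain ⟨⟨a, b⟩, hab, hne⟩ := Finset.exists_ne_zero_of_sum_ne_zero hd
    rw [HasAntidiagonal.mem_antidiagonal] at hab
    have h1 : f.co a ≠ 0 := fun h => hne (by simp [h])
    have h2 : L.prod.co b ≠ 0 := fun h => hne (by simp [h])
    simp only at hab
    rw [← hab]
    exact UCone.add (hL f (List.mem_cons_self ..) a h1)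
      (ih (fun f' hf' => hL f' (List.mem_cons_of_mem _ hf')) b h2)

/-- `F` is supported on `ℕ^n`. -/
theorem supp_FF (h : Fin n → ℕ) (N : ℕ) (d : Fin n →₀ ℕ) (hd : (FF h N).co d ≠ 0) : UCone d := by
  unfold FF at hd
  refine supp_list_prod _ ?_ d hd
  intro f hf
  obtain ⟨j, rfl⟩ := (List.mem_ofFn' _ f).1 hf
  exact supp_EE _ h _

theorem supp_FF' (h : Fin n → ℕ) (N : ℕ) (d : Fin n →₀ ℕ) (hd : (FF h N).co d ≠ 0) :
    ∃ m : Fin n → ℕ, d = ex m := (uCone_iff d).1 (supp_FF h N d hd)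

theorem co_FF_of_not (h : Fin n → ℕ) (N : ℕ) {d : Fin n →₀ ℕ} {c : Fin n} (hd : uco d c < 0) :
    (FF h N).co d = 0 := by
  by_contra hne
  exact absurd hd (not_lt.2 (supp_FF h N d hne c))

/-! ### the good classes -/

/-- **GOOD**, any ring and any `F` supported on `ℕ^n`. -/
theorem good_co {R : Type*} [CommRing R] {T : Tw (Fin n →₀ ℕ) R} (h : Fin n → ℕ)
    (A F : TPS T) (hF : ∀ d, F.co d ≠ 0 → UCone d) (g : Fin n →₀ ℕ)
    (hg : ∀ c, 0 ≤ Kill.phi h (uco g) c) : (conj (form h g) A F).co g = F.co g := by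
  have h0 : form h g g = 0 := by
    have := form_skew h g g
    omega
  have hp := in1_pos (form h g) A
  have hi := hp.inv (closed_pos (form h g))
  unfold conj cj
  refine co_conj (form h g) F _ _ (pos_co_zero _ _) (inv_zero _) (fun d hd hne => ?_)
    (fun d hd hne => ?_) (fun d hd => ?_) h0.le
  · by_contra hcon
    exact hne (hp.2 d hd hcon)
  · by_contra hcon
    exact hne (hi.2 d hd hcon)
  · rw [form_eq_sum]
    exact Finset.sum_nonneg fun c _ => mul_nonneg (hg c) (hF d hd c)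

/-- **(G3)** `T_g = [g] F` for the good `g`. -/
theorem good_T (h : Fin n → ℕ) (N : ℕ)
    (A : TPS (tw (MvPolynomial (Fin N) KK) (form h))) (g : Fin n →₀ ℕ)
    (hg : ∀ c, 0 ≤ Kill.phi h (uco g) c) :
    (conj (form h g) A (FF h N)).co g = (FF h N).co g :=
  good_co h A (FF h N) (supp_FF h N) g hg

/-- the support of a good class is independent. -/
theorem good_not_edge {h : Fin n → ℕ} {m : Fin n → ℕ}
    (hg : ∀ c, 0 ≤ Kill.phi h (uco (ex m)) c) (a b : Fin n) (ha : 0 < m a) (hb : 0 < m b) :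
    ¬ IsEdge h a b := by
  have h0 : ∀ c, 0 ≤ uco (ex m) c := (uCone_iff _).2 ⟨m, rfl⟩
  have h1 : ∀ c, uco (ex m) c = (m c : ℤ) := fun c => by rw [uco_ex]
  rintro (⟨hab, he⟩ | ⟨hab, he⟩)
  · rcases Kill.indep_of_good h0 hg a b hab he with h2 | h2 <;> rw [h1] at h2 <;> omega
  · rcases Kill.indep_of_good h0 hg b a hab he with h2 | h2 <;> rw [h1] at h2 <;> omega

/-- `[g] F ∈ PE N` for the good `g`. -/
theorem good_FF_mem (h : Fin n → ℕ) (N : ℕ) (g : Fin n →₀ ℕ)
    (hg : ∀ c, 0 ≤ Kill.phi h (uco g) c) : (FF h N).co g ∈ PE N := by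
  by_cases hm : ∃ m : Fin n → ℕ, g = ex m
  · obtain ⟨m, rfl⟩ := hm
    exact Final157.FF_ex_mem h N m (fun a b ha hb => good_not_edge hg a b ha hb)
  · have : (FF h N).co g = 0 := by
      by_contra hne
      exact hm (supp_FF' h N g hne)
    rw [this]
    exact (PE N).zero_mem

/-- **GOOD**: `T_g ∈ PE N` for the good `g`. -/
theorem good_mem (h : Fin n → ℕ) (N : ℕ)
    (A : TPS (tw (MvPolynomial (Fin N) KK) (form h))) (g : Fin n →₀ ℕ)
    (hg : ∀ c, 0 ≤ Kill.phi h (uco g) c) : (conj (form h g) A (FF h N)).co g ∈ PE N := by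
  rw [good_T h N A g hg]
  exact good_FF_mem h N g hg

/-- all `T_g` are in `PE N` once the bad ones vanish. -/
theorem T_mem (h : Fin n → ℕ) (N : ℕ)
    (A : TPS (tw (MvPolynomial (Fin N) KK) (form h)))
    (hbad : ∀ g : Fin n →₀ ℕ, (∃ c, Kill.phi h (uco g) c < 0) →
      (conj (form h g) A (FF h N)).co g = 0) (g : Fin n →₀ ℕ) :
    (conj (form h g) A (FF h N)).co g ∈ PE N := by
  by_cases hg : ∀ c, 0 ≤ Kill.phi h (uco g) c
  · exact good_mem h N A g hg
  · push Not at hg
    rw [hbad g hg]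
    exact (PE N).zero_mem

/-! ### the increasing chamber -/

/-- in a chamber where `A` has no positive part nothing is conjugated. -/
theorem conj_of_nonpos {M : Type*} [AddCommMonoid M] [PartialOrder M]
    [IsOrderedCancelAddMonoid M] [CanonicallyOrderedAdd M] [WellFoundedLT M] [HasAntidiagonal M]
    {R : Type*} [CommRing R] {T : Tw M R} {V : Type*} [AddCommGroup V] [LinearOrder V]
    [IsOrderedAddMonoid V] (x : M →+ V) {A : TPS T} (hA : In1 (fun d => x d ≤ 0) A) (F : TPS T) :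
    conj x A F = F := by
  unfold conj
  rw [pos_of_nonpos x hA, cj_one]

end Crest.Agent.R059.Good
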