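import Crest.Agent.R059.Path_227
import Crest.Agent.R059.Trans_569
import Crest.Agent.R059.GoodB_153
import Crest.Agent.R059.EPsiK_998
import Crest.Agent.R059.CrossT_195

/-!
Row 59 (S0081), helper227.  Assembly of (T2') and of the `e`-positivity for connected graphs:
* `crossPos_face`, `plainWalls_face`: from `A' = Ψ A_W` to the face `A_W`;
* `thin_mem_PE`: `(FF h N).co thin ∈ PE N` from the crossing positivity and the plain walls of `A_W`
  and the monomial positivity of `F^x`.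
-/

set_option autoImplicit false
set_option linter.unusedSectionVars false

open Crest.CombinatoricsR.UnitInterval Crest.Agent.R059.MutConn

namespace Crest.Agent.R059.MainT2

open Crest.Agent.R059 TPS Trans569 Path227 EPsi998 Dilog344

section maps

variable {M : Type*} [AddCommMonoid M] [PartialOrder M] [IsOrderedCancelAddMonoid M]
  [CanonicallyOrderedAdd M] [WellFoundedLT M] [Finset.HasAntidiagonal M]
variable {R S : Type*} [CommRing R] [CommRing S] {T : Tw M R}
variable {V : Type*} [AddCommGroup V] [LinearOrder V] [IsOrderedAddMonoid V]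

theorem in1_map {P : M → Prop} {a : TPS T} (φ : R →+* S) (h : In1 P a) :
    In1 P (TPS.map T φ a) :=
  ⟨by rw [co_map, h.one, map_one], fun d hd hP => by rw [co_map, h.supp d hd hP, map_zero]⟩

theorem lft_map (φ : R →+* S) (P : M → Prop) {a : TPS T} (ha : a.co 0 = 1) :
    lft P (TPS.map T φ a) = TPS.map T φ (lft P a) ∧
      rgt P (TPS.map T φ a) = TPS.map T φ (rgt P a) := by
  have h1 := in1_map φ (in1_lft P a)
  have h2 := in1_map φ (in1_rgt P a)
  have h3 := fac_unique (P := P) (a := TPS.map T φ a) (f := TPS.map T φ (lft P a))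
    (g := TPS.map T φ (rgt P a)) h1.one h2.one (fun e he hP => h1.supp e he hP)
    (fun e he hP => h2.supp e he (not_not.2 hP))
    (by rw [← map_mul, lft_mul_rgt P ha])
  exact ⟨h3.1.symm, h3.2.symm⟩

theorem pos_map (φ : R →+* S) (x : M →+ V) {a : TPS T} (ha : a.co 0 = 1) :
    pos x (TPS.map T φ a) = TPS.map T φ (pos x a) := (lft_map φ _ ha).1

theorem zer_map (φ : R →+* S) (x : M →+ V) {a : TPS T} (ha : a.co 0 = 1) :
    zer x (TPS.map T φ a) = TPS.map T φ (zer x a) := by
  unfold zer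
  have h1 : npos x (TPS.map T φ a) = TPS.map T φ (npos x a) := (lft_map φ _ ha).2
  rw [h1]
  exact (lft_map φ _ (npos_co_zero x a)).1

theorem inv_map (φ : R →+* S) {a : TPS T} (ha : a.co 0 = 1) :
    inv (TPS.map T φ a) = TPS.map T φ (inv a) :=
  inv_eq_of_mul (by rw [co_map, ha, map_one]) (by rw [← map_mul, mul_inv ha, map_one])

end maps

section face

variable {ι : Type} [DecidableEq ι] {R : Type*} [CommRing R] {T : Tw (ι →₀ ℕ) R}
variable {s : (ι →₀ ℕ) →+ (ι →₀ ℕ) →+ ℤ} {P : Subsemiring R}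

/-- the degree with integer values. -/
noncomputable def degZ (deg : (ι →₀ ℕ) →+ ℕ) : (ι →₀ ℕ) →+ ℤ := (Nat.castAddMonoidHom ℤ).comp deg

theorem degZ_apply (deg : (ι →₀ ℕ) →+ ℕ) (d : ι →₀ ℕ) : degZ deg d = (deg d : ℤ) := rfl

/-- the face of `A' = Ψ A_W`. -/
theorem zer_deg {deg : (ι →₀ ℕ) →+ ℕ} {Ψ aW : TPS T} (hΨ : In1 (fun d => 0 < deg d) Ψ)
    (haW : In1 (fun d => deg d = 0) aW) : zer (degZ deg) (Ψ * aW) = aW := by
  have h1 : In1 (fun d => 0 < degZ deg d) Ψ := hΨ.mono (fun d _ hd => by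
    rw [degZ_apply]; exact_mod_cast hd)
  have h2 : In1 (fun d => degZ deg d = 0) aW := haW.mono (fun d _ hd => by
    rw [degZ_apply, hd]; rfl)
  have h3 := pzn_unique' (degZ deg) (a := Ψ * aW) h1 h2 (in1_one (fun d => degZ deg d < 0))
    (by rw [mul_one])
  exact h3.2.1

theorem zer_face {deg : (ι →₀ ℕ) →+ ℕ} {Ψ aW : TPS T} (hΨ : In1 (fun d => 0 < deg d) Ψ)
    (haW : In1 (fun d => deg d = 0) aW) {V : Type} [AddCommGroup V] [LinearOrder V]
    [IsOrderedAddMonoid V] (p : (ι →₀ ℕ) →+ V) :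
    zer p aW = zer (lexHom (degZ deg) p) (Ψ * aW) := by
  have h0 : (Ψ * aW).co 0 = 1 := by rw [co_mul_zero', hΨ.one, haW.one, one_mul]
  rw [(parts_lex (degZ deg) p h0).2.1, zer_deg hΨ haW]

theorem lexHom_eq {V : Type} [AddCommGroup V] [LinearOrder V] [IsOrderedAddMonoid V]
    {W : Type} [AddCommGroup W] [LinearOrder W] [IsOrderedAddMonoid W]
    (x : (ι →₀ ℕ) →+ V) (y : (ι →₀ ℕ) →+ W) (a b : ι →₀ ℕ) :
    lexHom x y a = lexHom x y b ↔ x a = x b ∧ y a = y b := by
  constructor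
  · intro h
    have h1 : ofLex (lexHom x y a) = ofLex (lexHom x y b) := by rw [h]
    exact Prod.ext_iff.1 h1
  · rintro ⟨h1, h2⟩
    exact congrArg toLex (Prod.ext h1 h2)

/-- refinement of a ray functional by the degree. -/
theorem kerRay_lex {deg : (ι →₀ ℕ) →+ ℕ} {V : Type} [AddCommGroup V] [LinearOrder V]
    [IsOrderedAddMonoid V] {p : (ι →₀ ℕ) →+ V} {c : ι →₀ ℕ} (hp : KerRay p c)
    (hc : deg c = 0) : KerRay (lexHom (degZ deg) p) c := by
  refine ⟨hp.1, ?_, ?_⟩
  · have := (lexHom_eq (degZ deg) p c 0).2 ⟨by rw [degZ_apply, hc, map_zero]; rfl,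
      by rw [hp.2.1, map_zero]⟩
    rw [this, map_zero]
  · intro a b hab
    exact hp.2.2 a b ((lexHom_eq (degZ deg) p a b).1 hab).2

theorem zer_face_one {deg : (ι →₀ ℕ) →+ ℕ} {aW : TPS T}
    (haW : In1 (fun d => deg d = 0) aW) {V : Type} [AddCommGroup V] [LinearOrder V]
    [IsOrderedAddMonoid V] {p : (ι →₀ ℕ) →+ V} {c : ι →₀ ℕ} (hp : KerRay p c)
    (hc : deg c ≠ 0) : zer p aW = 1 := by
  have hdeg : ∀ a b : ι →₀ ℕ, deg a = 0 → deg b = 0 → deg (a + b) = 0 := fun a b ha hb => by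
    rw [map_add, ha, hb]
  have h1 : In1 (fun d => p d = 0 ∧ deg d = 0) (zer p aW) := haW.zer hdeg p
  have h2 : ∀ d, d ≠ 0 → (zer p aW).co d = 0 := by
    intro d hd
    refine h1.supp d hd ?_
    rintro ⟨h3, h4⟩
    obtain ⟨k, j, hk, hj, hkj⟩ := hp.sgn h3 hd
    have := congrArg deg hkj
    rw [map_nsmul, map_nsmul, h4, smul_zero, smul_eq_mul] at this
    rcases mul_eq_zero.1 this.symm with h | h
    · omega
    · exact hc h
  classical
  ext d
  rw [co_one]
  split_ifs with h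
  · rw [h, zer_co_zero]
  · exact h2 d h

theorem crossPos_face {deg : (ι →₀ ℕ) →+ ℕ} {Ψ aW : TPS T} (hΨ : In1 (fun d => 0 < deg d) Ψ)
    (haW : In1 (fun d => deg d = 0) aW) (h : CrossPos s P (Ψ * aW)) : CrossPos s P aW := by
  classical
  intro V _ _ _ p c hp m
  by_cases hc : deg c = 0
  · rw [zer_face hΨ haW p]
    exact h (lexHom (degZ deg) p) c (kerRay_lex hp hc) m
  · rw [zer_face_one haW hp hc]
    have hY : NonnegOn P (Y T m) := by
      intro d
      rw [Y, co_mono]
      split_ifs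
      · exact P.one_mem
      · exact P.zero_mem
    exact ⟨fun _ => ⟨Y T m, hY, by rw [one_mul, mul_one]⟩,
      fun _ => ⟨Y T m, hY, by rw [one_mul, mul_one]⟩⟩

end face

section plain

variable {n : ℕ} {h : Fin n → ℕ}

/-- the walls `W_j` are plain: `zer p A = P(τ X_{W_j})`. -/
def PlainWalls {R : Type*} [CommRing R] {T : Tw (Fin n →₀ ℕ) R} (A : TPS T) : Prop :=
  ∀ {V : Type} [AddCommGroup V] [LinearOrder V] [IsOrderedAddMonoid V]
    (p : (Fin n →₀ ℕ) →+ V) (j : ℕ) (hj : j + 1 < n),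
    KerRay p (Finsupp.single (⟨j + 1, hj⟩ : Fin n) 1) →
    zer p A = dil T (Finsupp.single (⟨j + 1, hj⟩ : Fin n) 1) true 1

theorem udeg_single (j : ℕ) (hj : j + 1 < n) :
    udeg n (Finsupp.single (⟨j + 1, hj⟩ : Fin n) 1) = 0 := by
  have hn : 0 < n := by omega
  rw [udeg_apply hn, Finsupp.single_apply, if_neg]
  simp

theorem plainWalls_face {R : Type*} [CommRing R] {T : Tw (Fin n →₀ ℕ) R} {Ψ aW : TPS T}
    (hΨ : In1 (fun d => 0 < udeg n d) Ψ) (haW : In1 (fun d => udeg n d = 0) aW)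
    (hp : PlainWalls (Ψ * aW)) : PlainWalls aW := by
  intro V _ _ _ p j hj hker
  rw [zer_face hΨ haW p]
  exact hp _ j hj (kerRay_lex hker (udeg_single j hj))

theorem single_inj (j : ℕ) (hj : j + 1 < n) :
    Function.Injective (fun k : ℕ => k • (Finsupp.single (⟨j + 1, hj⟩ : Fin n) 1 : Fin n →₀ ℕ)) := by
  intro a b hab
  have := DFunLike.congr_fun hab ⟨j + 1, hj⟩
  simpa using this

/-- the coefficient of the full bend at `W_j` is invertible. -/
def BendUnit (h : Fin n → ℕ) {R : Type*} [CommRing R] {T : Tw (Fin n →₀ ℕ) R} (A : TPS T) : Prop :=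
  ∀ {V : Type} [AddCommGroup V] [LinearOrder V] [IsOrderedAddMonoid V]
    (p : (Fin n →₀ ℕ) →+ V) (j : ℕ) (hj : j + 1 < n),
    KerRay p (Finsupp.single (⟨j + 1, hj⟩ : Fin n) 1) → ∀ (a : Fin n →₀ ℕ) (k : ℕ),
    form h a (Finsupp.single (⟨j + 1, hj⟩ : Fin n) 1) = k →
    IsUnit ((zer p A * Y T a * TPS.inv (zer p A)).co
      (a + k • Finsupp.single (⟨j + 1, hj⟩ : Fin n) 1))

theorem bendUnit_of_plain {R : Type*} [CommRing R] {T : Tw (Fin n →₀ ℕ) R}
    (hT : T.β = form h) (hq : QReg ((T.v : R) ^ 2)) {A : TPS T} (hpl : PlainWalls A) :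
    BendUnit h A := by
  intro V _ _ _ p j hj hker a k hak
  set g : Fin n →₀ ℕ := Finsupp.single (⟨j + 1, hj⟩ : Fin n) 1 with hg
  have hgg : form h g g = 0 := by have := form_skew h g g; omega
  have hz : zer p A = dil T g true 1 := hpl p j hj hker
  have hinj := single_inj j hj
  have hinv : TPS.inv (zer p A) = dili T g true 1 := by
    rw [hz]
    exact inv_eq_of_mul (co_dil_zero hinj true 1) (dil_mul_dili hinj hq true 1)
  have hcc : T.β g g = 0 := by rw [hT]; exact hgg
  have hpair : T.β a g - T.β g a = 2 * (k : ℤ) := by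
    rw [hT, hak, form_skew h g a, hak]; ring
  obtain ⟨c, hc⟩ := full_bend hinj hq hcc 1 hpair
  rw [hinv, hz, hc]
  exact Units.isUnit _

theorem map_Y {M : Type*} [AddCommMonoid M] [Finset.HasAntidiagonal M] {R S : Type*} [CommRing R]
    [CommRing S] (T : Tw M R) (φ : R →+* S) (m : M) :
    Y (T.map φ) m = TPS.map T φ (Y T m) := by
  classical
  ext d
  rw [co_map, Y, Y, co_mono, co_mono]
  split_ifs <;> simp

theorem bendUnit_map {R S : Type*} [CommRing R] [CommRing S] {T : Tw (Fin n →₀ ℕ) R}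
    (φ : R →+* S) {A : TPS T} (hA : A.co 0 = 1) (hb : BendUnit h A) :
    BendUnit h (TPS.map T φ A) := by
  intro V _ _ _ p j hj hker a k hak
  have h1 := (hb p j hj hker a k hak).map φ
  rw [zer_map φ p hA, inv_map φ (zer_co_zero p A), map_Y, ← map_mul, ← map_mul, co_map]
  exact h1

/-- the full bend. -/
theorem fullBend {R : Type*} [CommRing R] {P : Subsemiring R} {T : Tw (Fin n →₀ ℕ) R}
    {A : TPS T} (hA : A.co 0 = 1) (hcr : CrossPos (form h) P A) (hbu : BendUnit h A)
    (F : TPS T) : FullBend (tdata (s := form h) (form_skew h) hA hcr F) := by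
  classical
  intro V _ _ _ p j hj hker a k hk hak
  set g : Fin n →₀ ℕ := Finsupp.single (⟨j + 1, hj⟩ : Fin n) 1 with hg
  set b := a + k • g with hb
  have hgg : form h g g = 0 := by have := form_skew h g g; omega
  have hbg : form h b g = k := by
    rw [hb, map_add, AddMonoidHom.add_apply, map_nsmul, AddMonoidHom.nsmul_apply, hgg, smul_zero,
      add_zero, hak]
  have hbg0 : 0 < form h b g := by rw [hbg]; exact_mod_cast hk
  have hz1 := in1_zer p A
  have hz2 : In1 (fun d => p d = 0) (TPS.inv (zer p A)) := hz1.inv (closed_zero p)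
  refine ⟨fun e => (zer p A * Y T e * TPS.inv (zer p A)).co b, ?_, ?_, ?_⟩
  · intro e
    show (zer p A * Y T e * TPS.inv (zer p A)).co b ∈ P
    by_cases h0 : (zer p A * Y T e * TPS.inv (zer p A)).co b = 0
    · rw [h0]; exact P.zero_mem
    · obtain ⟨r, hr, hmr⟩ := co_sandwich_zero hz1 hz2 h0
      have he : 0 < form h e g := by
        rw [hmr, map_add, AddMonoidHom.add_apply, hker.s_self (form_skew h) hr, add_zero] at hbg0
        exact hbg0
      obtain ⟨U, hU, hUe⟩ := (hcr p g hker e).1 he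
      have : zer p A * Y T e * TPS.inv (zer p A) = U := by
        rw [hUe, mul_assoc, TPS.mul_inv (zer_co_zero p A), mul_one]
      rw [this]
      exact hU b
  · exact hbu p j hj hker a k hak
  · exact cross_explicit hA F hker hbg0

end plain

section main

variable {n : ℕ} {h : Fin n → ℕ}

theorem degree_zero_nonpos (x : (Fin n →₀ ℕ) →+ ℝ)
    (hx : ∀ (j : ℕ) (hj : j + 1 < n), x (Finsupp.single (⟨j + 1, hj⟩ : Fin n) 1) < 0)
    (d : Fin n →₀ ℕ) (hd : udeg n d = 0) : x d ≤ 0 := by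
  classical
  have h1 : d = ∑ i, d i • Finsupp.single i 1 := by
    ext k
    rw [Finsupp.finsetSum_apply]
    simp only [Finsupp.smul_apply, Finsupp.single_apply, smul_eq_mul, mul_ite, mul_one, mul_zero]
    rw [Finset.sum_ite_eq']
    simp
  rw [h1, map_sum]
  refine Finset.sum_nonpos fun i _ => ?_
  rw [map_nsmul]
  by_cases hi : (i : ℕ) = 0
  · have hn : 0 < n := lt_of_le_of_lt (Nat.zero_le _) i.2
    rw [udeg_apply hn] at hd
    have : i = ⟨0, hn⟩ := Fin.ext hi
    rw [this, hd, zero_smul]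
  · obtain ⟨j, hj⟩ : ∃ j, (i : ℕ) = j + 1 := ⟨(i : ℕ) - 1, by omega⟩
    have hj' : j + 1 < n := hj ▸ i.2
    have e : i = ⟨j + 1, hj'⟩ := Fin.ext hj
    rw [e]
    exact smul_nonpos_of_nonneg_of_nonpos (Nat.zero_le _) (hx j hj').le

theorem PM_sal (N : ℕ) (a : MvPolynomial (Fin N) KK) (h1 : a ∈ PM N) (h2 : -a ∈ PM N) : a = 0 := by
  ext m k
  have h3 : ∀ k, 0 ≤ HahnSeries.coeff (a.coeff m) k := h1 m
  have h4 : ∀ k, 0 ≤ HahnSeries.coeff ((-a).coeff m) k := h2 m
  rw [MvPolynomial.coeff_zero]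
  have h5 := h4 k
  rw [MvPolynomial.coeff_neg, HahnSeries.coeff_neg] at h5
  have h6 := h3 k
  rw [HahnSeries.coeff_zero]
  linarith

theorem C_mul_PM (N : ℕ) (p : MvPolynomial (Fin N) KK)
    (hp : p ∈ Kpos.map (algebraMap KK (MvPolynomial (Fin N) KK)))
    (a : MvPolynomial (Fin N) KK) (ha : a ∈ PM N) : p * a ∈ PM N := by
  obtain ⟨r, hr, rfl⟩ := hp
  intro m
  rw [MvPolynomial.algebraMap_eq, MvPolynomial.coeff_C_mul]
  exact Kpos.mul_mem hr (ha m)

theorem C_mul_PE (N : ℕ) (p : MvPolynomial (Fin N) KK)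
    (hp : p ∈ Kpos.map (algebraMap KK (MvPolynomial (Fin N) KK)))
    (a : MvPolynomial (Fin N) KK) (ha : a ∈ PE N) : p * a ∈ PE N := by
  obtain ⟨r, hr, rfl⟩ := hp
  exact (PE N).mul_mem (Subsemiring.subset_closure (Or.inl ⟨r, hr, rfl⟩)) ha

/-- crossing positivity after extension of the coefficients. -/
theorem crossPos_map (N : ℕ) {A : TPS (twK (form h))} (hA : A.co 0 = 1)
    (hcr : CrossPos (form h) Kpos A) :
    CrossPos (form h) (Kpos.map (algebraMap KK (MvPolynomial (Fin N) KK)))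
      (TPS.map (twK (form h)) (algebraMap KK (MvPolynomial (Fin N) KK)) A) := by
  intro V _ _ _ p c hp m
  set φ := algebraMap KK (MvPolynomial (Fin N) KK) with hφ
  have hY : Y ((twK (form h)).map φ) m = TPS.map (twK (form h)) φ (Y (twK (form h)) m) := by
    classical
    ext d
    rw [co_map, Y, Y, co_mono, co_mono]
    split_ifs <;> simp
  rw [zer_map φ p hA, hY]
  obtain ⟨h1, h2⟩ := hcr p c hp m
  constructor
  · intro hm
    obtain ⟨U, hU, hUe⟩ := h1 hm
    exact ⟨TPS.map _ φ U, fun d => ⟨U.co d, hU d, rfl⟩, by rw [← map_mul, ← map_mul, hUe]⟩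
  · intro hm
    obtain ⟨U, hU, hUe⟩ := h2 hm
    exact ⟨TPS.map _ φ U, fun d => ⟨U.co d, hU d, rfl⟩, by rw [← map_mul, ← map_mul, hUe]⟩

/-- **MAIN**: the thin coefficient lies in the `e`-cone. -/
theorem thin_mem_PE (hh : IsHessenberg h) (hc : Conn h) (N : ℕ)
    {AW : TPS (twK (form h))} (hAW : In1 (fun d => udeg n d = 0) AW)
    (hcr : CrossPos (form h) Kpos AW) (hbu : BendUnit h AW)
    (hF : ∀ {V : Type} [AddCommGroup V] [LinearOrder V] [IsOrderedAddMonoid V]
      (x : (Fin n →₀ ℕ) →+ V) (m : Fin n →₀ ℕ),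
      (conj x (TPS.map (twK (form h)) (algebraMap KK (MvPolynomial (Fin N) KK)) AW :
        TPS (tw (MvPolynomial (Fin N) KK) (form h))) (FF h N)).co m ∈ PM N) :
    (FF h N).co thin ∈ PE N := by
  classical
  set φ := algebraMap KK (MvPolynomial (Fin N) KK) with hφ
  set A : TPS (tw (MvPolynomial (Fin N) KK) (form h)) := TPS.map (twK (form h)) φ AW with hAdef
  have hA1 : In1 (fun d => udeg n d = 0) A := in1_map φ hAW
  have hA : A.co 0 = 1 := hA1.one
  have hcrA : CrossPos (form h) (Kpos.map φ) A := crossPos_map N hAW.one hcr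
  have hbuA : BendUnit h A := bendUnit_map φ hAW.one hbu
  have hβ : ∀ d e : Fin n →₀ ℕ, form h d e = 0 →
      (tw (MvPolynomial (Fin N) KK) (form h)).β d e =
        (tw (MvPolynomial (Fin N) KK) (form h)).β e d := by
    intro d e hde
    show form h d e = form h e d
    rw [form_skew h e d, hde, neg_zero]
  -- in the increasing chamber nothing is conjugated
  have hchamber : ∀ (x : (Fin n →₀ ℕ) →+ ℝ),
      (∀ (j : ℕ) (hj : j + 1 < n), x (Finsupp.single (⟨j + 1, hj⟩ : Fin n) 1) < 0) →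
      conj x A (FF h N) = FF h N := by
    intro x hx
    exact Good.conj_of_nonpos x (hA1.mono (fun d _ hd => degree_zero_nonpos x hx d hd)) _
  set T : (Fin n →₀ ℕ) → MvPolynomial (Fin N) KK := fun g => (conj (form h g) A (FF h N)).co g
    with hTdef
  have hTC : ∀ g, T g ∈ (PM N).toAddSubmonoid := fun g => hF (form h g) g
  have hT : ∀ g, ∀ {V : Type} [AddCommGroup V] [LinearOrder V] [IsOrderedAddMonoid V]
      (x : (Fin n →₀ ℕ) →+ V), (conj (lexF (form h g) x) A (FF h N)).co g = T g := by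
    intro g V _ _ _ x
    exact terminal_eq hA (FF h N) hβ x g
  have hbad : ∀ g : Fin n →₀ ℕ, (∃ c, Kill.phi h (uco g) c < 0) → T g = 0 := by
    rintro g ⟨c, hcneg⟩
    by_contra hne
    have h1 := path hh hc (tdata (s := form h) (form_skew h) hA hcrA (FF h N))
      (PM N).toAddSubmonoid (fun p hp a ha => C_mul_PM N p hp a ha)
      (fun a ha hna => PM_sal N a ha hna) (fullBend hA hcrA hbuA (FF h N)) T
      (fun g {V} _ _ _ x => hT g x) hTC
      (fun x hx m hm => by
        rw [tdata_c, hchamber x hx] at hm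
        exact Good.supp_FF h N m hm) g hne
    exact absurd hcneg (not_lt.2 (h1.2 c))
  have hPE : ∀ g, T g ∈ PE N := Good.T_mem h N A hbad
  -- a generic functional in the increasing chamber
  obtain ⟨x, hx, hxn, -⟩ := Step4.exists_gen (n := n) 1
  have hxneg : ∀ (j : ℕ) (hj : j + 1 < n),
      xM x (Finsupp.single (⟨j + 1, hj⟩ : Fin n) 1) < 0 := by
    intro j hj
    have := hxn j hj
    rw [Step4.wv_eq hj] at this
    rw [xM_apply, uco_single, Path227.W_eq]
    exact this
  have h1 := (trans_pos (form_skew h) hβ hA hcrA (FF h N) (PE N).toAddSubmonoid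
    (fun p hp a ha => C_mul_PE N p hp a ha) thin (fun g _ => hPE g) (xM x) (gen_inj hx)).1
  rw [hchamber _ hxneg] at h1
  exact h1

/-- what is needed for one connected graph. -/
structure Input (h : Fin n → ℕ) : Prop where
  ex : ∃ AW : TPS (twK (form h)), In1 (fun d => udeg n d = 0) AW ∧
    CrossPos (form h) Kpos AW ∧ BendUnit h AW ∧
    ∀ (N : ℕ) {V : Type} [AddCommGroup V] [LinearOrder V] [IsOrderedAddMonoid V]
      (x : (Fin n →₀ ℕ) →+ V) (m : Fin n →₀ ℕ),
      (conj x (TPS.map (twK (form h)) (algebraMap KK (MvPolynomial (Fin N) KK)) AW :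
        TPS (tw (MvPolynomial (Fin N) KK) (form h))) (FF h N)).co m ∈ PM N

/-- **S0081** from the inputs of all connected graphs. -/
theorem main_of_input (H : ∀ (n : ℕ) (h : Fin n → ℕ), IsHessenberg h → Conn h → Input h) :
    ∀ (n : ℕ) (h : Fin n → ℕ), IsHessenberg h →
      ∃ θ : {σ : Equiv.Perm (Fin n) // σ ∈ descentSet h} → Nat.Partition n,
        ∀ N : ℕ, chromaticQSym h N =
          ∑ σ : {σ : Equiv.Perm (Fin n) // σ ∈ descentSet h},
            MvPolynomial.C (Polynomial.X ^ ginv h σ.1) *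
              MvPolynomial.esymmPart (Fin N) (Polynomial ℤ) (θ σ) :=
  Final157.main_of_thin (fun n h hh hc => by
    obtain ⟨AW, h1, h2, h3, h4⟩ := (H n h hh hc).ex
    exact ⟨n, le_rfl, thin_mem_PE hh hc n h1 h2 h3 (fun {V} _ _ _ x m => h4 n x m)⟩)

end main

end Crest.Agent.R059.MainT2

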