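import Crest.Agent.R059.Mu2_456

set_option autoImplicit false
set_option linter.unusedSectionVars false

/-!
Row 59 (S0081), leaf MUT, part 4 (helper456): the mutation of a plain element is plain.
-/

namespace Crest.Agent.R059.Mut456

open Finset TPS HasAntidiagonal Finsupp Mu MutIso

variable {ι : Type*} [DecidableEq ι] {R : Type*} [CommRing R] {T T' : Tw (ι →₀ ℕ) R}
  {c : (ι →₀ ℕ) →+ ℕ} {k : ι}

theorem cap_add_single (hc : c (single k 1) = 0) (m : ι →₀ ℕ) (b : ℕ) :
    c (m + single k b) = c m := by
  rw [map_add, single_eq_nsmul, map_nsmul, hc]; simp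

theorem til_string (hc : c (single k 1) = 0) {m : ι →₀ ℕ} (hm : m k = 0) (b : ℕ) :
    til c k (m + single k b) = m + single k (c m - b) := by
  unfold til
  rw [erase_single_add k hm, cap_add_single hc, Finsupp.add_apply, hm]
  simp

theorem cp_string (hc : c (single k 1) = 0) {m : ι →₀ ℕ} (hm : m k = 0) (b : ℕ) :
    Cp c k (m + single k b) ↔ b ≤ c m := by
  unfold Cp
  rw [cap_add_single hc, Finsupp.add_apply, hm]
  simp

theorem str_tilS (hc : c (single k 1) = 0) (hv : T'.v = T.v) {B : TPS T} {m : ι →₀ ℕ}
    (hm : m k = 0) (hβ : T'.β m (single k 1) = - T.β m (single k 1)) :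
    str T' k m (tilS c k T' B) = refl T.v (T.β m (single k 1)) (c m) (str T k m B) := by
  ext b
  rw [coeff_str, coeff_refl, hv, hβ]
  by_cases hb : b ≤ c m
  · rw [if_pos hb, co_tilS_of ((cp_string hc hm b).2 hb), til_string hc hm, coeff_str,
      ← mul_assoc, ← Units.val_mul, ← zpow_add]
    congr 3
    push_cast [Nat.cast_sub hb]
    ring
  · rw [if_neg hb, co_tilS_not (fun h => hb ((cp_string hc hm b).1 h)), mul_zero]

theorem eq_of_str {f g : TPS T} (k : ι) (h : ∀ m : ι →₀ ℕ, m k = 0 → str T k m f = str T k m g) :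
    f = g := by
  ext d
  rw [← split_k k d, str_co, str_co, h _ (by simp)]

theorem Capped.str_bound (hc : c (single k 1) = 0) {B : TPS T} (hB : Capped c k B)
    {m : ι →₀ ℕ} (hm : m k = 0) : ∀ a, c m < a → PowerSeries.coeff a (str T k m B) = 0 :=
  coeff_str_zero fun a ha => hB.co_not fun h => absurd ((cp_string hc hm a).1 h) (not_le.2 ha)

/-- the two expressions of the mutated element. -/
theorem two_forms (hs : ∀ a b, T.β a b = - T.β b a) (hs' : ∀ a b, T'.β a b = - T'.β b a)
    (hv : T'.v = T.v) {c' : (ι →₀ ℕ) →+ ℕ} (hc : c (single k 1) = 0)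
    (hc' : c' (single k 1) = 0)
    (hcc : ∀ m, (c' m : ℤ) = c m + T.β m (single k 1))
    (hβ : ∀ m, T'.β m (single k 1) = - T.β m (single k 1)) {p : PowerSeries R}
    (hp : QD T.v p) (h1 : PowerSeries.constantCoeff p = 1) {B B' : TPS T}
    (hBB : evk T k p * B = B' * evk T k p) (hB : Capped c k B) (hB' : Capped c' k B') :
    tilS c k T' B * evk T' k p = evk T' k p * tilS c' k T' B' := by
  apply eq_of_str k
  intro m hm
  rw [str_mul_evk hs' k p _ hm, str_evk_mul hs' k p _ hm, str_tilS hc hv hm (hβ m),
    str_tilS hc' hv hm (hβ m), hv, hβ m]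
  exact refl_rel hp h1 (hcc m) (Capped.str_bound hc hB hm) (Capped.str_bound hc' hB' hm)
    (str_rel hs k hBB hm)

theorem mutTw_skew (hs : ∀ a b, T.β a b = - T.β b a) (c : (ι →₀ ℕ) →+ ℕ) (k : ι) :
    ∀ a b, (mutTw T c k).β a b = - (mutTw T c k).β b a :=
  mutForm_skew T.β c k hs

theorem mutTw_right (hs : ∀ a b, T.β a b = - T.β b a) (hc : c (single k 1) = 0) (m : ι →₀ ℕ) :
    (mutTw T c k).β m (single k 1) = - T.β m (single k 1) :=
  mutForm_self_right T.β hc (β_self hs _) m

theorem β_erase (hs : ∀ a b, T.β a b = - T.β b a) (k : ι) (m : ι →₀ ℕ) :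
    T.β (m.erase k) (single k 1) = T.β m (single k 1) := by
  conv_rhs => rw [← split_k k m]
  rw [map_add, AddMonoidHom.add_apply, β_single_single hs k (m k) 1, add_zero]

/-- the second involution. -/
theorem rel_mut' (hs : ∀ a b, T.β a b = - T.β b a) (k : ι) :
    Rel (capOf (-T.β) k) k T (mutTw T (capOf T.β k) k) := by
  refine ⟨rfl, fun a b ha hb => ?_⟩
  show mutForm T.β (capOf T.β k) k _ _ = _
  have hdl : ∀ m, Cp (capOf (-T.β) k) k m →
      dl (capOf T.β k) k (til (capOf (-T.β) k) k m) = (m k : ℤ) - T.β m (single k 1) := by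
    intro m hm
    have e1 : capOf T.β k (til (capOf (-T.β) k) k m) = capOf T.β k m := by
      rw [cap_split (capOf_self _ _), til_erase, ← cap_split (capOf_self _ _)]
    have e2 := caps_rel hs k m
    rw [dl_apply, e1, til_apply_self]
    unfold Cp at hm
    rw [Nat.cast_sub hm]
    omega
  rw [mutForm_apply, til_erase, til_erase, hdl a ha, hdl b hb, form_split T.β k a b,
    β_self hs (single k 1), ← β_erase hs k a, ← β_erase hs k b, hs (single k 1) (b.erase k)]
  ring

theorem lamz_not_capped (h : (ι →₀ ℕ) →+ R) {f : TPS T} (hf : Capped c k f) (h0 : f.co 0 = 1)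
    {d : ι →₀ ℕ} (hd : ¬ Cp c k d) : lamz T h d f = 0 :=
  lam_not_capped h (hf.zer h0 _) ((hf.zer h0 _).inv (zer_co_zero _ _)) hd

theorem lamz_til (hc : c (single k 1) = 0) (H : Rel c k T T') (h : (ι →₀ ℕ) →+ R)
    {f : TPS T} (hf : Capped c k f) (h0 : f.co 0 = 1) {d : ι →₀ ℕ} (hd : Cp c k d) :
    lamz T' (flipF c k h) (til c k d) (tilS c k T' f) = lamz T h d f := by
  unfold lamz
  rw [tilS_zer_att hc H hd hf h0, ← tilS_inv hc H (hf.zer h0 _) (zer_co_zero _ _),
    lam_til hc H h (hf.zer h0 _) ((hf.zer h0 _).inv (zer_co_zero _ _)) hd]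

theorem til_fix (hc : c (single k 1) = 0) {i : ι} (hi : i ≠ k) (hci : c (single i 1) = 0)
    (j : ℕ) : til c k (single i j) = single i j := by
  ext l
  by_cases hl : l = k
  · subst hl
    rw [til_apply_self, single_eq_nsmul i j, map_nsmul, hci]
    simp [Finsupp.single_apply, hi]
  · rw [til_apply_ne _ hl]

/-- transfer of the attractor data off the node `k`. -/
theorem transfer (hs' : ∀ a b, T'.β a b = - T'.β b a) {h : (ι →₀ ℕ) →+ R}
    (hreg : ∀ d, d ≠ 0 → IsLeftRegular (h d)) (hc : c (single k 1) = 0)
    (H : Rel c k T T') {p : PowerSeries R} {A B : TPS T} (hA : Plain T h p A)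
    (hB : Capped c k B) (h0 : B.co 0 = 1) {d : ι →₀ ℕ} (hd : d ≠ single k (d k))
    (hAB : lamz T h (til c k d) B = lamz T h (til c k d) A)
    (hnode : ∀ i j, i ≠ k → 0 < j → (d = single i j ∨ til c k d = single i j) →
      c (single i 1) = 0) :
    (∀ i j, 0 < j → d = single i j →
      lamz T' h d (tilS c k T' B) = kap (fun j => h (single i j)) p j) ∧
    ((∀ i j, d ≠ single i j) → lamz T' h d (tilS c k T' B) = 0) := by
  have hd0 : d ≠ 0 := by rintro rfl; exact hd (by simp)
  have h0' : (tilS c k T' B).co 0 = 1 := by rw [tilS_co_zero, h0]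
  by_cases hcd : Cp c k d
  · have hcd0 : Cp c k (til c k d) := Cp.til hc d
    have htt : til c k (til c k d) = d := til_til hc hcd
    have htd0 : til c k d ≠ 0 := fun h => hd0 ((til_eq_zero hc hcd).1 h)
    have e1 := lamz_cross hs' h (flipF c k h) d (tilS c k T' B)
    have e2 : flipF c k h d = h (til c k d) := by
      conv_lhs => rw [← htt]
      exact flipF_til hc h hcd0
    have e3 : lamz T' (flipF c k h) d (tilS c k T' B) = lamz T h (til c k d) A := by
      have := lamz_til hc H h hB h0 hcd0
      rw [htt] at this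
      rw [this, hAB]
    rw [e2, e3] at e1
    constructor
    · intro i j hj hdij
      have hi : i ≠ k := by
        rintro rfl
        apply hd
        rw [hdij]; simp
      have hci := hnode i j hi hj (Or.inl hdij)
      have htd : til c k d = d := by rw [hdij]; exact til_fix hc hi hci j
      rw [htd, hdij, hA.node i j hj, ← hdij] at e1
      exact hreg d hd0 e1
    · intro hns
      have hns0 : ∀ i j, til c k d ≠ single i j := by
        intro i j hij
        by_cases hi : i = k
        · subst hi
          apply hd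
          have h3 : d.erase i = 0 := by
            rw [← til_erase (c := c) d, hij]
            ext l; by_cases hl : l = i <;> simp [hl]
          have := split_k i d
          rw [h3, zero_add] at this
          exact this.symm
        · rcases Nat.eq_zero_or_pos j with hj | hj
          · apply htd0; rw [hij, hj, single_zero]
          · have hci := hnode i j hi hj (Or.inr hij)
            apply hns i j
            rw [← htt, hij]
            exact til_fix hc hi hci j
      rw [hA.zero _ hns0, mul_zero] at e1
      apply hreg _ htd0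
      show _ = h (til c k d) * 0
      rw [mul_zero]
      exact e1
  · have e0 := lamz_not_capped h (capped_tilS (T' := T') B) h0' hcd
    refine ⟨fun i j hj hdij => ?_, fun _ => e0⟩
    exfalso
    have hi : i ≠ k := by
      rintro rfl
      apply hd
      rw [hdij]; simp
    apply hcd
    unfold Cp
    rw [hdij, Finsupp.single_eq_of_ne (Ne.symm hi)]
    exact Nat.zero_le _

/-- **Mutation of a plain element.**  `B = P_k⁻¹ A`, `B' = A P_k⁻¹`. -/
theorem Plain.mutate (hs : ∀ a b, T.β a b = - T.β b a) {h : (ι →₀ ℕ) →+ R}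
    (hreg : ∀ d, d ≠ 0 → IsLeftRegular (h d)) (k : ι) {p : PowerSeries R}
    (hp : QD T.v p) (h1 : PowerSeries.constantCoeff p = 1) {A B B' : TPS T}
    (hA : Plain T h p A) (hB : B.co 0 = 1) (hB' : B'.co 0 = 1)
    (e1 : evk T k p * B = A) (e2 : B' * evk T k p = A) :
    Plain (mutTw T (capOf T.β k) k) h p
      (tilS (capOf T.β k) k (mutTw T (capOf T.β k) k) B *
        evk (mutTw T (capOf T.β k) k) k p) ∧
    tilS (capOf T.β k) k (mutTw T (capOf T.β k) k) B *
        evk (mutTw T (capOf T.β k) k) k p =
      evk (mutTw T (capOf T.β k) k) k p *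
        tilS (capOf (-T.β) k) k (mutTw T (capOf T.β k) k) B' := by
  obtain ⟨bB, bB'⟩ := hA.bound hs hreg hp h1 hB hB' e1 e2
  have hBB : evk T k p * B = B' * evk T k p := by rw [e1, e2]
  have hc := capOf_self T.β k
  have hc' := capOf_self (-T.β) k
  have hs' := mutTw_skew hs (capOf T.β k) k
  have H := rel_mut (T := T) hc
  have H' := rel_mut' hs k
  have hβ := mutTw_right (T := T) hs hc
  have two := two_forms (T' := mutTw T (capOf T.β k) k) hs hs' rfl hc hc' (caps_rel hs k)
    hβ hp h1 hBB bB bB'
  refine ⟨?_, two⟩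
  have hz : (tilS (capOf T.β k) k (mutTw T (capOf T.β k) k) B).co 0 = 1 := by
    rw [tilS_co_zero, hB]
  have hz' : (tilS (capOf (-T.β) k) k (mutTw T (capOf T.β k) k) B').co 0 = 1 := by
    rw [tilS_co_zero, hB']
  -- off the node
  have off : ∀ d : ι →₀ ℕ, d ≠ single k (d k) →
      (∀ i j, 0 < j → d = single i j →
        lamz (mutTw T (capOf T.β k) k) h d
          (tilS (capOf T.β k) k (mutTw T (capOf T.β k) k) B *
            evk (mutTw T (capOf T.β k) k) k p) = kap (fun j => h (single i j)) p j) ∧
      ((∀ i j, d ≠ single i j) → lamz (mutTw T (capOf T.β k) k) h d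
          (tilS (capOf T.β k) k (mutTw T (capOf T.β k) k) B *
            evk (mutTw T (capOf T.β k) k) k p) = 0) := by
    intro d hd
    have hβtil : ∀ c : (ι →₀ ℕ) →+ ℕ, T.β (til c k d) (single k 1) = T.β d (single k 1) := by
      intro c
      rw [← β_erase hs k (til c k d), til_erase, β_erase hs]
    have htil : ∀ c : (ι →₀ ℕ) →+ ℕ, til c k d ≠ single k (til c k d k) := by
      intro c h0
      apply hd
      have h3 : d.erase k = 0 := by
        rw [← til_erase (c := c) d, h0]
        ext l; by_cases hl : l = k <;> simp [hl]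
      have := split_k k d
      rw [h3, zero_add] at this
      exact this.symm
    have hsgn : ∀ c : (ι →₀ ℕ) →+ ℕ, ∀ i j, 0 < j → (d = single i j ∨ til c k d = single i j) →
        T.β d (single k 1) = j * T.β (single i 1) (single k 1) := by
      intro c i j _ hor
      rcases hor with h3 | h3
      · rw [h3, β_single_left]
      · rw [← hβtil c, h3, β_single_left]
    rcases le_total ((mutTw T (capOf T.β k) k).β d (single k 1)) 0 with hK | hK
    · have hK2 : 0 ≤ T.β d (single k 1) := by rw [hβ] at hK; omega
      rw [lamz_mul_evk hs' h k h1 hK hd hz]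
      apply transfer hs' hreg hc H hA bB hB hd
      · rw [← e1, lamz_evk_mul hs h k h1 (by rw [hβtil]; exact hK2) (htil _) hB]
      · intro i j hi hj hor
        rw [capOf_single_one _ hi]
        have h4 := hsgn _ i j hj hor
        rw [h4] at hK2
        have h5 : 0 ≤ T.β (single i 1) (single k 1) := by
          by_contra hneg
          have : (j : ℤ) * T.β (single i 1) (single k 1) < 0 :=
            mul_neg_of_pos_of_neg (by exact_mod_cast hj) (not_le.1 hneg)
          omega
        rw [hs (single k 1) (single i 1)]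
        exact Int.toNat_of_nonpos (by omega)
    · have hK2 : T.β d (single k 1) ≤ 0 := by rw [hβ] at hK; omega
      rw [two, lamz_evk_mul hs' h k h1 hK hd hz']
      apply transfer hs' hreg hc' H' hA bB' hB' hd
      · rw [← e2, lamz_mul_evk hs h k h1 (by rw [hβtil]; exact hK2) (htil _) hB']
      · intro i j hi hj hor
        rw [capOf_single_one _ hi]
        have h4 := hsgn _ i j hj hor
        rw [h4] at hK2
        have h5 : T.β (single i 1) (single k 1) ≤ 0 := by
          by_contra hneg
          have : 0 < (j : ℤ) * T.β (single i 1) (single k 1) :=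
            mul_pos (by exact_mod_cast hj) (not_le.1 hneg)
          omega
        show Int.toNat (-(T.β (single k 1) (single i 1))) = 0
        rw [hs (single k 1) (single i 1), neg_neg]
        exact Int.toNat_of_nonpos h5
  refine ⟨?_, ?_, ?_⟩
  · rw [co_mul_zero', hz, co_evk_zero k h1, one_mul]
  · intro i j hj
    by_cases hi : i = k
    · subst hi
      rw [lamz_mul_evk_node hs' h i h1 j hz]
      have hnc : ¬ Cp (capOf T.β i) i (single i j) := by
        unfold Cp
        rw [single_eq_nsmul i j, map_nsmul, capOf_self]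
        simp
        omega
      rw [lamz_not_capped h (capped_tilS B) hz hnc, zero_add]
    · refine (off (single i j) ?_).1 i j hj rfl
      intro h0
      rw [Finsupp.single_eq_of_ne (Ne.symm hi), single_zero, Finsupp.single_eq_zero] at h0
      omega
  · intro d hns
    exact (off d (hns _ _)).2 hns

end Crest.Agent.R059.Mut456
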