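import Crest.Agent.R059.Wall4_999
import Crest.Agent.R059.CrossGlue_998
import Crest.Agent.R059.ChainA_231
import Crest.Agent.R059.FrameK_436
import Crest.Agent.R059.FrameP_436
import Crest.Agent.R059.Mu3_456
import Crest.Agent.R059.MainT2_227
import Crest.Agent.R059.Att_201

/-!
Row 59 (S0081), helper227.  Final composition: from the output `ABOut` of Theorems A + B and the
mutation lemma to the literal statement.
-/

set_option autoImplicit false
set_option linter.unusedSectionVars false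

open Crest.CombinatoricsR.UnitInterval Crest.Agent.R059.MutConn

namespace Crest.Agent.R059.Glue227

open Crest.Agent.R059 TPS Trans569 EPsi998 Dilog344 Wall999 Frame436 MutIso CrossGlue998 Tr201

section exist

variable {ι : Type} [DecidableEq ι]

/-- the total degree with values in `KK`. -/
noncomputable def hdeg (ι : Type) : (ι →₀ ℕ) →+ KK :=
  (Nat.castAddMonoidHom KK).comp Finsupp.degree

theorem hdeg_apply (d : ι →₀ ℕ) : hdeg ι d = ((Finsupp.degree d : ℕ) : KK) := rfl

theorem natCast_KK_ne (n : ℕ) (hn : n ≠ 0) : (n : KK) ≠ 0 := by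
  intro h
  have h1 := congrArg (fun f : KK => HahnSeries.coeff f 0) h
  have h2 : (n : KK) = HahnSeries.C (n : ℚ) := by simp
  simp only [h2, HahnSeries.C_apply, HahnSeries.coeff_single_same, HahnSeries.coeff_zero] at h1
  exact hn (by exact_mod_cast h1)

theorem hdeg_eq {I : Type} [Fintype I] [DecidableEq I] : hdeg I = (hK : (I →₀ ℕ) →+ KK) := rfl

theorem hdeg_ne (d : ι →₀ ℕ) (hd : d ≠ 0) : hdeg ι d ≠ 0 := by
  rw [hdeg_apply]
  exact natCast_KK_ne _ (fun h => hd ((Finsupp.degree_eq_zero_iff d).1 h))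

/-- **existence** of a plain element. -/
theorem exists_plain {β : (ι →₀ ℕ) →+ (ι →₀ ℕ) →+ ℤ} (hβ : ∀ a b, β a b = - β b a)
    (nd : ι → TPS (twK β)) : ∃ A : TPS (twK β), PlainData (hdeg ι) nd A := by
  classical
  let c : (ι →₀ ℕ) → KK := fun d =>
    if hd : ∃ i, d = Finsupp.single i (d i) then
      lam (hdeg ι) d (nd hd.choose) (TPS.inv (nd hd.choose)) else 0
  have hc1 : ∀ (i : ι) (k : ℕ), 0 < k → c (Finsupp.single i k) =
      lam (hdeg ι) (Finsupp.single i k) (nd i) (TPS.inv (nd i)) := by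
    intro i k hk
    have hd : ∃ j, (Finsupp.single i k : ι →₀ ℕ) =
        Finsupp.single j ((Finsupp.single i k : ι →₀ ℕ) j) := ⟨i, by simp⟩
    have he : hd.choose = i := by
      by_contra hne
      have h1 := hd.choose_spec
      rw [Finsupp.single_eq_of_ne hne, Finsupp.single_zero, Finsupp.single_eq_zero] at h1
      omega
    show (if hd : ∃ j, (Finsupp.single i k : ι →₀ ℕ) =
        Finsupp.single j ((Finsupp.single i k : ι →₀ ℕ) j) then
      lam (hdeg ι) _ (nd hd.choose) (TPS.inv (nd hd.choose)) else 0) = _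
    rw [dif_pos hd, he]
  have hc0 : ∀ d : ι →₀ ℕ, (∀ i k, d ≠ Finsupp.single i k) → c d = 0 := by
    intro d hd
    show (if hd : ∃ j, d = Finsupp.single j (d j) then
      lam (hdeg ι) _ (nd hd.choose) (TPS.inv (nd hd.choose)) else 0) = _
    rw [dif_neg]
    rintro ⟨j, hj⟩
    exact hd _ _ hj
  have hdat : ∀ d : ι →₀ ℕ, d ≠ 0 →
      lam (hdeg ι) d (zer ((twK β).β d) (Att201.attr (twK β) (hdeg ι) c))
        (TPS.inv (zer ((twK β).β d) (Att201.attr (twK β) (hdeg ι) c))) = c d := fun d hd =>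
    Att201.dat_attr (T := twK β) hβ (hdeg ι) c hd (isUnit_iff_ne_zero.2 (hdeg_ne d hd))
  refine ⟨Att201.attr (twK β) (hdeg ι) c, Att201.attr_zero _ _, ?_, ?_⟩
  · intro i k hk
    rw [hdat _ (by rw [Ne, Finsupp.single_eq_zero]; omega), hc1 i k hk]
  · intro d hd h
    rw [hdat d hd, hc0 d h]

end exist

section frame

variable {ι : Type} [DecidableEq ι] {R : Type*} [CommRing R]

theorem emb_der {T : Tw (ι →₀ ℕ) R} {δ : (ι →₀ ℕ) →+ ℕ} (h : (Option ι →₀ ℕ) →+ R) (a : TPS T) :
    der h ((embF T δ).hom a) = (embF T δ).hom (der (h.comp inc) a) := by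
  ext d
  by_cases hd : d ∈ Set.range (embF T δ).j
  · obtain ⟨m, rfl⟩ := hd
    rw [co_der, Sc998.Emb.co_hom_j, Sc998.Emb.co_hom_j, co_der]
    rfl
  · rw [co_der, Sc998.Emb.co_hom_off _ _ hd, Sc998.Emb.co_hom_off _ _ hd, mul_zero]

theorem emb_lam {T : Tw (ι →₀ ℕ) R} {δ : (ι →₀ ℕ) →+ ℕ} (h : (Option ι →₀ ℕ) →+ R)
    {a : TPS T} (ha : a.co 0 = 1) (m : ι →₀ ℕ) :
    lam h (inc m) ((embF T δ).hom a) (TPS.inv ((embF T δ).hom a)) =
      lam (h.comp inc) m a (TPS.inv a) := by
  rw [lam, emb_der, (grd_hom (embF T δ)).inv ha, ← map_mul]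
  exact Sc998.Emb.co_hom_j _ _ _

theorem emb_lam_off {T : Tw (ι →₀ ℕ) R} {δ : (ι →₀ ℕ) →+ ℕ} (h : (Option ι →₀ ℕ) →+ R)
    {a : TPS T} (ha : a.co 0 = 1) (d : Option ι →₀ ℕ) (hd : d none ≠ 0) :
    lam h d ((embF T δ).hom a) (TPS.inv ((embF T δ).hom a)) = 0 := by
  rw [lam, emb_der, (grd_hom (embF T δ)).inv ha, ← map_mul]
  refine Sc998.Emb.co_hom_off _ _ ?_
  rintro ⟨m, rfl⟩
  exact hd (inc_none m)

theorem emb_pw {T : Tw (ι →₀ ℕ) R} {δ : (ι →₀ ℕ) →+ ℕ} (c : ι →₀ ℕ) (k : ℕ) :
    pw T c k = pw (frame T δ) (inc c) k := by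
  induction k with
  | zero => rfl
  | succ k ih =>
    show pw T c k * wt T (k • c) c = pw (frame T δ) (inc c) k * wt (frame T δ) (k • inc c) (inc c)
    rw [ih, ← map_nsmul]
    congr 1
    exact ((embF T δ).wt_eq (k • c) c).symm

theorem emb_ev {T : Tw (ι →₀ ℕ) R} {δ : (ι →₀ ℕ) →+ ℕ} {c : ι →₀ ℕ} (hc : c ≠ 0)
    (p : PowerSeries R) : (embF T δ).hom (ev T c p) = ev (frame T δ) (inc c) p := by
  have hc1 := nsmul_inj hc
  have hc2 : Function.Injective (fun k : ℕ => k • (inc c : Option ι →₀ ℕ)) :=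
    nsmul_inj (fun h => hc (inc_eq_zero.1 h))
  ext d
  by_cases hd : d ∈ Set.range (embF T δ).j
  · obtain ⟨m, rfl⟩ := hd
    rw [Sc998.Emb.co_hom_j]
    by_cases hm : ∃ k : ℕ, m = k • c
    · obtain ⟨k, rfl⟩ := hm
      rw [co_ev_nsmul hc1]
      have : (embF T δ).j (k • c) = k • inc c := by
        rw [map_nsmul]; rfl
      rw [this, co_ev_nsmul hc2]
      congr 1
      exact emb_pw c k
    · push Not at hm
      rw [co_ev_of_not _ hm, co_ev_of_not]
      intro k hk
      apply hm k
      have : inc m = inc (k • c) := by rw [map_nsmul]; exact hk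
      exact inc_injective this
  · rw [Sc998.Emb.co_hom_off _ _ hd, co_ev_of_not]
    intro k hk
    apply hd
    refine ⟨k • c, ?_⟩
    rw [hk]
    show inc (k • c) = _
    rw [map_nsmul]

theorem inc_single' (i : ι) (k : ℕ) :
    (inc (Finsupp.single i k) : Option ι →₀ ℕ) = Finsupp.single (some i) k := by
  ext j
  cases j with
  | none => simp
  | some j =>
    rw [inc_some]
    by_cases h : i = j
    · subst h; simp
    · rw [Finsupp.single_eq_of_ne (Ne.symm h), Finsupp.single_eq_of_ne]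
      intro h'; exact h (Option.some_injective _ h').symm

/-- the nodes of the framed ring. -/
noncomputable def ndF {T : Tw (ι →₀ ℕ) R} (δ : (ι →₀ ℕ) →+ ℕ) (nd : ι → TPS T) :
    Option ι → TPS (frame T δ)
  | none => 1
  | some i => (embF T δ).hom (nd i)

/-- plain data in the framed ring. -/
theorem plain_frame {T : Tw (ι →₀ ℕ) R} {δ : (ι →₀ ℕ) →+ ℕ} {h : (ι →₀ ℕ) →+ R}
    (h' : (Option ι →₀ ℕ) →+ R) (hh : ∀ m, h' (inc m) = h m) {nd : ι → TPS T}
    (hnd : ∀ i, (nd i).co 0 = 1) {A : TPS T} (hA : PlainData h nd A) :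
    PlainData h' (ndF δ nd) ((embF T δ).hom A) := by
  have hcomp : h'.comp inc = h := DFunLike.ext _ _ hh
  have hz : ∀ d : Option ι →₀ ℕ, zer ((frame T δ).β d) ((embF T δ).hom A) =
      (embF T δ).hom (zer (((frame T δ).β d).comp inc) A) := fun d =>
    (grd_hom (embF T δ)).zer ((frame T δ).β d) hA.one
  have hinc : ∀ m : ι →₀ ℕ, ((frame T δ).β (inc m)).comp inc = T.β m := by
    intro m
    refine DFunLike.ext _ _ fun b => ?_
    show (frame T δ).β (inc m) (inc b) = _
    rw [frame_β_inc]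
  have hon : ∀ m : ι →₀ ℕ, lam h' (inc m) (zer ((frame T δ).β (inc m)) ((embF T δ).hom A))
      (TPS.inv (zer ((frame T δ).β (inc m)) ((embF T δ).hom A))) =
      lam h m (zer (T.β m) A) (TPS.inv (zer (T.β m) A)) := by
    intro m
    rw [hz, hinc, emb_lam h' (zer_co_zero _ _), hcomp]
  have hoff : ∀ d : Option ι →₀ ℕ, d none ≠ 0 →
      lam h' d (zer ((frame T δ).β d) ((embF T δ).hom A))
      (TPS.inv (zer ((frame T δ).β d) ((embF T δ).hom A))) = 0 := by
    intro d hd
    rw [hz, emb_lam_off h' (zer_co_zero _ _) d hd]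
  refine ⟨?_, ?_, ?_⟩
  · exact (grd_hom (embF T δ)).one hA.one
  · intro i k hk
    cases i with
    | none =>
      rw [hoff _ (by simp; omega)]
      show _ = lam h' _ (1 : TPS (frame T δ)) (TPS.inv 1)
      rw [TPS.inv_one, lam_one]
    | some i =>
      rw [← inc_single', hon, hA.node i k hk]
      show _ = lam h' _ ((embF T δ).hom (nd i)) (TPS.inv ((embF T δ).hom (nd i)))
      rw [emb_lam h' (hnd i), hcomp]
  · intro d hd hs
    by_cases h0 : d none = 0
    · rw [← inc_rs h0, hon]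
      apply hA.zero
      · intro h1
        apply hd
        rw [← inc_rs h0, h1, map_zero]
      · intro i k hik
        apply hs (some i) k
        rw [← inc_rs h0, hik, inc_single']
    · exact hoff d h0

end frame

section binding

variable {I : Type} [Fintype I] [DecidableEq I]

/-- existence, in the language of Wall4. -/
theorem exists_plainS {β : (I →₀ ℕ) →+ (I →₀ ℕ) →+ ℤ} (hβ : ∀ a b, β a b = - β b a)
    (S : Set I) : ∃ A : TPS (twK β), PlainS β S A :=
  exists_plain hβ (ndS β S)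

theorem ndS_co_zero (β : (I →₀ ℕ) →+ (I →₀ ℕ) →+ ℤ) (S : Set I) (i : I) :
    (ndS β S i).co 0 = 1 := (in1_ndS β S i).one

theorem ndF_eq (β : (I →₀ ℕ) →+ (I →₀ ℕ) →+ ℤ) (δ : (I →₀ ℕ) →+ ℕ) :
    ndF δ (ndS β Set.univ) =
      (ndS (frame (twK β) δ).β (Set.range some) : Option I → TPS (twK (frame (twK β) δ).β)) := by
  funext i
  cases i with
  | none =>
    unfold ndS
    rw [if_neg (by simp)]
    rfl
  | some i =>
    unfold ndS
    rw [if_pos ⟨i, rfl⟩]
    show (embF (twK β) δ).hom (ndS β Set.univ i) = _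
    unfold ndS
    rw [if_pos (Set.mem_univ i), ← inc_single' i 1]
    exact emb_ev (single_ne i) _

theorem plainS_frame {β : (I →₀ ℕ) →+ (I →₀ ℕ) →+ ℤ} {A : TPS (twK β)}
    (hA : PlainS β Set.univ A) (δ : (I →₀ ℕ) →+ ℕ) :
    PlainS (frame (twK β) δ).β (Set.range some) ((embF (twK β) δ).hom A) := by
  unfold PlainS
  rw [← ndF_eq]
  refine plain_frame _ (fun m => ?_) (ndS_co_zero β Set.univ) hA
  show ((Finsupp.degree (inc m) : ℕ) : KK) = ((Finsupp.degree m : ℕ) : KK)
  rw [degree_inc]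

end binding

section mutation

open Mut456 Mu

variable {n : ℕ}

/-- the node series `P(τ X)`. -/
noncomputable def pE : PowerSeries KK := Dilog344.EE vv true 1

theorem constantCoeff_pE : PowerSeries.constantCoeff pE = 1 := constantCoeff_EE _ _

theorem QD_pE : QD vv pE := by
  unfold QD pE
  rw [rescale_zpow_EE]
  have h := EE_shift (v := vv) qreg_vv true 1 1
  have e : (1 : ℤ) - 2 * ((1 : ℕ) : ℤ) = 1 + -2 := by norm_num
  rw [e] at h
  rw [h, mul_comm]
  congr 1
  unfold XF oddF
  simp only [cond_true, Finset.range_one, Finset.prod_singleton, pow_zero, one_mul]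
  norm_num

theorem evk_eq_ev (T : Tw (Fin n →₀ ℕ) KK) (hs : ∀ a b, T.β a b = - T.β b a) (k : Fin n)
    (p : PowerSeries KK) : ev T (Finsupp.single k 1) p = evk T k p := by
  have hcc : T.β (Finsupp.single k 1) (Finsupp.single k 1) = 0 := by
    have := hs (Finsupp.single k 1) (Finsupp.single k 1); omega
  have hc := nsmul_inj (single_ne k)
  ext d
  by_cases hd : d = Finsupp.single k (d k)
  · have h1 : d = d k • Finsupp.single k 1 := by
      conv_lhs => rw [hd]
      simp
    rw [hd, evk_single, ← hd]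
    conv_lhs => rw [h1]
    rw [co_ev_nsmul hc, pw_one_of _ hcc, mul_one]
  · rw [evk_ne hd, co_ev_of_not]
    intro j hj
    apply hd
    rw [hj]
    simp

theorem plain_iff {T : Tw (Fin n →₀ ℕ) KK} (hs : ∀ a b, T.β a b = - T.β b a) {A : TPS T} :
    PlainData hK (fun i => evk T i pE) A ↔ Plain T hK pE A := by
  constructor
  · intro h
    refine ⟨h.one, fun i j hj => ?_, fun d hd => ?_⟩
    · have := h.node i j hj
      rw [lam_evk hs hK i constantCoeff_pE] at this
      exact this
    · by_cases h0 : d = 0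
      · rw [h0, lamz, lam, co_mul_zero', co_der_zero, zero_mul]
      · exact h.zero d h0 hd
  · intro h
    refine ⟨h.one, fun i j hj => ?_, fun d _ hd => h.zero d hd⟩
    rw [lam_evk hs hK i constantCoeff_pE]
    exact h.node i j hj

/-- **CHAIN** with the mutation lemma of 456. -/
theorem chain_A (h : Fin n → ℕ) (hh : IsHessenberg h) (hc : Conn h) {A : TPS (twK (form h))}
    (hA : PlainS (form h) Set.univ A) :
    ∃ AW : TPS (twK (form h)), In1 (fun d => udeg n d = 0) AW ∧
      A = PsiT (twK (form h)) * AW := by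
  have hs : ∀ a b, (twK (form h)).β a b = - (twK (form h)).β b a := form_skew h
  have hPl : Plain (twK (form h)) hK pE A := by
    rw [← plain_iff hs]
    have he : (fun i => evk (twK (form h)) i pE) = ndS (form h) Set.univ := by
      funext i
      unfold ndS
      rw [if_pos (Set.mem_univ i), ← evk_eq_ev _ hs]
      rfl
    rw [he]
    exact hA
  rcases Nat.eq_zero_or_pos n with hn | hn
  · subst hn
    refine ⟨A, ⟨hA.one, fun d hd => absurd (Subsingleton.elim d 0) hd⟩, ?_⟩
    have : PsiT (twK (form h)) = 1 := by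
      unfold PsiT Psi
      simp
    rw [this, one_mul]
  · obtain ⟨Z, h1, h2, h3⟩ := Seeds231.chain h hh hc vv pE constantCoeff_pE
      (fun T A => Plain T hK pE A) (fun T hv hs k A hA => by
        have hp : QD T.v pE := by rw [hv]; exact QD_pE
        have hreg : ∀ d : Fin n →₀ ℕ, d ≠ 0 → IsLeftRegular (hK d : KK) := fun d hd =>
          (isUnit_iff_ne_zero.2 (hK_ne d hd)).isRegular.left
        have h0 := co_evk_zero (T := T) k constantCoeff_pE
        have e1 : evk T k pE * (TPS.inv (evk T k pE) * A) = A := by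
          rw [← mul_assoc, TPS.mul_inv h0, one_mul]
        have e2 : (A * TPS.inv (evk T k pE)) * evk T k pE = A := by
          rw [mul_assoc, TPS.inv_mul h0, mul_one]
        have hB : (TPS.inv (evk T k pE) * A).co 0 = 1 := by
          rw [co_mul_zero', TPS.inv_zero, hA.one, one_mul]
        have hB' : (A * TPS.inv (evk T k pE)).co 0 = 1 := by
          rw [co_mul_zero', TPS.inv_zero, hA.one, one_mul]
        have hb := hA.bound hs hreg hp constantCoeff_pE hB hB' e1 e2
        have hm := hA.mutate hs hreg k hp constantCoeff_pE hB hB' e1 e2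
        refine ⟨TPS.inv (evk T k pE) * A, hb.1, ?_, ?_⟩
        · rw [evk_eq_ev T hs, e1]
        · rw [evk_eq_ev _ (mutTw_skew hs (capOf T.β k) k)]
          exact hm.1) hn (twK (form h)) rfl rfl A hPl
    refine ⟨Z, ⟨?_, ?_⟩, ?_⟩
    · rw [h2 0 rfl, hA.one]
    · intro d _ hd
      by_contra hne
      apply hd
      rw [udeg_apply hn]
      exact h1 d hne
    · rw [PsiT_ofFn]
      exact h3

end mutation

section final

variable {n : ℕ}

theorem frame_twK {I : Type} (β : (I →₀ ℕ) →+ (I →₀ ℕ) →+ ℤ) (δ : (I →₀ ℕ) →+ ℕ) :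
    twK (frame (twK β) δ).β = frame (twK β) δ := rfl

/-- crossing positivity in the framed ring. -/
theorem crossPos_frame {I : Type} [Fintype I] [DecidableEq I] (hAB : ABOut)
    {β : (I →₀ ℕ) →+ (I →₀ ℕ) →+ ℤ} (hβ : ∀ a b, β a b = - β b a) {A : TPS (twK β)}
    (hA : PlainS β Set.univ A) (δ : (I →₀ ℕ) →+ ℕ) :
    CrossPos (frame (twK β) δ).β Kpos ((embF (twK β) δ).hom A : TPS (frame (twK β) δ)) :=
  crossPos_plain hAB (frame (twK β) δ).β (frame_skew (T := twK β) hβ) (Set.range some) _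
      (plainS_frame hA δ)

/-- everything for one connected graph, from the output of Theorems A + B. -/
theorem input_of_abOut (hAB : ABOut) (h : Fin n → ℕ) (hh : IsHessenberg h) (hc : Conn h) :
    MainT2.Input h := by
  obtain ⟨A, hA⟩ := exists_plainS (form_skew h) Set.univ
  obtain ⟨AW, hAW, hfac⟩ := chain_A h hh hc hA
  have hcrA : CrossPos (form h) Kpos A := crossPos_plain hAB (form h) (form_skew h) Set.univ A hA
  have hcrF : CrossPos (frame (twK (form h)) (udeg n)).β Kpos
      ((embF (twK (form h)) (udeg n)).hom A : TPS (frame (twK (form h)) (udeg n))) :=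
    crossPos_frame hAB (form_skew h) hA (udeg n)
  have hpw : MainT2.PlainWalls A := by
    intro V _ _ _ p j hj hker
    exact zer_plain (form h) (form_skew h) Set.univ A hA p ⟨j + 1, hj⟩ (Set.mem_univ _) hker
  rw [hfac] at hcrA hcrF hpw
  refine ⟨AW, hAW, ?_, ?_, ?_⟩
  · exact MainT2.crossPos_face (deg := udeg n) (Ψ := PsiT (twK (form h))) (aW := AW)
      (in1_PsiT (twK (form h))) hAW hcrA
  · exact MainT2.bendUnit_of_plain rfl (qreg_twK h)
      (MainT2.plainWalls_face (in1_PsiT (twK (form h))) hAW hpw)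
  · intro N V _ _ _ x m
    exact FF_pos h hh AW hAW hcrF x N m

/-- **S0081 from `ABOut`**. -/
theorem main (hAB : ABOut) :
    ∀ (n : ℕ) (h : Fin n → ℕ), IsHessenberg h →
      ∃ θ : {σ : Equiv.Perm (Fin n) // σ ∈ descentSet h} → Nat.Partition n,
        ∀ N : ℕ, chromaticQSym h N =
          ∑ σ : {σ : Equiv.Perm (Fin n) // σ ∈ descentSet h},
            MvPolynomial.C (Polynomial.X ^ ginv h σ.1) *
              MvPolynomial.esymmPart (Fin N) (Polynomial ℤ) (θ σ) :=
  MainT2.main_of_input fun _ h hh hc => input_of_abOut hAB h hh hc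

end final

end Crest.Agent.R059.Glue227
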