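import Mathlib
import Crest.Agent.R059.PL5_547

/-!
# Row 59, Theorem B, half 2 (helper547): the local data of 830's `Loc` at a place and a level
-/

set_option autoImplicit false
set_option linter.unusedSectionVars false

namespace Crest.Agent.R059.PL547

open MvPolynomial Finset Thin613 Deg359

attribute [local instance] Letters.lo

section loc

variable {I : Type} [Fintype I] [DecidableEq I] {k : I → I → ℕ} {θ : I → ℤ}
  {T : Type} [Fintype T] [LinearOrder T] {cl : T → I → ℕ} {d : I → ℕ} {𝓛 : Letters k θ cl}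

theorem Phi_eW (hkk : ∀ t t', kk k (cl t) (cl t') = kk k (cl t') (cl t)) {m : Pl cl d}
    {w : Equiv.Perm (Vt d)} (hw : ∀ a, colV d (w a) = colV d a)
    {ρ : ∀ t, Equiv.Perm (Fin (m.1 t))} (h : NN m w ρ) (φ : Wd 𝓛 m.1) :
    Phi (mor_self (k := k) (θ := θ) hw h) (eW m φ) =
      ((∏ t, sg (ρ t) ^ kk k (cl t) (cl t)) * (sg w * sg (wr (cl := cl) ρ))) •
        eW m (φ.act ρ) := by
  have hDP := rename_DP_pr_smul cl m.1
    (MvPolynomial (Vt d) ℚ ⧸ JJ ℚ (ar k (colV d)) (tw θ (colV d)) (lab cl d m)) k hkk ρ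
  have hX : rename (pr ρ) (∏ j : Jm m.1, (X j : Sy k θ (colV d) (lab cl d m)) ^ (φ.at j).a) =
      ∏ j : Jm m.1, (X j : Sy k θ (colV d) (lab cl d m)) ^ ((φ.act ρ).at j).a := by
    rw [map_prod, ← Equiv.prod_comp (pr ρ)
      (fun j => (X j : Sy k θ (colV d) (lab cl d m)) ^ ((φ.act ρ).at j).a)]
    refine Finset.prod_congr rfl fun j _ => ?_
    rw [map_pow, rename_X]
    have h1 : ((φ.act ρ).at (pr ρ j)).a = (φ.at j).a :=
      congrArg (fun x : Al (𝓛.L j.1) => x.a) (Wd.act_at ρ φ j)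
    rw [h1]
  have hL : rename w (rename (Em cl d m) φ.lp) =
      (sg w * sg (wr (cl := cl) ρ)) • rename (Em cl d m) (φ.act ρ).lp := by
    rw [rename_cj, rename_lp (cj m w) ρ (cj_col m hw) h.blk, sg_cj, map_smul]
  rw [Phi_apply, eW, eW, map_mul, map_DP, DP_lab, map_mul, map_mul, map_mul, map_C, map_prod,
    (mor_self (k := k) (θ := θ) hw h).quot_mk, hL]
  have hXm : (∏ j : Jm m.1, MvPolynomial.map ((mor_self (k := k) (θ := θ) hw h).quot ℚ)
      ((X j : Sy k θ (colV d) (lab cl d m)) ^ (φ.at j).a)) =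
      ∏ j : Jm m.1, (X j : Sy k θ (colV d) (lab cl d m)) ^ (φ.at j).a := by
    refine Finset.prod_congr rfl fun j _ => ?_
    rw [map_pow, map_X]
  rw [hXm, hX, rename_C]
  have hDP' : rename (pr ρ) (DP (MvPolynomial (Vt d) ℚ ⧸
      JJ ℚ (ar k (colV d)) (tw θ (colV d)) (lab cl d m)) (ar k (colS cl m.1)) (blk cl m.1)) =
      (∏ t, sg (ρ t) ^ kk k (cl t) (cl t) : ℚ) • DP (MvPolynomial (Vt d) ℚ ⧸
      JJ ℚ (ar k (colV d)) (tw θ (colV d)) (lab cl d m)) (ar k (colS cl m.1)) (blk cl m.1) := hDP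
  rw [hDP', smul_eq_C_mul, smul_Sy, smul_Sy]
  simp only [map_mul]
  ring

/-- the character of the block permutations on words -/
noncomputable def chQ (k : I → I → ℕ) (cl : T → I → ℕ) {m : T → ℕ}
    (ρ : ∀ t, Equiv.Perm (Fin (m t))) : ℚ :=
  ∏ t, sg (ρ t) ^ par k (cl t)

theorem sg_wr {m : T → ℕ} (ρ : ∀ t, Equiv.Perm (Fin (m t))) :
    sg (wr (cl := cl) ρ) = ∏ t, sg (ρ t) ^ (∑ i, cl t i) := by
  unfold sg
  rw [sign_wr]
  push_cast
  rfl

theorem chi_eq {m : T → ℕ} (ρ : ∀ t, Equiv.Perm (Fin (m t))) (s : ℚ) (hs : s * s = 1) :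
    s * ((∏ t, sg (ρ t) ^ kk k (cl t) (cl t)) * (s * sg (wr (cl := cl) ρ))) =
      chQ k cl ρ := by
  have h1 : s * ((∏ t, sg (ρ t) ^ kk k (cl t) (cl t)) * (s * sg (wr (cl := cl) ρ))) =
      (s * s) * ((∏ t, sg (ρ t) ^ kk k (cl t) (cl t)) * sg (wr (cl := cl) ρ)) := by ring
  rw [h1, hs, one_mul, sg_wr, ← Finset.prod_mul_distrib]
  unfold chQ par
  refine Finset.prod_congr rfl fun t _ => ?_
  rw [← pow_add, add_comm]

theorem sg_pow_even {n : ℕ} (σ : Equiv.Perm (Fin n)) {p : ℕ} (hp : Even p) : sg σ ^ p = 1 := by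
  obtain ⟨q, rfl⟩ := hp
  rw [pow_add, ← mul_pow, sg_mul_self, one_pow]

/-- words without repeated odd letters -/
def Wd.NR {m : T → ℕ} (φ : Wd 𝓛 m) : Prop :=
  ∀ t, Odd (par k (cl t)) → Function.Injective (φ t)

theorem chQ_eq_one {m : T → ℕ} {φ : Wd 𝓛 m} (hφ : φ.NR) {ρ : ∀ t, Equiv.Perm (Fin (m t))}
    (h : φ.act ρ = φ) : chQ k cl ρ = 1 := by
  refine Finset.prod_eq_one fun t _ => ?_
  rcases Nat.even_or_odd (par k (cl t)) with he | ho
  · exact sg_pow_even _ he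
  · have h1 : ρ t = 1 := by
      ext x
      have h2 := congrFun (congrFun h t) (ρ t x)
      simp only [Wd.act, Function.comp_apply, Equiv.symm_apply_apply] at h2
      have h3 := hφ t ho h2
      rw [← h3]
      rfl
    rw [h1, sg_one, one_pow]

theorem exists_swap {m : T → ℕ} {φ : Wd 𝓛 m} (hφ : ¬ φ.NR) :
    ∃ ρ : ∀ t, Equiv.Perm (Fin (m t)), φ.act ρ = φ ∧ chQ k cl ρ = -1 := by
  unfold Wd.NR at hφ
  push Not at hφ
  obtain ⟨t, ho, hni⟩ := hφ
  simp only [Function.Injective, not_forall] at hni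
  obtain ⟨a, b, hab, hne⟩ := hni
  refine ⟨Pi.mulSingle t (Equiv.swap a b), ?_, ?_⟩
  · funext t'
    by_cases ht : t' = t
    · subst ht
      unfold Wd.act
      rw [Pi.mulSingle_eq_same]
      funext x
      simp only [Function.comp_apply, Equiv.symm_swap, Equiv.swap_apply_def]
      split_ifs with h3 h4
      · rw [h3, hab]
      · rw [h4, hab]
      · rfl
    · unfold Wd.act
      rw [Pi.mulSingle_eq_of_ne ht]
      rfl
  · unfold chQ
    rw [Finset.prod_eq_single t]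
    · rw [Pi.mulSingle_eq_same, sg, Equiv.Perm.sign_swap hne]
      simp only [Units.val_neg, Units.val_one, Int.cast_neg, Int.cast_one]
      exact ho.neg_one_pow
    · intro t' _ ht
      rw [Pi.mulSingle_eq_of_ne ht, sg_one, one_pow]
    · intro h; exact absurd (mem_univ _) h

theorem Wd.Adm.nr {m : T → ℕ} {φ : Wd 𝓛 m} (h : φ.Adm) : φ.NR := fun t ho => (h t).2 ho

/-- every word without repeated odd letters is a permuted admissible word -/
theorem exists_sort {m : T → ℕ} {φ : Wd 𝓛 m} (h : φ.NR) :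
    ∃ (ψ : Wd 𝓛 m) (ρ : ∀ t, Equiv.Perm (Fin (m t))), ψ.Adm ∧ ψ.act ρ = φ := by
  refine ⟨fun t => φ t ∘ Tuple.sort (φ t), fun t => Tuple.sort (φ t), fun t => ⟨?_, ?_⟩, ?_⟩
  · exact Tuple.monotone_sort (φ t)
  · intro ho
    exact (h t ho).comp (Tuple.sort (φ t)).injective
  · funext t
    unfold Wd.act
    funext x
    simp

theorem adm_act_eq {m : T → ℕ} {φ ψ : Wd 𝓛 m} (hφ : φ.Adm) (hψ : ψ.Adm)
    {ρ : ∀ t, Equiv.Perm (Fin (m t))} (h : φ.act ρ = ψ) : φ = ψ := by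
  funext t
  symm
  exact WordsS3_537.eq_of_comp_eq (hψ t).1 (hφ t).1 (ρ t).symm (congrFun h t)

theorem Wd.act_one {m : T → ℕ} (φ : Wd 𝓛 m) : φ.act 1 = φ := rfl

theorem Wd.act_inj {m : T → ℕ} (ρ : ∀ t, Equiv.Perm (Fin (m t))) :
    Function.Injective (fun φ : Wd 𝓛 m => φ.act ρ) := by
  intro φ ψ h
  funext t
  funext x
  have h1 := congrFun (congrFun h t) (ρ t x)
  simpa [Wd.act] using h1

/-- the local data -/
noncomputable def locD (pt : ∀ t, Vt (cl t))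
    (hkk : ∀ t t', kk k (cl t) (cl t') = kk k (cl t') (cl t)) (m : Pl cl d) (g : ℕ)
    (HM : ∀ φ : Wd 𝓛 m.1, rename (Em cl d m) (φ.Kh pt) ∈ Gr k θ (colV d) (lab cl d m) φ.tot)
    (HT : ∀ φ : Wd 𝓛 m.1,
      Tm k θ (colV d) (lab cl d m) φ.tot (rename (Em cl d m) (φ.Kh pt)) = eW m φ)
    (HB : ∀ w : Equiv.Perm (Vt d), (∀ a, colV d (w a) = colV d a) → ¬ Nst m w →
      ∀ φ : Wd 𝓛 m.1, rename w (rename (Em cl d m) (φ.Kh pt)) ∈
        Gr k θ (colV d) (lab cl d m) ((φ.tot : ℤ) - 1))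
    (HI : LinearIndependent ℚ
      (fun φ : {φ : Wd 𝓛 m.1 // φ.tot = g} => (eW m φ.1 : Sy k θ (colV d) (lab cl d m)))) :
    Loc830.Loc ℚ (MvPolynomial (Vt d) ℚ) (Sy k θ (colV d) (lab cl d m)) (GS (colV d))
      {φ : Wd 𝓛 m.1 // φ.tot = g} {φ : {φ : Wd 𝓛 m.1 // φ.tot = g} // φ.1.Adm} where
  ρ w := (rename (w : Equiv.Perm (Vt d)) : MvPolynomial (Vt d) ℚ →ₐ[ℚ] _).toLinearMap
  ρ_mul w w' x := by
    simp only [AlgHom.toLinearMap_apply]
    rw [rename_rename]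
    rfl
  sg w := sg (w : Equiv.Perm (Vt d))
  sg_mul w w' := sg_mul _ _
  sg_sq w := sg_mul_self _
  A := Gr k θ (colV d) (lab cl d m) g
  B := Gr k θ (colV d) (lab cl d m) ((g : ℤ) - 1)
  BA := Gr_mono _ _ (by omega)
  T := Tm k θ (colV d) (lab cl d m) g
  ker x hx := Tm_ker _ _ _ hx
  N w := Nst m (w : Equiv.Perm (Vt d))
  N_one := ⟨1, NN_one m⟩
  N_A w hw x hx := rename_mem_Gr (mor_self w.2 (rh_spec hw)) _ hx
  a w φ := ⟨φ.1.act (rh m w), by rw [Wd.act_tot, φ.2]⟩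
  a_one φ := by
    apply Subtype.ext
    change φ.1.act (rh m ((1 : GS (colV d)) : Equiv.Perm (Vt d))) = φ.1
    have : rh m ((1 : GS (colV d)) : Equiv.Perm (Vt d)) = 1 := rh_eq pt (NN_one m)
    rw [this, Wd.act_one]
  a_inj w _ φ ψ h := by
    apply Subtype.ext
    exact Wd.act_inj (rh m w) (congrArg Subtype.val h)
  e φ := eW m φ.1
  ind := HI
  Mo φ := rename (Em cl d m) (φ.1.Kh pt)
  Mo_A φ := by
    have := HM φ.1
    rwa [φ.2] at this
  T_Mo φ := by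
    have := HT φ.1
    rwa [φ.2] at this
  Mo_B w hw φ := by
    have := HB w w.2 hw φ.1
    rwa [φ.2] at this
  Φ w := by
    classical
    exact if h : Nst m (w : Equiv.Perm (Vt d)) then
      Phi (mor_self (k := k) (θ := θ) w.2 (rh_spec h)) else 0
  T_ρ w hw x _ := by
    rw [dif_pos hw]
    exact Tm_rename (mor_self (k := k) (θ := θ) w.2 (rh_spec hw)) _ x
  η w := (∏ t, sg (rh m (w : Equiv.Perm (Vt d)) t) ^ kk k (cl t) (cl t)) *
    (sg (w : Equiv.Perm (Vt d)) * sg (wr (cl := cl) (rh m (w : Equiv.Perm (Vt d)))))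
  Φ_e w hw φ := by
    rw [dif_pos hw]
    exact Phi_eW hkk w.2 (rh_spec hw) φ.1
  adm φ := φ.1.NR
  rep := Subtype.val
  adm_rep t := Wd.Adm.nr t.2
  orbit φ hφ := by
    obtain ⟨ψ, ρ, hψ, hρ⟩ := exists_sort hφ
    have htot : ψ.tot = g := by rw [← Wd.act_tot ρ ψ, hρ, φ.2]
    have hw : ∀ a, colV d (cj' m (wr ρ) a) = colV d a :=
      cj'_col m (w := wr ρ) (fun x => colS_wr ρ x)
    have hNN : NN m (cj' m (wr ρ)) ρ := NN_cj' (fun x => blk_wr ρ x)
    refine ⟨⟨⟨ψ, htot⟩, hψ⟩, ⟨cj' m (wr ρ), hw⟩, ⟨ρ, hNN⟩, ?_⟩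
    apply Subtype.ext
    change ψ.act (rh m (cj' m (wr ρ))) = φ.1
    rw [rh_eq pt hNN, hρ]
  orbit_inj t t' w _ h := by
    have h1 : t.1.1.act (rh m w) = t'.1.1 := congrArg Subtype.val h
    exact Subtype.ext (Subtype.ext (adm_act_eq t.2 t'.2 h1))
  sign_pos φ hφ w _ h := by
    have h1 : φ.1.act (rh m w) = φ.1 := congrArg Subtype.val h
    change sg (w : Equiv.Perm (Vt d)) * _ = 1
    rw [chi_eq _ _ (sg_mul_self _), chQ_eq_one hφ h1]
  sign_neg φ hφ := by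
    obtain ⟨ρ, h1, h2⟩ := exists_swap hφ
    have hw : ∀ a, colV d (cj' m (wr ρ) a) = colV d a :=
      cj'_col m (w := wr ρ) (fun x => colS_wr ρ x)
    have hNN : NN m (cj' m (wr ρ)) ρ := NN_cj' (fun x => blk_wr ρ x)
    refine ⟨⟨cj' m (wr ρ), hw⟩, ⟨ρ, hNN⟩, ?_, ?_⟩
    · apply Subtype.ext
      change φ.1.act (rh m (cj' m (wr ρ))) = φ.1
      rw [rh_eq pt hNN, h1]
    · change sg (cj' m (wr ρ)) * _ = -1
      rw [chi_eq _ _ (sg_mul_self _)]
      change chQ k cl (rh m (cj' m (wr ρ))) = -1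
      rw [rh_eq pt hNN, h2]

end loc

end Crest.Agent.R059.PL547
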