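import Mathlib
import Crest.Agent.R059.PL6_547
import Crest.Agent.R059.PLloc3_830
import Crest.Agent.R059.Places2_494

/-!
# Row 59, Theorem B, half 2 (helper971): growth of the family elements, data of the `Loc` instance

* `rename_Kh_mem`, `rename_Kh_lt`, `el_mem`, `el_lt`;
* `HM`, `HT`, `HB`, `HI` : the four hypotheses of `PL547.locD`.
-/

set_option autoImplicit false
set_option linter.unusedSectionVars false

namespace Crest.Agent.R059.Gro971

open MvPolynomial Finset Thin613 Deg359 PL547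

/-- independence is preserved by injective maps of coefficients -/
theorem indep_map {A B ι L : Type*} [CommRing A] [Algebra ℚ A] [CommRing B] [Algebra ℚ B]
    (f : A →+* B) (hf : Function.Injective f) {v : ι → MvPolynomial L A}
    (hv : LinearIndependent ℚ v) : LinearIndependent ℚ (fun i => MvPolynomial.map f (v i)) := by
  rw [linearIndependent_iff'] at hv ⊢
  intro s c hc i hi
  refine hv s c ?_ i hi
  apply MvPolynomial.map_injective _ hf
  rw [map_zero, map_sum, ← hc]
  exact Finset.sum_congr rfl fun j _ => map_rat_smul _ _ _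

section gro

variable {I : Type} [Fintype I] [DecidableEq I] {k : I → I → ℕ} {θ : I → ℤ}
  {T : Type} [Fintype T] [LinearOrder T] {cl : T → I → ℕ} {d : I → ℕ} {𝓛 : Letters k θ cl}
  (hcl : ∀ t, thc θ (cl t) = 0)
  (hk : ∀ c e : I → ℕ, thc θ c = 0 → thc θ e = 0 → PL547.kk k c e = PL547.kk k e c)
  (pt : ∀ t, Vt (cl t))

/-- a placement is a morphism -/
theorem mor_place {m : T → ℕ} (E : Sm cl m ≃ Vt d) (hE : ∀ x, colV d (E x) = colS cl m x)
    {L : Type*} (f : Vt d → L) :
    ThinEq494.Mor (ar k (colS cl m)) (tw θ (colS cl m)) (f ∘ E) (ar k (colV d)) (tw θ (colV d))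
      f E id :=
  ThinEq494.mor_equiv' E (fun a b => by simp [ar, hE]) (fun a => by simp [tw, hE]) (fun _ => rfl)

theorem NF_place {m : T → ℕ} (E : Sm cl m ≃ Vt d) (hE : ∀ x, colV d (E x) = colS cl m x)
    {L : Type*} (f : Vt d → L) :
    NF (ar k (colV d)) f = NF (ar k (colS cl m)) (f ∘ E) := by
  unfold NF
  rw [ThinEq494.N2_equiv (mor_place (k := k) (θ := fun _ => 0) E hE f)]

include hcl hk in
/-- growth of a placed element at any good labelling -/
theorem ud_place {m : T → ℕ} (φ : Wd 𝓛 m) (E : Sm cl m ≃ Vt d)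
    (hE : ∀ x, colV d (E x) = colS cl m x) {L : Type*} {f : Vt d → L}
    (hf : Good (tw θ (colV d)) f) :
    ud ℚ (ar k (colV d)) (tw θ (colV d)) f ((NF (ar k (colV d)) f : ℤ) + φ.tot)
      (rename E (φ.Kh pt)) := by
  rw [ThinEq494.ud_equiv (mor_place (k := k) (θ := θ) E hE f), NF_place E hE f]
  exact PLloc830.ud_Kh hcl hk pt
    ((ThinEq494.Good_equiv (mor_place (k := k) (θ := θ) E hE f)).1 hf) φ

include hcl hk in
theorem ud_place_lt {m : T → ℕ} (φ : Wd 𝓛 m) (E : Sm cl m ≃ Vt d)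
    (hE : ∀ x, colV d (E x) = colS cl m x) {L : Type*} {f : Vt d → L}
    (hf : Good (tw θ (colV d)) f) (hne : ¬ Fine (blk cl m) (f ∘ E)) :
    ud ℚ (ar k (colV d)) (tw θ (colV d)) f ((NF (ar k (colV d)) f : ℤ) + φ.tot - 1)
      (rename E (φ.Kh pt)) := by
  rw [ThinEq494.ud_equiv (mor_place (k := k) (θ := θ) E hE f), NF_place E hE f]
  exact PLloc830.ud_Kh_strict hcl hk pt
    ((ThinEq494.Good_equiv (mor_place (k := k) (θ := θ) E hE f)).1 hf) hne φ

theorem Em_trans_col (m : Pl cl d) {w : Equiv.Perm (Vt d)} (hw : ∀ a, colV d (w a) = colV d a)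
    (x : Sm cl m.1) : colV d (((Em cl d m).trans w) x) = colS cl m.1 x := by
  rw [Equiv.trans_apply, hw, Em_col]

theorem rename_Em_trans (m : Pl cl d) (w : Equiv.Perm (Vt d)) (x : MvPolynomial (Sm cl m.1) ℚ) :
    rename w (rename (Em cl d m) x) = rename ((Em cl d m).trans w) x := by
  rw [rename_rename]
  rfl

include hcl hk in
/-- **growth** of the summands of the family elements -/
theorem rename_Kh_mem {m : Pl cl d} (φ : Wd 𝓛 m.1) {w : Equiv.Perm (Vt d)}
    (hw : ∀ a, colV d (w a) = colV d a) {L : Type*} {f : Vt d → L}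
    (hf : Good (tw θ (colV d)) f) :
    ud ℚ (ar k (colV d)) (tw θ (colV d)) f ((NF (ar k (colV d)) f : ℤ) + φ.tot)
      (rename w (rename (Em cl d m) (φ.Kh pt))) := by
  rw [rename_Em_trans]
  exact ud_place hcl hk pt φ _ (Em_trans_col m hw) hf

theorem fine_iff (m : Pl cl d) (w : Equiv.Perm (Vt d)) {L : Type*} (f : Vt d → L) :
    Fine (blk cl m.1) (f ∘ ((Em cl d m).trans w)) ↔ Fine (lab cl d m ∘ w.symm) f := by
  constructor
  · intro h a b hab
    have h1 : ∀ a, ((Em cl d m).trans w) ((Em cl d m).symm (w.symm a)) = a := fun a => by simp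
    have h2 := h ((Em cl d m).symm (w.symm a)) ((Em cl d m).symm (w.symm b)) hab
    simp only [Function.comp_apply, h1] at h2
    exact h2
  · intro h x y hxy
    have h2 := h (w (Em cl d m x)) (w (Em cl d m y)) (by
      simp only [Function.comp_apply, Equiv.symm_apply_apply, lab]
      exact hxy)
    exact h2

include hcl hk in
/-- **strict growth** of the summands of the family elements -/
theorem rename_Kh_lt {m : Pl cl d} (φ : Wd 𝓛 m.1) {w : Equiv.Perm (Vt d)}
    (hw : ∀ a, colV d (w a) = colV d a) {L : Type*} {f : Vt d → L}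
    (hf : Good (tw θ (colV d)) f) (hne : ¬ Fine (lab cl d m ∘ w.symm) f) :
    ud ℚ (ar k (colV d)) (tw θ (colV d)) f ((NF (ar k (colV d)) f : ℤ) + φ.tot - 1)
      (rename w (rename (Em cl d m) (φ.Kh pt))) := by
  rw [rename_Em_trans]
  exact ud_place_lt hcl hk pt φ _ (Em_trans_col m hw) hf
    (fun h => hne ((fine_iff m w f).1 h))

theorem alt_ud {P : Type} [Fintype P] [DecidableEq P] (c : P → I) {L : Type*} (f : P → L) (n : ℤ)
    (x : MvPolynomial P ℚ)
    (h : ∀ w : Equiv.Perm P, (∀ a, c (w a) = c a) → ud ℚ (ar k c) (tw θ c) f n (rename w x)) :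
    ud ℚ (ar k c) (tw θ c) f n (alt c x) := by
  have h1 : alt c x ∈ PLloc830.udS (ar k c) (tw θ c) f n := by
    rw [alt]
    refine Submodule.sum_mem _ fun w hw => Submodule.smul_mem _ _ ?_
    rw [PLloc830.mem_udS]
    exact h w (mem_GG.1 hw)
  exact h1

include hcl hk in
/-- **(mem)**: growth of the family elements at every good labelling -/
theorem el_ud {m : Pl cl d} (φ : Wd 𝓛 m.1) {L : Type*} {f : Vt d → L}
    (hf : Good (tw θ (colV d)) f) :
    ud ℚ (ar k (colV d)) (tw θ (colV d)) f ((NF (ar k (colV d)) f : ℤ) + φ.tot) (φ.el pt) :=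
  alt_ud (colV d) f _ _ fun _ hw => rename_Kh_mem hcl hk pt φ hw hf

include hcl hk in
/-- **(mem)** at the places -/
theorem el_mem {m : Pl cl d} (φ : Wd 𝓛 m.1) (m' : Pl cl d) :
    φ.el pt ∈ Gr k θ (colV d) (lab cl d m') φ.tot :=
  el_ud hcl hk pt φ (Places494.good_lab hcl m')

include hcl hk in
/-- **(memlt)**: strict growth at the other places with at least as many blocks -/
theorem el_lt (hinj : Function.Injective cl) (h0 : ∀ t, cl t ≠ 0) {m : Pl cl d} (φ : Wd 𝓛 m.1)
    {m' : Pl cl d} (hne : m ≠ m') (hcard : m.card ≤ m'.card) :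
    φ.el pt ∈ Gr k θ (colV d) (lab cl d m') ((φ.tot : ℤ) - 1) := by
  rw [mem_Gr, show ((NF (ar k (colV d)) (lab cl d m') : ℤ) + ((φ.tot : ℤ) - 1)) =
    (NF (ar k (colV d)) (lab cl d m') : ℤ) + φ.tot - 1 by ring]
  exact alt_ud (colV d) (lab cl d m') _ _ fun w hw =>
    rename_Kh_lt hcl hk pt φ hw (Places494.good_lab hcl m')
      (Places494.not_fine_of_ne hinj h0 hne hcard w hw)

/-! ### the hypotheses of `locD` -/

include hcl hk in
theorem HM (m : Pl cl d) (φ : Wd 𝓛 m.1) :
    rename (Em cl d m) (φ.Kh pt) ∈ Gr k θ (colV d) (lab cl d m) φ.tot :=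
  ud_place hcl hk pt φ (Em cl d m) (Em_col cl d m) (Places494.good_lab hcl m)

include hcl hk in
theorem HT (m : Pl cl d) (φ : Wd 𝓛 m.1) :
    Tm k θ (colV d) (lab cl d m) φ.tot (rename (Em cl d m) (φ.Kh pt)) = eW m φ :=
  T_Mo m (PLloc830.sym_col hk _) (PLloc830.good_model m.1 hcl) pt φ (PLloc830.inV_lp hcl hk φ)

include hcl hk in
theorem HB (hinj : Function.Injective cl) (m : Pl cl d) (w : Equiv.Perm (Vt d))
    (hw : ∀ a, colV d (w a) = colV d a) (hn : ¬ Nst m w) (φ : Wd 𝓛 m.1) :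
    rename w (rename (Em cl d m) (φ.Kh pt)) ∈
      Gr k θ (colV d) (lab cl d m) ((φ.tot : ℤ) - 1) := by
  rw [mem_Gr, show ((NF (ar k (colV d)) (lab cl d m) : ℤ) + ((φ.tot : ℤ) - 1)) =
    (NF (ar k (colV d)) (lab cl d m) : ℤ) + φ.tot - 1 by ring]
  exact rename_Kh_lt hcl hk pt φ hw (Places494.good_lab hcl m)
    (fun h => hn (exists_NN hinj pt m hw h))

theorem quot_Em_injective (m : Pl cl d) :
    Function.Injective ((mor_Em (k := k) (θ := θ) m).quot ℚ) := by
  rw [injective_iff_map_eq_zero]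
  intro x hx
  obtain ⟨y, rfl⟩ := Ideal.Quotient.mk_surjective x
  rw [ThinEq494.Mor.quot_mk] at hx
  rw [Ideal.Quotient.eq_zero_iff_mem] at hx ⊢
  exact (ThinEq494.mem_JJ_equiv (mor_Em (k := k) (θ := θ) m) y).1 hx

theorem eW_eq (m : Pl cl d) (φ : Wd 𝓛 m.1) :
    (eW m φ : Sy k θ (colV d) (lab cl d m)) =
      MvPolynomial.map ((mor_Em (k := k) (θ := θ) m).quot ℚ) (PLloc830.sE φ) := by
  unfold eW PLloc830.sE
  rw [map_mul, PL547.map_DP, DP_lab, map_mul, map_C, (mor_Em (k := k) (θ := θ) m).quot_mk,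
    map_prod]
  congr 2
  refine Finset.prod_congr rfl fun j _ => ?_
  rw [map_pow, map_X]

/-- the symbols of the words are independent -/
theorem indep_eW (m : Pl cl d) :
    LinearIndependent ℚ (fun φ : Wd 𝓛 m.1 => (eW m φ : Sy k θ (colV d) (lab cl d m))) := by
  have h := indep_map ((mor_Em (k := k) (θ := θ) m).quot ℚ) (quot_Em_injective m)
    (PLloc830.indep_sE (𝓛 := 𝓛) (m := m.1))
  have h4 : (fun φ : Wd 𝓛 m.1 => (eW m φ : Sy k θ (colV d) (lab cl d m))) =
      fun φ : Wd 𝓛 m.1 => MvPolynomial.map ((mor_Em (k := k) (θ := θ) m).quot ℚ)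
        (PLloc830.sE φ) := funext fun φ => eW_eq m φ
  rw [h4]
  exact h

theorem HI (m : Pl cl d) (g : ℕ) :
    LinearIndependent ℚ
      (fun φ : {φ : Wd 𝓛 m.1 // φ.tot = g} => (eW m φ.1 : Sy k θ (colV d) (lab cl d m))) :=
  (indep_eW m).comp _ Subtype.val_injective

/-- the local data at a place and a level, all hypotheses discharged -/
noncomputable def loc (hinj : Function.Injective cl) (m : Pl cl d) (g : ℕ) :
    Loc830.Loc ℚ (MvPolynomial (Vt d) ℚ) (Sy k θ (colV d) (lab cl d m)) (GS (colV d))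
      {φ : Wd 𝓛 m.1 // φ.tot = g} {φ : {φ : Wd 𝓛 m.1 // φ.tot = g} // φ.1.Adm} :=
  locD pt (fun t t' => hk _ _ (hcl t) (hcl t')) m g (HM hcl hk pt m) (HT hcl hk pt m)
    (fun w hw hn φ => HB hcl hk pt hinj m w hw hn φ) (HI m g)

end gro

end Crest.Agent.R059.Gro971
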