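import Mathlib

set_option autoImplicit false

/-!
Row 59 (S0081), leaf NUM, part 1: counting multisets of natural numbers
(`e_odd(m) = X^{m(m-1)/2}/(q)_m`, `e_even(m) = 1/(q)_m`).
-/

namespace Crest.Agent.R059.Num469

open Finset PowerSeries

/-- `∏_{r<m} (1 - X^{r+1})` -/
noncomputable def qf (m : ℕ) : PowerSeries ℤ := ∏ r ∈ range m, (1 - X ^ (r + 1))

theorem qf_succ (m : ℕ) : qf (m + 1) = qf m * (1 - X ^ (m + 1)) := by
  rw [qf, prod_range_succ, ← qf]

theorem constantCoeff_qf (m : ℕ) : constantCoeff (qf m) = 1 := by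
  induction m with
  | zero => simp [qf]
  | succ m ih => rw [qf_succ, map_mul, ih]; simp

/-- inverse of `qf m` -/
noncomputable def iqf (m : ℕ) : PowerSeries ℤ := invOfUnit (qf m) 1

theorem qf_mul_iqf (m : ℕ) : qf m * iqf m = 1 :=
  mul_invOfUnit _ _ (by rw [constantCoeff_qf]; rfl)

theorem iqf_succ (m : ℕ) : iqf (m + 1) * (1 - X ^ (m + 1)) = iqf m := by
  have h1 := qf_mul_iqf m
  have h2 := qf_mul_iqf (m + 1)
  rw [qf_succ] at h2
  calc iqf (m + 1) * (1 - X ^ (m + 1))
      = iqf (m + 1) * (1 - X ^ (m + 1)) * (qf m * iqf m) := by rw [h1, mul_one]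
    _ = (qf m * (1 - X ^ (m + 1)) * iqf (m + 1)) * iqf m := by ring
    _ = iqf m := by rw [h2, one_mul]

theorem iqf_zero : iqf 0 = 1 := by
  have h := qf_mul_iqf 0
  simpa [qf] using h

/-- `e_odd(m) = X^{m(m-1)/2}/(q)_m` (`o = true`), `e_even(m) = 1/(q)_m` (`o = false`). -/
noncomputable def ee (o : Bool) (m : ℕ) : PowerSeries ℤ :=
  X ^ (if o then m.choose 2 else 0) * iqf m

theorem ee_zero (o : Bool) : ee o 0 = 1 := by
  cases o <;> simp [ee, iqf_zero]

/-- defining equation of `ee`. -/
theorem ee_mul_qf (o : Bool) (m : ℕ) : ee o m * qf m = X ^ (if o then m.choose 2 else 0) := by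
  rw [ee, mul_assoc, mul_comm (iqf m), qf_mul_iqf, mul_one]

/-- the recursion of `ee` -/
theorem ee_succ (o : Bool) (m : ℕ) :
    ee o (m + 1) = X ^ (if o then m else 0) * ee o m + X ^ (m + 1) * ee o (m + 1) := by
  have h := iqf_succ m
  have h' : iqf (m + 1) = iqf m + X ^ (m + 1) * iqf (m + 1) := by
    rw [← h]; ring
  cases o with
  | false =>
    simp only [ee, Bool.false_eq_true, if_false, pow_zero, one_mul]
    exact h'
  | true =>
    simp only [ee, if_true]
    have hc : (m + 1).choose 2 = m + m.choose 2 := by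
      rw [Nat.choose_succ_succ' m 1, Nat.choose_one_right]
    rw [hc]
    conv_lhs => rw [h']
    ring

/-- multisets of `m` naturals with sum `n`, without repetition if `o`. -/
def MS (o : Bool) (m n : ℕ) : Set (Multiset ℕ) :=
  {s | (o = true → s.Nodup) ∧ Multiset.card s = m ∧ s.sum = n}

theorem ms_zero (o : Bool) (n : ℕ) : MS o 0 n = if n = 0 then {0} else ∅ := by
  ext s
  simp only [MS, Set.mem_ofPred_eq, Multiset.card_eq_zero]
  constructor
  · rintro ⟨_, rfl, h⟩
    simp only [Multiset.sum_zero] at h
    simp [← h]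
  · intro h
    split_ifs at h with hn
    · rw [Set.mem_singleton_iff] at h
      subst h
      simp [hn]
    · exact absurd h (Set.notMem_empty _)

theorem sum_map_succ (t : Multiset ℕ) : (t.map Nat.succ).sum = t.sum + Multiset.card t := by
  induction t using Multiset.induction with
  | empty => simp
  | cons a t ih => simp only [Multiset.map_cons, Multiset.sum_cons, Multiset.card_cons, ih]; omega

theorem map_succ_map_pred {s : Multiset ℕ} (h : 0 ∉ s) : (s.map Nat.pred).map Nat.succ = s := by
  rw [Multiset.map_map]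
  conv_rhs => rw [← Multiset.map_id s]
  apply Multiset.map_congr rfl
  intro a ha
  have : a ≠ 0 := fun h0 => h (h0 ▸ ha)
  simp only [Function.comp, id]
  exact Nat.succ_pred this

theorem map_succ_injective : Function.Injective (Multiset.map Nat.succ) :=
  Multiset.map_injective Nat.succ_injective

/-- the shift -/
def sh (o : Bool) (m : ℕ) : ℕ := if o then m else 0

/-- insertion of the letter `0` -/
def ins (o : Bool) (t : Multiset ℕ) : Multiset ℕ := (0 : ℕ) ::ₘ (if o then t.map Nat.succ else t)

/-- multisets with a `0` -/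
def MA (o : Bool) (m n : ℕ) : Set (Multiset ℕ) :=
  if sh o m ≤ n then ins o '' MS o m (n - sh o m) else ∅

/-- multisets without a `0` -/
def MB (o : Bool) (m n : ℕ) : Set (Multiset ℕ) :=
  if m + 1 ≤ n then (Multiset.map Nat.succ) '' MS o (m + 1) (n - (m + 1)) else ∅

theorem mem_MA {o : Bool} {m n : ℕ} {s : Multiset ℕ} :
    s ∈ MA o m n ↔ sh o m ≤ n ∧ ∃ t ∈ MS o m (n - sh o m), ins o t = s := by
  unfold MA
  split_ifs with h
  · simp [h]
  · simp [h]

theorem mem_MB {o : Bool} {m n : ℕ} {s : Multiset ℕ} :
    s ∈ MB o m n ↔ m + 1 ≤ n ∧ ∃ t ∈ MS o (m + 1) (n - (m + 1)), t.map Nat.succ = s := by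
  unfold MB
  split_ifs with h
  · simp [h]
  · simp [h]

/-- the two kinds of multisets: with or without `0`. -/
theorem ms_succ (o : Bool) (m n : ℕ) : MS o (m + 1) n = MA o m n ∪ MB o m n := by
  ext s
  rw [Set.mem_union, mem_MA, mem_MB]
  constructor
  · rintro ⟨hnd, hcard, hsum⟩
    by_cases h0 : 0 ∈ s
    · left
      obtain ⟨t, rfl⟩ := Multiset.exists_cons_of_mem h0
      rw [Multiset.card_cons, Nat.succ_inj] at hcard
      rw [Multiset.sum_cons, zero_add] at hsum
      cases o with
      | false =>
        exact ⟨by simp [sh], t, ⟨by simp, hcard, by simp [sh, hsum]⟩, by simp [ins]⟩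
      | true =>
        have hn := hnd rfl
        rw [Multiset.nodup_cons] at hn
        have e1 := map_succ_map_pred hn.1
        have e2 := sum_map_succ (t.map Nat.pred)
        rw [e1, Multiset.card_map, hcard, hsum] at e2
        have hle : m ≤ n := by omega
        refine ⟨by simpa [sh] using hle, t.map Nat.pred,
          ⟨fun _ => ?_, by rw [Multiset.card_map, hcard], by simp only [sh, if_true]; omega⟩, ?_⟩
        · rw [← Multiset.nodup_map_iff_of_injective Nat.succ_injective, e1]
          exact hn.2
        · simp only [ins, if_true, e1]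
    · right
      have e1 := map_succ_map_pred h0
      have e2 := sum_map_succ (s.map Nat.pred)
      rw [e1, Multiset.card_map, hcard, hsum] at e2
      refine ⟨by omega, s.map Nat.pred,
        ⟨fun ho => ?_, by rw [Multiset.card_map, hcard], by omega⟩, e1⟩
      rw [← Multiset.nodup_map_iff_of_injective Nat.succ_injective, e1]
      exact hnd ho
  · rintro (⟨hle, t, ⟨hnd, hcard, hsum⟩, rfl⟩ | ⟨hle, t, ⟨hnd, hcard, hsum⟩, rfl⟩)
    · cases o with
      | false =>
        simp only [ins, sh, Bool.false_eq_true, if_false, Nat.sub_zero] at hsum ⊢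
        refine ⟨by simp, by rw [Multiset.card_cons, hcard], by rw [Multiset.sum_cons, hsum, zero_add]⟩
      | true =>
        simp only [ins, sh, if_true] at hsum hle ⊢
        refine ⟨fun _ => ?_, by rw [Multiset.card_cons, Multiset.card_map, hcard], ?_⟩
        · rw [Multiset.nodup_cons]
          refine ⟨?_, (Multiset.nodup_map_iff_of_injective Nat.succ_injective).2 (hnd rfl)⟩
          simp
        · rw [Multiset.sum_cons, sum_map_succ, hsum, hcard]; omega
    · refine ⟨fun ho => (Multiset.nodup_map_iff_of_injective Nat.succ_injective).2 (hnd ho),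
        by rw [Multiset.card_map, hcard], ?_⟩
      rw [sum_map_succ, hsum, hcard]; omega

theorem ins_injective (o : Bool) : Function.Injective (ins o) := by
  intro t t' ht
  unfold ins at ht
  rw [Multiset.cons_inj_right] at ht
  cases o with
  | false => simpa using ht
  | true =>
    simp only [if_true] at ht
    exact map_succ_injective ht

theorem ma_mb_disjoint (o : Bool) (m n : ℕ) : Disjoint (MA o m n) (MB o m n) := by
  rw [Set.disjoint_left]
  intro s h1 h2
  rw [mem_MA] at h1
  rw [mem_MB] at h2
  obtain ⟨_, t, _, rfl⟩ := h1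
  obtain ⟨_, t', _, h⟩ := h2
  have : (0 : ℕ) ∈ t'.map Nat.succ := by
    rw [h, ins]; exact Multiset.mem_cons_self _ _
  simp at this

theorem ms_aux (o : Bool) : ∀ (k m n : ℕ), m + n ≤ k →
    (MS o m n).Finite ∧ ((MS o m n).ncard : ℤ) = coeff n (ee o m) := by
  intro k
  induction k with
  | zero =>
    intro m n h
    obtain ⟨rfl, rfl⟩ : m = 0 ∧ n = 0 := by omega
    rw [ms_zero, ee_zero]
    simp
  | succ k ih =>
    intro m n h
    cases m with
    | zero =>
      rw [ms_zero, ee_zero]
      by_cases hn : n = 0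
      · subst hn; simp
      · simp [hn, coeff_one]
    | succ m =>
      have f1 : (MA o m n).Finite := by
        unfold MA
        split_ifs
        · exact ((ih m (n - sh o m) (by omega)).1).image _
        · simp
      have f2 : (MB o m n).Finite := by
        unfold MB
        split_ifs with hle
        · exact ((ih (m + 1) (n - (m + 1)) (by omega)).1).image _
        · simp
      have e1 : ((MA o m n).ncard : ℤ) =
          (if sh o m ≤ n then coeff (n - sh o m) (ee o m) else 0) := by
        unfold MA
        split_ifs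
        · rw [Set.ncard_image_of_injective _ (ins_injective o)]
          exact (ih m (n - sh o m) (by omega)).2
        · simp
      have e2 : ((MB o m n).ncard : ℤ) =
          (if m + 1 ≤ n then coeff (n - (m + 1)) (ee o (m + 1)) else 0) := by
        unfold MB
        split_ifs
        · rw [Set.ncard_image_of_injective _ map_succ_injective]
          exact (ih (m + 1) (n - (m + 1)) (by omega)).2
        · simp
      refine ⟨by rw [ms_succ]; exact f1.union f2, ?_⟩
      rw [ms_succ, Set.ncard_union_eq (ma_mb_disjoint o m n) f1 f2, Nat.cast_add, e1, e2]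
      conv_rhs => rw [ee_succ, map_add, coeff_X_pow_mul', coeff_X_pow_mul']
      rfl

theorem ms_finite (o : Bool) (m n : ℕ) : (MS o m n).Finite := (ms_aux o (m + n) m n le_rfl).1

theorem ms_ncard (o : Bool) (m n : ℕ) : ((MS o m n).ncard : ℤ) = coeff n (ee o m) :=
  (ms_aux o (m + n) m n le_rfl).2

end Crest.Agent.R059.Num469
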