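import Crest.Agent.R059.Grnd_883
import Crest.Agent.R059.NumCount_469
import Crest.Agent.R059.DilogPS_344

set_option autoImplicit false

/-!
# Row 59, leaf NUM: the coefficient homomorphism `ι : ℤ⟦X⟧ → KK`, `X ↦ vv ^ 2` (helper217)
-/

namespace Crest.Agent.R059.Iota217

open PowerSeries Finset

/-- doubling `ℕ → ℤ`. -/
def dbl : ℕ →+ ℤ where
  toFun n := 2 * (n : ℤ)
  map_zero' := by simp
  map_add' a b := by push_cast; ring

theorem dbl_apply (n : ℕ) : dbl n = 2 * (n : ℤ) := rfl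

theorem dbl_injective : Function.Injective dbl := fun a b h => by
  rw [dbl_apply, dbl_apply] at h; omega

theorem dbl_le (a b : ℕ) : dbl a ≤ dbl b ↔ a ≤ b := by
  rw [dbl_apply, dbl_apply]; omega

/-- `ι : ℤ⟦X⟧ →+* KK`, `X ↦ T²`. -/
noncomputable def iota : PowerSeries ℤ →+* KK :=
  ((HahnSeries.embDomainRingHom dbl dbl_injective dbl_le).comp
    (HahnSeries.toPowerSeries (R := ℚ)).symm.toRingHom).comp (PowerSeries.map (Int.castRingHom ℚ))

theorem iota_coeff (f : PowerSeries ℤ) (j : ℕ) :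
    HahnSeries.coeff (iota f) (2 * (j : ℤ)) = ((coeff j f : ℤ) : ℚ) := by
  have h : HahnSeries.coeff (iota f) (dbl j) =
      HahnSeries.coeff ((HahnSeries.toPowerSeries (R := ℚ)).symm
        (PowerSeries.map (Int.castRingHom ℚ) f)) j :=
    HahnSeries.embDomain_coeff
  rw [dbl_apply] at h
  rw [h, HahnSeries.coeff_toPowerSeries_symm, PowerSeries.coeff_map]
  rfl

theorem iota_coeff_of_ne (f : PowerSeries ℤ) (n : ℤ) (hn : ∀ j : ℕ, n ≠ 2 * (j : ℤ)) :
    HahnSeries.coeff (iota f) n = 0 := by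
  apply HahnSeries.embDomain_of_notMem_range
  rintro ⟨j, hj⟩
  exact hn j hj.symm

/-- extensionality against `ι f`. -/
theorem eq_iota {x : KK} {f : PowerSeries ℤ}
    (h1 : ∀ j : ℕ, HahnSeries.coeff x (2 * (j : ℤ)) = ((coeff j f : ℤ) : ℚ))
    (h2 : ∀ n : ℤ, (∀ j : ℕ, n ≠ 2 * (j : ℤ)) → HahnSeries.coeff x n = 0) : x = iota f := by
  ext n
  by_cases hn : ∃ j : ℕ, n = 2 * (j : ℤ)
  · obtain ⟨j, rfl⟩ := hn
    rw [h1, iota_coeff]
  · push Not at hn
    rw [h2 n hn, iota_coeff_of_ne f n hn]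

theorem iota_injective : Function.Injective iota := by
  intro f g h
  ext j
  have h1 := iota_coeff f j
  rw [h, iota_coeff] at h1
  exact_mod_cast h1.symm

theorem iota_X : iota (X : PowerSeries ℤ) = (vv : KK) ^ 2 := by
  symm
  apply eq_iota
  · intro j
    rw [vv_pow, PowerSeries.coeff_X]
    by_cases hj : j = 1
    · subst hj
      rw [if_pos rfl]
      simp
    · rw [HahnSeries.coeff_single_of_ne, if_neg hj]
      · simp
      · push_cast; omega
  · intro n hn
    rw [vv_pow]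
    apply HahnSeries.coeff_single_of_ne
    have := hn 1
    push_cast at this ⊢
    exact this

theorem iota_X_pow (m : ℕ) : iota ((X : PowerSeries ℤ) ^ m) = (vv : KK) ^ (2 * m) := by
  rw [map_pow, iota_X, ← pow_mul]

/-- `ι (X^M f)` has no coefficients below `2M`. -/
theorem coeff_iota_X_pow_mul (M : ℕ) (f : PowerSeries ℤ) (n : ℤ) (hn : n < 2 * (M : ℤ)) :
    HahnSeries.coeff (iota (X ^ M * f)) n = 0 := by
  by_cases h : ∃ j : ℕ, n = 2 * (j : ℤ)
  · obtain ⟨j, rfl⟩ := h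
    rw [iota_coeff, PowerSeries.coeff_X_pow_mul', if_neg (by omega)]
    simp
  · push Not at h
    exact iota_coeff_of_ne _ n h

/-- `ι f` has no coefficients below `2M` if `f` has none below `M`. -/
theorem coeff_iota_eq_zero {M : ℕ} {f : PowerSeries ℤ} (hf : ∀ j < M, coeff j f = 0) (n : ℤ)
    (hn : n < 2 * (M : ℤ)) : HahnSeries.coeff (iota f) n = 0 := by
  by_cases h : ∃ j : ℕ, n = 2 * (j : ℤ)
  · obtain ⟨j, rfl⟩ := h
    rw [iota_coeff, hf j (by omega)]
    simp
  · push Not at h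
    exact iota_coeff_of_ne _ n h

theorem iota_mem_Kpos {f : PowerSeries ℤ} (hf : ∀ j, 0 ≤ coeff j f) : iota f ∈ Kpos := by
  intro n
  by_cases h : ∃ j : ℕ, n = 2 * (j : ℤ)
  · obtain ⟨j, rfl⟩ := h
    rw [iota_coeff]
    exact_mod_cast hf j
  · push Not at h
    rw [iota_coeff_of_ne _ n h]

/-! ### the coefficients of the dilogarithms -/

/-- `∏_{r<m} (1 - vv^{2(r+1)})`. -/
noncomputable def qpv (m : ℕ) : KK := ∏ r ∈ range m, (1 - (vv : KK) ^ (2 * (r + 1)))

theorem iota_qf (m : ℕ) : iota (Num469.qf m) = qpv m := by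
  rw [Num469.qf, map_prod, qpv]
  refine Finset.prod_congr rfl fun r _ => ?_
  rw [map_sub, map_one, iota_X_pow]

theorem vv_pow_ne_one (k : ℕ) : (vv : KK) ^ (2 * (k + 1)) ≠ 1 := by
  intro h
  rw [← iota_X_pow, ← map_one iota] at h
  have h1 := iota_injective h
  have h2 := congrArg (fun f => coeff 0 f) h1
  simp only [PowerSeries.coeff_X_pow, PowerSeries.coeff_one, if_true] at h2
  rw [if_neg (by omega)] at h2
  exact zero_ne_one h2

theorem one_sub_ne (k : ℕ) : (1 : KK) - (vv : KK) ^ (2 * (k + 1)) ≠ 0 := fun h =>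
  vv_pow_ne_one k (sub_eq_zero.1 h).symm

theorem qpv_ne (m : ℕ) : qpv m ≠ 0 := by
  rw [qpv, Finset.prod_ne_zero_iff]
  intro i _
  exact one_sub_ne i

/-- the regularity needed by 344. -/
theorem qreg : Dilog344.QReg ((vv : KK) ^ 2) := by
  intro k
  rw [isUnit_iff_ne_zero, ← pow_mul]
  intro h
  exact vv_pow_ne_one k (sub_eq_zero.1 h)

theorem choose_two_two (m : ℕ) : 2 * m.choose 2 = m * (m - 1) := by
  rw [Nat.choose_two_right]
  exact Nat.two_mul_div_two_of_even (Nat.even_mul_pred_self m)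

/-- `ι (e_o(m))`, explicit form. -/
theorem iota_ee (o : Bool) (m : ℕ) :
    iota (Num469.ee o m) = (if o then (vv : KK) ^ (m * (m - 1)) else 1) / qpv m := by
  rw [eq_div_iff (qpv_ne m), ← iota_qf, ← map_mul, Num469.ee_mul_qf, iota_X_pow]
  cases o with
  | false => simp
  | true => simp only [if_true]; rw [choose_two_two]

/-- `ι (e_o(m))` = coefficient of 344's `EE vv o 0`. -/
theorem coeff_EE_zero (o : Bool) (m : ℕ) :
    coeff m (Dilog344.EE vv o 0) = iota (Num469.ee o m) := by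
  have hq : (Dilog344.qp1 ((vv : KK) ^ 2) m) * Dilog344.ec ((vv : KK) ^ 2) m = 1 :=
    Dilog344.qp1_mul_ec qreg m
  have h1 : Dilog344.qp1 ((vv : KK) ^ 2) m = qpv m := by
    rw [Dilog344.qp1, qpv]
    refine Finset.prod_congr rfl fun i _ => ?_
    rw [← pow_mul]
  rw [h1] at hq
  have h2 : Dilog344.ec ((vv : KK) ^ 2) m = (qpv m)⁻¹ := eq_inv_of_mul_eq_one_right hq
  rw [iota_ee, Dilog344.EE, coeff_rescale, zpow_zero, Units.val_one, one_pow, one_mul]
  cases o with
  | false =>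
    rw [cond_false, Dilog344.coeff_Ee, h2]
    simp
  | true =>
    rw [cond_true, Dilog344.coeff_Eo, h2, if_pos rfl, ← pow_mul,
      Nat.two_mul_div_two_of_even (Nat.even_mul_pred_self m), div_eq_mul_inv]

/-- coefficient of 344's `EE vv o a = E_o(vv^a X)`. -/
theorem coeff_EE (o : Bool) (a : ℤ) (m : ℕ) :
    coeff m (Dilog344.EE vv o a) =
      ((vv ^ (a * (m : ℤ)) : KKˣ) : KK) * iota (Num469.ee o m) := by
  rw [← coeff_EE_zero, Dilog344.EE, Dilog344.EE, coeff_rescale, coeff_rescale, zpow_zero,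
    Units.val_one, one_pow, one_mul, zpow_mul, zpow_natCast, Units.val_pow_eq_pow_val]

/-- the series `E_o(q^p X)`, `q = vv^2`. -/
theorem coeff_EE_two (o : Bool) (p m : ℕ) :
    coeff m (Dilog344.EE vv o (2 * (p : ℤ))) = iota (X ^ (p * m) * Num469.ee o m) := by
  rw [coeff_EE, map_mul, iota_X_pow]
  congr 1
  have : (2 * (p : ℤ) * (m : ℤ)) = ((2 * (p * m) : ℕ) : ℤ) := by push_cast; ring
  rw [this, zpow_natCast, Units.val_pow_eq_pow_val]

end Crest.Agent.R059.Iota217
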