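import Mathlib

/-!
# Isotypic (character) parts: generic linear algebra (helper158)

`K` a field, `G` a finite group with `(Nat.card G : K) ≠ 0`, `ρ : Representation K G V`,
`χ : G →* Kˣ`.  `chiPart ρ χ = {v | ∀ g, ρ g v = χ g • v}`.
-/

namespace Crest.Agent.R059.Iso158

open Module

variable {K G V W : Type*} [Field K] [Group G] [AddCommGroup V] [Module K V]
  [AddCommGroup W] [Module K W]

/-- The `χ`-isotypic part. -/
def chiPart (ρ : Representation K G V) (χ : G →* Kˣ) : Submodule K V where
  carrier := {v | ∀ g, ρ g v = (χ g : K) • v}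
  add_mem' := by
    intro a b ha hb g
    rw [map_add, ha g, hb g, smul_add]
  zero_mem' := by intro g; simp
  smul_mem' := by
    intro c v hv g
    rw [map_smul, hv g, smul_comm]

theorem mem_chiPart {ρ : Representation K G V} {χ : G →* Kˣ} {v : V} :
    v ∈ chiPart ρ χ ↔ ∀ g, ρ g v = (χ g : K) • v := Iff.rfl

section avg

variable [Fintype G]

/-- The projection onto the `χ`-part. -/
noncomputable def proj (ρ : Representation K G V) (χ : G →* Kˣ) : V →ₗ[K] V :=
  (Fintype.card G : K)⁻¹ • ∑ g : G, ((χ g)⁻¹ : Kˣ).val • ρ g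

theorem proj_apply (ρ : Representation K G V) (χ : G →* Kˣ) (v : V) :
    proj ρ χ v = (Fintype.card G : K)⁻¹ • ∑ g : G, ((χ g)⁻¹ : Kˣ).val • ρ g v := by
  simp [proj, LinearMap.sum_apply]

theorem sum_mem (ρ : Representation K G V) (χ : G →* Kˣ) (v : V) :
    (∑ g : G, ((χ g)⁻¹ : Kˣ).val • ρ g v) ∈ chiPart ρ χ := by
  intro h
  rw [map_sum, Finset.smul_sum]
  have key : ∀ g : G, ρ h (((χ g)⁻¹ : Kˣ).val • ρ g v)
      = (χ h : K) • (((χ (h * g))⁻¹ : Kˣ).val • ρ (h * g) v) := by
    intro g
    rw [map_smul, map_mul, map_mul, smul_smul]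
    have : (χ h : K) * (((χ h * χ g)⁻¹ : Kˣ) : K) = (((χ g)⁻¹ : Kˣ) : K) := by
      rw [mul_inv_rev]
      push_cast
      rw [mul_comm ((χ g : K)⁻¹) _, ← mul_assoc, mul_inv_cancel₀ (Units.ne_zero _), one_mul]
    rw [this]
    rfl
  rw [Finset.sum_congr rfl (fun g _ => key g)]
  exact (Fintype.sum_bijective (fun g => h * g) (Group.mulLeft_bijective h) _ _ (fun g => rfl))

theorem proj_mem (ρ : Representation K G V) (χ : G →* Kˣ) (v : V) :
    proj ρ χ v ∈ chiPart ρ χ := by
  rw [proj_apply]
  exact (chiPart ρ χ).smul_mem _ (sum_mem ρ χ v)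

theorem proj_of_mem (hG : (Fintype.card G : K) ≠ 0) {ρ : Representation K G V} {χ : G →* Kˣ}
    {v : V} (hv : v ∈ chiPart ρ χ) : proj ρ χ v = v := by
  rw [proj_apply]
  have : ∀ g ∈ (Finset.univ : Finset G), ((χ g)⁻¹ : Kˣ).val • ρ g v = v := by
    intro g _
    rw [hv g, smul_smul]
    push_cast
    rw [inv_mul_cancel₀ (Units.ne_zero _), one_smul]
  rw [Finset.sum_congr rfl this, Finset.sum_const, Finset.card_univ, ← Nat.cast_smul_eq_nsmul K,
    smul_smul, inv_mul_cancel₀ hG, one_smul]

theorem range_proj (hG : (Fintype.card G : K) ≠ 0) (ρ : Representation K G V) (χ : G →* Kˣ) :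
    LinearMap.range (proj ρ χ) = chiPart ρ χ := by
  apply le_antisymm
  · rintro _ ⟨v, rfl⟩
    exact proj_mem ρ χ v
  · intro v hv
    exact ⟨v, proj_of_mem hG hv⟩

/-- (I1) elementwise exactness: an element which is `χ`-isotypic modulo a submodule `U`
(which need not even be stable) can be corrected by an element of `U`. -/
theorem exists_correct (hG : (Fintype.card G : K) ≠ 0) (ρ : Representation K G V) (χ : G →* Kˣ)
    (U : Submodule K V) (v : V) (hv : ∀ g, ρ g v - (χ g : K) • v ∈ U) :
    proj ρ χ v - v ∈ U := by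
  have h1 : v = (Fintype.card G : K)⁻¹ • ∑ _g : G, v := by
    rw [Finset.sum_const, Finset.card_univ, ← Nat.cast_smul_eq_nsmul K, smul_smul,
      inv_mul_cancel₀ hG, one_smul]
  have h2 : proj ρ χ v - v
      = (Fintype.card G : K)⁻¹ • ∑ g : G, ((χ g)⁻¹ : Kˣ).val • (ρ g v - (χ g : K) • v) := by
    conv_lhs => rw [proj_apply]
    conv_lhs => arg 2; rw [h1]
    rw [← smul_sub, ← Finset.sum_sub_distrib]
    congr 1
    apply Finset.sum_congr rfl
    intro g _
    rw [smul_sub, smul_smul]
    push_cast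
    rw [inv_mul_cancel₀ (Units.ne_zero _), one_smul]
  rw [h2]
  exact U.smul_mem _ (U.sum_mem (fun g _ => U.smul_mem _ (hv g)))

/-- the projection preserves every stable submodule. -/
theorem proj_mem_of_stable (ρ : Representation K G V) (χ : G →* Kˣ) (U : Submodule K V)
    (hU : ∀ g, ∀ u ∈ U, ρ g u ∈ U) {v : V} (hv : v ∈ U) : proj ρ χ v ∈ U := by
  rw [proj_apply]
  exact U.smul_mem _ (U.sum_mem (fun g _ => U.smul_mem _ (hU g v hv)))

/-- equivariant maps commute with the projections. -/
theorem map_proj (ρ : Representation K G V) (σ : Representation K G W) (χ : G →* Kˣ)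
    (f : V →ₗ[K] W) (hf : ∀ g v, f (ρ g v) = σ g (f v)) (v : V) :
    f (proj ρ χ v) = proj σ χ (f v) := by
  rw [proj_apply, proj_apply, map_smul, map_sum]
  congr 1
  apply Finset.sum_congr rfl
  intro g _
  rw [map_smul, hf]

/-- (I1) exactness: a surjective equivariant map is surjective on `χ`-parts. -/
theorem map_chiPart (hG : (Fintype.card G : K) ≠ 0)
    (ρ : Representation K G V) (σ : Representation K G W) (χ : G →* Kˣ)
    (f : V →ₗ[K] W) (hf : ∀ g v, f (ρ g v) = σ g (f v)) (hs : Function.Surjective f) :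
    Submodule.map f (chiPart ρ χ) = chiPart σ χ := by
  apply le_antisymm
  · rintro _ ⟨v, hv, rfl⟩ g
    rw [← hf, hv g, map_smul]
  · intro w hw
    obtain ⟨v, rfl⟩ := hs w
    refine ⟨proj ρ χ v, proj_mem ρ χ v, ?_⟩
    rw [map_proj ρ σ χ f hf, proj_of_mem hG hw]

/-- relative version: the image of `U ⊓ χ-part` is `(image of U) ⊓ χ-part`. -/
theorem map_inf_chiPart (hG : (Fintype.card G : K) ≠ 0)
    (ρ : Representation K G V) (σ : Representation K G W) (χ : G →* Kˣ)
    (f : V →ₗ[K] W) (hf : ∀ g v, f (ρ g v) = σ g (f v)) (U : Submodule K V)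
    (hU : ∀ g, ∀ u ∈ U, ρ g u ∈ U) :
    Submodule.map f (U ⊓ chiPart ρ χ) = Submodule.map f U ⊓ chiPart σ χ := by
  apply le_antisymm
  · rintro _ ⟨v, ⟨hvU, hv⟩, rfl⟩
    refine ⟨⟨v, hvU, rfl⟩, ?_⟩
    intro g
    rw [← hf, hv g, map_smul]
  · rintro _ ⟨⟨v, hvU, rfl⟩, hw⟩
    refine ⟨proj ρ χ v, ⟨proj_mem_of_stable ρ χ U hU hvU, proj_mem ρ χ v⟩, ?_⟩
    rw [map_proj ρ σ χ f hf, proj_of_mem hG hw]

end avg

/-! ### finrank forms of (I1) -/

theorem finrank_inf_add {V W : Type*} [AddCommGroup V] [Module K V] [AddCommGroup W] [Module K W]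
    (f : V →ₗ[K] W) (U : Submodule K V) [FiniteDimensional K U] :
    finrank K U = finrank K (U ⊓ LinearMap.ker f : Submodule K V)
      + finrank K (Submodule.map f U) := by
  have h := LinearMap.finrank_range_add_finrank_ker (f.domRestrict U)
  rw [LinearMap.range_domRestrict, LinearMap.ker_domRestrict] at h
  have h2 : finrank K (Submodule.comap U.subtype (LinearMap.ker f))
      = finrank K (U ⊓ LinearMap.ker f : Submodule K V) := by
    have e := (Submodule.equivMapOfInjective U.subtype U.injective_subtype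
      (Submodule.comap U.subtype (LinearMap.ker f)))
    rw [e.finrank_eq, Submodule.map_comap_subtype]
  rw [← h, h2, add_comm]

section avg2

variable [Fintype G]

/-- (I1) finrank form: for an equivariant map `f` and a stable finite dimensional `U`. -/
theorem finrank_chiPart_split (hG : (Fintype.card G : K) ≠ 0)
    (ρ : Representation K G V) (σ : Representation K G W) (χ : G →* Kˣ)
    (f : V →ₗ[K] W) (hf : ∀ g v, f (ρ g v) = σ g (f v)) (U : Submodule K V)
    [FiniteDimensional K U] (hU : ∀ g, ∀ u ∈ U, ρ g u ∈ U) :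
    finrank K (U ⊓ chiPart ρ χ : Submodule K V)
      = finrank K ((U ⊓ LinearMap.ker f) ⊓ chiPart ρ χ : Submodule K V)
        + finrank K (Submodule.map f U ⊓ chiPart σ χ : Submodule K W) := by
  have : FiniteDimensional K (U ⊓ chiPart ρ χ : Submodule K V) :=
    Submodule.finiteDimensional_inf_left _ _
  rw [finrank_inf_add f (U ⊓ chiPart ρ χ), map_inf_chiPart hG ρ σ χ f hf U hU,
    inf_right_comm U (chiPart ρ χ) (LinearMap.ker f)]

/-- (I1) for a surjective equivariant map of finite dimensional representations. -/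
theorem finrank_chiPart_surj (hG : (Fintype.card G : K) ≠ 0) [FiniteDimensional K V]
    (ρ : Representation K G V) (σ : Representation K G W) (χ : G →* Kˣ)
    (f : V →ₗ[K] W) (hf : ∀ g v, f (ρ g v) = σ g (f v)) (hs : Function.Surjective f) :
    finrank K (chiPart ρ χ)
      = finrank K (LinearMap.ker f ⊓ chiPart ρ χ : Submodule K V)
        + finrank K (chiPart σ χ) := by
  have h := finrank_chiPart_split hG ρ σ χ f hf ⊤ (fun _ _ _ => Submodule.mem_top)
  rwa [top_inf_eq, top_inf_eq, Submodule.map_top, LinearMap.range_eq_top.2 hs, top_inf_eq] at h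

end avg2

/-! ### (I2) imprimitive decompositions -/

section imprim

variable {X : Type*} [MulAction G X]

/-- The part of the summand `p x` which is `χ`-isotypic for the stabiliser of `x`. -/
def stabPart (ρ : Representation K G V) (χ : G →* Kˣ) (p : X → V →ₗ[K] V) (x : X) :
    Submodule K V where
  carrier := {v | p x v = v ∧ ∀ g : G, g • x = x → ρ g v = (χ g : K) • v}
  add_mem' := by
    rintro a b ⟨ha, ha'⟩ ⟨hb, hb'⟩
    refine ⟨by rw [map_add, ha, hb], fun g hg => by rw [map_add, ha' g hg, hb' g hg, smul_add]⟩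
  zero_mem' := ⟨map_zero _, fun g _ => by simp⟩
  smul_mem' := by
    rintro c v ⟨hv, hv'⟩
    exact ⟨by rw [map_smul, hv], fun g hg => by rw [map_smul, hv' g hg, smul_comm]⟩

theorem mem_stabPart {ρ : Representation K G V} {χ : G →* Kˣ} {p : X → V →ₗ[K] V} {x : X}
    {v : V} : v ∈ stabPart ρ χ p x ↔ p x v = v ∧ ∀ g : G, g • x = x → ρ g v = (χ g : K) • v :=
  Iff.rfl

variable (ρ : Representation K G V) (χ : G →* Kˣ) (p : X → V →ₗ[K] V)

/-- The data of an imprimitive decomposition, in the language of projections. -/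
structure Imprim [Fintype X] (ρ : Representation K G V) (p : X → V →ₗ[K] V) : Prop where
  sum : ∀ v, ∑ x, p x v = v
  idem : ∀ x v, p x (p x v) = p x v
  orth : ∀ x y, x ≠ y → ∀ v, p x (p y v) = 0
  equiv : ∀ (g : G) x v, ρ g (p x v) = p (g • x) (ρ g v)

variable {ρ p}

theorem apply_mem_stabPart [Fintype X] (h : Imprim ρ p) (x : X) {v : V}
    (hv : v ∈ chiPart ρ χ) : p x v ∈ stabPart ρ χ p x := by
  refine ⟨h.idem x v, fun g hg => ?_⟩
  rw [h.equiv, hg, hv g, map_smul]

/-- components of an isotypic vector along one orbit are determined by one of them. -/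
theorem comp_smul [Fintype X] (h : Imprim ρ p) (x : X) (g : G) {v : V}
    (hv : v ∈ chiPart ρ χ) : p (g • x) v = ((χ g)⁻¹ : Kˣ).val • ρ g (p x v) := by
  rw [h.equiv, hv g, map_smul, smul_smul]
  push_cast
  rw [inv_mul_cancel₀ (Units.ne_zero _), one_smul]

theorem comp_proj_same [Fintype G] [Fintype X] [DecidableEq X] (h : Imprim ρ p) (x : X) {m : V}
    (hm : m ∈ stabPart ρ χ p x) :
    p x (∑ g : G, ((χ g)⁻¹ : Kˣ).val • ρ g m)
      = (((Finset.univ.filter (fun g : G => g • x = x)).card : ℕ) : K) • m := by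
  rw [map_sum, ← Finset.sum_filter_add_sum_filter_not Finset.univ (fun g : G => g • x = x)]
  have h1 : ∀ g ∈ Finset.univ.filter (fun g : G => g • x = x),
      p x (((χ g)⁻¹ : Kˣ).val • ρ g m) = m := by
    intro g hg
    have hg' := (Finset.mem_filter.1 hg).2
    rw [hm.2 g hg', smul_smul]
    push_cast
    rw [inv_mul_cancel₀ (Units.ne_zero _), one_smul, hm.1]
  have h2 : ∀ g ∈ Finset.univ.filter (fun g : G => ¬ g • x = x),
      p x (((χ g)⁻¹ : Kˣ).val • ρ g m) = 0 := by
    intro g hg
    have hg' := (Finset.mem_filter.1 hg).2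
    rw [← hm.1, h.equiv, map_smul, h.orth _ _ (fun e => hg' e.symm), smul_zero]
  rw [Finset.sum_congr rfl h1, Finset.sum_congr rfl h2, Finset.sum_const, Finset.sum_const_zero,
    add_zero, Nat.cast_smul_eq_nsmul]

theorem comp_proj_other [Fintype G] [Fintype X] (h : Imprim ρ p) (x y : X)
    (hxy : ∀ g : G, g • x ≠ y) {m : V} (hm : m ∈ stabPart ρ χ p x) :
    p y (∑ g : G, ((χ g)⁻¹ : Kˣ).val • ρ g m) = 0 := by
  rw [map_sum]
  apply Finset.sum_eq_zero
  intro g _
  rw [← hm.1, h.equiv, map_smul, h.orth _ _ (fun e => hxy g e.symm), smul_zero]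

theorem card_stab_ne_zero [Fintype G] [DecidableEq X] (hG : (Fintype.card G : K) ≠ 0) (x : X) :
    (((Finset.univ.filter (fun g : G => g • x = x)).card : ℕ) : K) ≠ 0 := by
  have h1 : (Finset.univ.filter (fun g : G => g • x = x)).card
      = Nat.card (MulAction.stabilizer G x) := by
    rw [Nat.card_eq_fintype_card, Fintype.card_subtype]
    congr 1
  have h2 : Nat.card (MulAction.stabilizer G x) ∣ Nat.card G := Subgroup.card_subgroup_dvd_card _
  rw [h1]
  intro h0
  apply hG
  obtain ⟨k, hk⟩ := h2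
  rw [← Nat.card_eq_fintype_card, hk, Nat.cast_mul, h0, zero_mul]

/-- (I2) Imprimitivity: the `χ`-part of a representation permuting the summands of a direct
decomposition is the product over the orbits of the `χ`-parts (for the stabilisers) of one
summand per orbit. -/
noncomputable def imprimEquiv [Fintype G] [Fintype X] (hG : (Fintype.card G : K) ≠ 0)
    (h : Imprim ρ p) :
    chiPart ρ χ ≃ₗ[K] (∀ ω : MulAction.orbitRel.Quotient G X,
      stabPart ρ χ p (Quotient.out ω)) := by
  classical
  refine LinearEquiv.ofBijective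
    { toFun := fun v ω => ⟨p (Quotient.out ω) v.1, apply_mem_stabPart χ h _ v.2⟩
      map_add' := by intro a b; funext ω; ext; simp
      map_smul' := by intro c a; funext ω; ext; simp } ⟨?_, ?_⟩
  · rw [injective_iff_map_eq_zero]
    rintro ⟨v, hv⟩ h0
    have h0' : ∀ ω : MulAction.orbitRel.Quotient G X, p (Quotient.out ω) v = 0 := by
      intro ω
      exact congrArg Subtype.val (congrFun h0 ω)
    ext
    change v = 0
    rw [← h.sum v]
    apply Finset.sum_eq_zero
    intro x _
    have hx : (Quotient.out (Quotient.mk (MulAction.orbitRel G X) x)) ∈ MulAction.orbit G x := by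
      have := Quotient.exact (s := MulAction.orbitRel G X)
        (Quotient.out_eq (Quotient.mk (MulAction.orbitRel G X) x))
      exact this
    obtain ⟨g, hg⟩ := hx
    have hx2 : x = g⁻¹ • Quotient.out (Quotient.mk (MulAction.orbitRel G X) x) := by
      rw [← hg]; simp
    rw [hx2, comp_smul χ h _ _ hv, h0', map_zero, smul_zero]
  · intro m
    have hfin : Finite (MulAction.orbitRel.Quotient G X) := Quotient.finite _
    have := Fintype.ofFinite (MulAction.orbitRel.Quotient G X)
    let c : MulAction.orbitRel.Quotient G X → K := fun ω =>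
      (((Finset.univ.filter (fun g : G => g • (Quotient.out ω : X) = Quotient.out ω)).card : ℕ) : K)
    have hc : ∀ ω, c ω ≠ 0 := fun ω => card_stab_ne_zero (X := X) hG (Quotient.out ω)
    refine ⟨⟨∑ ω, (c ω)⁻¹ • ∑ g : G, ((χ g)⁻¹ : Kˣ).val • ρ g (m ω).1, ?_⟩, ?_⟩
    · exact (chiPart ρ χ).sum_mem fun ω _ => (chiPart ρ χ).smul_mem _ (sum_mem ρ χ _)
    · funext ω
      ext
      change p (Quotient.out ω) (∑ ω', (c ω')⁻¹ • ∑ g : G, ((χ g)⁻¹ : Kˣ).val • ρ g (m ω').1)
        = (m ω).1
      rw [map_sum, Finset.sum_eq_single ω]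
      · rw [map_smul, comp_proj_same χ h _ (m ω).2, smul_smul, inv_mul_cancel₀ (hc ω), one_smul]
      · intro ω' _ hne
        rw [map_smul, comp_proj_other χ h _ _ _ (m ω').2, smul_zero]
        intro g hg
        apply hne
        have : (Quotient.mk (MulAction.orbitRel G X) (Quotient.out ω : X))
            = Quotient.mk (MulAction.orbitRel G X) (Quotient.out ω' : X) := by
          apply Quotient.sound
          exact ⟨g, hg⟩
        rw [Quotient.out_eq, Quotient.out_eq] at this
        exact this.symm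
      · intro h'
        exact absurd (Finset.mem_univ _) h'

theorem finrank_imprim [Fintype G] [Fintype X] [Fintype (MulAction.orbitRel.Quotient G X)]
    [FiniteDimensional K V] (hG : (Fintype.card G : K) ≠ 0) (h : Imprim ρ p) :
    finrank K (chiPart ρ χ)
      = ∑ ω : MulAction.orbitRel.Quotient G X, finrank K (stabPart ρ χ p (Quotient.out ω)) := by
  rw [(imprimEquiv χ hG h).finrank_eq, Module.finrank_pi_fintype]

/-- transitive case. -/
noncomputable def imprimEquivTrans [Fintype G] [Fintype X] (hG : (Fintype.card G : K) ≠ 0)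
    (h : Imprim ρ p) (x : X) (htr : ∀ y : X, ∃ g : G, g • x = y) :
    chiPart ρ χ ≃ₗ[K] stabPart ρ χ p x := by
  classical
  refine LinearEquiv.ofBijective
    { toFun := fun v => ⟨p x v.1, apply_mem_stabPart χ h _ v.2⟩
      map_add' := by intro a b; ext; simp
      map_smul' := by intro c a; ext; simp } ⟨?_, ?_⟩
  · rw [injective_iff_map_eq_zero]
    rintro ⟨v, hv⟩ h0
    have h0' : p x v = 0 := congrArg Subtype.val h0
    ext
    change v = 0
    rw [← h.sum v]
    apply Finset.sum_eq_zero
    intro y _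
    obtain ⟨g, rfl⟩ := htr y
    rw [comp_smul χ h _ _ hv, h0', map_zero, smul_zero]
  · intro m
    have hc := card_stab_ne_zero (X := X) hG x
    refine ⟨⟨((((Finset.univ.filter (fun g : G => g • x = x)).card : ℕ) : K))⁻¹ •
      ∑ g : G, ((χ g)⁻¹ : Kˣ).val • ρ g m.1, ?_⟩, ?_⟩
    · exact (chiPart ρ χ).smul_mem _ (sum_mem ρ χ _)
    · ext
      change p x (_ • ∑ g : G, ((χ g)⁻¹ : Kˣ).val • ρ g m.1) = m.1
      rw [map_smul, comp_proj_same χ h _ m.2, smul_smul, inv_mul_cancel₀ hc, one_smul]

end imprim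

end Crest.Agent.R059.Iso158
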