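import Crest.Agent.R059.FlowV_999
import Crest.Agent.R059.Fac_150
import Crest.Agent.R059.Tr_201
import Crest.Agent.R059.TransA_569

/-!
# Row 59, WALL: binding of the flow theorem to the twisted power series ring (helper999)
-/

set_option autoImplicit false
set_option linter.unusedSectionVars false

open Finset

namespace Crest.Agent.R059.Wall999

open TPS FlowV999

/-! ### passing from `ι →₀ ℕ` to `ι →₀ ℤ` -/

section cast

variable {ι : Type*}

/-- the inclusion `ι →₀ ℕ → ι →₀ ℤ` -/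
noncomputable def cz : (ι →₀ ℕ) →+ (ι →₀ ℤ) :=
  Finsupp.mapRange.addMonoidHom (Nat.castAddMonoidHom ℤ)

@[simp] theorem cz_apply (m : ι →₀ ℕ) (i : ι) : cz m i = (m i : ℤ) := rfl

theorem cz_single (i : ι) (k : ℕ) : cz (Finsupp.single i k) = Finsupp.single i (k : ℤ) := by
  classical
  ext j
  simp [Finsupp.single_apply]

theorem cz_injective : Function.Injective (cz : (ι →₀ ℕ) → (ι →₀ ℤ)) := by
  intro a b h
  ext i
  have := DFunLike.congr_fun h i
  simpa using this

theorem exists_cz_sub (v : ι →₀ ℤ) : ∃ a b : ι →₀ ℕ, v = cz a - cz b := by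
  refine ⟨v.mapRange Int.toNat rfl, (-v).mapRange Int.toNat rfl, ?_⟩
  ext i
  simp only [Finsupp.coe_sub, Pi.sub_apply, cz_apply, Finsupp.mapRange_apply, Finsupp.coe_neg,
    Pi.neg_apply]
  omega

variable {V : Type*} [AddCommGroup V]

/-- extension of a functional to the group -/
noncomputable def ext (x : (ι →₀ ℕ) →+ V) : (ι →₀ ℤ) →+ V :=
  Finsupp.liftAddHom fun i => zmultiplesHom V (x (Finsupp.single i 1))

theorem ext_cz (x : (ι →₀ ℕ) →+ V) (m : ι →₀ ℕ) : ext x (cz m) = x m := by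
  have : (ext x).comp cz = x := by
    apply Finsupp.addHom_ext
    intro i k
    rw [AddMonoidHom.comp_apply, cz_single, ext, Finsupp.liftAddHom_apply_single,
      zmultiplesHom_apply, natCast_zsmul, ← map_nsmul, Finsupp.smul_single, smul_eq_mul, mul_one]
  exact DFunLike.congr_fun this m

/-- the bilinear form on the group -/
noncomputable def ext2 (s : (ι →₀ ℕ) →+ (ι →₀ ℕ) →+ ℤ) : (ι →₀ ℤ) →+ (ι →₀ ℤ) →+ ℤ :=
  ext (V := (ι →₀ ℤ) →+ ℤ)
    { toFun := fun a => ext (s a)
      map_zero' := by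
        apply Finsupp.addHom_ext
        intro i k
        simp [ext]
      map_add' := fun a b => by
        apply Finsupp.addHom_ext
        intro i k
        simp [ext, mul_add] }

theorem ext2_cz (s : (ι →₀ ℕ) →+ (ι →₀ ℕ) →+ ℤ) (a b : ι →₀ ℕ) :
    ext2 s (cz a) (cz b) = s a b := by
  rw [ext2, ext_cz]
  exact ext_cz (s a) b

theorem ext2_cz_left (s : (ι →₀ ℕ) →+ (ι →₀ ℕ) →+ ℤ) (a : ι →₀ ℕ) :
    ext2 s (cz a) = ext (s a) := by
  rw [ext2, ext_cz]; rfl

theorem ext2_skew {s : (ι →₀ ℕ) →+ (ι →₀ ℕ) →+ ℤ} (hs : ∀ a b, s a b = - s b a) (u v : ι →₀ ℤ) :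
    ext2 s v u = - ext2 s u v := by
  obtain ⟨a, b, rfl⟩ := exists_cz_sub u
  obtain ⟨c, d, rfl⟩ := exists_cz_sub v
  simp only [map_sub, AddMonoidHom.sub_apply, ext2_cz]
  rw [hs c a, hs c b, hs d a, hs d b]
  ring

end cast

/-! ### kernels -/

section ker

variable {ι : Type} {V : Type} [AddCommGroup V] [LinearOrder V] [IsOrderedAddMonoid V]

theorem ker_of_kerRay {x : (ι →₀ ℕ) →+ V} {c : ι →₀ ℕ} (h : Trans569.KerRay x c) :
    Ker (ext x) (cz c) := by
  obtain ⟨_, h1, h2⟩ := h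
  refine ⟨by rw [ext_cz]; exact h1, fun v hv => ?_⟩
  obtain ⟨a, b, rfl⟩ := exists_cz_sub v
  rw [map_sub, ext_cz, ext_cz, sub_eq_zero] at hv
  obtain ⟨k, i, j, hk, hkij⟩ := h2 a b hv
  refine ⟨k, (j : ℤ) - i, by exact_mod_cast hk.ne', ?_⟩
  have h3 := congrArg cz hkij
  simp only [map_add, map_nsmul] at h3
  rw [sub_smul, smul_sub, natCast_zsmul, natCast_zsmul, natCast_zsmul, natCast_zsmul]
  rw [sub_eq_sub_iff_add_eq_add, h3]
  abel

theorem kerRay_of_ker {x : (ι →₀ ℕ) →+ V} {c : ι →₀ ℕ} (hc : c ≠ 0) (h : Ker (ext x) (cz c)) :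
    Trans569.KerRay x c := by
  obtain ⟨h1, h2⟩ := h
  rw [ext_cz] at h1
  refine ⟨hc, h1, fun a b hab => ?_⟩
  obtain ⟨p, q, hp, hpq⟩ := h2 (cz a - cz b) (by rw [map_sub, ext_cz, ext_cz, hab, sub_self])
  wlog hp0 : 0 < p generalizing p q
  · exact this (-p) (-q) (neg_ne_zero.2 hp) (by rw [neg_smul, neg_smul, hpq])
      (by omega)
  refine ⟨p.toNat, (-q).toNat, q.toNat, by omega, ?_⟩
  apply cz_injective
  ext i
  have h4 := DFunLike.congr_fun hpq i
  simp only [Finsupp.coe_smul, Finsupp.coe_sub, Pi.smul_apply, Pi.sub_apply, cz_apply,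
    smul_eq_mul] at h4
  simp only [cz_apply, Finsupp.coe_add, Finsupp.coe_smul, Pi.add_apply, Pi.smul_apply,
    smul_eq_mul]
  push_cast
  have e1 : (p.toNat : ℤ) = p := Int.toNat_of_nonneg hp0.le
  rcases le_total 0 q with hq | hq
  · have e2 : (q.toNat : ℤ) = q := Int.toNat_of_nonneg hq
    have e3 : ((-q).toNat : ℤ) = 0 := by omega
    rw [e1, e2, e3]; linarith
  · have e2 : (q.toNat : ℤ) = 0 := by omega
    have e3 : ((-q).toNat : ℤ) = -q := by omega
    rw [e1, e2, e3]; linarith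

end ker

/-! ### the flow theorem on the ring of twisted power series -/

section flow

variable {ι : Type} [DecidableEq ι] {R : Type*} [CommRing R] {T : Tw (ι →₀ ℕ) R}

theorem finite_Iic (d : ι →₀ ℕ) : (Set.Iic d).Finite := Set.finite_Iic d

/-- part of slope zero, for functionals on the group -/
noncomputable def ZZ (V : Type) [AddCommGroup V] [LinearOrder V] [IsOrderedAddMonoid V]
    (X : (ι →₀ ℤ) →+ V) (a : TPS T) : TPS T := zer (X.comp cz) a

theorem zer_congr' {V W : Type} [AddCommGroup V] [LinearOrder V] [IsOrderedAddMonoid V]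
    [AddCommGroup W] [LinearOrder W] [IsOrderedAddMonoid W] (x : (ι →₀ ℕ) →+ V)
    (x' : (ι →₀ ℕ) →+ W) {a a' : TPS T} (ha : a.co 0 = 1) (d : ι →₀ ℕ)
    (haa : ∀ c ≤ d, a.co c = a'.co c) (h : ∀ c ≤ d, SameSg (x c) (x' c)) :
    (zer x a).co d = (zer x' a').co d := by
  refine (zer_congr x x' ha d haa (fun c hc => (h c hc).1) (fun c hc => ?_)).1
  obtain ⟨h1, h2⟩ := h c hc
  constructor
  · intro h0
    rcases lt_trichotomy (x' c) 0 with h3 | h3 | h3
    · exact absurd (h2.2 h3) (by rw [h0]; exact lt_irrefl _)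
    · exact h3
    · exact absurd (h1.2 h3) (by rw [h0]; exact lt_irrefl _)
  · intro h0
    rcases lt_trichotomy (x c) 0 with h3 | h3 | h3
    · exact absurd (h2.1 h3) (by rw [h0]; exact lt_irrefl _)
    · exact h3
    · exact absurd (h1.1 h3) (by rw [h0]; exact lt_irrefl _)

/-- `x` is a joint containing `d` -/
def JointAt (T : Tw (ι →₀ ℕ) R) {V : Type} [AddCommGroup V] [LinearOrder V]
    [IsOrderedAddMonoid V] (x : (ι →₀ ℕ) →+ V) (d : ι →₀ ℕ) : Prop :=
  IsJoint (ext2 T.β) (ext x) (cz d)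

/-- **walls**: box version, abstract positivity predicate. -/
theorem wall_box (hs : ∀ a b, T.β a b = - T.β b a) {A : TPS T} (hA : A.co 0 = 1)
    (Pos : (ι →₀ ℕ) → TPS T → Prop)
    (hloc : ∀ k b b', (∀ c ≤ k, b.co c = b'.co c) → Pos k b → Pos k b')
    (h2D : ∀ (V : Type) [AddCommGroup V] [LinearOrder V] [IsOrderedAddMonoid V]
      (x : (ι →₀ ℕ) →+ V) (d : ι →₀ ℕ), d ≠ 0 → JointAt T x d → x d = 0 →
      (∀ k ≤ d, k ≠ 0 → x k = 0 → Pos k (zer (T.β k) (zer x A))) →
      Pos d (zer (- T.β d) (zer x A)))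
    (hAT : ∀ (V : Type) [AddCommGroup V] [LinearOrder V] [IsOrderedAddMonoid V]
      (x : (ι →₀ ℕ) →+ V) (d : ι →₀ ℕ), Trans569.KerRay x d →
      (∀ c ≤ d, T.β d c ≠ 0 → SameSg (x c) (T.β d c)) → Pos d (zer x A)) :
    ∀ (V : Type) [AddCommGroup V] [LinearOrder V] [IsOrderedAddMonoid V]
      (x : (ι →₀ ℕ) →+ V) (d : ι →₀ ℕ), Trans569.KerRay x d → Pos d (zer x A) := by
  intro V _ _ _ x d hd
  have key := flowV (fun d : ι →₀ ℕ => finite_Iic d) (cz : (ι →₀ ℕ) → (ι →₀ ℤ))
    (fun k hk h0 => hk (cz_injective (by rw [h0, map_zero]))) (ext2 T.β) (ext2_skew hs)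
    (fun (b : TPS T) c => b.co c) (fun V _ _ _ X a => ZZ V X a) A ?_ ?_ Pos hloc ?_ ?_ d hd.1 V
    (ext x) (ker_of_kerRay hd)
  · exact hloc d _ _ (fun c _ => by
      have : (ext x).comp cz = x := AddMonoidHom.ext fun m => ext_cz x m
      change (zer ((ext x).comp cz) A).co c = _
      rw [this]) key
  · intro V V' _ _ _ _ _ _ X X' d h c hc
    exact zer_congr' _ _ hA c (fun _ _ => rfl) (fun e he => h e (he.trans hc))
  · intro V _ _ _ X Y d c _
    change (zer ((lexF X Y).comp cz) A).co c = (zer (Y.comp cz) (zer (X.comp cz) A)).co c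
    rw [← (parts_lex (X.comp cz) (Y.comp cz) hA).2.1]
    refine zer_congr' _ _ hA c (fun _ _ => rfl) (fun e _ => ?_)
    exact ⟨by rw [lexHom_pos]; exact lexF_pos, by rw [lexHom_neg]; exact lexF_neg⟩
  · intro V _ _ _ X d hd0 hJ hXd hk
    have hX : ext (X.comp cz) = X := by
      apply Finsupp.addHom_ext
      intro i k
      rw [ext, Finsupp.liftAddHom_apply_single, zmultiplesHom_apply, AddMonoidHom.comp_apply,
        cz_single, ← map_zsmul, Finsupp.smul_single]
      simp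
    have e1 : ∀ k : ι →₀ ℕ, (ext2 T.β (cz k)).comp cz = T.β k := fun k =>
      AddMonoidHom.ext fun m => ext2_cz _ _ _
    have e2 : (-(ext2 T.β (cz d))).comp cz = - T.β d := AddMonoidHom.ext fun m => by
      change -(ext2 T.β (cz d) (cz m)) = -(T.β d m)
      rw [ext2_cz]
    have := h2D V (X.comp cz) d hd0 (by unfold JointAt; rw [hX]; exact hJ) hXd
      (fun k hkd hk0 hXk => by
        have := hk k hkd hk0 hXk
        change Pos k (zer ((ext2 T.β (cz k)).comp cz) (zer (X.comp cz) A)) at this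
        rw [e1] at this
        exact this)
    change Pos d (zer ((-(ext2 T.β (cz d))).comp cz) (zer (X.comp cz) A))
    rw [e2]
    exact this
  · intro V _ _ _ X d hd0 hK hsg _
    have hX : ext (X.comp cz) = X := by
      apply Finsupp.addHom_ext
      intro i k
      rw [ext, Finsupp.liftAddHom_apply_single, zmultiplesHom_apply, AddMonoidHom.comp_apply,
        cz_single, ← map_zsmul, Finsupp.smul_single]
      simp
    refine hAT V (X.comp cz) d (kerRay_of_ker hd0 (by rw [hX]; exact hK)) (fun c hc h => ?_)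
    have := hsg c hc (by rw [ext2_cz]; exact h)
    rwa [ext2_cz] at this

end flow

/-! ### the attractor chamber -/

section att

open Tr201 HasAntidiagonal

variable {ι : Type} [DecidableEq ι] {R : Type*} [CommRing R] {T : Tw (ι →₀ ℕ) R}

theorem lam_congr (h : (ι →₀ ℕ) →+ R) {d : ι →₀ ℕ} {a b : TPS T}
    (hab : ∀ e ≤ d, a.co e = b.co e) : lam h d a (inv a) = lam h d b (inv b) :=
  co_mul_congr_le d (fun e he => by rw [co_der, co_der, hab e he])
    (fun e he => co_inv_congr_le e (fun e' he' => hab e' (he'.trans he)))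

theorem lam_top (h : (ι →₀ ℕ) →+ R) {d : ι →₀ ℕ} {a b : TPS T}
    (hab : ∀ e < d, a.co e = b.co e) :
    lam h d a (inv a) - lam h d b (inv b) = h d * (a.co d - b.co d) := by
  have hinv : ∀ e < d, (TPS.inv a).co e = (TPS.inv b).co e := fun e he =>
    co_inv_congr_le e (fun e' he' => hab e' (lt_of_le_of_lt he' he))
  rw [lam, lam, co_mul, co_mul, ← Finset.sum_sub_distrib, Finset.sum_eq_single (d, 0)]
  · simp only [co_der, wt_zero_right, TPS.inv_zero]
    ring
  · rintro ⟨x, y⟩ hp hne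
    have hy : y ≠ 0 := by
      rintro rfl
      rw [HasAntidiagonal.mem_antidiagonal, add_zero] at hp
      exact hne (Prod.ext hp rfl)
    have hx := fst_lt_of_mem hp hy
    simp only at hx
    by_cases hx0 : x = 0
    · subst hx0; rw [co_der_zero, co_der_zero]; ring
    · have hy' := snd_lt_of_mem hp hx0
      simp only at hy'
      rw [co_der, co_der, hab x hx, hinv y hy', sub_self]
  · intro h4
    exact absurd (by simp [HasAntidiagonal.mem_antidiagonal]) h4

theorem eq_of_lam_ray [IsDomain R] (h : (ι →₀ ℕ) →+ R) (hreg : ∀ d, d ≠ 0 → h d ≠ 0)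
    {P : (ι →₀ ℕ) → Prop} {z w : TPS T} (hz : z.co 0 = 1) (hw : w.co 0 = 1) (d : ι →₀ ℕ)
    (hlam : ∀ e ≤ d, e ≠ 0 → P e → lam h e z (inv z) = lam h e w (inv w))
    (hout : ∀ e ≤ d, e ≠ 0 → ¬ P e → z.co e = w.co e) : ∀ e ≤ d, z.co e = w.co e := by
  intro e
  induction e using WellFoundedLT.induction with
  | ind e ih =>
    intro he
    by_cases he0 : e = 0
    · rw [he0, hz, hw]
    by_cases hP : P e
    · have h1 := lam_top h (a := z) (b := w) (fun e' he' => ih e' he' (he'.le.trans he))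
      rw [hlam e he he0 hP, sub_self] at h1
      rcases mul_eq_zero.1 h1.symm with h2 | h2
      · exact absurd h2 (hreg e he0)
      · exact sub_eq_zero.1 h2
    · exact hout e he he0 hP

theorem lam_zer (h : (ι →₀ ℕ) →+ R) {d : ι →₀ ℕ} {V : Type} [AddCommGroup V] [LinearOrder V]
    [IsOrderedAddMonoid V] (x : (ι →₀ ℕ) →+ V) (hxd : x d = 0) {B : TPS T} (hB : B.co 0 = 1)
    (hBs : In1 (fun e => com T d e = 0) B) :
    lam h d (zer x B) (inv (zer x B)) = lam h d B (inv B) := by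
  have hadd : ∀ a b, com T d a = 0 → com T d b = 0 → com T d (a + b) = 0 := fun a b ha hb => by
    rw [map_add, ha, hb, add_zero]
  have hp := hBs.pos hadd x
  have hz := hBs.zer hadd x
  have e1 : pos x B * zer x B * neg x B = B := pos_mul_zer_mul_neg x hB
  have e2 : inv B = inv (neg x B) * (inv (zer x B) * inv (pos x B)) := by
    rw [← inv_mul_rev (pos_co_zero x B) (zer_co_zero x B), ← inv_mul_rev ?_ (neg_co_zero x B), e1]
    rw [co_mul_zero', pos_co_zero, zer_co_zero, one_mul]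
  have toS : ∀ {f : TPS T} {Q : (ι →₀ ℕ) → Prop}, In1 (fun e => Q e ∧ com T d e = 0) f →
      SuppIn (comKer T d) f := fun {f Q} hf e he => by
    rcases hf.eq_zero_or he with h0 | h0
    · rw [h0]; exact (comKer T d).zero_mem
    · exact h0.2
  have key := lam_parts x h hxd (p := pos x B) (p' := inv (pos x B)) (z := zer x B)
    (z' := inv (zer x B)) (n := neg x B) (n' := inv (neg x B)) (toS hp) (toS hz)
    (fun e he => (in1_pos x B).eq_zero_or he)
    (fun e he => ((in1_pos x B).inv (closed_pos x)).eq_zero_or he)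
    (fun e he => (in1_neg x B).eq_zero_or he)
    (fun e he => ((in1_neg x B).inv (closed_neg x)).eq_zero_or he)
    (inv_mul (pos_co_zero x B)) (mul_inv (zer_co_zero x B)) (inv_mul (zer_co_zero x B))
    (mul_inv (neg_co_zero x B))
  rw [e1, ← e2] at key
  exact key.symm

/-- in the attractor chamber of `d` the logarithmic coefficient of the zero part is the attractor
datum. -/
theorem lam_chamber (hs : ∀ a b, T.β a b = - T.β b a) (h : (ι →₀ ℕ) →+ R) {d : ι →₀ ℕ}
    {V : Type} [AddCommGroup V] [LinearOrder V]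
    [IsOrderedAddMonoid V] (x : (ι →₀ ℕ) →+ V) (hxd : x d = 0) {A : TPS T} (hA : A.co 0 = 1)
    (hsg : ∀ c ≤ d, T.β d c ≠ 0 → SameSg (x c) (T.β d c)) :
    lam h d (zer x A) (inv (zer x A)) = lam h d (zer (T.β d) A) (inv (zer (T.β d) A)) := by
  have hz0 : (zer (T.β d) A).co 0 = 1 := zer_co_zero _ _
  have h1 : ∀ e ≤ d, (zer x A).co e = (zer x (zer (T.β d) A)).co e := by
    intro e he
    rw [← (parts_lex (T.β d) x hA).2.1]
    refine zer_congr' _ _ hA e (fun _ _ => rfl) (fun c hc => ?_)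
    by_cases h0 : T.β d c = 0
    · exact ⟨by rw [lexHom_pos, h0]; simp, by rw [lexHom_neg, h0]; simp⟩
    · have h2 := hsg c (hc.trans he) h0
      constructor
      · rw [lexHom_pos, h2.1]
        exact ⟨fun h => Or.inl h, fun h => h.resolve_right fun h' => h0 h'.1⟩
      · rw [lexHom_neg, h2.2]
        exact ⟨fun h => Or.inl h, fun h => h.resolve_right fun h' => h0 h'.1⟩
  rw [lam_congr h h1]
  refine lam_zer h x hxd hz0 ((in1_zer (T.β d) A).mono fun e _ he => ?_)
  rw [com_apply, he, hs e d, he]; simp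

/-- `e` is on the ray of `c` -/
def OnRay (e c : ι →₀ ℕ) : Prop := ∃ i j : ℕ, 0 < i ∧ 0 < j ∧ i • e = j • c

omit [DecidableEq ι] in
theorem OnRay.symm {e c : ι →₀ ℕ} (h : OnRay e c) : OnRay c e := by
  obtain ⟨i, j, hi, hj, hij⟩ := h
  exact ⟨j, i, hj, hi, hij.symm⟩

omit [DecidableEq ι] in
theorem OnRay.trans {a b c : ι →₀ ℕ} (h : OnRay a b) (h' : OnRay b c) : OnRay a c := by
  obtain ⟨i, j, hi, hj, hij⟩ := h
  obtain ⟨k, l, hk, hl, hkl⟩ := h'
  refine ⟨k * i, j * l, by positivity, by positivity, ?_⟩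
  rw [mul_smul, hij, smul_comm, hkl, mul_smul]

omit [DecidableEq ι] in
theorem OnRay.refl (c : ι →₀ ℕ) : OnRay c c := ⟨1, 1, one_pos, one_pos, rfl⟩

omit [DecidableEq ι] in
theorem nsmul_inj' {k : ℕ} (hk : 0 < k) {a b : ι →₀ ℕ} (h : k • a = k • b) : a = b := by
  ext i
  have := DFunLike.congr_fun h i
  simp only [Finsupp.coe_smul, Pi.smul_apply, smul_eq_mul] at this
  exact Nat.eq_of_mul_eq_mul_left hk this

omit [DecidableEq ι] in
theorem OnRay.ne_zero {e c : ι →₀ ℕ} (h : OnRay e c) (hc : c ≠ 0) : e ≠ 0 := by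
  rintro rfl
  obtain ⟨i, j, hi, hj, hij⟩ := h
  rw [smul_zero] at hij
  exact hc (nsmul_inj' hj (by rw [smul_zero, ← hij]))

omit [DecidableEq ι] in
theorem onRay_of_kerRay {V : Type} [AddCommGroup V] [LinearOrder V]
    [IsOrderedAddMonoid V] {x : (ι →₀ ℕ) →+ V} {d e : ι →₀ ℕ} (h : Trans569.KerRay x d)
    (he : e ≠ 0) (hxe : x e = 0) : OnRay e d := by
  obtain ⟨hd, _, h2⟩ := h
  obtain ⟨k, i, j, hk, hkij⟩ := h2 e 0 (by rw [hxe, map_zero])
  rw [smul_zero, zero_add] at hkij
  have hij : i < j := by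
    by_contra hcon
    apply he
    apply nsmul_inj' hk
    rw [smul_zero]
    ext t
    have := DFunLike.congr_fun hkij t
    simp only [Finsupp.coe_smul, Finsupp.coe_add, Pi.add_apply, Pi.smul_apply, smul_eq_mul] at this
    simp only [Finsupp.coe_smul, Pi.smul_apply, smul_eq_mul, Finsupp.coe_zero, Pi.zero_apply]
    have h3 : j * d t ≤ i * d t := Nat.mul_le_mul_right _ (not_lt.1 hcon)
    omega
  refine ⟨k, j - i, hk, by omega, ?_⟩
  ext t
  have := DFunLike.congr_fun hkij t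
  simp only [Finsupp.coe_smul, Finsupp.coe_add, Pi.add_apply, Pi.smul_apply, smul_eq_mul] at this
  simp only [Finsupp.coe_smul, Pi.smul_apply, smul_eq_mul]
  rw [Nat.sub_mul]; omega

omit [DecidableEq ι] in
theorem OnRay.apply_eq_zero {V : Type} [AddCommGroup V] [LinearOrder V]
    [IsOrderedAddMonoid V] {x : (ι →₀ ℕ) →+ V} {d e : ι →₀ ℕ} (h : OnRay e d) (hd : x d = 0) :
    x e = 0 := by
  obtain ⟨i, j, hi, hj, hij⟩ := h
  have h1 := congrArg x hij
  rw [map_nsmul, map_nsmul, hd, smul_zero] at h1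
  exact (smul_eq_zero.1 h1).resolve_left hi.ne'

omit [DecidableEq ι] in
theorem kerRay_onRay {V : Type} [AddCommGroup V] [LinearOrder V]
    [IsOrderedAddMonoid V] {x : (ι →₀ ℕ) →+ V} {d e : ι →₀ ℕ} (h : Trans569.KerRay x d)
    (he : OnRay e d) : Trans569.KerRay x e := by
  refine ⟨he.ne_zero h.1, he.apply_eq_zero h.2.1, fun a b hab => ?_⟩
  obtain ⟨k, i, j, hk, hkij⟩ := h.2.2 a b hab
  obtain ⟨p, q, hp, hq, hpq⟩ := he
  refine ⟨q * k, i * p, j * p, by positivity, ?_⟩
  have h1 := congrArg (fun t => q • t) hkij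
  simp only [smul_add, smul_smul] at h1
  rw [mul_smul i p, mul_smul j p, hpq, smul_smul, smul_smul, mul_comm i q, mul_comm j q]
  exact h1

omit [DecidableEq ι] in
/-- signs along a ray -/
theorem OnRay.sameSg (s : (ι →₀ ℕ) →+ (ι →₀ ℕ) →+ ℤ) {e d : ι →₀ ℕ} (h : OnRay e d)
    (c : ι →₀ ℕ) : SameSg (s e c) (s d c) := by
  obtain ⟨i, j, hi, hj, hij⟩ := h
  have h1 := congrArg (fun t => s t c) hij
  simp only [map_nsmul, AddMonoidHom.nsmul_apply, nsmul_eq_mul] at h1
  have hi' : (0 : ℤ) < i := by exact_mod_cast hi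
  have hj' : (0 : ℤ) < j := by exact_mod_cast hj
  constructor
  · rw [← mul_pos_iff_of_pos_left hi', h1, mul_pos_iff_of_pos_left hj']
  · constructor
    · intro h
      have : (i : ℤ) * s e c < 0 := mul_neg_of_pos_of_neg hi' h
      rw [h1] at this
      exact (pos_iff_neg_of_mul_neg this).1 hj'
    · intro h
      have : (j : ℤ) * s d c < 0 := mul_neg_of_pos_of_neg hj' h
      rw [← h1] at this
      exact (pos_iff_neg_of_mul_neg this).1 hi'

/-- the zero part in the attractor chamber agrees with a series with the same data. -/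
theorem att_box [IsDomain R] (hs : ∀ a b, T.β a b = - T.β b a) (h : (ι →₀ ℕ) →+ R)
    (hreg : ∀ d, d ≠ 0 → h d ≠ 0) {V : Type} [AddCommGroup V] [LinearOrder V]
    [IsOrderedAddMonoid V] (x : (ι →₀ ℕ) →+ V) {d : ι →₀ ℕ} (hK : Trans569.KerRay x d)
    {A : TPS T} (hA : A.co 0 = 1)
    (hsg : ∀ c ≤ d, T.β d c ≠ 0 → SameSg (x c) (T.β d c))
    {w : TPS T} (hw : In1 (fun e => OnRay e d) w)
    (hdata : ∀ e ≤ d, e ≠ 0 → OnRay e d →
      lam h e (zer (T.β e) A) (inv (zer (T.β e) A)) = lam h e w (inv w)) :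
    ∀ e ≤ d, (zer x A).co e = w.co e := by
  refine eq_of_lam_ray h hreg (P := fun e => OnRay e d) (zer_co_zero _ _) hw.one d ?_ ?_
  · intro e he he0 hed
    rw [← hdata e he he0 hed]
    refine lam_chamber hs h x (hed.apply_eq_zero hK.2.1) hA (fun c hc h0 => ?_)
    have h1 := hed.sameSg T.β c
    have h2 : T.β d c ≠ 0 := fun h2 => by
      rcases lt_or_gt_of_ne h0 with h3 | h3
      · have := h1.2.1 h3
        rw [h2] at this; exact lt_irrefl _ this
      · have := h1.1.1 h3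
        rw [h2] at this; exact lt_irrefl _ this
    have h3 := hsg c (hc.trans he) h2
    exact ⟨h3.1.trans h1.1.symm, h3.2.trans h1.2.symm⟩
  · intro e he he0 hed
    rw [hw.supp e he0 hed]
    refine (in1_zer x A).supp e he0 (fun h0 => hed (onRay_of_kerRay hK he0 h0))

end att

end Crest.Agent.R059.Wall999
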