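import Crest.Agent.R059.JTwo_269
import Crest.Agent.R059.Wall_999

set_option autoImplicit false
set_option linter.unusedSectionVars false
set_option linter.unusedVariables false

/-!
Row 59 (S0081): binding of `jtwod` to the hypothesis `h2D` of `Wall999.wall_box`.
-/

namespace Crest.Agent.R059.JBind269

open Finset TPS FlowV999 Wall999 JTwo269

section lattice

variable {ι : Type}

/-- the lattice of a joint: coordinatewise rank two identity, and `s(k, c) = 0` only on rays. -/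
structure JointL (s : (ι →₀ ℕ) →+ (ι →₀ ℕ) →+ ℤ) (L : AddSubmonoid (ι →₀ ℕ)) : Prop where
  rk : ∀ d ∈ L, ∀ e ∈ L, ∀ k ∈ L, ∀ i : ι,
    s d e * (k i : ℤ) + s e k * (d i : ℤ) + s k d * (e i : ℤ) = 0
  ray : ∀ k ∈ L, ∀ c ∈ L, k ≠ 0 → c ≠ 0 → s k c = 0 → OnRay c k

/-- the height -/
noncomputable def dg : (ι →₀ ℕ) →+ ℕ := Finsupp.degree

theorem dg_eq_zero (a : ι →₀ ℕ) (h : dg a = 0) : a = 0 := by
  rwa [dg, Finsupp.degree_eq_zero_iff] at h

theorem dg_sum (a : ι →₀ ℕ) (S : Finset ι) (h : a.support ⊆ S) : dg a = ∑ i ∈ S, a i := by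
  rw [dg, Finsupp.degree_apply]
  exact Finset.sum_subset h fun i _ hi => by simpa using hi

theorem JointL.rank2 {s : (ι →₀ ℕ) →+ (ι →₀ ℕ) →+ ℤ} {L : AddSubmonoid (ι →₀ ℕ)}
    (h : JointL s L) : Rank2 s dg L := by
  classical
  intro d hd e he k hk
  have hS : ∀ a ∈ ({d, e, k} : Set (ι →₀ ℕ)), a.support ⊆ d.support ∪ e.support ∪ k.support := by
    rintro a (rfl | rfl | rfl) i hi
    · simp [Finset.mem_union, hi]
    · simp [Finset.mem_union, hi]
    · simp [Finset.mem_union, hi]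
  rw [dg_sum d _ (hS d (by simp)), dg_sum e _ (hS e (by simp)), dg_sum k _ (hS k (by simp))]
  push_cast
  rw [Finset.mul_sum, Finset.mul_sum, Finset.mul_sum, ← Finset.sum_add_distrib,
    ← Finset.sum_add_distrib]
  exact Finset.sum_eq_zero fun i _ => h.rk d hd e he k hk i

theorem OnRay.le_of_dg {c k : ι →₀ ℕ} (h : OnRay c k) (hle : dg c ≤ dg k) : c ≤ k := by
  obtain ⟨i, j, hi, hj, hij⟩ := h
  intro t
  have h1 := DFunLike.congr_fun hij t
  simp only [Finsupp.coe_smul, Pi.smul_apply, smul_eq_mul] at h1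
  have h2 := congrArg dg hij
  simp only [map_nsmul, smul_eq_mul] at h2
  by_cases hk : dg k = 0
  · have := dg_eq_zero k hk
    have h3 := dg_eq_zero c (by omega)
    rw [this, h3]
  · have hji : j ≤ i := by
      by_contra hcon
      have h4 : i * dg c ≤ i * dg k := Nat.mul_le_mul_left _ hle
      have h5 : i * dg k < j * dg k :=
        Nat.mul_lt_mul_of_pos_right (not_le.1 hcon) (Nat.pos_of_ne_zero hk)
      omega
    have h6 : j * k t ≤ i * k t := Nat.mul_le_mul_right _ hji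
    exact Nat.le_of_mul_le_mul_left (by omega : i * c t ≤ i * k t) hi

theorem JointL.par {s : (ι →₀ ℕ) →+ (ι →₀ ℕ) →+ ℤ} {L : AddSubmonoid (ι →₀ ℕ)}
    (h : JointL s L) : ∀ k ∈ L, ∀ c ∈ L, k ≠ 0 → s k c = 0 → dg c ≤ dg k → c ≤ k := by
  intro k hk c hc hk0 hkc hle
  by_cases hc0 : c = 0
  · rw [hc0]; exact zero_le
  · exact OnRay.le_of_dg (h.ray k hk c hc hk0 hc0 hkc) hle

theorem onRay_of_par {c k : ι →₀ ℕ} (hc : c ≠ 0) (hk : k ≠ 0) (h : Par (cz c) (cz k)) :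
    OnRay c k := by
  obtain ⟨a, b, ha, hab⟩ := h
  have hco : ∀ t, a * (c t : ℤ) = b * (k t : ℤ) := fun t => by
    have := DFunLike.congr_fun hab t
    simpa using this
  obtain ⟨t, ht⟩ : ∃ t, c t ≠ 0 := by
    by_contra hcon
    push Not at hcon
    exact hc (Finsupp.ext hcon)
  have hct : (0 : ℤ) < c t := by exact_mod_cast Nat.pos_of_ne_zero ht
  have hkt : (0 : ℤ) ≤ k t := by positivity
  wlog hpos : 0 < a generalizing a b
  · exact this (-a) (-b) (neg_ne_zero.2 ha) (by rw [neg_smul, neg_smul, hab])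
      (fun t => by rw [neg_mul, neg_mul, hco]) (by omega)
  have hb : 0 < b := by
    have h1 := hco t
    have h2 : 0 < a * (c t : ℤ) := mul_pos hpos hct
    rw [h1] at h2
    by_contra hcon
    exact absurd h2 (not_lt.2 (mul_nonpos_of_nonpos_of_nonneg (not_lt.1 hcon) hkt))
  refine ⟨a.toNat, b.toNat, by omega, by omega, ?_⟩
  ext u
  have e1 : (a.toNat : ℤ) = a := Int.toNat_of_nonneg hpos.le
  have e2 : (b.toNat : ℤ) = b := Int.toNat_of_nonneg hb.le
  have h3 := hco u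
  rw [← e1, ← e2] at h3
  simp only [Finsupp.coe_smul, Pi.smul_apply, smul_eq_mul]
  exact_mod_cast h3

/-- the lattice of a joint. -/
theorem jointL_mker [DecidableEq ι] {R : Type*} [CommRing R] {T : Tw (ι →₀ ℕ) R}
    (hs : ∀ a b, T.β a b = - T.β b a) {V : Type} [AddCommGroup V] [LinearOrder V]
    [IsOrderedAddMonoid V] (x : (ι →₀ ℕ) →+ V) {d : ι →₀ ℕ} (hJ : JointAt T x d)
    (hxd : x d = 0) : JointL T.β (AddMonoidHom.mker x) := by
  have hker : ∀ k : ι →₀ ℕ, k ∈ AddMonoidHom.mker x → ext x (cz k) = 0 := fun k hk => by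
    rw [ext_cz]; exact AddMonoidHom.mem_mker.1 hk
  constructor
  · intro d' hd e he k hk i
    have h1 := hJ.1 (cz d') (cz e) (cz k) (hker _ hd) (hker _ he) (hker _ hk)
    rw [ext2_cz, ext2_cz, ext2_cz] at h1
    have h2 := DFunLike.congr_fun h1 i
    simp only [Finsupp.coe_smul, Finsupp.coe_add, Pi.add_apply, Pi.smul_apply, smul_eq_mul,
      cz_apply] at h2
    rw [hs k d']
    linarith
  · intro k hk c hc hk0 hc0 hkc
    refine onRay_of_par hc0 hk0 ?_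
    refine hJ.par (by rw [ext_cz]; exact hxd) (hker k hk) (fun h => hk0 (cz_injective (by
      rw [h, map_zero]))) (hker c hc) (by rw [ext2_cz]; exact hkc)

end lattice

section bind

variable {ι : Type} [DecidableEq ι] {R : Type*} [CommRing R] {T : Tw (ι →₀ ℕ) R}

/-- factors on the ray of `k` -/
def GenR (Dil : (ι →₀ ℕ) → ℤ → TPS T) (k : ι →₀ ℕ) : Set (TPS T) :=
  {f | ∃ (c : ι →₀ ℕ) (a : ℤ), OnRay c k ∧ f = Dil c a}

theorem DGen_eq_GenR (hs : ∀ a b, T.β a b = - T.β b a) {L : AddSubmonoid (ι →₀ ℕ)}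
    (hL : JointL T.β L) (hsat : ∀ k ∈ L, ∀ c, OnRay c k → c ∈ L) (Dil : (ι →₀ ℕ) → ℤ → TPS T)
    {k : ι →₀ ℕ} (hk : k ∈ L) (hk0 : k ≠ 0) : DGen Dil L T.β k = GenR Dil k := by
  ext f
  constructor
  · rintro ⟨c, a, hc, hc0, hkc, rfl⟩
    exact ⟨c, a, hL.ray k hk c hc hk0 hc0 hkc, rfl⟩
  · rintro ⟨c, a, hc, rfl⟩
    refine ⟨c, a, hsat k hk c hc, hc.ne_zero hk0, ?_, rfl⟩
    have hkk : T.β k k = 0 := by have := hs k k; omega
    exact hc.apply_eq_zero hkk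

variable [TopologicalSpace R]

/-- limits of finite products of factors on the ray of `k` -/
def DTr (Dil : (ι →₀ ℕ) → ℤ → TPS T) (k : ι →₀ ℕ) : Set (TPS T) :=
  closure (Submonoid.closure (GenR Dil k) : Set (TPS T))

/-- the truncated positivity predicate -/
def PosR (Dil : (ι →₀ ℕ) → ℤ → TPS T) (k : ι →₀ ℕ) (b : TPS T) : Prop :=
  ∃ f ∈ DTr Dil k, ∀ c ≤ k, f.co c = b.co c

theorem PosR.loc (Dil : (ι →₀ ℕ) → ℤ → TPS T) : ∀ (k : ι →₀ ℕ) (b b' : TPS T),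
    (∀ c ≤ k, b.co c = b'.co c) → PosR Dil k b → PosR Dil k b' := by
  rintro k b b' h ⟨f, hf, hf'⟩
  exact ⟨f, hf, fun c hc => (hf' c hc).trans (h c hc)⟩

variable [IsTopologicalRing R] [T1Space R]

/-- **(h2D)** the hypothesis of `wall_box`. -/
theorem h2D (hs : ∀ a b, T.β a b = - T.β b a) (A : TPS T) (Dil : (ι →₀ ℕ) → ℤ → TPS T)
    (hDil : ∀ c, c ≠ 0 → ∀ a, In1 (fun d => OnRay d c) (Dil c a))
    (hJM : ∀ L : AddSubmonoid (ι →₀ ℕ), JointL T.β L → (∀ k ∈ L, ∀ c, OnRay c k → c ∈ L) →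
      JMAIN T L T.β Dil (DTg Dil L T.β)) :
    ∀ (V : Type) [AddCommGroup V] [LinearOrder V] [IsOrderedAddMonoid V]
      (x : (ι →₀ ℕ) →+ V) (d : ι →₀ ℕ), d ≠ 0 → JointAt T x d → x d = 0 →
      (∀ k ≤ d, k ≠ 0 → x k = 0 → PosR Dil k (zer (T.β k) (zer x A))) →
      PosR Dil d (zer (- T.β d) (zer x A)) := by
  intro V _ _ _ x d hd0 hJ hxd hk
  have hL := jointL_mker hs x hJ hxd
  have hsat : ∀ k ∈ AddMonoidHom.mker x, ∀ c, OnRay c k → c ∈ AddMonoidHom.mker x :=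
    fun k hk c hc => AddMonoidHom.mem_mker.2 (hc.apply_eq_zero (AddMonoidHom.mem_mker.1 hk))
  have hDT : ∀ k, k ∈ AddMonoidHom.mker x → k ≠ 0 →
      DTg Dil (AddMonoidHom.mker x) T.β k = DTr Dil k := fun k hk hk0 => by
    rw [DTg, DTr, DGen_eq_GenR hs hL hsat Dil hk hk0]
  have hdL : d ∈ AddMonoidHom.mker x := AddMonoidHom.mem_mker.2 hxd
  obtain ⟨f, hf, hf'⟩ := jtwod (ht := dg) dg_eq_zero (fun a _ b _ => hs a b) hL.rank2 hL.par
    (Dil := Dil) (fun c hc hc0 a => (hDil c hc0 a).mono fun e _ he =>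
      ⟨hsat c hc e he, by
        have hcc : T.β c c = 0 := by have := hs c c; omega
        exact he.apply_eq_zero hcc⟩)
    (hJM _ hL hsat) (a := zer x A)
    ((in1_zer x A).mono fun e _ he => AddMonoidHom.mem_mker.2 he) hdL hd0
    (fun k hkL hk0 hkd => by
      obtain ⟨f, hf, hf'⟩ := hk k hkd hk0 (AddMonoidHom.mem_mker.1 hkL)
      exact ⟨f, by rw [hDT k hkL hk0]; exact hf, fun c hc => (hf' c hc).symm⟩)
  exact ⟨f, by rw [← hDT d hdL hd0]; exact hf, fun c hc => (hf' c hc).symm⟩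

omit [TopologicalSpace R] [IsTopologicalRing R] [T1Space R] in
theorem in1_QDil_ray (Q : (ι →₀ ℕ) → ZMod 2) (c : ι →₀ ℕ) (hc : c ≠ 0) (a : ℤ) :
    In1 (fun d => OnRay d c) (QDil T Q c a) := by
  refine ⟨co_dil_zero (nsmul_injective (ht := dg) dg_eq_zero hc) _ _, fun d hd hP => ?_⟩
  by_contra hne
  obtain ⟨k, hk⟩ := exists_of_co_ev_ne hne
  apply hP
  refine ⟨1, k, one_pos, Nat.pos_of_ne_zero ?_, by rw [hk, one_smul]⟩
  rintro rfl
  exact hd (by rw [hk, zero_smul])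

/-- **(h2D)** for 853's factors `QDil T Q c a`. -/
theorem h2D_Q (hs : ∀ a b, T.β a b = - T.β b a) (A : TPS T) (Q : (ι →₀ ℕ) → ZMod 2)
    (hJM : ∀ L : AddSubmonoid (ι →₀ ℕ), JointL T.β L → (∀ k ∈ L, ∀ c, OnRay c k → c ∈ L) →
      JMAIN T L T.β (QDil T Q) (DT T Q L T.β)) :
    ∀ (V : Type) [AddCommGroup V] [LinearOrder V] [IsOrderedAddMonoid V]
      (x : (ι →₀ ℕ) →+ V) (d : ι →₀ ℕ), d ≠ 0 → JointAt T x d → x d = 0 →
      (∀ k ≤ d, k ≠ 0 → x k = 0 → PosR (QDil T Q) k (zer (T.β k) (zer x A))) →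
      PosR (QDil T Q) d (zer (- T.β d) (zer x A)) :=
  h2D hs A (QDil T Q) (fun c hc a => in1_QDil_ray Q c hc a) hJM

end bind

end Crest.Agent.R059.JBind269
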