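import Crest.Agent.R059.JMain_853
import Crest.Agent.R059.JBind_269

set_option autoImplicit false

/-!
Row 59 (S0081): the two dimensional positivity `h2D` of `Wall999.wall_box` in GRND's rings
`TPS (twK β)`, `β` skew on `ι →₀ ℕ`, from the output `ABOut` of Theorems A + B.
-/

namespace Crest.Agent.R059

open Finset HasAntidiagonal TPS Wall999 JBind269

namespace JFinal853

variable {ι : Type}

theorem hsym_of_jointL {s : (ι →₀ ℕ) →+ (ι →₀ ℕ) →+ ℤ} (hs : ∀ a b, s a b = - s b a)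
    {L : AddSubmonoid (ι →₀ ℕ)} (hL : JointL s L) :
    ∀ k ∈ L, k ≠ 0 → ∀ a ∈ L, ∀ b ∈ L, s k a = 0 → s k b = 0 → s a b = 0 := by
  intro k hk hk0 a ha b hb hka hkb
  obtain ⟨i, hi⟩ : ∃ i, k i ≠ 0 := by
    by_contra hcon
    push Not at hcon
    exact hk0 (Finsupp.ext hcon)
  have h := hL.rk a ha b hb k hk i
  rw [hka, hs b k, hkb, neg_zero, zero_mul, zero_mul, add_zero, add_zero] at h
  rcases mul_eq_zero.1 h with h | h
  · exact h
  · exact absurd (by exact_mod_cast h) hi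

variable [DecidableEq ι]

/-- JMAIN for all joint lattices of `twK β`. -/
theorem jmain_joint (hAB : ABOut) {β : (ι →₀ ℕ) →+ (ι →₀ ℕ) →+ ℤ}
    (hβ : ∀ a b, β a b = - β b a) (Q : (ι →₀ ℕ) → ZMod 2)
    (hQ : ∀ a b, Q (a + b) = Q a + Q b + (β a b : ZMod 2)) (L : AddSubmonoid (ι →₀ ℕ))
    (hL : JointL β L) : JMAIN (twK β) L β (QDil (twK β) Q) (DT (twK β) Q L β) :=
  jmain hAB β hβ Q hQ dg dg_eq_zero L (hsym_of_jointL hβ hL)

/-- **(h2D)** in GRND's rings from `ABOut`. -/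
theorem h2D_K (hAB : ABOut) {β : (ι →₀ ℕ) →+ (ι →₀ ℕ) →+ ℤ}
    (hβ : ∀ a b, β a b = - β b a) (Q : (ι →₀ ℕ) → ZMod 2)
    (hQ : ∀ a b, Q (a + b) = Q a + Q b + (β a b : ZMod 2)) (A : TPS (twK β)) :
    ∀ (V : Type) [AddCommGroup V] [LinearOrder V] [IsOrderedAddMonoid V]
      (x : (ι →₀ ℕ) →+ V) (d : ι →₀ ℕ), d ≠ 0 → JointAt (twK β) x d → x d = 0 →
      (∀ k ≤ d, k ≠ 0 → x k = 0 → PosR (QDil (twK β) Q) k (zer ((twK β).β k) (zer x A))) →
      PosR (QDil (twK β) Q) d (zer (- (twK β).β d) (zer x A)) :=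
  h2D_Q (T := twK β) hβ A Q fun L hL _ => jmain_joint hAB hβ Q hQ L hL

/-- **walls**: positivity on all walls of `A` from positivity at the attractor side. -/
theorem wall_K (hAB : ABOut) {β : (ι →₀ ℕ) →+ (ι →₀ ℕ) →+ ℤ}
    (hβ : ∀ a b, β a b = - β b a) (Q : (ι →₀ ℕ) → ZMod 2)
    (hQ : ∀ a b, Q (a + b) = Q a + Q b + (β a b : ZMod 2)) {A : TPS (twK β)} (hA : A.co 0 = 1)
    (hAT : ∀ (V : Type) [AddCommGroup V] [LinearOrder V] [IsOrderedAddMonoid V]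
      (x : (ι →₀ ℕ) →+ V) (d : ι →₀ ℕ), Trans569.KerRay x d →
      (∀ c ≤ d, β d c ≠ 0 → FlowV999.SameSg (x c) (β d c)) →
      PosR (QDil (twK β) Q) d (zer x A)) :
    ∀ (V : Type) [AddCommGroup V] [LinearOrder V] [IsOrderedAddMonoid V]
      (x : (ι →₀ ℕ) →+ V) (d : ι →₀ ℕ), Trans569.KerRay x d →
      PosR (QDil (twK β) Q) d (zer x A) :=
  wall_box (T := twK β) hβ hA (PosR (QDil (twK β) Q)) (PosR.loc _) (h2D_K hAB hβ Q hQ A) hAT

end JFinal853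

end Crest.Agent.R059
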