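import Crest.Agent.R059.Push_853
import Crest.Agent.R059.ABOut_883

set_option autoImplicit false

/-!
Row 59 (S0081), JOINT block (J2), (J3): the acyclic quiver of a list of dilogarithm factors, the
push-forward of its series is the ordered product of the factors, the push-forward of a letter is a
factor.
-/

namespace Crest.Agent.R059

open Finset HasAntidiagonal PowerSeries

namespace TPS

section aux

variable {M : Type*} [AddCommMonoid M]

theorem nsmul_inj_of_ht (ht : M →+ ℕ) (hht : ∀ m, ht m = 0 → m = 0) {c : M} (hc : c ≠ 0) :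
    Function.Injective (fun k : ℕ => k • c) := by
  intro a b hab
  have h : ht (a • c) = ht (b • c) := congrArg ht hab
  rw [map_nsmul, map_nsmul, smul_eq_mul, smul_eq_mul] at h
  exact Nat.eq_of_mul_eq_mul_right (Nat.pos_of_ne_zero fun h0 => hc (hht c h0)) h

theorem QDil_eq_ray (β : M →+ M →+ ℤ) (Q : M → ZMod 2) {c : M} (hc : β c c = 0) (a : ℤ) :
    QDil (twK β) Q c a = ray (twK β) c (eco vv (Q c) a) := by
  rw [QDil, dil, ev_eq_ray]
  congr 1
  funext k
  rw [pw_one_of c (by exact hc), mul_one, par]
  exact coeff_EE_eq_eco vv (Q c) a k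

end aux

section quiver

variable {M : Type*} [AddCommMonoid M] (β : M →+ M →+ ℤ) (Q : M → ZMod 2) {n : ℕ}
  (c : Fin n → M) (av : Fin n → ℤ)

/-- arrows of the quiver of a list of factors. -/
def kq (i j : Fin n) : ℕ :=
  if i = j then (if Q (c i) = 1 then 0 else 1) else if j < i then (β (c i) (c j)).toNat else 0

/-- the map of lattices. -/
def phi : (Fin n →₀ ℕ) →+ M where
  toFun d := ∑ i, d i • c i
  map_zero' := by simp
  map_add' a b := by simp [add_nsmul, Finset.sum_add_distrib]

theorem phi_apply (d : Fin n →₀ ℕ) : phi c d = ∑ i, d i • c i := rfl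

theorem phi_single (i : Fin n) (m : ℕ) : phi c (Finsupp.single i m) = m • c i := by
  rw [phi_apply, Finset.sum_eq_single i]
  · rw [Finsupp.single_eq_same]
  · intro j _ hj
    rw [Finsupp.single_eq_of_ne hj, zero_nsmul]
  · simp

variable {β} {Q} {c}

theorem beta_phi (hβ : ∀ a b, β a b = - β b a) (hord : ∀ i j, i < j → β (c i) (c j) ≤ 0)
    (a b : Fin n →₀ ℕ) :
    β (phi c a) (phi c b) = ABOut.kk (kq β Q c) a b - ABOut.kk (kq β Q c) b a := by
  have h1 : ABOut.kk (kq β Q c) b a =
      ∑ i, ∑ j, (kq β Q c j i : ℤ) * (b j : ℤ) * (a i : ℤ) := by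
    rw [ABOut.kk_apply, Finset.sum_comm]
  rw [h1, ABOut.kk_apply, ← Finset.sum_sub_distrib, phi_apply, phi_apply, map_sum β,
    AddMonoidHom.finsetSum_apply]
  refine Finset.sum_congr rfl fun i _ => ?_
  rw [map_sum, ← Finset.sum_sub_distrib]
  refine Finset.sum_congr rfl fun j _ => ?_
  rw [map_nsmul, map_nsmul, AddMonoidHom.nsmul_apply]
  simp only [nsmul_eq_mul]
  have key : β (c i) (c j) = (kq β Q c i j : ℤ) - (kq β Q c j i : ℤ) := by
    rcases lt_trichotomy i j with h | h | h
    · have h2 := hord i j h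
      have h3 := hβ (c j) (c i)
      rw [kq, kq, if_neg h.ne, if_neg (not_lt.2 h.le), if_neg h.ne', if_pos h,
        Int.toNat_of_nonneg (by omega)]
      push_cast
      omega
    · subst h
      have := hβ (c i) (c i)
      omega
    · have h2 := hord j i h
      have h3 := hβ (c i) (c j)
      rw [kq, kq, if_neg h.ne', if_pos h, if_neg h.ne, if_neg (not_lt.2 h.le),
        Int.toNat_of_nonneg (by omega)]
      push_cast
      omega
  rw [key]
  ring

variable (β) (Q) (c)

/-- the linear part of the exponent -/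
def lin : (Fin n →₀ ℕ) →+ ℤ where
  toFun d := ∑ i, (d i : ℤ) * (av i + (kq β Q c i i : ℤ))
  map_zero' := by simp
  map_add' a b := by simp [add_mul, Finset.sum_add_distrib]

theorem lin_apply (d : Fin n →₀ ℕ) :
    lin β Q c av d = ∑ i, (d i : ℤ) * (av i + (kq β Q c i i : ℤ)) := rfl

/-- the exponent of the cocycle -/
noncomputable def lexp (d : Fin n →₀ ℕ) : ℤ := lin β Q c av d - ABOut.kk (kq β Q c) d d

theorem lexp_nsmul (m : ℕ) (d : Fin n →₀ ℕ) :
    lexp β Q c av (m • d) = m * lin β Q c av d - m * m * ABOut.kk (kq β Q c) d d := by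
  rw [lexp, map_nsmul, map_nsmul, map_nsmul, AddMonoidHom.nsmul_apply]
  simp only [nsmul_eq_mul]
  ring

variable {β} {Q} {c}

theorem finite_fib (ht : M →+ ℕ) (hht : ∀ m, ht m = 0 → m = 0) (hc : ∀ i, c i ≠ 0) (m' : M) :
    {d : Fin n →₀ ℕ | phi c d = m'}.Finite := by
  classical
  have hfin : (Set.Icc (0 : Fin n →₀ ℕ)
      (Finsupp.equivFunOnFinite.symm fun _ => ht m')).Finite := Set.finite_Icc _ _
  refine hfin.subset fun d hd => ?_
  refine ⟨zero_le, fun i => ?_⟩
  have h1 : ht (phi c d) = ∑ i, d i * ht (c i) := by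
    rw [phi_apply, map_sum]
    exact Finset.sum_congr rfl fun i _ => by rw [map_nsmul, smul_eq_mul]
  rw [Set.mem_ofPred_eq] at hd
  rw [hd] at h1
  have h2 : d i * ht (c i) ≤ ht m' := by
    rw [h1]
    exact Finset.single_le_sum (f := fun i => d i * ht (c i)) (fun _ _ => Nat.zero_le _)
      (Finset.mem_univ i)
  have h3 : 1 ≤ ht (c i) := Nat.pos_of_ne_zero fun h0 => hc i (hht _ h0)
  change d i ≤ ht m'
  nlinarith

/-- the push-forward datum of a list of factors. -/
noncomputable def pushD (hβ : ∀ a b, β a b = - β b a)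
    (hord : ∀ i j, i < j → β (c i) (c j) ≤ 0) (ht : M →+ ℕ) (hht : ∀ m, ht m = 0 → m = 0)
    (hc : ∀ i, c i ≠ 0) : PushData (ABOut.TW (kq β Q c)) (twK β) where
  φ := phi c
  fib m' := (finite_fib ht hht hc m').toFinset
  mem_fib m' m := by simp
  lam d := ((vv ^ (lexp β Q c av d) : KKˣ) : KK)
  lam_zero := by
    have : lexp β Q c av (0 : Fin n →₀ ℕ) = 0 := by
      rw [lexp, map_zero, map_zero, sub_zero]
    rw [this, zpow_zero, Units.val_one]
  lam_mul a b := by
    rw [wt_twK', wt, ABOut.TW]
    simp only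
    rw [← Units.val_mul, ← Units.val_mul, ← Units.val_mul, ← zpow_natCast vv 2, ← zpow_mul,
      ← zpow_add, ← zpow_add, ← zpow_add]
    congr 2
    rw [beta_phi (Q := Q) hβ hord, lexp, lexp, lexp, map_add, map_add, map_add,
      AddMonoidHom.add_apply, AddMonoidHom.add_apply]
    push_cast
    ring

theorem pushD_φ (hβ : ∀ a b, β a b = - β b a)
    (hord : ∀ i j, i < j → β (c i) (c j) ≤ 0) (ht : M →+ ℕ) (hht : ∀ m, ht m = 0 → m = 0)
    (hc : ∀ i, c i ≠ 0) : (pushD (Q := Q) av hβ hord ht hht hc).φ = phi c := rfl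

theorem pushD_lam (hβ : ∀ a b, β a b = - β b a)
    (hord : ∀ i j, i < j → β (c i) (c j) ≤ 0) (ht : M →+ ℕ) (hht : ∀ m, ht m = 0 → m = 0)
    (hc : ∀ i, c i ≠ 0) (d : Fin n →₀ ℕ) :
    (pushD (Q := Q) av hβ hord ht hht hc).lam d = ((vv ^ (lexp β Q c av d) : KKˣ) : KK) := rfl

theorem phi_ne_zero (ht : M →+ ℕ) (hht : ∀ m, ht m = 0 → m = 0) (hc : ∀ i, c i ≠ 0)
    {d : Fin n →₀ ℕ} (hd : phi c d = 0) : d = 0 := by
  ext i
  have h1 : ht (phi c d) = ∑ i, d i * ht (c i) := by
    rw [phi_apply, map_sum]
    exact Finset.sum_congr rfl fun i _ => by rw [map_nsmul, smul_eq_mul]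
  rw [hd, map_zero] at h1
  have h2 := (Finset.sum_eq_zero_iff.1 h1.symm) i (Finset.mem_univ i)
  have h3 : ht (c i) ≠ 0 := fun h0 => hc i (hht _ h0)
  rcases Nat.mul_eq_zero.1 h2 with h | h
  · exact h
  · exact absurd h h3

/-- the parity of a class of the quiver is the parity of its image. -/
theorem par_phi (hβ : ∀ a b, β a b = - β b a) (hord : ∀ i j, i < j → β (c i) (c j) ≤ 0)
    (hQ : ∀ a b, Q (a + b) = Q a + Q b + (β a b : ZMod 2)) (d : Fin n →₀ ℕ) :
    ABOut.par (kq β Q c) d = Q (phi c d) := by
  have hadd : ∀ a b : Fin n →₀ ℕ, ABOut.par (kq β Q c) (a + b) =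
      ABOut.par (kq β Q c) a + ABOut.par (kq β Q c) b + (β (phi c a) (phi c b) : ZMod 2) := by
    intro a b
    rw [beta_phi (Q := Q) hβ hord]
    simp only [ABOut.par, map_add, AddMonoidHom.add_apply, Finsupp.add_apply,
      Finset.sum_add_distrib]
    push_cast
    have h2 : ((ABOut.kk (kq β Q c) b a : ℤ) : ZMod 2) = -((ABOut.kk (kq β Q c) b a : ℤ) : ZMod 2) :=
      (ZMod.neg_eq_self_mod_two _).symm
    linear_combination h2
  have hQ0 : Q 0 = 0 := by
    have := hQ 0 0
    simp only [add_zero, map_zero, Int.cast_zero] at this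
    exact (left_eq_add.1 this)
  have hQn : ∀ (m : ℕ) (e : M), Q (m • e) = m * Q e := by
    intro m e
    have h0 : β e e = 0 := by have := hβ e e; omega
    induction m with
    | zero => simp [hQ0]
    | succ m ih =>
      rw [succ_nsmul, hQ, ih, map_nsmul, AddMonoidHom.nsmul_apply, h0]
      push_cast
      simp
      ring
  induction d using Finsupp.induction_linear with
  | zero => simp [ABOut.par, hQ0]
  | add f g hf hg => rw [hadd, hf, hg, map_add, hQ]
  | single i m =>
    rw [phi_single, hQn]
    have hs : ∑ j, (Finsupp.single i m) j = m := by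
      rw [Finset.sum_eq_single i]
      · rw [Finsupp.single_eq_same]
      · intro j _ hj
        exact Finsupp.single_eq_of_ne hj
      · simp
    have hk : ABOut.kk (kq β Q c) (Finsupp.single i m) (Finsupp.single i m) =
        (kq β Q c i i : ℤ) * m * m := by
      rw [ABOut.kk_apply, Finset.sum_eq_single i, Finset.sum_eq_single i]
      · rw [Finsupp.single_eq_same]
      · intro j _ hj
        rw [Finsupp.single_eq_of_ne hj]; simp
      · simp
      · intro j _ hj
        rw [Finsupp.single_eq_of_ne hj]; simp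
      · simp
    rw [ABOut.par, hs, hk, kq, if_pos rfl]
    have hm : ((m : ZMod 2)) * m = m := by
      have h2 : ∀ x : ZMod 2, x * x = x := by decide
      exact h2 _
    have hcase : Q (c i) = 0 ∨ Q (c i) = 1 := by
      generalize Q (c i) = x
      revert x; decide
    rcases hcase with h | h
    · rw [if_neg (by rw [h]; decide), h]
      push_cast
      rw [one_mul, hm, mul_zero]
      exact CharTwo.add_self_eq_zero _
    · rw [if_pos h, h]
      push_cast
      ring

end quiver

section product

variable {n : ℕ} {R : Type*} [CommRing R] {T : Tw (Fin n →₀ ℕ) R}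

/-- partial product of the one vertex series -/
noncomputable def ppart (T : Tw (Fin n →₀ ℕ) R) (e : ℕ → R) (m : ℕ) : TPS T := by
  classical exact ⟨fun d => if ∀ i : Fin n, m ≤ (i : ℕ) → d i = 0 then ∏ i, e (d i) else 0⟩

theorem co_ppart (e : ℕ → R) (m : ℕ) (d : Fin n →₀ ℕ)
    [Decidable (∀ i : Fin n, m ≤ (i : ℕ) → d i = 0)] :
    (ppart T e m).co d = if ∀ i : Fin n, m ≤ (i : ℕ) → d i = 0 then ∏ i, e (d i) else 0 := by
  unfold ppart
  simp only
  congr

theorem single_inj (i : Fin n) :
    Function.Injective (fun k : ℕ => k • (Finsupp.single i 1 : Fin n →₀ ℕ)) :=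
  nsmul_inj (Finsupp.single_ne_zero.2 one_ne_zero)

theorem ppart_succ (e : ℕ → R) (he : e 0 = 1) (i : Fin n)
    (hT : ∀ j : Fin n, j < i → T.β (Finsupp.single j 1) (Finsupp.single i 1) = 0) :
    ppart T e (i : ℕ) * ray T (Finsupp.single i 1) e = ppart T e ((i : ℕ) + 1) := by
  classical
  ext d
  rw [co_mul, co_ppart]
  have hne : ∀ p : (Fin n →₀ ℕ) × (Fin n →₀ ℕ), p ∈ antidiagonal d →
      wt T p.1 p.2 * ((ppart T e (i : ℕ)).co p.1 * (ray T (Finsupp.single i 1) e).co p.2) ≠ 0 →
      p = (d.erase i, Finsupp.single i (d i)) ∧ (∀ j : Fin n, (i : ℕ) + 1 ≤ (j : ℕ) → d j = 0) := by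
    rintro ⟨a, b⟩ hp hne
    rw [HasAntidiagonal.mem_antidiagonal] at hp
    simp only at hp hne
    have h1 : (ppart T e (i : ℕ)).co a ≠ 0 := fun h => hne (by rw [h]; ring)
    have h2 : (ray T (Finsupp.single i 1) e).co b ≠ 0 := fun h => hne (by rw [h]; ring)
    have ha : ∀ j : Fin n, (i : ℕ) ≤ (j : ℕ) → a j = 0 := by
      by_contra hc
      rw [co_ppart, if_neg hc] at h1
      exact h1 rfl
    have hb : ∃ k : ℕ, b = k • Finsupp.single i 1 := by
      by_contra hc
      push Not at hc
      exact h2 (co_ray_of_not _ hc)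
    obtain ⟨k, rfl⟩ := hb
    have hk : k = d i := by
      rw [← hp]; simp [ha i le_rfl]
    have hd : ∀ j, j ≠ i → d j = a j := by
      intro j hj
      rw [← hp]
      simp [hj]
    refine ⟨?_, ?_⟩
    · refine Prod.ext ?_ ?_
      · simp only
        ext j
        by_cases hj : j = i
        · subst hj; rw [Finsupp.erase_same, ha j le_rfl]
        · rw [Finsupp.erase_ne hj, hd j hj]
      · simp only
        rw [← hk]; simp
    · intro j hj
      have hji : j ≠ i := by rintro rfl; omega
      rw [hd j hji]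
      exact ha j (by omega)
  by_cases hd : ∀ j : Fin n, (i : ℕ) + 1 ≤ (j : ℕ) → d j = 0
  · rw [if_pos hd, Finset.sum_eq_single (d.erase i, Finsupp.single i (d i))]
    · have h1 : (ppart T e (i : ℕ)).co (d.erase i) = ∏ j, e ((d.erase i) j) := by
        rw [co_ppart, if_pos]
        intro j hj
        by_cases hji : j = i
        · subst hji; rw [Finsupp.erase_same]
        · rw [Finsupp.erase_ne hji]
          exact hd j (by have : (j : ℕ) ≠ (i : ℕ) := fun h => hji (Fin.ext h); omega)
      have h2 : (ray T (Finsupp.single i 1) e).co (Finsupp.single i (d i)) = e (d i) := by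
        have := co_ray_nsmul (T := T) (single_inj i) e (d i)
        rwa [show (d i) • (Finsupp.single i 1 : Fin n →₀ ℕ) = Finsupp.single i (d i) by simp] at this
      have h3 : wt T (d.erase i) (Finsupp.single i (d i)) = 1 := by
        rw [wt, form_eq_sum T.β, Finset.sum_eq_zero, zpow_zero, Units.val_one]
        intro j _
        refine Finset.sum_eq_zero fun l _ => ?_
        by_cases hl : l = i
        · subst hl
          by_cases hj : j < l
          · rw [hT j hj]; ring
          · by_cases hjl : j = l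
            · subst hjl; rw [Finsupp.erase_same]; simp
            · rw [Finsupp.erase_ne hjl, hd j (by
                have h5 : (j : ℕ) ≠ (l : ℕ) := fun h => hjl (Fin.ext h)
                have h6 : ¬ ((j : ℕ) < (l : ℕ)) := hj
                omega)]
              simp
        · have : Finsupp.single i (d i) l = 0 := Finsupp.single_eq_of_ne hl
          rw [this]; simp
      simp only
      rw [h1, h2, h3, one_mul, ← Finset.mul_prod_erase _ _ (Finset.mem_univ i),
        ← Finset.mul_prod_erase (Finset.univ : Finset (Fin n)) (fun j => e (d j))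
          (Finset.mem_univ i), Finsupp.erase_same, he, one_mul, mul_comm]
      congr 1
      refine Finset.prod_congr rfl fun j hj => ?_
      rw [Finsupp.erase_ne (Finset.ne_of_mem_erase hj)]
    · intro p hp hpne
      by_contra h
      exact hpne (hne p hp h).1
    · intro h
      exfalso
      apply h
      rw [HasAntidiagonal.mem_antidiagonal]
      simp only
      exact Finsupp.erase_add_single i d
  · rw [if_neg hd]
    refine Finset.sum_eq_zero fun p hp => ?_
    by_contra h
    exact hd (hne p hp h).2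

/-- the ordered product of the one vertex series. -/
theorem prod_ray (e : ℕ → R) (he : e 0 = 1)
    (hT : ∀ i j : Fin n, j < i → T.β (Finsupp.single j 1) (Finsupp.single i 1) = 0) :
    (List.ofFn fun i : Fin n => ray T (Finsupp.single i 1) e).prod = ⟨fun d => ∏ i, e (d i)⟩ := by
  classical
  have key : ∀ m : ℕ, m ≤ n →
      ((List.ofFn fun i : Fin n => ray T (Finsupp.single i 1) e).take m).prod = ppart T e m := by
    intro m
    induction m with
    | zero =>
      intro _
      rw [List.take_zero, List.prod_nil]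
      ext d
      rw [co_one, co_ppart]
      by_cases h : d = 0
      · subst h
        simp [he]
      · rw [if_neg h, if_neg]
        intro h'
        exact h (Finsupp.ext fun i => h' i (Nat.zero_le _))
    | succ m ih =>
      intro hm
      rw [List.prod_take_succ _ _ (by rw [List.length_ofFn]; omega), ih (by omega),
        List.getElem_ofFn]
      exact ppart_succ e he ⟨m, by omega⟩ (hT _)
  have h := key n le_rfl
  rw [List.take_of_length_le (by rw [List.length_ofFn])] at h
  rw [h]
  ext d
  rw [co_ppart, if_pos]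
  intro i hi
  exact absurd i.2 (by omega)

end product

end TPS

end Crest.Agent.R059
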