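import Crest.Agent.R059.JDefs_853
import Crest.Agent.R059.CloC_987

set_option autoImplicit false
set_option linter.unusedSectionVars false
set_option linter.unusedVariables false

/-!
Row 59 (S0081), block JOINT (JB).  Two dimensional positivity for closures from the case of finite
products (`JMAIN` of JDefs_853).
-/

namespace Crest.Agent.R059.JTwo269

open Finset TPS

section parts

variable {M : Type*} [AddCommMonoid M] [PartialOrder M] [IsOrderedCancelAddMonoid M]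
  [CanonicallyOrderedAdd M] [WellFoundedLT M] [HasAntidiagonal M]
variable {R : Type*} [CommRing R] {T : Tw M R}
variable {V : Type*} [AddCommGroup V] [LinearOrder V] [IsOrderedAddMonoid V]
variable {V' : Type*} [AddCommGroup V'] [LinearOrder V'] [IsOrderedAddMonoid V']

theorem In1.list {P : M → Prop} (hP : ∀ a b, P a → P b → P (a + b)) (l : List (TPS T))
    (h : ∀ f ∈ l, In1 P f) : In1 P l.prod := by
  induction l with
  | nil => exact in1_one P
  | cons f l IH =>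
    rw [List.prod_cons]
    exact (h f (by simp)).mul hP (IH fun g hg => h g (by simp [hg]))

/-- products of series with constant term one that agree below `d` and at `d`. -/
theorem mul3_congr {p z n p' z' n' : TPS T} (d : M)
    (h : ∀ c ≤ d, p.co c = p'.co c ∧ z.co c = z'.co c ∧ n.co c = n'.co c) :
    (p * z * n).co d = (p' * z' * n').co d :=
  co_mul_congr_le d (fun e he => co_mul_congr_le e (fun e' he' => (h e' (he'.trans he)).1)
    (fun e' he' => (h e' (he'.trans he)).2.1)) (fun e he => (h e he).2.2)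

/-- **(JUNIQ)**: a series on `L` is determined in degrees `≤ d₀` by its zero parts for `s(k, ·)`. -/
theorem juniq (s : M →+ M →+ ℤ) (L : AddSubmonoid M) {a a' : TPS T}
    (ha : In1 (· ∈ L) a) (ha' : In1 (· ∈ L) a') (hself : ∀ d ∈ L, s d d = 0) (d₀ : M)
    (hz : ∀ k ∈ L, k ≠ 0 → k ≤ d₀ → (zer (s k) a).co k = (zer (s k) a').co k) :
    ∀ c ≤ d₀, a.co c = a'.co c := by
  intro c
  induction c using WellFoundedLT.induction with
  | ind c ih =>
    intro hc
    by_cases h0 : c = 0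
    · subst h0; rw [ha.one, ha'.one]
    by_cases hL : c ∈ L
    · have hlow : ∀ e < c, ∀ e' ≤ e, a.co e' = a'.co e' := fun e he e' he' =>
        ih e' (he'.trans_lt he) ((he'.trans he.le).trans hc)
      rw [← pos_mul_zer_mul_neg (s c) ha.one, ← pos_mul_zer_mul_neg (s c) ha'.one]
      refine mul3_congr c fun e he => ?_
      rcases he.eq_or_lt with rfl | he
      · refine ⟨?_, hz e hL h0 hc, ?_⟩
        · rw [(in1_pos (s e) a).supp e h0 (by rw [hself e hL]; exact lt_irrefl 0),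
            (in1_pos (s e) a').supp e h0 (by rw [hself e hL]; exact lt_irrefl 0)]
        · rw [(in1_neg (s e) a).supp e h0 (by rw [hself e hL]; exact lt_irrefl 0),
            (in1_neg (s e) a').supp e h0 (by rw [hself e hL]; exact lt_irrefl 0)]
      · have h1 := pos_congr (s c) (s c) ha.one e (hlow e he) (fun _ _ => Iff.rfl)
        have h2 := zer_congr (s c) (s c) ha.one e (hlow e he) (fun _ _ => Iff.rfl)
          (fun _ _ => Iff.rfl)
        exact ⟨h1.1, h2.1, h2.2⟩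
    · rw [ha.supp c h0 hL, ha'.supp c h0 hL]

/-- the zero part of an ordered product. -/
theorem zer_list (x : M →+ V) (l1 l2 : List (TPS T)) (z : TPS T)
    (h1 : ∀ f ∈ l1, In1 (fun d => 0 < x d) f) (hz : In1 (fun d => x d = 0) z)
    (h2 : ∀ f ∈ l2, In1 (fun d => x d < 0) f) : zer x ((l1 ++ z :: l2).prod) = z :=
  (pzn_unique' x (In1.list (closed_pos x) l1 h1) hz (In1.list (closed_neg x) l2 h2)
    (by rw [List.prod_append, List.prod_cons, mul_assoc])).2.1

end parts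

section slopes

variable {M : Type*} [AddCommMonoid M] {s : M →+ M →+ ℤ} {L : AddSubmonoid M} {ht : M →+ ℕ}

/-- skew on `L` -/
def SkewOn (s : M →+ M →+ ℤ) (L : AddSubmonoid M) : Prop := ∀ a ∈ L, ∀ b ∈ L, s a b = - s b a

/-- the rank two identity (heights) -/
def Rank2 (s : M →+ M →+ ℤ) (ht : M →+ ℕ) (L : AddSubmonoid M) : Prop :=
  ∀ d ∈ L, ∀ e ∈ L, ∀ k ∈ L, s d e * (ht k : ℤ) + s e k * (ht d : ℤ) + s k d * (ht e : ℤ) = 0

/-- transfer along a ray -/
theorem transfer (hsk : SkewOn s L) (hrk : Rank2 s ht L) {k c e : M} (hk : k ∈ L) (hc : c ∈ L)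
    (he : e ∈ L) (hkc : s k c = 0) : (ht k : ℤ) * s c e = (ht c : ℤ) * s k e := by
  have h := hrk k hk c hc e he
  rw [hkc, hsk e he k hk] at h
  linarith

theorem transfer' (hsk : SkewOn s L) (hrk : Rank2 s ht L) {k c e : M} (hk : k ∈ L) (hc : c ∈ L)
    (he : e ∈ L) (hkc : s k c = 0) : (ht k : ℤ) * s e c = (ht c : ℤ) * s e k := by
  have h := transfer hsk hrk hk hc he hkc
  rw [hsk e he c hc, hsk e he k hk]
  linarith

/-- the slope with respect to `s(d, ·)` -/
noncomputable def slope (s : M →+ M →+ ℤ) (ht : M →+ ℕ) (d k : M) : ℚ := (s d k : ℚ) / (ht k : ℚ)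

theorem slope_sub (ht0 : ∀ a, ht a = 0 → a = 0) (hsk : SkewOn s L) (hrk : Rank2 s ht L)
    {d k k' : M} (hd : d ∈ L) (hk : k ∈ L) (hk' : k' ∈ L) (hd0 : d ≠ 0) (hk0 : k ≠ 0)
    (hk0' : k' ≠ 0) :
    (s k k' : ℚ) = (ht k * ht k' / ht d : ℚ) * (slope s ht d k' - slope s ht d k) := by
  have h := hrk d hd k hk k' hk'
  rw [hsk k' hk' d hd] at h
  have h1 : (ht d : ℚ) ≠ 0 := fun h => hd0 (ht0 _ (by exact_mod_cast h))
  have h2 : (ht k : ℚ) ≠ 0 := fun h => hk0 (ht0 _ (by exact_mod_cast h))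
  have h3 : (ht k' : ℚ) ≠ 0 := fun h => hk0' (ht0 _ (by exact_mod_cast h))
  have h' : (s d k : ℚ) * ht k' + s k k' * ht d + -s d k' * ht k = 0 := by exact_mod_cast h
  unfold slope
  field_simp
  linarith

theorem ht_factor_pos (ht0 : ∀ a, ht a = 0 → a = 0) {d k k' : M} (hd0 : d ≠ 0) (hk0 : k ≠ 0)
    (hk0' : k' ≠ 0) : 0 < (ht k * ht k' / ht d : ℚ) := by
  have h1 : 0 < (ht d : ℚ) := by
    exact_mod_cast Nat.pos_of_ne_zero fun h => hd0 (ht0 _ h)
  have h2 : 0 < (ht k : ℚ) := by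
    exact_mod_cast Nat.pos_of_ne_zero fun h => hk0 (ht0 _ h)
  have h3 : 0 < (ht k' : ℚ) := by
    exact_mod_cast Nat.pos_of_ne_zero fun h => hk0' (ht0 _ h)
  positivity

theorem neg_iff_slope (ht0 : ∀ a, ht a = 0 → a = 0) (hsk : SkewOn s L) (hrk : Rank2 s ht L)
    {d k k' : M} (hd : d ∈ L) (hk : k ∈ L) (hk' : k' ∈ L) (hd0 : d ≠ 0) (hk0 : k ≠ 0)
    (hk0' : k' ≠ 0) : s k k' < 0 ↔ slope s ht d k' < slope s ht d k := by
  have h := slope_sub ht0 hsk hrk hd hk hk' hd0 hk0 hk0'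
  have h4 := ht_factor_pos ht0 hd0 hk0 hk0'
  constructor
  · intro hlt
    have : (s k k' : ℚ) < 0 := by exact_mod_cast hlt
    rw [h] at this
    have := neg_of_mul_neg_right this h4.le
    linarith
  · intro hlt
    have : (s k k' : ℚ) < 0 := by
      rw [h]
      exact mul_neg_of_pos_of_neg h4 (by linarith)
    exact_mod_cast this

theorem zero_iff_slope (ht0 : ∀ a, ht a = 0 → a = 0) (hsk : SkewOn s L) (hrk : Rank2 s ht L)
    {d k k' : M} (hd : d ∈ L) (hk : k ∈ L) (hk' : k' ∈ L) (hd0 : d ≠ 0) (hk0 : k ≠ 0)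
    (hk0' : k' ≠ 0) : s k k' = 0 ↔ slope s ht d k' = slope s ht d k := by
  have h := slope_sub ht0 hsk hrk hd hk hk' hd0 hk0 hk0'
  have h4 := ht_factor_pos ht0 hd0 hk0 hk0'
  constructor
  · intro h5
    have : (s k k' : ℚ) = 0 := by exact_mod_cast h5
    rw [h] at this
    rcases mul_eq_zero.1 this with h6 | h6
    · exact absurd h6 h4.ne'
    · linarith
  · intro h5
    have : (s k k' : ℚ) = 0 := by rw [h, h5, sub_self, mul_zero]
    exact_mod_cast this

/-- signs along a ray: if `s(k, c) = 0` then `s(c, ·)` and `s(k, ·)` have the same signs on `L`. -/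
theorem sign_ray (ht0 : ∀ a, ht a = 0 → a = 0) (hsk : SkewOn s L) (hrk : Rank2 s ht L)
    {k c e : M} (hk : k ∈ L) (hc : c ∈ L) (he : e ∈ L) (hk0 : k ≠ 0) (hc0 : c ≠ 0)
    (hkc : s k c = 0) : (0 < s c e ↔ 0 < s k e) ∧ (s c e = 0 ↔ s k e = 0) := by
  have h := transfer hsk hrk hk hc he hkc
  have h1 : 0 < (ht k : ℤ) := by
    exact_mod_cast Nat.pos_of_ne_zero fun h => hk0 (ht0 _ h)
  have h2 : 0 < (ht c : ℤ) := by
    exact_mod_cast Nat.pos_of_ne_zero fun h => hc0 (ht0 _ h)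
  constructor
  · rw [← mul_pos_iff_of_pos_left h1, h, mul_pos_iff_of_pos_left h2]
  · constructor
    · intro h3
      rw [h3, mul_zero] at h
      exact (mul_eq_zero.1 h.symm).resolve_left h2.ne'
    · intro h3
      rw [h3, mul_zero] at h
      exact (mul_eq_zero.1 h).resolve_left h1.ne'

end slopes

section DT

variable {M : Type*} [AddCommMonoid M] [PartialOrder M] [IsOrderedCancelAddMonoid M]
  [CanonicallyOrderedAdd M] [WellFoundedLT M] [HasAntidiagonal M]
variable {K : Type*} [CommRing K] {T : Tw M K} {s : M →+ M →+ ℤ} {L : AddSubmonoid M} {ht : M →+ ℕ}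

/-- the factors on the ray of `k` -/
def DGen (Dil : M → ℤ → TPS T) (L : AddSubmonoid M) (s : M →+ M →+ ℤ) (k : M) : Set (TPS T) :=
  {f | ∃ (c : M) (a : ℤ), c ∈ L ∧ c ≠ 0 ∧ s k c = 0 ∧ f = Dil c a}

theorem in1_gen (ht0 : ∀ a, ht a = 0 → a = 0) (hsk : SkewOn s L) (hrk : Rank2 s ht L)
    {Dil : M → ℤ → TPS T} (hDil : ∀ c ∈ L, c ≠ 0 → ∀ a, In1 (fun d => d ∈ L ∧ s c d = 0) (Dil c a))
    {k : M} (hk : k ∈ L) (hk0 : k ≠ 0) {f : TPS T} (hf : f ∈ DGen Dil L s k) :
    In1 (fun d => d ∈ L ∧ s k d = 0) f := by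
  obtain ⟨c, a, hc, hc0, hkc, rfl⟩ := hf
  exact (hDil c hc hc0 a).mono fun d _ h =>
    ⟨h.1, (sign_ray ht0 hsk hrk hk hc h.1 hk0 hc0 hkc).2.1 h.2⟩

theorem closed_ray (s : M →+ M →+ ℤ) (L : AddSubmonoid M) (k : M) (a b : M)
    (ha : a ∈ L ∧ s k a = 0) (hb : b ∈ L ∧ s k b = 0) : a + b ∈ L ∧ s k (a + b) = 0 :=
  ⟨L.add_mem ha.1 hb.1, by rw [map_add, ha.2, hb.2, add_zero]⟩

theorem in1_closure (ht0 : ∀ a, ht a = 0 → a = 0) (hsk : SkewOn s L) (hrk : Rank2 s ht L)
    {Dil : M → ℤ → TPS T} (hDil : ∀ c ∈ L, c ≠ 0 → ∀ a, In1 (fun d => d ∈ L ∧ s c d = 0) (Dil c a))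
    {k : M} (hk : k ∈ L) (hk0 : k ≠ 0) {f : TPS T}
    (hf : f ∈ Submonoid.closure (DGen Dil L s k)) :
    In1 (fun d => d ∈ L ∧ s k d = 0) f := by
  induction hf using Submonoid.closure_induction with
  | mem f hf => exact in1_gen ht0 hsk hrk hDil hk hk0 hf
  | one => exact in1_one _
  | mul f f' _ _ h1 h2 => exact h1.mul (closed_ray s L k) h2

theorem exists_list {Dil : M → ℤ → TPS T} {k : M} {f : TPS T}
    (hf : f ∈ Submonoid.closure (DGen Dil L s k)) :
    ∃ l : List (M × ℤ), (∀ q ∈ l, q.1 ∈ L ∧ q.1 ≠ 0 ∧ s k q.1 = 0) ∧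
      (l.map (fun q => Dil q.1 q.2)).prod = f := by
  induction hf using Submonoid.closure_induction with
  | mem f hf =>
    obtain ⟨c, a, hc, hc0, hkc, rfl⟩ := hf
    exact ⟨[(c, a)], by simp [hc, hc0, hkc], by simp⟩
  | one => exact ⟨[], by simp, by simp⟩
  | mul f f' _ _ h1 h2 =>
    obtain ⟨l, hl, rfl⟩ := h1
    obtain ⟨l', hl', rfl⟩ := h2
    refine ⟨l ++ l', ?_, by rw [List.map_append, List.prod_append]⟩
    intro q hq
    rcases List.mem_append.1 hq with h | h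
    · exact hl q h
    · exact hl' q h

variable [TopologicalSpace K]

/-- limits of finite products of factors on the ray of `k` -/
def DTg (Dil : M → ℤ → TPS T) (L : AddSubmonoid M) (s : M →+ M →+ ℤ) (k : M) : Set (TPS T) :=
  closure (Submonoid.closure (DGen Dil L s k) : Set (TPS T))

theorem isClosed_in1 [T1Space K] (P : M → Prop) : IsClosed {f : TPS T | In1 P f} := by
  have : {f : TPS T | In1 P f} = {f : TPS T | f.co 0 = 1} ∩
      ⋂ d : M, {f | d ≠ 0 → ¬ P d → f.co d = 0} := by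
    ext f
    simp only [Set.mem_ofPred_eq, Set.mem_inter_iff, Set.mem_iInter]
    exact ⟨fun h => ⟨h.one, h.supp⟩, fun h => ⟨h.1, h.2⟩⟩
  rw [this]
  refine (isClosed_co_eq 0 1).inter (isClosed_iInter fun d => ?_)
  by_cases h : d ≠ 0 ∧ ¬ P d
  · have : {f : TPS T | d ≠ 0 → ¬ P d → f.co d = 0} = {f | f.co d = 0} := by
      ext f; simp only [Set.mem_ofPred_eq]; exact ⟨fun h' => h' h.1 h.2, fun h' _ _ => h'⟩
    rw [this]
    exact isClosed_co_eq d 0
  · have : {f : TPS T | d ≠ 0 → ¬ P d → f.co d = 0} = Set.univ := by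
      ext f; simp only [Set.mem_ofPred_eq, Set.mem_univ, iff_true]
      intro h1 h2; exact absurd ⟨h1, h2⟩ h
    rw [this]
    exact isClosed_univ

theorem in1_DTg [T1Space K] (ht0 : ∀ a, ht a = 0 → a = 0) (hsk : SkewOn s L)
    (hrk : Rank2 s ht L)
    {Dil : M → ℤ → TPS T} (hDil : ∀ c ∈ L, c ≠ 0 → ∀ a, In1 (fun d => d ∈ L ∧ s c d = 0) (Dil c a))
    {k : M} (hk : k ∈ L) (hk0 : k ≠ 0) {f : TPS T} (hf : f ∈ DTg Dil L s k) :
    In1 (fun d => d ∈ L ∧ s k d = 0) f :=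
  closure_minimal (fun f hf => in1_closure ht0 hsk hrk hDil hk hk0 hf) (isClosed_in1 _) hf

end DT

section main

variable {M : Type*} [AddCommMonoid M] [PartialOrder M] [IsOrderedCancelAddMonoid M]
  [CanonicallyOrderedAdd M] [WellFoundedLT M] [HasAntidiagonal M]
variable {K : Type*} [CommRing K] {T : Tw M K} {s : M →+ M →+ ℤ} {L : AddSubmonoid M} {ht : M →+ ℕ}

/-- rays other than the ray of `k` lie strictly on one side. -/
theorem in1_side (ht0 : ∀ a, ht a = 0 → a = 0) (hsk : SkewOn s L) (hrk : Rank2 s ht L)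
    {k k' : M} (hk : k ∈ L) (hk' : k' ∈ L) (hk0 : k' ≠ 0) {f : TPS T}
    (hf : In1 (fun d => d ∈ L ∧ s k' d = 0) f) :
    (0 < s k k' → In1 (fun d => 0 < s k d) f) ∧ (s k k' < 0 → In1 (fun d => s k d < 0) f) := by
  have h1 : 0 < (ht k' : ℤ) := by
    exact_mod_cast Nat.pos_of_ne_zero fun h => hk0 (ht0 _ h)
  constructor
  · intro h
    refine hf.mono fun d hd h' => ?_
    have h2 : 0 < (ht d : ℤ) := by
      exact_mod_cast Nat.pos_of_ne_zero fun h => hd (ht0 _ h)
    have h3 := transfer' hsk hrk hk' h'.1 hk h'.2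
    have h4 : 0 < (ht k' : ℤ) * s k d := by rw [h3]; exact mul_pos h2 h
    exact (mul_pos_iff_of_pos_left h1).1 h4
  · intro h
    refine hf.mono fun d hd h' => ?_
    have h2 : 0 < (ht d : ℤ) := by
      exact_mod_cast Nat.pos_of_ne_zero fun h => hd (ht0 _ h)
    have h3 := transfer' hsk hrk hk' h'.1 hk h'.2
    have h4 : (ht k' : ℤ) * s k d < 0 := by rw [h3]; exact mul_neg_of_pos_of_neg h2 h
    exact neg_of_mul_neg_right h4 h1.le

/-- the zero part of a series on `L` only depends on the ray of the functional `s(k, ·)`. -/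
theorem zer_ray (ht0 : ∀ a, ht a = 0 → a = 0) (hsk : SkewOn s L) (hrk : Rank2 s ht L)
    {k k' : M} (hk : k ∈ L) (hk' : k' ∈ L) (hk0 : k ≠ 0) (hk0' : k' ≠ 0) (h : s k' k = 0)
    {a : TPS T} (ha : In1 (· ∈ L) a) : zer (s k) a = zer (s k') a := by
  have hadd : ∀ a b : M, a ∈ L → b ∈ L → a + b ∈ L := fun a b => L.add_mem
  have hp := ha.pos hadd (s k')
  have hz := ha.zer hadd (s k')
  have hn := ha.neg hadd (s k')
  refine (pzn_unique' (s k) (p := pos (s k') a) (z := zer (s k') a) (n := neg (s k') a)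
    ?_ ?_ ?_ (pos_mul_zer_mul_neg _ ha.one)).2.1
  · exact hp.mono fun d _ hd => (sign_ray ht0 hsk hrk hk' hk hd.2 hk0' hk0 h).1.2 hd.1
  · exact hz.mono fun d _ hd => (sign_ray ht0 hsk hrk hk' hk hd.2 hk0' hk0 h).2.2 hd.1
  · refine hn.mono fun d _ hd => ?_
    have h1 := (sign_ray ht0 hsk hrk hk' hk hd.2 hk0' hk0 h).1
    have h2 := (sign_ray ht0 hsk hrk hk' hk hd.2 hk0' hk0 h).2
    by_contra hcon
    rcases (not_lt.1 hcon).lt_or_eq with h3 | h3
    · exact absurd (h1.1 h3) (not_lt.2 hd.1.le)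
    · exact absurd (h2.1 h3.symm) hd.1.ne

theorem prod_flatMap_map {ι α : Type*} {N : Type*} [Monoid N] (l : List ι) (g : ι → List α)
    (φ : α → N) : ((l.flatMap g).map φ).prod = (l.map fun i => ((g i).map φ).prod).prod := by
  induction l with
  | nil => simp
  | cons i l ih => simp [ih]

variable [TopologicalSpace K] [IsTopologicalRing K] [T1Space K]

theorem continuous_zer {V : Type*} [AddCommGroup V] [LinearOrder V] (x : M →+ V) :
    Continuous (zer x : TPS T → TPS T) :=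
  (continuous_lft _).comp (continuous_rgt _)

open Classical in
/-- **(JTWOD)** two dimensional positivity in a joint, for closures, truncated form. -/
theorem jtwod (ht0 : ∀ a, ht a = 0 → a = 0) (hsk : SkewOn s L) (hrk : Rank2 s ht L)
    (hpar : ∀ k ∈ L, ∀ c ∈ L, k ≠ 0 → s k c = 0 → ht c ≤ ht k → c ≤ k)
    {Dil : M → ℤ → TPS T} (hDil : ∀ c ∈ L, c ≠ 0 → ∀ a, In1 (fun d => d ∈ L ∧ s c d = 0) (Dil c a))
    (hJ : JMAIN T L s Dil (DTg Dil L s)) {a : TPS T} (ha : In1 (· ∈ L) a) {d : M} (hd : d ∈ L)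
    (hd0 : d ≠ 0)
    (H : ∀ k ∈ L, k ≠ 0 → k ≤ d → ∃ f ∈ DTg Dil L s k, ∀ c ≤ k, (zer (s k) a).co c = f.co c) :
    ∃ f ∈ DTg Dil L s d, ∀ c ≤ d, (zer (-(s d)) a).co c = f.co c := by
  have hself : ∀ c ∈ L, s c c = 0 := fun c hc => by have := hsk c hc c hc; omega
  -- slopes and representatives
  let Kf : Finset M := (down d).filter fun k => k ∈ L ∧ k ≠ 0
  have hKf : ∀ k, k ∈ Kf ↔ k ≤ d ∧ k ∈ L ∧ k ≠ 0 := fun k => by
    simp only [Kf, Finset.mem_filter, mem_down]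
  let Sg : Finset ℚ := Kf.image (slope s ht d)
  have hrep : ∀ q : ℚ, ∃ k : M, q ∈ Sg → (k ∈ L ∧ k ≠ 0 ∧ k ≤ d ∧ slope s ht d k = q ∧
      ∀ c ∈ L, c ≠ 0 → c ≤ d → slope s ht d c = q → c ≤ k) := by
    intro q
    by_cases hq : q ∈ Sg
    · obtain ⟨k₁, hk₁, hq₁⟩ := Finset.mem_image.1 hq
      obtain ⟨k, hk, hmax⟩ := Finset.exists_max_image (Kf.filter fun k => slope s ht d k = q)
        (fun k => ht k) ⟨k₁, by simp [hk₁, hq₁]⟩
      rw [Finset.mem_filter, hKf] at hk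
      refine ⟨k, fun _ => ⟨hk.1.2.1, hk.1.2.2, hk.1.1, hk.2, fun c hc hc0 hcd hcq => ?_⟩⟩
      refine hpar k hk.1.2.1 c hc hk.1.2.2 ?_ ?_
      · rw [zero_iff_slope ht0 hsk hrk hd hk.1.2.1 hc hd0 hk.1.2.2 hc0, hcq, hk.2]
      · exact hmax c (by rw [Finset.mem_filter, hKf]; exact ⟨⟨hcd, hc, hc0⟩, hcq⟩)
    · exact ⟨0, fun h => absurd h hq⟩
  choose r hr using hrep
  have hfex : ∀ q : ℚ, ∃ f : TPS T, q ∈ Sg → (f ∈ DTg Dil L s (r q) ∧
      ∀ c ≤ r q, (zer (s (r q)) a).co c = f.co c) := by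
    intro q
    by_cases hq : q ∈ Sg
    · obtain ⟨h1, h2, h3, -, -⟩ := hr q hq
      obtain ⟨f, hf, hf'⟩ := H (r q) h1 h2 h3
      exact ⟨f, fun _ => ⟨hf, hf'⟩⟩
    · exact ⟨0, fun h => absurd h hq⟩
  choose f hf using hfex
  let l : List ℚ := Sg.sort (· ≥ ·)
  have hl : ∀ q, q ∈ l ↔ q ∈ Sg := fun q => by simp only [l, Finset.mem_sort]
  have hlp : l.Pairwise (fun p q => q < p) := by
    have h1 : l.Pairwise (fun p q => p ≥ q) := Finset.pairwise_sort _ _
    have h2 : l.Pairwise (fun p q => p ≠ q) := Finset.sort_nodup _ _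
    exact (h1.and h2).imp fun {p q} h => lt_of_le_of_ne h.1 (Ne.symm h.2)
  have hin : ∀ q ∈ Sg, In1 (fun e => e ∈ L ∧ s (r q) e = 0) (f q) := fun q hq =>
    in1_DTg ht0 hsk hrk hDil (hr q hq).1 (hr q hq).2.1 (hf q hq).1
  have hlt : ∀ p ∈ Sg, ∀ q ∈ Sg, q < p → s (r p) (r q) < 0 := fun p hp q hq hpq => by
    rw [neg_iff_slope ht0 hsk hrk hd (hr p hp).1 (hr q hq).1 hd0 (hr p hp).2.1 (hr q hq).2.1,
      (hr p hp).2.2.2.1, (hr q hq).2.2.2.1]
    exact hpq
  -- the product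
  have hz' : ∀ q ∈ Sg, zer (s (r q)) ((l.map f).prod) = f q := by
    intro q hq
    obtain ⟨l1, l2, hl12⟩ := List.append_of_mem ((hl q).2 hq)
    rw [hl12] at hlp ⊢
    rw [List.map_append, List.map_cons]
    rw [List.pairwise_append] at hlp
    obtain ⟨-, hp2, hp3⟩ := hlp
    rw [List.pairwise_cons] at hp2
    have hm1 : ∀ p ∈ l1, p ∈ Sg := fun p hp => (hl p).1 (by rw [hl12]; simp [hp])
    have hm2 : ∀ p ∈ l2, p ∈ Sg := fun p hp => (hl p).1 (by rw [hl12]; simp [hp])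
    refine zer_list _ _ _ _ ?_ ((hin q hq).mono fun _ _ h => h.2) ?_
    · intro g hg
      obtain ⟨p, hp, rfl⟩ := List.mem_map.1 hg
      refine (in1_side ht0 hsk hrk (hr q hq).1 (hr p (hm1 p hp)).1 (hr p (hm1 p hp)).2.1
        (hin p (hm1 p hp))).1 ?_
      have h1 := hlt p (hm1 p hp) q hq (hp3 p hp q (by simp))
      rw [hsk _ (hr p (hm1 p hp)).1 _ (hr q hq).1] at h1
      linarith
    · intro g hg
      obtain ⟨p, hp, rfl⟩ := List.mem_map.1 hg
      exact (in1_side ht0 hsk hrk (hr q hq).1 (hr p (hm2 p hp)).1 (hr p (hm2 p hp)).2.1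
        (hin p (hm2 p hp))).2 (hlt q hq p (hm2 p hp) (hp2.1 p hp))
  have ha' : In1 (· ∈ L) ((l.map f).prod) := by
    refine In1.list (fun a b => L.add_mem) _ fun g hg => ?_
    obtain ⟨p, hp, rfl⟩ := List.mem_map.1 hg
    exact (hin p ((hl p).1 hp)).mono fun _ _ h => h.1
  -- the two series agree in degrees `≤ d`
  have hagree : ∀ c ≤ d, a.co c = ((l.map f).prod).co c := by
    refine juniq s L ha ha' hself d fun k hk hk0 hkd => ?_
    have hq : slope s ht d k ∈ Sg := Finset.mem_image_of_mem _ ((hKf k).2 ⟨hkd, hk, hk0⟩)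
    obtain ⟨h1, h2, h3, h4, h5⟩ := hr _ hq
    have h6 : s (r (slope s ht d k)) k = 0 := by
      rw [zero_iff_slope ht0 hsk hrk hd h1 hk hd0 h2 hk0, h4]
    rw [zer_ray ht0 hsk hrk hk h1 hk0 h2 h6 ha, zer_ray ht0 hsk hrk hk h1 hk0 h2 h6 ha',
      hz' _ hq]
    exact (hf _ hq).2 k (h5 k hk hk0 hkd rfl)
  refine ⟨zer (-(s d)) ((l.map f).prod), ?_, fun c hc =>
    (zer_congr _ _ ha.one c (fun e he => hagree e (he.trans hc)) (fun _ _ => Iff.rfl)
      (fun _ _ => Iff.rfl)).1⟩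
  -- the limit argument
  let D : ℚ → Set (TPS T) := fun q =>
    if q ∈ Sg then (Submonoid.closure (DGen Dil L s (r q)) : Set (TPS T)) else Set.univ
  refine map_prod_closure (D := D) (E := (Submonoid.closure (DGen Dil L s d) : Set (TPS T)))
    l (continuous_zer (-(s d))) ?_ f ?_
  · intro u hu
    have hex : ∀ q : ℚ, ∃ ll : List (M × ℤ), q ∈ Sg →
        ((∀ w ∈ ll, w.1 ∈ L ∧ w.1 ≠ 0 ∧ s (r q) w.1 = 0) ∧
          (ll.map (fun w => Dil w.1 w.2)).prod = u q) := by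
      intro q
      by_cases hq : q ∈ Sg
      · have h1 := hu q
        simp only [D, if_pos hq] at h1
        obtain ⟨ll, h2⟩ := exists_list h1
        exact ⟨ll, fun _ => h2⟩
      · exact ⟨[], fun h => absurd h hq⟩
    choose g hg using hex
    have hprod : (l.map u).prod = ((l.flatMap g).map (fun w => Dil w.1 w.2)).prod := by
      rw [prod_flatMap_map]
      congr 1
      refine List.map_congr_left fun q hq => ?_
      exact (hg q ((hl q).1 hq)).2.symm
    have hpw : (l.flatMap g).Pairwise (fun v w => s v.1 w.1 ≤ 0) := by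
      rw [List.pairwise_flatMap]
      constructor
      · intro q hq
        have hq' := (hl q).1 hq
        refine List.pairwise_of_forall_mem_list fun v hv w hw => ?_
        have h1 := (hg q hq').1 v hv
        have h2 := (hg q hq').1 w hw
        exact ((sign_ray ht0 hsk hrk (hr q hq').1 h1.1 h2.1 (hr q hq').2.1 h1.2.1 h1.2.2).2.2
          h2.2.2).le
      · refine (List.Pairwise.imp_of_mem ?_ hlp)
        intro p q hp hq hpq v hv w hw
        have hp' := (hl p).1 hp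
        have hq' := (hl q).1 hq
        have h1 := (hg p hp').1 v hv
        have h2 := (hg q hq').1 w hw
        -- signs
        have h3 : s (r p) (r q) < 0 := hlt p hp' q hq' hpq
        have e1 := transfer hsk hrk (hr p hp').1 h1.1 h2.1 h1.2.2
        have e2 := transfer' hsk hrk (hr q hq').1 h2.1 (hr p hp').1 h2.2.2
        have p1 : 0 < (ht (r p) : ℤ) := by
          exact_mod_cast Nat.pos_of_ne_zero fun h => (hr p hp').2.1 (ht0 _ h)
        have p2 : 0 < (ht (r q) : ℤ) := by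
          exact_mod_cast Nat.pos_of_ne_zero fun h => (hr q hq').2.1 (ht0 _ h)
        have n1 : (0 : ℤ) ≤ ht v.1 := by positivity
        have n2 : (0 : ℤ) ≤ ht w.1 := by positivity
        have f1 : s (r p) w.1 ≤ 0 := by
          by_contra hcon
          have : 0 < (ht (r q) : ℤ) * s (r p) w.1 := mul_pos p2 (not_le.1 hcon)
          rw [e2] at this
          exact absurd this (not_lt.2 (mul_nonpos_of_nonneg_of_nonpos n2 h3.le))
        by_contra hcon
        have : 0 < (ht (r p) : ℤ) * s v.1 w.1 := mul_pos p1 (not_le.1 hcon)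
        rw [e1] at this
        exact absurd this (not_lt.2 (mul_nonpos_of_nonneg_of_nonpos n1 f1))
    have hmem : ∀ w ∈ l.flatMap g, w.1 ∈ L ∧ w.1 ≠ 0 := by
      intro w hw
      obtain ⟨q, hq, hwq⟩ := List.mem_flatMap.1 hw
      have := (hg q ((hl q).1 hq)).1 w hwq
      exact ⟨this.1, this.2.1⟩
    have h0 : ((l.map u).prod).co 0 = 1 := by
      rw [hprod]
      refine (In1.list (P := fun _ => True) (fun _ _ _ _ => trivial) _ fun g' hg' => ?_).one
      obtain ⟨w, hw, rfl⟩ := List.mem_map.1 hg'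
      exact (hDil w.1 (hmem w hw).1 (hmem w hw).2 w.2).mono fun _ _ _ => trivial
    refine hJ (l.flatMap g) hmem hpw d hd hd0 (pos (-(s d)) ((l.map u).prod)) _
      (neg (-(s d)) ((l.map u).prod)) ?_ ?_ ?_ ?_
    · refine (in1_pos (-(s d)) _).mono fun m _ h => ?_
      rw [AddMonoidHom.neg_apply] at h; linarith
    · refine (in1_zer (-(s d)) _).mono fun m _ h => ?_
      rw [AddMonoidHom.neg_apply] at h; linarith
    · refine (in1_neg (-(s d)) _).mono fun m _ h => ?_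
      rw [AddMonoidHom.neg_apply] at h; linarith
    · rw [pos_mul_zer_mul_neg _ h0, hprod]
  · intro q
    by_cases hq : q ∈ Sg
    · simp only [D, if_pos hq]
      exact (hf q hq).1
    · simp only [D, if_neg hq, closure_univ]
      exact Set.mem_univ _

end main

section inst

variable {M : Type*} [AddCommMonoid M] [PartialOrder M] [IsOrderedCancelAddMonoid M]
  [CanonicallyOrderedAdd M] [WellFoundedLT M] [HasAntidiagonal M]
variable {R : Type*} [CommRing R] {T : Tw M R} {s : M →+ M →+ ℤ} {L : AddSubmonoid M} {ht : M →+ ℕ}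

theorem nsmul_injective (ht0 : ∀ a, ht a = 0 → a = 0) {c : M} (hc : c ≠ 0) :
    Function.Injective (fun k : ℕ => k • c) := by
  intro a b hab
  have h := congrArg ht hab
  simp only [map_nsmul, smul_eq_mul] at h
  exact Nat.eq_of_mul_eq_mul_right (Nat.pos_of_ne_zero fun h => hc (ht0 _ h)) h

theorem in1_QDil (ht0 : ∀ a, ht a = 0 → a = 0) (Q : M → ZMod 2) {c : M} (hc : c ∈ L) (hc0 : c ≠ 0)
    (hself : s c c = 0) (a : ℤ) : In1 (fun d => d ∈ L ∧ s c d = 0) (QDil T Q c a) := by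
  refine ⟨co_dil_zero (nsmul_injective ht0 hc0) _ _, fun d hd hP => ?_⟩
  by_contra hne
  obtain ⟨k, hk⟩ := exists_of_co_ev_ne hne
  apply hP
  rw [hk]
  exact ⟨L.nsmul_mem hc k, by rw [map_nsmul, hself, smul_zero]⟩

theorem DGen_eq_RayGen (T : Tw M R) (Q : M → ZMod 2) (k : M) :
    DGen (QDil T Q) L s k = RayGen T Q L s k := rfl

variable [TopologicalSpace R] [IsTopologicalRing R] [T1Space R]

omit [IsTopologicalRing R] [T1Space R] in
theorem DTg_eq_DT (T : Tw M R) (Q : M → ZMod 2) :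
    DTg (QDil T Q) L s = DT T Q L s := rfl

/-- **(JTWOD)** for 853's `QDil`, `DT`. -/
theorem jtwod_DT (ht0 : ∀ a, ht a = 0 → a = 0) (hsk : SkewOn s L) (hrk : Rank2 s ht L)
    (hpar : ∀ k ∈ L, ∀ c ∈ L, k ≠ 0 → s k c = 0 → ht c ≤ ht k → c ≤ k) {Q : M → ZMod 2}
    (hJ : JMAIN T L s (QDil T Q) (DT T Q L s)) {a : TPS T} (ha : In1 (· ∈ L) a) {d : M} (hd : d ∈ L)
    (hd0 : d ≠ 0)
    (H : ∀ k ∈ L, k ≠ 0 → k ≤ d → ∃ f ∈ DT T Q L s k, ∀ c ≤ k, (zer (s k) a).co c = f.co c) :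
    ∃ f ∈ DT T Q L s d, ∀ c ≤ d, (zer (-(s d)) a).co c = f.co c :=
  jtwod ht0 hsk hrk hpar (Dil := QDil T Q)
    (fun c hc hc0 a => in1_QDil ht0 Q hc hc0 (by have := hsk c hc c hc; omega) a) hJ ha hd hd0 H

end inst

end Crest.Agent.R059.JTwo269
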