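import Mathlib

/-!
# Row 59, Theorem B (helper232 #18344) in labelled / ideal form: definitions and basic API

`V` is a set of particles, `a v w` the number of arrows, `θ` the stability.  All ideals live in the one
ring `MvPolynomial V ℚ`; a block is a `Finset V`, a partition is a `Finset (Finset V)`; the shift variables
`u_Y` are indexed by the blocks themselves.  All degree bounds are doubled (`m < 2 * |α|`).
-/

set_option autoImplicit false

open MvPolynomial

namespace Crest.Agent.R059.Lab141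

/-- arrows and weights on a set of particles; arrows are symmetric on disjoint sets of weight zero -/
structure Dat (V : Type*) where
  a : V → V → ℕ
  θ : V → ℤ
  sym : ∀ A B : Finset V, Disjoint A B → ∑ v ∈ A, θ v = 0 → ∑ v ∈ B, θ v = 0 →
    ∑ x ∈ A, ∑ y ∈ B, a x y = ∑ x ∈ B, ∑ y ∈ A, a x y

variable {V : Type*} [DecidableEq V]

/-- `ρ` refines `π` -/
def Ref (ρ π : Finset (Finset V)) : Prop := ∀ C ∈ ρ, ∃ Y ∈ π, C ⊆ Y

instance (ρ π : Finset (Finset V)) : Decidable (Ref ρ π) :=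
  inferInstanceAs (Decidable (∀ C ∈ ρ, ∃ Y ∈ π, C ⊆ Y))

/-- the shift `x_v ↦ x_v + u_Y` (`v ∈ Y ∈ π`), `x_v ↦ x_v` if `v` lies in no block of `π` -/
noncomputable def T (π : Finset (Finset V)) :
    MvPolynomial V ℚ →ₐ[ℚ] MvPolynomial (Finset V) (MvPolynomial V ℚ) :=
  aeval fun v => C (X v) + ∑ Y ∈ π with v ∈ Y, X Y

theorem T_X (π : Finset (Finset V)) (v : V) :
    T π (X v) = C (X v) + ∑ Y ∈ π with v ∈ Y, X Y := by
  simp [T]

theorem coeff_smul_T (π : Finset (Finset V)) (r : ℚ) (f : MvPolynomial V ℚ) (α : Finset V →₀ ℕ) :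
    coeff α (T π (r • f)) = r • coeff α (T π f) := by
  rw [map_smul]
  exact coeff_smul α r (T π f)

/-- apply a `ℚ`-linear functional to the coefficients -/
noncomputable def lmap (ℓ : MvPolynomial V ℚ →ₗ[ℚ] ℚ)
    (G : MvPolynomial (Finset V) (MvPolynomial V ℚ)) : MvPolynomial (Finset V) ℚ :=
  ∑ α ∈ G.support, monomial α (ℓ (coeff α G))

namespace Dat

variable (D : Dat V)

/-- weight -/
def wt (A : Finset V) : ℤ := ∑ v ∈ A, D.θ v

/-- number of arrows from `A` to `B` -/
def kk (A B : Finset V) : ℕ := ∑ x ∈ A, ∑ y ∈ B, D.a x y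

/-- `E A B = ∏_{x ∈ A, y ∈ B} (X y - X x)^(a x y)` -/
noncomputable def E (A B : Finset V) : MvPolynomial V ℚ :=
  ∏ x ∈ A, ∏ y ∈ B, (X y - X x) ^ D.a x y

/-- the unstable ideal of the block `Y` -/
noncomputable def J (Y : Finset V) : Ideal (MvPolynomial V ℚ) :=
  Ideal.span {f | ∃ S ⊆ Y, 0 < D.wt S ∧ f = D.E S (Y \ S)}

/-- `N π = ∑_{Y ∈ π} J Y` -/
noncomputable def N (π : Finset (Finset V)) : Ideal (MvPolynomial V ℚ) := ⨆ Y ∈ π, D.J Y

/-- a partition of `Z` into nonempty blocks of weight zero -/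
structure Pt (Z : Finset V) (π : Finset (Finset V)) : Prop where
  disj : ∀ Y ∈ π, ∀ Y' ∈ π, Y ≠ Y' → Disjoint Y Y'
  cover : π.biUnion id = Z
  ne : ∅ ∉ π
  wt0 : ∀ Y ∈ π, D.wt Y = 0

/-- twice the number of arrows between different blocks -/
def kk2 (π : Finset (Finset V)) : ℕ := ∑ p ∈ π.offDiag, D.kk p.1 p.2

/-- the shift by `π` of `f` has all coefficients of (doubled) degree `> m` in `N π` -/
noncomputable def Low (π : Finset (Finset V)) (m : ℤ) : Submodule ℚ (MvPolynomial V ℚ) where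
  carrier := {f | ∀ α : Finset V →₀ ℕ, m < 2 * (α.degree : ℤ) → coeff α (T π f) ∈ D.N π}
  add_mem' := by
    intro f g hf hg α hα
    rw [map_add, coeff_add]
    exact add_mem (hf α hα) (hg α hα)
  zero_mem' := by
    intro α _
    simp
  smul_mem' := by
    intro r f hf α hα
    rw [coeff_smul_T, ← C_mul']
    exact Ideal.mul_mem_left _ _ (hf α hα)

theorem mem_Low {π : Finset (Finset V)} {m : ℤ} {f : MvPolynomial V ℚ} :
    f ∈ D.Low π m ↔ ∀ α : Finset V →₀ ℕ, m < 2 * (α.degree : ℤ) → coeff α (T π f) ∈ D.N π := Iff.rfl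

/-- growth filtration: growth `≤ k` everywhere, and `≤ k - 1` at partitions with more than `s` blocks -/
noncomputable def Fil (Z : Finset V) (k : ℤ) (s : ℕ) : Submodule ℚ (MvPolynomial V ℚ) :=
  ⨅ (π : Finset (Finset V)) (_ : D.Pt Z π), D.Low π (2 * (if s < π.card then k - 1 else k) + D.kk2 π)

/-- the values of the symbols at `π`: degree `0` at `π` and growth `≤ -1` at all strict refinements -/
noncomputable def W (π : Finset (Finset V)) : Submodule ℚ (MvPolynomial V ℚ) :=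
  ⨅ (ρ : Finset (Finset V)) (_ : D.Pt (π.biUnion id) ρ) (_ : Ref ρ π),
    D.Low ρ ((D.kk2 ρ : ℤ) - D.kk2 π - if ρ = π then 0 else 2)

theorem mem_Fil {Z : Finset V} {k : ℤ} {s : ℕ} {f : MvPolynomial V ℚ} :
    f ∈ D.Fil Z k s ↔ ∀ π, D.Pt Z π →
      f ∈ D.Low π (2 * (if s < π.card then k - 1 else k) + D.kk2 π) := by
  simp [Fil, Submodule.mem_iInf]

theorem mem_W {π : Finset (Finset V)} {f : MvPolynomial V ℚ} :
    f ∈ D.W π ↔ ∀ ρ, D.Pt (π.biUnion id) ρ → Ref ρ π →
      f ∈ D.Low ρ ((D.kk2 ρ : ℤ) - D.kk2 π - if ρ = π then 0 else 2) := by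
  simp [W, Submodule.mem_iInf]

/-- ordered product of the `E`'s; the order of the blocks is given by `r` (injective on `π`) -/
noncomputable def EP (r : Finset V → ℕ) (π : Finset (Finset V)) : MvPolynomial V ℚ :=
  ∏ p ∈ π.offDiag with r p.1 < r p.2, D.E p.1 p.2

/-- its symbol `∏_{Y < Y'} (u_Y' - u_Y)^(kk Y Y')` -/
noncomputable def DP (r : Finset V → ℕ) (π : Finset (Finset V)) : MvPolynomial (Finset V) ℚ :=
  ∏ p ∈ π.offDiag with r p.1 < r p.2, (X p.2 - X p.1) ^ D.kk p.1 p.2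

/-- the elements with given symbol; `pt Y ∈ Y` for `Y ∈ π` -/
noncomputable def El (r : Finset V → ℕ) (pt : Finset V → V) (π : Finset (Finset V))
    (w : MvPolynomial V ℚ) (α : Finset V →₀ ℕ) : MvPolynomial V ℚ :=
  D.EP r π * w * ∏ Y ∈ π, X (pt Y) ^ α Y

/-- sign of the order `r` relative to `r₀` -/
def eps (r r₀ : Finset V → ℕ) (π : Finset (Finset V)) : ℚ :=
  ∏ p ∈ π.offDiag with r p.1 < r p.2 ∧ r₀ p.2 < r₀ p.1, (-1) ^ D.kk p.1 p.2

/-- pull back along an injection -/
def comap {V V' : Type*} (D : Dat V) (e : V' ↪ V) : Dat V' where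
  a x y := D.a (e x) (e y)
  θ x := D.θ (e x)
  sym A B hAB hA hB := by
    have := D.sym (A.map e) (B.map e) ((Finset.disjoint_map e).2 hAB) (by simpa using hA)
      (by simpa using hB)
    simpa using this

end Dat

end Crest.Agent.R059.Lab141
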