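/-
Row 59 (S0081), helper157: LINK.  In the ring `TPS` of twisted power series, with classes `U i` of the
vertices, `E(z) = ∑_{I independent} z^|I| Y_{u_I}` and `F = E(z_0) E(z_1) ⋯ E(z_{N-1})`:
* the coefficient of the thin class `∑ U i` is the chromatic quasisymmetric function;
* the coefficient of `∑ g i • U i` with independent support is `∏ e_{g i}`.
-/
import Crest.Agent.R059.TPS_883
import Crest.Agent.R059.End_157

set_option autoImplicit false

open Crest.CombinatoricsR.UnitInterval Finset

namespace Crest.Agent.R059.Link157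

open Crest.Agent.R059 TPS

section general

variable {M : Type*} [AddCommMonoid M] {R : Type*} [CommRing R] (T : Tw M R)

/-- expansion of an ordered product of sums of monomials. -/
theorem prod_ofFn_sum [HasAntidiagonal M] {α : Type*} [Fintype α] (N : ℕ) (m : Fin N → α → M)
    (r : Fin N → α → R) :
    (List.ofFn (fun c => ∑ x : α, mono T (m c x) (r c x))).prod =
      ∑ x : Fin N → α, mono T (∑ c, m c (x c))
        (((T.v ^ (∑ c, ∑ c', if c < c' then T.β (m c (x c)) (m c' (x c')) else 0) : Rˣ) : R) *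
          ∏ c, r c (x c)) := by
  induction N with
  | zero => simp [one_def]
  | succ N ih =>
    rw [List.ofFn_succ, List.prod_cons, ih (fun c => m c.succ) (fun c => r c.succ),
      Finset.sum_mul_sum, ← Fintype.sum_prod_type']
    apply Fintype.sum_equiv (Fin.consEquiv (fun _ => α))
    rintro ⟨a, y⟩
    rw [mono_mul_mono]
    have e1 : (Fin.consEquiv (fun _ : Fin (N + 1) => α)) (a, y) = Fin.cons a y := rfl
    rw [e1]
    simp only [Fin.sum_univ_succ, Fin.prod_univ_succ, Fin.cons_zero, Fin.cons_succ,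
      Fin.succ_pos, Fin.not_lt_zero, Fin.succ_lt_succ_iff, if_true, if_false, zero_add]
    congr 1
    rw [wt, map_sum, zpow_add, Units.val_mul]
    ring

theorem co_sum {ι : Type*} (s : Finset ι) (f : ι → TPS T) (d : M) :
    (∑ i ∈ s, f i).co d = ∑ i ∈ s, (f i).co d := by
  classical
  induction s using Finset.induction_on with
  | empty => simp
  | insert a s ha ih => rw [Finset.sum_insert ha, Finset.sum_insert ha, co_add, ih]

variable {n : ℕ}

/-- the class `u_I`. -/
def uS (U : Fin n → M) (I : Finset (Fin n)) : M := ∑ i ∈ I, U i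

/-- independent sets. -/
def Indep (adj : Fin n → Fin n → Prop) (I : Finset (Fin n)) : Prop := ∀ a ∈ I, ∀ b ∈ I, ¬ adj a b

open Classical in
/-- `E(z) = ∑_{I independent} z^|I| Y_{u_I}`. -/
noncomputable def Ez (adj : Fin n → Fin n → Prop) (U : Fin n → M) (z : R) : TPS T :=
  ∑ I ∈ (Finset.univ : Finset (Finset (Fin n))).filter (Indep adj), mono T (uS U I) (z ^ I.card)

theorem mono_zero (m : M) : mono T m (0 : R) = 0 := by
  classical
  ext d
  rw [co_mono]
  simp

open Classical in
theorem Ez_eq (adj : Fin n → Fin n → Prop) (U : Fin n → M) (z : R) :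
    Ez T adj U z = ∑ I : Finset (Fin n), mono T (uS U I) (if Indep adj I then z ^ I.card else 0) := by
  unfold Ez
  rw [Finset.sum_filter]
  apply Finset.sum_congr rfl
  intro I _
  split_ifs
  · rfl
  · rw [mono_zero]

/-- `F = E(z_0) E(z_1) ⋯ E(z_{N-1})`. -/
noncomputable def Fz [HasAntidiagonal M] {N : ℕ} (adj : Fin n → Fin n → Prop) (U : Fin n → M)
    (z : Fin N → R) : TPS T :=
  (List.ofFn (fun c => Ez T adj U (z c))).prod

/-- exponent of `v` in a term. -/
def expo {N : ℕ} (U : Fin n → M) (y : Fin n → Finset (Fin N)) : ℤ :=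
  ∑ i, ∑ j, T.β (U i) (U j) *
    (((Finset.univ : Finset (Fin N × Fin N)).filter
      (fun p => p.1 < p.2 ∧ p.1 ∈ y i ∧ p.2 ∈ y j)).card : ℤ)

/-- transposition of families of subsets. -/
def tr {n N : ℕ} (x : Fin N → Finset (Fin n)) : Fin n → Finset (Fin N) :=
  fun i => Finset.univ.filter (fun c => i ∈ x c)

theorem mem_tr {n N : ℕ} (x : Fin N → Finset (Fin n)) (i : Fin n) (c : Fin N) :
    c ∈ tr x i ↔ i ∈ x c := by simp [tr]

theorem tr_tr {n N : ℕ} (x : Fin N → Finset (Fin n)) : tr (tr x) = x := by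
  funext c
  ext i
  rw [mem_tr, mem_tr]

/-- transposition as an equivalence. -/
def trE (n N : ℕ) : (Fin N → Finset (Fin n)) ≃ (Fin n → Finset (Fin N)) where
  toFun := tr
  invFun := tr
  left_inv := tr_tr
  right_inv := tr_tr

theorem expo_eq {N : ℕ} (U : Fin n → M) (x : Fin N → Finset (Fin n)) :
    (∑ c, ∑ c', if c < c' then T.β (uS U (x c)) (uS U (x c')) else 0) = expo T U (tr x) := by
  classical
  unfold expo
  have h1 : ∀ c c' : Fin N, (if c < c' then T.β (uS U (x c)) (uS U (x c')) else 0) =
      ∑ i : Fin n, ∑ j : Fin n, if c < c' ∧ i ∈ x c ∧ j ∈ x c' then T.β (U i) (U j) else 0 := by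
    intro c c'
    unfold uS
    by_cases h : c < c'
    · simp only [h, if_true, true_and, map_sum, AddMonoidHom.finsetSum_apply]
      rw [Finset.sum_comm]
      rw [← Finset.sum_filter_add_sum_filter_not (Finset.univ : Finset (Fin n)) (fun i => i ∈ x c)]
      rw [Finset.sum_eq_zero (s := Finset.univ.filter (fun i => ¬ i ∈ x c))]
      · rw [add_zero]
        have e1 : (Finset.univ : Finset (Fin n)).filter (fun i => i ∈ x c) = x c := by
          ext i; simp
        rw [e1]
        apply Finset.sum_congr rfl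
        intro i hi
        simp only [hi, true_and]
        rw [← Finset.sum_filter]
        congr 1
        ext j; simp
      · intro i hi
        rw [Finset.mem_filter] at hi
        simp [hi.2]
    · simp [h]
  simp only [h1]
  have h2 : ∀ i j : Fin n, T.β (U i) (U j) *
    (((Finset.univ : Finset (Fin N × Fin N)).filter
      (fun p => p.1 < p.2 ∧ p.1 ∈ tr x i ∧ p.2 ∈ tr x j)).card : ℤ) =
      ∑ c : Fin N, ∑ c' : Fin N,
        if c < c' ∧ i ∈ x c ∧ j ∈ x c' then T.β (U i) (U j) else 0 := by
    intro i j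
    rw [← Fintype.sum_prod_type' (f := fun c c' => if c < c' ∧ i ∈ x c ∧ j ∈ x c' then
      T.β (U i) (U j) else 0), ← Finset.sum_filter, Finset.sum_const, nsmul_eq_mul, mul_comm]
    simp only [mem_tr]
  simp only [h2]
  have h3 : ∀ (f : Fin N → Fin N → Fin n → Fin n → ℤ),
      ∑ c, ∑ c', ∑ i, ∑ j, f c c' i j = ∑ i, ∑ j, ∑ c, ∑ c', f c c' i j := by
    intro f
    calc ∑ c, ∑ c', ∑ i, ∑ j, f c c' i j = ∑ c, ∑ i, ∑ c', ∑ j, f c c' i j :=
          Finset.sum_congr rfl (fun c _ => Finset.sum_comm)
      _ = ∑ i, ∑ c, ∑ c', ∑ j, f c c' i j := Finset.sum_comm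
      _ = ∑ i, ∑ c, ∑ j, ∑ c', f c c' i j :=
          Finset.sum_congr rfl (fun i _ => Finset.sum_congr rfl (fun c _ => Finset.sum_comm))
      _ = ∑ i, ∑ j, ∑ c, ∑ c', f c c' i j :=
          Finset.sum_congr rfl (fun i _ => Finset.sum_comm)
  exact h3 _

theorem sum_uS {N : ℕ} (U : Fin n → M) (x : Fin N → Finset (Fin n)) :
    ∑ c, uS U (x c) = ∑ i, (tr x i).card • U i := by
  classical
  unfold uS
  have h1 : ∀ c, ∑ i ∈ x c, U i = ∑ i : Fin n, if i ∈ x c then U i else 0 := by
    intro c
    rw [← Finset.sum_filter]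
    congr 1
    ext i; simp
  simp only [h1]
  rw [Finset.sum_comm]
  apply Finset.sum_congr rfl
  intro i _
  rw [← Finset.sum_filter, Finset.sum_const]
  congr 2

theorem prod_pow_eq {N : ℕ} (z : Fin N → R) (x : Fin N → Finset (Fin n)) :
    ∏ c, z c ^ (x c).card = ∏ i, ∏ c ∈ tr x i, z c := by
  classical
  have h1 : ∀ c, z c ^ (x c).card = ∏ i : Fin n, if i ∈ x c then z c else 1 := by
    intro c
    rw [← Finset.prod_filter, Finset.prod_const]
    congr 2
    ext i; simp
  simp only [h1]
  rw [Finset.prod_comm]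
  apply Finset.prod_congr rfl
  intro i _
  rw [← Finset.prod_filter]
  congr 1

open Classical in
/-- **general coefficient formula.** -/
theorem co_Fz [HasAntidiagonal M] {N : ℕ} (adj : Fin n → Fin n → Prop) (U : Fin n → M)
    (hU : Function.Injective (fun g : Fin n → ℕ => ∑ i, g i • U i)) (z : Fin N → R)
    (g : Fin n → ℕ) :
    (Fz T adj U z).co (∑ i, g i • U i) =
      ∑ y ∈ (Finset.univ : Finset (Fin n → Finset (Fin N))).filter
        (fun y => (∀ i, (y i).card = g i) ∧ ∀ a b, adj a b → Disjoint (y a) (y b)),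
        ((T.v ^ expo T U y : Rˣ) : R) * ∏ i, ∏ c ∈ y i, z c := by
  unfold Fz
  have h0 : (fun c => Ez T adj U (z c)) = fun c => ∑ I : Finset (Fin n),
      mono T (uS U I) (if Indep adj I then z c ^ I.card else 0) := by
    funext c
    exact Ez_eq T adj U (z c)
  rw [h0, prod_ofFn_sum T N (fun _ I => uS U I), co_sum]
  rw [Finset.sum_filter]
  apply Fintype.sum_equiv (trE n N)
  intro x
  have e1 : (trE n N) x = tr x := rfl
  rw [e1, co_mono, sum_uS, expo_eq]
  have h1 : (∑ i, g i • U i = ∑ i, (tr x i).card • U i) ↔ ∀ i, (tr x i).card = g i := by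
    constructor
    · intro h i
      have := hU h
      exact (congrFun this i).symm
    · intro h
      exact Finset.sum_congr rfl (fun i _ => by rw [h i])
  have h2 : (∀ c, Indep adj (x c)) ↔ ∀ a b, adj a b → Disjoint (tr x a) (tr x b) := by
    constructor
    · intro h a b hab
      rw [Finset.disjoint_left]
      intro c hc hc'
      rw [mem_tr] at hc hc'
      exact h c a hc b hc' hab
    · intro h c a ha b hb hab
      exact Finset.disjoint_left.1 (h a b hab) ((mem_tr x a c).2 ha) ((mem_tr x b c).2 hb)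
  by_cases hc : ∀ i, (tr x i).card = g i
  · rw [if_pos (h1.2 hc)]
    by_cases hi : ∀ c, Indep adj (x c)
    · rw [if_pos ⟨hc, h2.1 hi⟩, ← prod_pow_eq]
      congr 1
      exact Finset.prod_congr rfl (fun c _ => if_pos (hi c))
    · rw [if_neg (fun h => hi (h2.2 h.2))]
      push Not at hi
      obtain ⟨c, hc'⟩ := hi
      rw [Finset.prod_eq_zero (Finset.mem_univ c) (if_neg hc'), mul_zero]
  · rw [if_neg (fun h => hc (h1.1 h)), if_neg (fun h => hc h.1)]

open Classical in
/-- **good classes** (Step 1): independent support. -/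
theorem co_Fz_good [HasAntidiagonal M] {N : ℕ} (adj : Fin n → Fin n → Prop) (U : Fin n → M)
    (hU : Function.Injective (fun g : Fin n → ℕ => ∑ i, g i • U i)) (z : Fin N → R)
    (g : Fin n → ℕ) (hg : ∀ a b, 0 < g a → 0 < g b → ¬ adj a b)
    (hβ : ∀ a b, 0 < g a → 0 < g b → T.β (U a) (U b) = 0) :
    (Fz T adj U z).co (∑ i, g i • U i) =
      ∏ i, ∑ A ∈ Finset.powersetCard (g i) (Finset.univ : Finset (Fin N)), ∏ c ∈ A, z c := by
  rw [co_Fz T adj U hU z g, Finset.prod_univ_sum]
  have h1 : (Finset.univ : Finset (Fin n → Finset (Fin N))).filter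
        (fun y => (∀ i, (y i).card = g i) ∧ ∀ a b, adj a b → Disjoint (y a) (y b)) =
      Fintype.piFinset (fun i => Finset.powersetCard (g i) (Finset.univ : Finset (Fin N))) := by
    ext y
    simp only [Finset.mem_filter, Finset.mem_univ, true_and, Fintype.mem_piFinset,
      Finset.mem_powersetCard, Finset.subset_univ]
    constructor
    · exact fun h => h.1
    · intro h
      refine ⟨h, fun a b hab => ?_⟩
      rcases Nat.eq_zero_or_pos (g a) with ha | ha
      · rw [← h a, Finset.card_eq_zero] at ha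
        rw [ha]
        exact Finset.disjoint_empty_left _
      · rcases Nat.eq_zero_or_pos (g b) with hb | hb
        · rw [← h b, Finset.card_eq_zero] at hb
          rw [hb]
          exact Finset.disjoint_empty_right _
        · exact absurd hab (hg a b ha hb)
  rw [h1]
  apply Finset.sum_congr rfl
  intro y hy
  rw [Fintype.mem_piFinset] at hy
  have h2 : expo T U y = 0 := by
    unfold expo
    apply Finset.sum_eq_zero
    intro i _
    apply Finset.sum_eq_zero
    intro j _
    have hi := (Finset.mem_powersetCard.1 (hy i)).2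
    have hj := (Finset.mem_powersetCard.1 (hy j)).2
    rcases Nat.eq_zero_or_pos (g i) with ha | ha
    · rw [ha, Finset.card_eq_zero] at hi
      simp [hi]
    · rcases Nat.eq_zero_or_pos (g j) with hb | hb
      · rw [hb, Finset.card_eq_zero] at hj
        simp [hj]
      · rw [hβ i j ha hb, zero_mul]
  rw [h2, zpow_zero, Units.val_one, one_mul]

open Classical in
/-- the thin coefficient as a sum over proper colourings. -/
theorem co_Fz_thin [HasAntidiagonal M] {N : ℕ} (adj : Fin n → Fin n → Prop) (U : Fin n → M)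
    (hU : Function.Injective (fun g : Fin n → ℕ => ∑ i, g i • U i)) (z : Fin N → R) :
    (Fz T adj U z).co (∑ i, U i) =
      ∑ f ∈ (Finset.univ : Finset (Fin n → Fin N)).filter (fun f => ∀ a b, adj a b → f a ≠ f b),
        ((T.v ^ (∑ i, ∑ j, if f i < f j then T.β (U i) (U j) else 0) : Rˣ) : R) *
          ∏ i, z (f i) := by
  have h0 : ∑ i, U i = ∑ i, (fun _ : Fin n => 1) i • U i := by simp
  rw [h0, co_Fz T adj U hU z (fun _ => 1)]
  symm
  refine Finset.sum_bij' (fun (f : Fin n → Fin N) _ => fun i => ({f i} : Finset (Fin N)))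
    (fun y hy => fun i => (Finset.card_eq_one.1 ((Finset.mem_filter.1 hy).2.1 i)).choose)
    ?_ ?_ ?_ ?_ ?_
  · intro f hf
    rw [Finset.mem_filter] at hf ⊢
    refine ⟨Finset.mem_univ _, fun i => Finset.card_singleton _, fun a b hab => ?_⟩
    rw [Finset.disjoint_singleton]
    exact hf.2 a b hab
  · intro y hy
    rw [Finset.mem_filter]
    refine ⟨Finset.mem_univ _, fun a b hab => ?_⟩
    have h1 := (Finset.card_eq_one.1 ((Finset.mem_filter.1 hy).2.1 a)).choose_spec
    have h2 := (Finset.card_eq_one.1 ((Finset.mem_filter.1 hy).2.1 b)).choose_spec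
    have h3 := (Finset.mem_filter.1 hy).2.2 a b hab
    intro h4
    rw [h1, h2, Finset.disjoint_singleton] at h3
    exact h3 h4
  · intro f hf
    funext i
    have h2 := (Finset.card_eq_one.1 (Finset.card_singleton (f i))).choose_spec
    exact (Finset.singleton_injective h2).symm
  · intro y hy
    funext i
    exact (Finset.card_eq_one.1 ((Finset.mem_filter.1 hy).2.1 i)).choose_spec.symm
  · intro f hf
    have e1 : expo T U (fun i => ({f i} : Finset (Fin N))) =
        ∑ i, ∑ j, if f i < f j then T.β (U i) (U j) else 0 := by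
      unfold expo
      apply Finset.sum_congr rfl
      intro i _
      apply Finset.sum_congr rfl
      intro j _
      by_cases h : f i < f j
      · have : (Finset.univ : Finset (Fin N × Fin N)).filter
            (fun p => p.1 < p.2 ∧ p.1 ∈ ({f i} : Finset (Fin N)) ∧
              p.2 ∈ ({f j} : Finset (Fin N))) = {(f i, f j)} := by
          ext ⟨c, c'⟩
          simp only [Finset.mem_filter, Finset.mem_univ, true_and, Finset.mem_singleton,
            Prod.mk.injEq]
          constructor
          · exact fun h => h.2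
          · rintro ⟨rfl, rfl⟩
            exact ⟨h, rfl, rfl⟩
        rw [this, Finset.card_singleton, if_pos h]
        simp
      · have : (Finset.univ : Finset (Fin N × Fin N)).filter
            (fun p => p.1 < p.2 ∧ p.1 ∈ ({f i} : Finset (Fin N)) ∧
              p.2 ∈ ({f j} : Finset (Fin N))) = ∅ := by
          rw [Finset.filter_eq_empty_iff]
          rintro ⟨c, c'⟩ _
          simp only [Finset.mem_singleton]
          rintro ⟨h1, rfl, rfl⟩
          exact h h1
        rw [this, Finset.card_empty, if_neg h]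
        simp
    rw [e1]
    simp

end general

section chrom

variable {n : ℕ}

/-- the form on the classes of the vertices. -/
def sgE (h : Fin n → ℕ) (i j : Fin n) : ℤ := if IsEdge h i j then (if i < j then 1 else -1) else 0

theorem isEdge_symm {h : Fin n → ℕ} {a b : Fin n} (hab : IsEdge h a b) : IsEdge h b a := by
  unfold IsEdge at hab ⊢
  exact hab.symm

theorem isEdge_irrefl {h : Fin n → ℕ} {a : Fin n} : ¬ IsEdge h a a := by
  unfold IsEdge
  rintro (h | h) <;> exact lt_irrefl _ h.1

theorem sum_sgE {N : ℕ} (h : Fin n → ℕ) (f : Fin n → Fin N)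
    (hf : ∀ a b : Fin n, IsEdge h a b → f a ≠ f b) :
    (∑ i, ∑ j, if f i < f j then sgE h i j else 0) =
      2 * (ascents h f : ℤ) - (Palin.ne h : ℤ) := by
  classical
  have h1 : (∑ i, ∑ j, if f i < f j then sgE h i j else 0) =
      ∑ p : Fin n × Fin n, (if p.1 < p.2 ∧ IsEdge h p.1 p.2 ∧ f p.1 < f p.2 then (1 : ℤ) else 0) -
      ∑ p : Fin n × Fin n, (if p.1 < p.2 ∧ IsEdge h p.1 p.2 ∧ f p.2 < f p.1 then (1 : ℤ) else 0) := by
    have h2 : ∑ p : Fin n × Fin n,
        (if p.1 < p.2 ∧ IsEdge h p.1 p.2 ∧ f p.2 < f p.1 then (1 : ℤ) else 0) =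
        ∑ p : Fin n × Fin n,
        (if p.2 < p.1 ∧ IsEdge h p.1 p.2 ∧ f p.1 < f p.2 then (1 : ℤ) else 0) := by
      apply Fintype.sum_equiv (Equiv.prodComm (Fin n) (Fin n))
      rintro ⟨a, b⟩
      simp only [Equiv.prodComm_apply, Prod.swap_prod_mk]
      have : IsEdge h a b ↔ IsEdge h b a := ⟨isEdge_symm, isEdge_symm⟩
      exact if_congr (and_congr_right fun _ => and_congr_left fun _ => this) rfl rfl
    rw [h2, ← Finset.sum_sub_distrib, ← Fintype.sum_prod_type'
      (f := fun i j => if f i < f j then sgE h i j else 0)]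
    apply Finset.sum_congr rfl
    rintro ⟨a, b⟩ _
    simp only [sgE]
    by_cases e : IsEdge h a b
    · rcases lt_trichotomy a b with hl | hl | hl
      · simp [e, hl, hl.not_gt]
      · exact absurd (hl ▸ e) isEdge_irrefl
      · simp [e, hl, hl.not_gt]
        split_ifs <;> simp
    · simp [e]
  rw [h1, ← Finset.sum_filter, ← Finset.sum_filter]
  simp only [Finset.sum_const, nsmul_eq_mul, mul_one]
  have h3 : ascents h f + ((Finset.univ : Finset (Fin n × Fin n)).filter
      (fun p => p.1 < p.2 ∧ IsEdge h p.1 p.2 ∧ f p.2 < f p.1)).card = Palin.ne h := by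
    unfold ascents Palin.ne
    rw [← Finset.card_union_of_disjoint]
    · congr 1
      ext p
      simp only [Finset.mem_union, Finset.mem_filter, Finset.mem_univ, true_and]
      constructor
      · rintro (h1 | h1)
        · exact ⟨h1.1, h1.2.1⟩
        · exact ⟨h1.1, h1.2.1⟩
      · rintro ⟨h1, h2⟩
        rcases lt_or_gt_of_ne (hf p.1 p.2 h2) with h3 | h3
        · exact Or.inl ⟨h1, h2, h3⟩
        · exact Or.inr ⟨h1, h2, h3⟩
    · rw [Finset.disjoint_left]
      intro p h1 h2
      rw [Finset.mem_filter] at h1 h2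
      exact lt_asymm h1.2.2.2 h2.2.2.2
  have h4 : ((Finset.univ : Finset (Fin n × Fin n)).filter
      (fun p => p.1 < p.2 ∧ IsEdge h p.1 p.2 ∧ f p.1 < f p.2)).card = ascents h f := rfl
  rw [h4]
  omega

variable {M : Type*} [AddCommMonoid M] [HasAntidiagonal M] {K : Type*} [CommRing K]

/-- `ℤ[q] → K`, `q ↦ v^{2b}`. -/
noncomputable def phi (v : Kˣ) (b : ℤ) : Polynomial ℤ →+* K :=
  Polynomial.eval₂RingHom (Int.castRingHom K) ((v ^ (2 * b) : Kˣ) : K)

theorem phi_X (v : Kˣ) (b : ℤ) : phi v b Polynomial.X = ((v ^ (2 * b) : Kˣ) : K) := by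
  simp [phi]

/-- **LINK**: the thin coefficient is the chromatic quasisymmetric function. -/
theorem thin_eq {N : ℕ} (h : Fin n → ℕ) (T : Tw M (MvPolynomial (Fin N) K)) (v : Kˣ)
    (hv : T.v = Units.map (MvPolynomial.C : K →+* MvPolynomial (Fin N) K).toMonoidHom v) (b : ℤ)
    (U : Fin n → M) (hU : Function.Injective (fun g : Fin n → ℕ => ∑ i, g i • U i))
    (hβ : ∀ i j, T.β (U i) (U j) = b * sgE h i j) (w : K) :
    (Fz T (IsEdge h) U (fun c => MvPolynomial.C w * MvPolynomial.X c)).co (∑ i, U i) =
      MvPolynomial.C (w ^ n * ((v ^ (-(b * Palin.ne h)) : Kˣ) : K)) *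
        MvPolynomial.map (phi v b) (chromaticQSym h N) := by
  classical
  rw [co_Fz_thin T (IsEdge h) U hU]
  unfold chromaticQSym
  rw [map_sum, Finset.mul_sum]
  apply Finset.sum_congr
  · ext f; simp
  intro f hf
  rw [Finset.mem_filter] at hf
  have e1 : (∑ i, ∑ j, if f i < f j then T.β (U i) (U j) else 0) =
      b * (2 * (ascents h f : ℤ) - (Palin.ne h : ℤ)) := by
    rw [← sum_sgE h f hf.2, Finset.mul_sum]
    apply Finset.sum_congr rfl
    intro i _
    rw [Finset.mul_sum]
    apply Finset.sum_congr rfl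
    intro j _
    rw [hβ]
    split_ifs <;> simp
  have e2 : ((T.v ^ (b * (2 * (ascents h f : ℤ) - (Palin.ne h : ℤ))) :
      (MvPolynomial (Fin N) K)ˣ) : MvPolynomial (Fin N) K) =
      MvPolynomial.C (((v ^ (-(b * Palin.ne h)) : Kˣ) : K) *
        ((v ^ (2 * b) : Kˣ) : K) ^ ascents h f) := by
    rw [hv, ← map_zpow]
    have : v ^ (b * (2 * (ascents h f : ℤ) - (Palin.ne h : ℤ))) =
        v ^ (-(b * Palin.ne h)) * (v ^ (2 * b)) ^ ascents h f := by
      rw [← zpow_natCast, ← zpow_mul, ← zpow_add]
      congr 1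
      ring
    rw [this, Units.coe_map, Units.val_mul, Units.val_pow_eq_pow_val]
    rfl
  rw [e1, e2]
  simp only [map_mul, map_prod, MvPolynomial.map_C, map_pow, phi_X, Finset.prod_mul_distrib,
    MvPolynomial.map_X, Finset.prod_const, Finset.card_univ, Fintype.card_fin]
  ring

/-- Step 1: the good classes give products of elementary symmetric polynomials. -/
theorem good_eq {N : ℕ} (h : Fin n → ℕ) (T : Tw M (MvPolynomial (Fin N) K))
    (b : ℤ) (U : Fin n → M) (hU : Function.Injective (fun g : Fin n → ℕ => ∑ i, g i • U i))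
    (hβ : ∀ i j, T.β (U i) (U j) = b * sgE h i j) (w : K) (g : Fin n → ℕ)
    (hg : ∀ a b, 0 < g a → 0 < g b → ¬ IsEdge h a b) :
    (Fz T (IsEdge h) U (fun c => MvPolynomial.C w * MvPolynomial.X c)).co (∑ i, g i • U i) =
      MvPolynomial.C (w ^ (∑ i, g i)) * ∏ i, MvPolynomial.esymm (Fin N) K (g i) := by
  classical
  rw [co_Fz_good T (IsEdge h) U hU _ g hg (by
    intro a b' ha hb
    rw [hβ, sgE, if_neg (hg a b' ha hb), mul_zero])]
  rw [← Finset.prod_pow_eq_pow_sum, map_prod, ← Finset.prod_mul_distrib]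
  apply Finset.prod_congr rfl
  intro i _
  unfold MvPolynomial.esymm
  rw [Finset.mul_sum]
  apply Finset.sum_congr rfl
  intro A hA
  rw [Finset.prod_mul_distrib, Finset.prod_const, (Finset.mem_powersetCard.1 hA).2, map_pow]

end chrom

end Crest.Agent.R059.Link157
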