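import Mathlib

/-!
# Row 59 (S0081), track T: monotonicity along straight lines, without reals and without times

`L` = lattice of exponents, `ZW` = subgroup of the classes, `C` = the nonzero classes of the cone,
`x : L →+ V` = functionals with values in an arbitrary linearly ordered group.

`mono`: if a property `S` of functionals depends only on the signs on a finite set `D ⊆ C` and may be
transported through every single wall (kernel of rank one, spanned by a class `c` of the cone) against
the direction `σ`, then it may be transported from `x + σ • τ` back to `x` (`τ > 0`, `x` injective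
on `ZW`).
-/

set_option autoImplicit false

namespace Crest.Agent.R059.Mono409

/-- lexicographic pair of functionals. -/
def lexF {L V V' : Type*} [AddCommGroup L] [AddCommGroup V] [AddCommGroup V']
    (x : L →+ V) (y : L →+ V') : L →+ Lex (V × V') where
  toFun e := toLex (x e, y e)
  map_zero' := by simp
  map_add' a b := by simp; rfl

theorem lexF_apply {L V V' : Type*} [AddCommGroup L] [AddCommGroup V] [AddCommGroup V']
    (x : L →+ V) (y : L →+ V') (e : L) : lexF x y e = toLex (x e, y e) := rfl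

/-- the functional `e ↦ σ(e) • τ`. -/
def smF {L V : Type*} [AddCommGroup L] [AddCommGroup V] (σ : L →+ ℤ) (τ : V) : L →+ V where
  toFun e := σ e • τ
  map_zero' := by simp
  map_add' a b := by simp [add_smul]

theorem smF_apply {L V : Type*} [AddCommGroup L] [AddCommGroup V] (σ : L →+ ℤ) (τ : V) (e : L) :
    smF σ τ e = σ e • τ := rfl

/-- same sign. -/
def SS {V V' : Type*} [Zero V] [LT V] [Zero V'] [LT V'] (a : V) (b : V') : Prop :=
  (0 < a ↔ 0 < b) ∧ (a < 0 ↔ b < 0)

theorem SS.symm {V V' : Type*} [Zero V] [LT V] [Zero V'] [LT V'] {a : V} {b : V'} (h : SS a b) :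
    SS b a := ⟨h.1.symm, h.2.symm⟩

theorem SS.trans {V V' V'' : Type*} [Zero V] [LT V] [Zero V'] [LT V'] [Zero V''] [LT V'']
    {a : V} {b : V'} {c : V''} (h : SS a b) (h' : SS b c) :
    SS a c := ⟨h.1.trans h'.1, h.2.trans h'.2⟩

theorem lex_pos {V V' : Type*} [AddCommGroup V] [LinearOrder V] [AddCommGroup V'] [LinearOrder V']
    (a : V) (b : V') : 0 < (toLex (a, b) : Lex (V × V')) ↔ 0 < a ∨ (a = 0 ∧ 0 < b) := by
  have : (0 : Lex (V × V')) = toLex (0, 0) := rfl
  rw [this, Prod.Lex.toLex_lt_toLex]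
  simp only [eq_comm]

theorem lex_neg {V V' : Type*} [AddCommGroup V] [LinearOrder V] [AddCommGroup V'] [LinearOrder V']
    (a : V) (b : V') : (toLex (a, b) : Lex (V × V')) < 0 ↔ a < 0 ∨ (a = 0 ∧ b < 0) := by
  have : (0 : Lex (V × V')) = toLex (0, 0) := rfl
  rw [this, Prod.Lex.toLex_lt_toLex]

theorem exists_min_rel {α : Type*} (s : Finset α) (hs : s.Nonempty) (r : α → α → Prop)
    (hrefl : ∀ a ∈ s, r a a)
    (tot : ∀ a ∈ s, ∀ b ∈ s, r a b ∨ r b a)
    (tr : ∀ a ∈ s, ∀ b ∈ s, ∀ c ∈ s, r a b → r b c → r a c) : ∃ c ∈ s, ∀ e ∈ s, r c e := by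
  classical
  induction hs using Finset.Nonempty.cons_induction with
  | singleton a => exact ⟨a, by simp, fun e he => by
      rw [Finset.mem_singleton] at he; subst he; exact hrefl _ (by simp)⟩
  | cons a t ha ht ih =>
    obtain ⟨c, hc, hmin⟩ := ih (fun b hb => hrefl b (by simp [hb]))
      (fun b hb d hd => tot b (by simp [hb]) d (by simp [hd]))
      (fun b hb d hd e he => tr b (by simp [hb]) d (by simp [hd]) e (by simp [he]))
    rcases tot a (by simp) c (by simp [hc]) with h | h
    · refine ⟨a, by simp, fun e he => ?_⟩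
      rw [Finset.mem_cons] at he
      rcases he with rfl | he
      · exact hrefl _ (by simp)
      · exact tr a (by simp) c (by simp [hc]) e (by simp [he]) h (hmin e he)
    · refine ⟨c, by simp [hc], fun e he => ?_⟩
      rw [Finset.mem_cons] at he
      rcases he with rfl | he
      · exact h
      · exact hmin e he

section mono

variable {L : Type} [AddCommGroup L]

/-- the crossing set. -/
noncomputable def cs (D : Finset L) {V : Type} [AddCommGroup V] [LinearOrder V]
    (x y : L →+ V) : Finset L := by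
  classical exact D.filter (fun e => (x e < 0 ∧ 0 < y e) ∨ (0 < x e ∧ y e < 0))

theorem mem_cs {D : Finset L} {V : Type} [AddCommGroup V] [LinearOrder V]
    {x y : L →+ V} {e : L} : e ∈ cs D x y ↔
      e ∈ D ∧ ((x e < 0 ∧ 0 < y e) ∨ (0 < x e ∧ y e < 0)) := by
  classical
  unfold cs
  rw [Finset.mem_filter]

/-- **Monotonicity along a straight line.** -/
theorem mono (ZW : AddSubgroup L) (C : L → Prop)
    (hC : ∀ e, C e → e ∈ ZW) (hC0 : ∀ e, C e → e ≠ 0)
    (hC2 : ∀ e c, C e → C c → ∀ a b : ℤ, a • e = b • c → 0 < a → 0 < b)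
    (σ : L →+ ℤ) (D : Finset L) (hD : ∀ e ∈ D, C e)
    (S : ∀ (V : Type) [AddCommGroup V] [LinearOrder V] [IsOrderedAddMonoid V], (L →+ V) → Prop)
    (sgn : ∀ (V : Type) [AddCommGroup V] [LinearOrder V] [IsOrderedAddMonoid V]
      (V' : Type) [AddCommGroup V'] [LinearOrder V'] [IsOrderedAddMonoid V']
      (x : L →+ V) (x' : L →+ V'), (∀ e ∈ D, SS (x e) (x' e)) → S V x → S V' x')
    (cross : ∀ (V : Type) [AddCommGroup V] [LinearOrder V] [IsOrderedAddMonoid V]
      (x : L →+ V) (c : L), C c → σ c ≠ 0 → x c = 0 →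
      (∀ e ∈ ZW, x e = 0 → σ c • e = σ e • c) →
      S (Lex (V × ℤ)) (lexF x σ) → S (Lex (V × ℤ)) (lexF x (-σ)))
    (V : Type) [AddCommGroup V] [LinearOrder V] [IsOrderedAddMonoid V]
    (x : L →+ V) (τ : V) (hτ : 0 < τ) (hx : ∀ e ∈ ZW, x e = 0 → e = 0)
    (hy : ∀ e ∈ D, (x + smF σ τ) e ≠ 0)
    (h : S V (x + smF σ τ)) : S V x := by
  classical
  -- induction on the number of crossings
  have key : ∀ N : ℕ, ∀ (V : Type) [AddCommGroup V] [LinearOrder V] [IsOrderedAddMonoid V]
      (x : L →+ V) (τ : V), 0 < τ → (∀ e ∈ ZW, x e = 0 → e = 0) →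
      (∀ e ∈ D, (x + smF σ τ) e ≠ 0) → (cs D x (x + smF σ τ)).card = N →
      S V (x + smF σ τ) → S V x := by
    intro N
    induction N using Nat.strong_induction_on with
    | _ N ih =>
    intro V _ _ _ x τ hτ hx hy hN h
    have hxD : ∀ e ∈ D, x e ≠ 0 := fun e he h0 => hC0 e (hD e he) (hx e (hC e (hD e he)) h0)
    by_cases hne : (cs D x (x + smF σ τ)).Nonempty
    swap
    · rw [Finset.not_nonempty_iff_eq_empty] at hne
      refine sgn V V _ _ (fun e he => ?_) h
      have h1 : e ∉ cs D x (x + smF σ τ) := by rw [hne]; simp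
      rw [mem_cs] at h1
      have h2 := hxD e he
      have h3 := hy e he
      rcases lt_or_gt_of_ne h2 with h4 | h4
      · rcases lt_or_gt_of_ne h3 with h5 | h5
        · exact ⟨⟨fun h6 => absurd h6 (lt_asymm h5), fun h6 => absurd h6 (lt_asymm h4)⟩,
            ⟨fun _ => h4, fun _ => h5⟩⟩
        · exact absurd ⟨he, Or.inl ⟨h4, h5⟩⟩ h1
      · rcases lt_or_gt_of_ne h3 with h5 | h5
        · exact absurd ⟨he, Or.inr ⟨h4, h5⟩⟩ h1
        · exact ⟨⟨fun _ => h4, fun _ => h5⟩,
            ⟨fun h6 => absurd h6 (lt_asymm h5), fun h6 => absurd h6 (lt_asymm h4)⟩⟩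
    -- the crossing with the minimal ratio
    have hyv : ∀ e, (x + smF σ τ) e = x e + σ e • τ := fun e => rfl
    have hsig : ∀ e ∈ cs D x (x + smF σ τ), (x e < 0 ∧ 0 < σ e) ∨ (0 < x e ∧ σ e < 0) := by
      intro e he
      rw [mem_cs, hyv] at he
      rcases he.2 with ⟨h1, h2⟩ | ⟨h1, h2⟩
      · left
        refine ⟨h1, ?_⟩
        by_contra hcon
        have h3 : σ e • τ ≤ 0 := smul_nonpos_of_nonpos_of_nonneg (not_lt.1 hcon) hτ.le
        exact absurd h2 (not_lt.2 (add_nonpos h1.le h3))
      · right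
        refine ⟨h1, ?_⟩
        by_contra hcon
        have h3 : 0 ≤ σ e • τ := smul_nonneg (not_lt.1 hcon) hτ.le
        exact absurd h2 (not_lt.2 (add_nonneg h1.le h3))
    obtain ⟨c, hc, hmin⟩ := exists_min_rel (cs D x (x + smF σ τ)) hne
      (fun e f => |σ f| • |x e| ≤ |σ e| • |x f|)
      (fun a _ => le_rfl) (fun a _ b _ => le_total _ _)
      (fun a ha b hb d hd h1 h2 => by
        have hb0 : 0 < |σ b| := by
          rcases hsig b hb with h | h
          · exact abs_pos.2 h.2.ne'
          · exact abs_pos.2 h.2.ne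
        rw [← zsmul_le_zsmul_iff_right hb0]
        calc |σ b| • |σ d| • |x a| = |σ d| • |σ b| • |x a| := by rw [smul_comm]
          _ ≤ |σ d| • |σ a| • |x b| := smul_le_smul_of_nonneg_left h1 (abs_nonneg _)
          _ = |σ a| • |σ d| • |x b| := by rw [smul_comm]
          _ ≤ |σ a| • |σ b| • |x d| := smul_le_smul_of_nonneg_left h2 (abs_nonneg _)
          _ = |σ b| • |σ a| • |x d| := by rw [smul_comm])
    have hcD : c ∈ D := (mem_cs.1 hc).1
    have hcs := hsig c hc
    have hσc : σ c ≠ 0 := by
      rcases hcs with h | h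
      · exact h.2.ne'
      · exact h.2.ne
    have hσa : 0 < |σ c| := abs_pos.2 hσc
    -- the joint
    let θ : L →+ V := (|σ c| • x) + smF σ |x c|
    have hθ : ∀ e, θ e = |σ c| • x e + σ e • |x c| := fun e => rfl
    have hθx : ∀ e, θ e = 0 → x (σ c • e - σ e • c) = 0 := by
      intro e he
      rw [hθ] at he
      rw [map_sub, map_zsmul, map_zsmul]
      rcases hcs with ⟨h1, h2⟩ | ⟨h1, h2⟩
      · rw [abs_of_pos h2, abs_of_neg h1, smul_neg, ← sub_eq_add_neg] at he
        exact he
      · rw [abs_of_neg h2, abs_of_pos h1, neg_smul] at he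
        rw [← neg_eq_zero, neg_sub, sub_eq_add_neg, add_comm]
        exact he
    have hcZ : c ∈ ZW := hC c (hD c hcD)
    have hF1 : ∀ e ∈ ZW, θ e = 0 → σ c • e = σ e • c := by
      intro e he h0
      have h1 := hx _ (sub_mem (ZW.zsmul_mem he _) (ZW.zsmul_mem hcZ _)) (hθx e h0)
      exact sub_eq_zero.1 h1
    have hθc : θ c = 0 := by
      rw [hθ]
      rcases hcs with ⟨h1, h2⟩ | ⟨h1, h2⟩
      · rw [abs_of_pos h2, abs_of_neg h1, smul_neg, add_neg_cancel]
      · rw [abs_of_neg h2, abs_of_pos h1, neg_smul, neg_add_cancel]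
    have hxc : |x c| < |σ c| • τ := by
      have h1 := (mem_cs.1 hc).2
      rw [hyv] at h1
      rcases hcs with ⟨h2, h3⟩ | ⟨h2, h3⟩
      · rcases h1 with ⟨_, h4⟩ | ⟨h4, _⟩
        · rw [abs_of_neg h2, abs_of_pos h3]
          exact neg_lt_iff_pos_add'.2 h4
        · exact absurd h4 (lt_asymm h2)
      · rcases h1 with ⟨h4, _⟩ | ⟨_, h4⟩
        · exact absurd h4 (lt_asymm h2)
        · rw [abs_of_pos h2, abs_of_neg h3, neg_smul]
          exact lt_neg_iff_add_neg.2 h4
    -- (F2)
    have hF2p : ∀ e ∈ D, 0 < x e → 0 ≤ θ e := by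
      intro e he hpos
      rw [hθ]
      rcases le_or_gt 0 (σ e) with h1 | h1
      · exact add_nonneg (smul_nonneg hσa.le hpos.le) (smul_nonneg h1 (abs_nonneg _))
      · by_cases hec : e ∈ cs D x (x + smF σ τ)
        · have h2 := hmin e hec
          rw [abs_of_neg h1, abs_of_pos hpos, neg_smul] at h2
          exact neg_le_iff_add_nonneg'.1 h2 |>.trans_eq (add_comm _ _)
        · have h3 : 0 < (x + smF σ τ) e := by
            rcases lt_or_gt_of_ne (hy e he) with h4 | h4
            · exact absurd (mem_cs.2 ⟨he, Or.inr ⟨hpos, h4⟩⟩) hec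
            · exact h4
          rw [hyv] at h3
          have h5 : (-σ e) • |x c| ≤ (-σ e) • (|σ c| • τ) :=
            smul_le_smul_of_nonneg_left hxc.le (by omega)
          have h6 : |σ c| • ((-σ e) • τ) ≤ |σ c| • x e := by
            refine smul_le_smul_of_nonneg_left ?_ hσa.le
            rw [neg_smul]
            exact (neg_lt_iff_pos_add.2 h3).le
          rw [smul_comm] at h5
          have h7 := h5.trans h6
          rw [neg_smul] at h7
          exact neg_le_iff_add_nonneg'.1 h7 |>.trans_eq (add_comm _ _)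
    have hF2n : ∀ e ∈ D, x e < 0 → θ e ≤ 0 := by
      intro e he hneg
      rw [hθ]
      rcases le_or_gt (σ e) 0 with h1 | h1
      · exact add_nonpos (smul_nonpos_of_nonneg_of_nonpos hσa.le hneg.le)
          (smul_nonpos_of_nonpos_of_nonneg h1 (abs_nonneg _))
      · by_cases hec : e ∈ cs D x (x + smF σ τ)
        · have h2 := hmin e hec
          rw [abs_of_pos h1, abs_of_neg hneg, smul_neg] at h2
          exact add_comm (|σ c| • x e) _ ▸ (le_neg_iff_add_nonpos_right.1 h2)
        · have h3 : (x + smF σ τ) e < 0 := by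
            rcases lt_or_gt_of_ne (hy e he) with h4 | h4
            · exact h4
            · exact absurd (mem_cs.2 ⟨he, Or.inl ⟨hneg, h4⟩⟩) hec
          rw [hyv] at h3
          have h5 : (σ e) • |x c| ≤ (σ e) • (|σ c| • τ) :=
            smul_le_smul_of_nonneg_left hxc.le h1.le
          have h6 : |σ c| • ((σ e) • τ) ≤ |σ c| • (- x e) := by
            refine smul_le_smul_of_nonneg_left ?_ hσa.le
            exact (lt_neg_iff_add_neg.2 (by rw [add_comm]; exact h3)).le
          rw [smul_comm] at h5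
          have h7 := h5.trans h6
          rw [smul_neg] at h7
          exact add_comm (|σ c| • x e) _ ▸ (le_neg_iff_add_nonpos_right.1 h7)
    -- (F3)
    have hpar : ∀ e ∈ D, θ e = 0 → (0 < σ c → 0 < σ e) ∧ (σ c < 0 → σ e < 0) := by
      intro e he h0
      have h1 := hF1 e (hC e (hD e he)) h0
      constructor
      · intro h2
        exact hC2 e c (hD e he) (hD c hcD) _ _ h1 h2
      · intro h2
        have h3 : (-σ c) • e = (-σ e) • c := by rw [neg_smul, neg_smul, h1]
        have := hC2 e c (hD e he) (hD c hcD) _ _ h3 (by omega)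
        omega
    have hF3p : ∀ e ∈ D, θ e = 0 → 0 < x e → σ e < 0 := by
      intro e he h0 hpos
      have h1 := hF1 e (hC e (hD e he)) h0
      have h2 := congrArg x h1
      rw [map_zsmul, map_zsmul] at h2
      rcases hcs with ⟨h3, h4⟩ | ⟨h3, h4⟩
      · exfalso
        have h5 := (hpar e he h0).1 h4
        have h6 : 0 < σ c • x e := smul_pos h4 hpos
        have h7 : σ e • x c < 0 := smul_neg_of_pos_of_neg h5 h3
        rw [h2] at h6
        exact absurd h6 (lt_asymm h7)
      · exact (hpar e he h0).2 h4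
    have hF3n : ∀ e ∈ D, θ e = 0 → x e < 0 → 0 < σ e := by
      intro e he h0 hneg
      have h1 := hF1 e (hC e (hD e he)) h0
      have h2 := congrArg x h1
      rw [map_zsmul, map_zsmul] at h2
      rcases hcs with ⟨h3, h4⟩ | ⟨h3, h4⟩
      · exact (hpar e he h0).1 h4
      · exfalso
        have h5 := (hpar e he h0).2 h4
        have h6 : 0 < σ c • x e := smul_pos_of_neg_of_neg h4 hneg
        have h7 : σ e • x c < 0 := smul_neg_of_neg_of_pos h5 h3
        rw [h2] at h6
        exact absurd h6 (lt_asymm h7)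
    -- step 1 : before the wall
    suffices hgoal : S (Lex (V × ℤ)) (lexF θ (-σ)) by
      refine sgn _ V _ _ (fun e he => ?_) hgoal
      have h0 := hxD e he
      rw [lexF_apply]
      rcases lt_or_gt_of_ne h0 with h1 | h1
      · have h2 : toLex (θ e, (-σ) e) < (0 : Lex (V × ℤ)) := by
          rw [lex_neg]
          rcases (hF2n e he h1).lt_or_eq with h3 | h3
          · exact Or.inl h3
          · refine Or.inr ⟨h3, ?_⟩
            have := hF3n e he h3 h1
            simpa using this
        exact ⟨⟨fun h => absurd h (lt_asymm h2), fun h => absurd h (lt_asymm h1)⟩,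
          ⟨fun _ => h1, fun _ => h2⟩⟩
      · have h2 : (0 : Lex (V × ℤ)) < toLex (θ e, (-σ) e) := by
          rw [lex_pos]
          rcases (hF2p e he h1).lt_or_eq with h3 | h3
          · exact Or.inl h3
          · refine Or.inr ⟨h3.symm, ?_⟩
            have := hF3p e he h3.symm h1
            simpa using this
        exact ⟨⟨fun _ => h1, fun _ => h2⟩,
          ⟨fun h => absurd h (lt_asymm h2), fun h => absurd h (lt_asymm h1)⟩⟩
    refine cross V θ c (hD c hcD) hσc hθc hF1 ?_
    -- step 2 : after the wall, induction hypothesis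
    let τ1 : Lex (V × ℤ) := toLex (|σ c| • τ - |x c|, -1)
    have hτ1 : 0 < τ1 := by
      rw [lex_pos]
      exact Or.inl (sub_pos.2 hxc)
    have hy1 : ∀ e, (lexF θ σ + smF σ τ1) e = toLex (|σ c| • (x + smF σ τ) e, 0) := by
      intro e
      show toLex (θ e, σ e) + σ e • toLex (|σ c| • τ - |x c|, (-1 : ℤ)) = _
      have : σ e • (toLex (|σ c| • τ - |x c|, (-1 : ℤ)) : Lex (V × ℤ)) =
          toLex (σ e • (|σ c| • τ - |x c|), σ e • (-1 : ℤ)) := rfl
      rw [this]
      have h2 : (toLex (θ e, σ e) : Lex (V × ℤ)) + toLex (σ e • (|σ c| • τ - |x c|), σ e • (-1 : ℤ)) =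
          toLex (θ e + σ e • (|σ c| • τ - |x c|), σ e + σ e • (-1 : ℤ)) := rfl
      rw [h2, hθ, hyv]
      congr 1
      refine Prod.ext ?_ ?_
      · show |σ c| • x e + σ e • |x c| + σ e • (|σ c| • τ - |x c|) = |σ c| • (x e + σ e • τ)
        rw [smul_sub, smul_add, smul_comm (σ e) (|σ c|) τ]
        abel
      · show σ e + σ e • (-1 : ℤ) = 0
        simp
    have hSSy : ∀ e, SS ((x + smF σ τ) e) ((lexF θ σ + smF σ τ1) e) := by
      intro e
      rw [hy1]
      constructor
      · rw [lex_pos]
        constructor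
        · intro h1; exact Or.inl (smul_pos hσa h1)
        · rintro (h1 | ⟨_, h1⟩)
          · exact (smul_pos_iff_of_pos_left hσa).1 h1
          · exact absurd h1 (lt_irrefl _)
      · rw [lex_neg]
        constructor
        · intro h1; exact Or.inl (smul_neg_of_pos_of_neg hσa h1)
        · rintro (h1 | ⟨_, h1⟩)
          · exact (smul_neg_iff_of_pos_left hσa).1 h1
          · exact absurd h1 (lt_irrefl _)
    have hne0 : ∀ e ∈ D, (lexF θ σ + smF σ τ1) e ≠ 0 := by
      intro e he h0
      have h1 := hSSy e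
      rcases lt_or_gt_of_ne (hy e he) with h2 | h2
      · exact absurd h0 (h1.2.1 h2).ne
      · exact absurd h0 (h1.1.1 h2).ne'
    have hinj : ∀ e ∈ ZW, lexF θ σ e = 0 → e = 0 := by
      intro e he h0
      have h1 : (θ e, σ e) = (0, 0) := h0
      have h2 : θ e = 0 := congrArg Prod.fst h1
      have h3 : σ e = 0 := congrArg Prod.snd h1
      have h4 := hF1 e he h2
      rw [h3, zero_smul] at h4
      have h5 := congrArg x h4
      rw [map_zsmul, map_zero] at h5
      refine hx e he ?_
      rcases lt_trichotomy (x e) 0 with h6 | h6 | h6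
      · exfalso
        have := zsmul_pos (neg_pos.2 h6) hσa
        rcases abs_choice (σ c) with h7 | h7 <;> rw [h7] at this <;> simp [h5] at this
      · exact h6
      · exfalso
        have := zsmul_pos h6 hσa
        rcases abs_choice (σ c) with h7 | h7 <;> rw [h7] at this <;> simp [h5] at this
    have hsub : cs D (lexF θ σ) (lexF θ σ + smF σ τ1) ⊆ (cs D x (x + smF σ τ)).erase c := by
      intro e he
      rw [mem_cs] at he
      obtain ⟨heD, he2⟩ := he
      rw [Finset.mem_erase]
      have hs := hSSy e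
      -- `θ e ≠ 0`
      have hlin : θ e = 0 → σ c • (x + smF σ τ) e = σ e • (x + smF σ τ) c := by
        intro h0
        have := congrArg (x + smF σ τ) (hF1 e (hC e (hD e heD)) h0)
        rwa [map_zsmul, map_zsmul] at this
      have hyc := (mem_cs.1 hc).2
      have hθe : θ e ≠ 0 := by
        intro h0
        have h1 := hlin h0
        have h2 := hpar e heD h0
        rw [lexF_apply, lex_neg, lex_pos] at he2
        rcases he2 with ⟨h3 | ⟨_, h3⟩, h4⟩ | ⟨h3 | ⟨_, h3⟩, h4⟩
        · exact absurd h0 h3.ne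
        · have h5 : 0 < (x + smF σ τ) e := hs.1.2 h4
          rcases hcs with ⟨h6, h7⟩ | ⟨h6, h7⟩
          · exact absurd (h2.1 h7) (lt_asymm h3)
          · rcases hyc with ⟨h8, _⟩ | ⟨_, h8⟩
            · exact absurd h8 (lt_asymm h6)
            · have h9 : 0 < σ e • (x + smF σ τ) c := smul_pos_of_neg_of_neg h3 h8
              have h10 : σ c • (x + smF σ τ) e < 0 := smul_neg_of_neg_of_pos h7 h5
              rw [h1] at h10
              exact absurd h9 (lt_asymm h10)
        · exact absurd h0 h3.ne'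
        · have h5 : (x + smF σ τ) e < 0 := hs.2.2 h4
          rcases hcs with ⟨h6, h7⟩ | ⟨h6, h7⟩
          · rcases hyc with ⟨_, h8⟩ | ⟨h8, _⟩
            · have h9 : 0 < σ e • (x + smF σ τ) c := smul_pos h3 h8
              have h10 : σ c • (x + smF σ τ) e < 0 := smul_neg_of_pos_of_neg h7 h5
              rw [h1] at h10
              exact absurd h9 (lt_asymm h10)
            · exact absurd h8 (lt_asymm h6)
          · exact absurd (h2.2 h7) (lt_asymm h3)
      refine ⟨fun hec => hθe (hec ▸ hθc), ?_⟩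
      rw [mem_cs]
      refine ⟨heD, ?_⟩
      rw [lexF_apply, lex_neg, lex_pos] at he2
      rcases he2 with ⟨h3 | ⟨h3, _⟩, h4⟩ | ⟨h3 | ⟨h3, _⟩, h4⟩
      · refine Or.inl ⟨?_, hs.1.2 h4⟩
        rcases lt_or_gt_of_ne (hxD e heD) with h5 | h5
        · exact h5
        · exact absurd h3 (not_lt.2 (hF2p e heD h5))
      · exact absurd h3 hθe
      · refine Or.inr ⟨?_, hs.2.2 h4⟩
        rcases lt_or_gt_of_ne (hxD e heD) with h5 | h5
        · exact absurd h3 (not_lt.2 (hF2n e heD h5))
        · exact h5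
      · exact absurd h3 hθe
    have hcard : (cs D (lexF θ σ) (lexF θ σ + smF σ τ1)).card < N := by
      rw [← hN]
      exact lt_of_le_of_lt (Finset.card_le_card hsub) (Finset.card_erase_lt_of_mem hc)
    exact ih _ hcard (Lex (V × ℤ)) (lexF θ σ) τ1 hτ1 hinj hne0 rfl
      (sgn V (Lex (V × ℤ)) _ _ (fun e _ => hSSy e) h)
  exact key _ V x τ hτ hx hy rfl h

end mono

end Crest.Agent.R059.Mono409
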