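import Crest.Agent.R059.TPS_883

set_option autoImplicit false
set_option linter.unusedSectionVars false
set_option linter.unusedSimpArgs false

/-!
Row 59 (S0081), leaf MUT, part 1: string calculus for left and right multiplication by a series
in `Y_{e_k}` (helper633).
-/

namespace Crest.Agent.R059.Mu

open Finset TPS

variable {ι : Type*} [DecidableEq ι] {R : Type*} [CommRing R] {T : Tw (ι →₀ ℕ) R}

/-- the series `Σ_a p_a Y_{a e_k}`. -/
noncomputable def evk (T : Tw (ι →₀ ℕ) R) (k : ι) (p : PowerSeries R) : TPS T := by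
  classical exact ⟨fun d => if d = Finsupp.single k (d k) then PowerSeries.coeff (d k) p else 0⟩

theorem evk_single (k : ι) (p : PowerSeries R) (a : ℕ) :
    (evk T k p).co (Finsupp.single k a) = PowerSeries.coeff a p := by
  classical
  unfold evk
  simp

theorem evk_ne {k : ι} {p : PowerSeries R} {d : ι →₀ ℕ} (h : d ≠ Finsupp.single k (d k)) :
    (evk T k p).co d = 0 := by
  classical
  unfold evk
  simp [h]

/-- the string of `f` through `m`, normalised so that left multiplication by `Y_{e_k}` is
multiplication by `X`. -/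
noncomputable def str (T : Tw (ι →₀ ℕ) R) (k : ι) (m : ι →₀ ℕ) (f : TPS T) : PowerSeries R :=
  PowerSeries.mk fun a =>
    ((T.v ^ ((a : ℤ) * T.β m (Finsupp.single k 1)) : Rˣ) : R) * f.co (m + Finsupp.single k a)

theorem coeff_str (k : ι) (m : ι →₀ ℕ) (f : TPS T) (a : ℕ) :
    PowerSeries.coeff a (str T k m f) =
      ((T.v ^ ((a : ℤ) * T.β m (Finsupp.single k 1)) : Rˣ) : R) * f.co (m + Finsupp.single k a) := by
  rw [str, PowerSeries.coeff_mk]

theorem str_co (k : ι) (m : ι →₀ ℕ) (f : TPS T) (a : ℕ) :
    f.co (m + Finsupp.single k a) =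
      ((T.v ^ (-((a : ℤ) * T.β m (Finsupp.single k 1))) : Rˣ) : R) *
        PowerSeries.coeff a (str T k m f) := by
  rw [coeff_str, ← mul_assoc, ← Units.val_mul, ← zpow_add]
  simp

theorem single_nsmul (k : ι) (a : ℕ) :
    (Finsupp.single k a : ι →₀ ℕ) = a • Finsupp.single k 1 := by
  rw [Finsupp.smul_single, smul_eq_mul, mul_one]

theorem β_single_left (k : ι) (a : ℕ) (m : ι →₀ ℕ) :
    T.β (Finsupp.single k a) m = a * T.β (Finsupp.single k 1) m := by
  rw [single_nsmul, map_nsmul]
  simp

theorem β_single_right (k : ι) (a : ℕ) (m : ι →₀ ℕ) :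
    T.β m (Finsupp.single k a) = a * T.β m (Finsupp.single k 1) := by
  rw [single_nsmul, map_nsmul]
  simp

theorem β_self (hs : ∀ a b, T.β a b = - T.β b a) (a : ι →₀ ℕ) : T.β a a = 0 := by
  have := hs a a
  omega

/-- coefficient of a product with a series supported on `ℕ e_k` on the left. -/
theorem co_evk_mul (hs : ∀ a b, T.β a b = - T.β b a) (k : ι) (p : PowerSeries R) (f : TPS T)
    {m : ι →₀ ℕ} (hm : m k = 0) (a : ℕ) :
    (evk T k p * f).co (m + Finsupp.single k a) =
      ∑ ij ∈ Finset.HasAntidiagonal.antidiagonal a,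
        ((T.v ^ (-((ij.1 : ℤ) * T.β m (Finsupp.single k 1))) : Rˣ) : R) *
          (PowerSeries.coeff ij.1 p * f.co (m + Finsupp.single k ij.2)) := by
  classical
  rw [co_mul]
  symm
  apply Finset.sum_of_injOn (fun ij : ℕ × ℕ =>
    ((Finsupp.single k ij.1 : ι →₀ ℕ), m + Finsupp.single k ij.2))
  · rintro ⟨i, j⟩ _ ⟨i', j'⟩ _ h
    simp only [Prod.mk.injEq] at h
    obtain ⟨h1, h2⟩ := h
    have h1' := Finsupp.single_injective k h1
    have h2' := Finsupp.single_injective k (add_left_cancel h2)
    rw [h1', h2']
  · rintro ⟨i, j⟩ h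
    simp only [Finset.mem_coe, Finset.HasAntidiagonal.mem_antidiagonal] at h ⊢
    rw [← h, Finsupp.single_add]
    abel
  · rintro ⟨x, y⟩ hxy hne
    rw [Finset.HasAntidiagonal.mem_antidiagonal] at hxy
    by_cases hx : x = Finsupp.single k (x k)
    · exfalso
      apply hne
      have hy : y = m + Finsupp.single k (y k) := by
        have hxy' : ∀ j, x j + y j = m j + (Finsupp.single k a : ι →₀ ℕ) j := by
          intro j
          rw [← Finsupp.add_apply, ← Finsupp.add_apply]
          exact DFunLike.congr_fun hxy j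
        ext j
        by_cases hj : j = k
        · subst hj; simp [hm]
        · have h1 := hxy' j
          have h2 : x j = 0 := by
            rw [hx]; simp [Ne.symm hj]
          simp only [Finsupp.add_apply]
          rw [Finsupp.single_eq_of_ne hj] at h1 ⊢
          omega
      refine ⟨(x k, y k), ?_, ?_⟩
      · simp only [Finset.mem_coe, Finset.HasAntidiagonal.mem_antidiagonal]
        have h1 := DFunLike.congr_fun hxy k
        simp only [Finsupp.add_apply, hm, Finsupp.single_eq_same, zero_add] at h1
        exact h1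
      · simp only
        rw [← hx, ← hy]
    · rw [evk_ne hx]; simp
  · rintro ⟨i, j⟩ _
    simp only
    have e1 : T.β (Finsupp.single k i) (m + Finsupp.single k j) =
        -((i : ℤ) * T.β m (Finsupp.single k 1)) := by
      rw [map_add, β_single_left k i m, β_single_left k i (Finsupp.single k j),
        β_single_right k j (Finsupp.single k 1), β_self hs, hs (Finsupp.single k 1) m]
      ring
    rw [evk_single, wt, e1]

/-- coefficient of a product with a series supported on `ℕ e_k` on the right. -/
theorem co_mul_evk (hs : ∀ a b, T.β a b = - T.β b a) (k : ι) (p : PowerSeries R) (f : TPS T)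
    {m : ι →₀ ℕ} (hm : m k = 0) (a : ℕ) :
    (f * evk T k p).co (m + Finsupp.single k a) =
      ∑ ij ∈ Finset.HasAntidiagonal.antidiagonal a,
        ((T.v ^ ((ij.1 : ℤ) * T.β m (Finsupp.single k 1)) : Rˣ) : R) *
          (PowerSeries.coeff ij.1 p * f.co (m + Finsupp.single k ij.2)) := by
  classical
  rw [co_mul]
  symm
  apply Finset.sum_of_injOn (fun ij : ℕ × ℕ =>
    (m + Finsupp.single k ij.2, (Finsupp.single k ij.1 : ι →₀ ℕ)))
  · rintro ⟨i, j⟩ _ ⟨i', j'⟩ _ h
    simp only [Prod.mk.injEq] at h
    obtain ⟨h2, h1⟩ := h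
    have h1' := Finsupp.single_injective k h1
    have h2' := Finsupp.single_injective k (add_left_cancel h2)
    rw [h1', h2']
  · rintro ⟨i, j⟩ h
    simp only [Finset.mem_coe, Finset.HasAntidiagonal.mem_antidiagonal] at h ⊢
    rw [← h, Finsupp.single_add]
    abel
  · rintro ⟨y, x⟩ hxy hne
    rw [Finset.HasAntidiagonal.mem_antidiagonal] at hxy
    by_cases hx : x = Finsupp.single k (x k)
    · exfalso
      apply hne
      have hy : y = m + Finsupp.single k (y k) := by
        have hxy' : ∀ j, y j + x j = m j + (Finsupp.single k a : ι →₀ ℕ) j := by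
          intro j
          rw [← Finsupp.add_apply, ← Finsupp.add_apply]
          exact DFunLike.congr_fun hxy j
        ext j
        by_cases hj : j = k
        · subst hj; simp [hm]
        · have h1 := hxy' j
          have h2 : x j = 0 := by
            rw [hx]; simp [Ne.symm hj]
          simp only [Finsupp.add_apply]
          rw [Finsupp.single_eq_of_ne hj] at h1 ⊢
          omega
      refine ⟨(x k, y k), ?_, ?_⟩
      · simp only [Finset.mem_coe, Finset.HasAntidiagonal.mem_antidiagonal]
        have h1 := DFunLike.congr_fun hxy k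
        simp only [Finsupp.add_apply, hm, Finsupp.single_eq_same, zero_add] at h1
        omega
      · simp only
        rw [← hx, ← hy]
    · rw [evk_ne hx]; simp
  · rintro ⟨i, j⟩ _
    simp only
    have e1 : T.β (m + Finsupp.single k j) (Finsupp.single k i) =
        (i : ℤ) * T.β m (Finsupp.single k 1) := by
      rw [map_add, AddMonoidHom.add_apply, β_single_right k i m,
        β_single_left k j (Finsupp.single k i),
        β_single_right k i (Finsupp.single k 1), β_self hs]
      ring
    rw [evk_single, mul_comm (PowerSeries.coeff i p), wt, e1]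

theorem str_evk_mul (hs : ∀ a b, T.β a b = - T.β b a) (k : ι) (p : PowerSeries R) (f : TPS T)
    {m : ι →₀ ℕ} (hm : m k = 0) : str T k m (evk T k p * f) = p * str T k m f := by
  ext a
  rw [coeff_str, co_evk_mul hs k p f hm, PowerSeries.coeff_mul, Finset.mul_sum]
  apply Finset.sum_congr rfl
  rintro ⟨i, j⟩ hij
  rw [Finset.HasAntidiagonal.mem_antidiagonal] at hij
  simp only at hij ⊢
  rw [coeff_str, ← mul_assoc, ← Units.val_mul, ← zpow_add]
  have : (a : ℤ) * T.β m (Finsupp.single k 1) + -(↑i * T.β m (Finsupp.single k 1)) =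
      j * T.β m (Finsupp.single k 1) := by
    rw [← hij]; push_cast; ring
  rw [this]
  ring

theorem str_mul_evk (hs : ∀ a b, T.β a b = - T.β b a) (k : ι) (p : PowerSeries R) (f : TPS T)
    {m : ι →₀ ℕ} (hm : m k = 0) :
    str T k m (f * evk T k p) =
      PowerSeries.rescale ((T.v ^ (2 * T.β m (Finsupp.single k 1)) : Rˣ) : R) p * str T k m f := by
  ext a
  rw [coeff_str, co_mul_evk hs k p f hm, PowerSeries.coeff_mul, Finset.mul_sum]
  apply Finset.sum_congr rfl
  rintro ⟨i, j⟩ hij
  rw [Finset.HasAntidiagonal.mem_antidiagonal] at hij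
  simp only at hij ⊢
  rw [coeff_str, PowerSeries.coeff_rescale, ← mul_assoc, ← Units.val_mul, ← zpow_add,
    ← Units.val_pow_eq_pow_val, ← zpow_natCast, ← zpow_mul]
  have : (a : ℤ) * T.β m (Finsupp.single k 1) + (↑i * T.β m (Finsupp.single k 1)) =
      2 * T.β m (Finsupp.single k 1) * i + j * T.β m (Finsupp.single k 1) := by
    rw [← hij]; push_cast; ring
  rw [this, zpow_add, Units.val_mul]
  ring

theorem str_one_zero (k : ι) : str T k 0 (1 : TPS T) = 1 := by
  classical
  ext a
  rw [coeff_str, zero_add, PowerSeries.coeff_one]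
  by_cases ha : a = 0
  · subst ha; simp
  · rw [if_neg ha, co_one_ne (by simpa using ha), mul_zero]

end Crest.Agent.R059.Mu
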