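import Mathlib

set_option autoImplicit false
set_option linter.unusedSimpArgs false

/-!
Row 59 (S0081), leaf MUT, part 1b: the `q`-difference equation of the dilogarithm and reflection
of polynomial strings (helper633).  `q = v⁻²`, `p(X) = P(v⁻¹ X)`, `p(v⁻² X) = (1 + v⁻¹ X) p(X)`.
-/

namespace Crest.Agent.R059.Mu

open Finset Polynomial

variable {R : Type*} [CommRing R]

/-- `∏_{i<n} (1 + v^{2i+1} X)`. -/
noncomputable def cpl (v : Rˣ) (n : ℕ) : R[X] :=
  ∏ i ∈ range n, (1 + C ((v ^ (2 * (i : ℤ) + 1) : Rˣ) : R) * X)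

/-- `∏_{i<n} (1 + v^{-2i-1} X)`. -/
noncomputable def cmi (v : Rˣ) (n : ℕ) : R[X] :=
  ∏ i ∈ range n, (1 + C ((v ^ (-(2 * (i : ℤ)) - 1) : Rˣ) : R) * X)

theorem natDegree_lin (c : R) : (1 + C c * X : R[X]).natDegree ≤ 1 := by
  rw [add_comm, ← C_1]
  exact natDegree_linear_le

theorem cpl_succ (v : Rˣ) (n : ℕ) :
    cpl v (n + 1) = cpl v n * (1 + C ((v ^ (2 * (n : ℤ) + 1) : Rˣ) : R) * X) := by
  rw [cpl, Finset.prod_range_succ]; rfl

theorem cmi_succ (v : Rˣ) (n : ℕ) :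
    cmi v (n + 1) = cmi v n * (1 + C ((v ^ (-(2 * (n : ℤ)) - 1) : Rˣ) : R) * X) := by
  rw [cmi, Finset.prod_range_succ]; rfl

theorem cpl_zero (v : Rˣ) : cpl v 0 = 1 := by simp [cpl]
theorem cmi_zero (v : Rˣ) : cmi v 0 = 1 := by simp [cmi]

theorem natDegree_cpl (v : Rˣ) (n : ℕ) : (cpl v n).natDegree ≤ n := by
  induction n with
  | zero => simp [cpl_zero]
  | succ n ih =>
    rw [cpl_succ]
    exact natDegree_mul_le.trans (add_le_add ih (natDegree_lin _))

theorem natDegree_cmi (v : Rˣ) (n : ℕ) : (cmi v n).natDegree ≤ n := by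
  induction n with
  | zero => simp [cmi_zero]
  | succ n ih =>
    rw [cmi_succ]
    exact natDegree_mul_le.trans (add_le_add ih (natDegree_lin _))

theorem reflect_lin (v : Rˣ) (z : ℤ) :
    reflect 1 (1 + C ((v ^ z : Rˣ) : R) * X) =
      C ((v ^ z : Rˣ) : R) * (1 + C ((v ^ (-z) : Rˣ) : R) * X) := by
  ext j
  rw [coeff_reflect]
  rcases j with _ | _ | j
  · have h2 : revAt 1 0 = 1 := by rw [revAt_le (by omega)]
    rw [h2]
    simp [coeff_one]
  · have h2 : revAt 1 (0 + 1) = 0 := by rw [revAt_le (by omega)]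
    rw [h2]
    have h3 : ((v ^ z : Rˣ) : R) * ((v ^ (-z) : Rˣ) : R) = 1 := by
      rw [← Units.val_mul, ← zpow_add]; simp
    simp only [coeff_C_mul, coeff_add, coeff_one, coeff_X]
    simp [h3]
  · have h2 : revAt 1 (j + 1 + 1) = j + 1 + 1 := by
      rw [revAt_eq_self_of_lt]; omega
    rw [h2]
    simp [coeff_one, coeff_X]

theorem reflect_cpl (v : Rˣ) (n : ℕ) :
    reflect n (cpl v n) = C ((v ^ ((n : ℤ) * n) : Rˣ) : R) * cmi v n := by
  induction n with
  | zero => simp [cpl_zero, cmi_zero, reflect_one]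
  | succ n ih =>
    rw [cpl_succ, reflect_mul _ _ (natDegree_cpl v n) (natDegree_lin _), ih, reflect_lin, cmi_succ]
    have h1 : -(2 * (n : ℤ) + 1) = -(2 * (n : ℤ)) - 1 := by ring
    have h2 : ((v ^ (((n + 1 : ℕ) : ℤ) * ((n + 1 : ℕ) : ℤ)) : Rˣ) : R) =
        ((v ^ ((n : ℤ) * n) : Rˣ) : R) * ((v ^ (2 * (n : ℤ) + 1) : Rˣ) : R) := by
      rw [← Units.val_mul, ← zpow_add]
      congr 2
      push_cast
      ring
    rw [h1, h2, C_mul]
    generalize C ((v ^ ((n : ℤ) * n) : Rˣ) : R) = a1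
    generalize C ((v ^ (2 * (n : ℤ) + 1) : Rˣ) : R) = a2
    generalize C ((v ^ (-(2 * (n : ℤ)) - 1) : Rˣ) : R) = a3
    ring

theorem reflect_cmi (v : Rˣ) (n : ℕ) :
    reflect n (cmi v n) = C ((v ^ (-((n : ℤ) * n)) : Rˣ) : R) * cpl v n := by
  induction n with
  | zero => simp [cpl_zero, cmi_zero, reflect_one]
  | succ n ih =>
    rw [cmi_succ, reflect_mul _ _ (natDegree_cmi v n) (natDegree_lin _), ih, reflect_lin, cpl_succ]
    have h1 : -(-(2 * (n : ℤ)) - 1) = 2 * (n : ℤ) + 1 := by ring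
    have h2 : ((v ^ (-(((n + 1 : ℕ) : ℤ) * ((n + 1 : ℕ) : ℤ))) : Rˣ) : R) =
        ((v ^ (-((n : ℤ) * n)) : Rˣ) : R) * ((v ^ (-(2 * (n : ℤ)) - 1) : Rˣ) : R) := by
      rw [← Units.val_mul, ← zpow_add]
      congr 2
      push_cast
      ring
    rw [h1, h2, C_mul]
    generalize C ((v ^ (-((n : ℤ) * n)) : Rˣ) : R) = a1
    generalize C ((v ^ (2 * (n : ℤ) + 1) : Rˣ) : R) = a2
    generalize C ((v ^ (-(2 * (n : ℤ)) - 1) : Rˣ) : R) = a3
    ring

/-! ### the difference equation -/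

theorem rescale_C (a c : R) : PowerSeries.rescale a (PowerSeries.C c) = PowerSeries.C c := by
  ext n
  rw [PowerSeries.coeff_rescale, PowerSeries.coeff_C]
  split_ifs with h
  · subst h; simp
  · simp

theorem rescale_X' (a : R) :
    PowerSeries.rescale a (PowerSeries.X : PowerSeries R) = PowerSeries.C a * PowerSeries.X := by
  ext n
  rw [PowerSeries.coeff_rescale, PowerSeries.coeff_C_mul, PowerSeries.coeff_X]
  split_ifs with h
  · subst h; simp
  · simp

/-- the equation `p(v⁻² X) = (1 + v⁻¹ X) p(X)`. -/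
def QD (v : Rˣ) (p : PowerSeries R) : Prop :=
  PowerSeries.rescale ((v ^ (-2 : ℤ) : Rˣ) : R) p =
    (1 + PowerSeries.C ((v ^ (-1 : ℤ) : Rˣ) : R) * PowerSeries.X) * p

theorem rescale_zpow_rescale (v : Rˣ) (a b : ℤ) (p : PowerSeries R) :
    PowerSeries.rescale ((v ^ a : Rˣ) : R) (PowerSeries.rescale ((v ^ b : Rˣ) : R) p) =
      PowerSeries.rescale ((v ^ (a + b) : Rˣ) : R) p := by
  rw [PowerSeries.rescale_rescale, ← Units.val_mul, ← zpow_add, add_comm b a]

theorem rescale_lin (v : Rˣ) (a z : ℤ) :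
    PowerSeries.rescale ((v ^ a : Rˣ) : R)
      (1 + PowerSeries.C ((v ^ z : Rˣ) : R) * PowerSeries.X) =
      1 + PowerSeries.C ((v ^ (z + a) : Rˣ) : R) * PowerSeries.X := by
  rw [map_add, map_one, map_mul, rescale_C, rescale_X', zpow_add, Units.val_mul, map_mul]
  ring

theorem coe_lin (c : R) :
    ((1 + C c * X : R[X]) : PowerSeries R) = 1 + PowerSeries.C c * PowerSeries.X := by
  simp

theorem qd_pos {v : Rˣ} {p : PowerSeries R} (hp : QD v p) (n : ℕ) :
    p = (cpl v n : R[X]) * PowerSeries.rescale ((v ^ (2 * (n : ℤ)) : Rˣ) : R) p := by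
  induction n with
  | zero => simp [cpl_zero]
  | succ n ih =>
    have h1 := congrArg (PowerSeries.rescale ((v ^ (2 * (n : ℤ) + 2) : Rˣ) : R)) hp
    rw [rescale_zpow_rescale, map_mul, rescale_lin] at h1
    have e1 : 2 * (n : ℤ) + 2 + -2 = 2 * n := by ring
    have e2 : (-1 : ℤ) + (2 * (n : ℤ) + 2) = 2 * n + 1 := by ring
    have e3 : 2 * ((n + 1 : ℕ) : ℤ) = 2 * (n : ℤ) + 2 := by push_cast; ring
    rw [e1, e2] at h1
    rw [h1] at ih
    rw [cpl_succ, e3, Polynomial.coe_mul, coe_lin, mul_assoc]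
    exact ih

theorem qd_neg {v : Rˣ} {p : PowerSeries R} (hp : QD v p) (n : ℕ) :
    PowerSeries.rescale ((v ^ (-(2 * (n : ℤ))) : Rˣ) : R) p = (cmi v n : R[X]) * p := by
  induction n with
  | zero => simp [cmi_zero]
  | succ n ih =>
    have h1 := congrArg (PowerSeries.rescale ((v ^ (-(2 * (n : ℤ))) : Rˣ) : R)) hp
    rw [rescale_zpow_rescale, map_mul, rescale_lin, ih] at h1
    have e1 : -(2 * (n : ℤ)) + -2 = -(2 * ((n + 1 : ℕ) : ℤ)) := by push_cast; ring
    have e2 : (-1 : ℤ) + -(2 * (n : ℤ)) = -(2 * n) - 1 := by ring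
    rw [e1, e2] at h1
    rw [h1, cmi_succ, Polynomial.coe_mul, coe_lin]
    ring

theorem isUnit_rescale {p : PowerSeries R} (h1 : PowerSeries.constantCoeff p = 1) (a : R) :
    IsUnit (PowerSeries.rescale a p) := by
  rw [PowerSeries.isUnit_iff_constantCoeff, ← PowerSeries.coeff_zero_eq_constantCoeff_apply,
    PowerSeries.coeff_rescale]
  simp [h1]

theorem isUnit_of_one {p : PowerSeries R} (h1 : PowerSeries.constantCoeff p = 1) : IsUnit p := by
  rw [PowerSeries.isUnit_iff_constantCoeff, h1]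
  exact isUnit_one

/-- `K = n ≥ 0`: `S' = cpl n * S`. -/
theorem str_rel_pos {v : Rˣ} {p : PowerSeries R} (hp : QD v p)
    (h1 : PowerSeries.constantCoeff p = 1) {n : ℕ} {S S' : PowerSeries R}
    (h : p * S = PowerSeries.rescale ((v ^ (2 * (n : ℤ)) : Rˣ) : R) p * S') :
    S' = (cpl v n : R[X]) * S := by
  have hu := isUnit_rescale h1 ((v ^ (2 * (n : ℤ)) : Rˣ) : R)
  apply hu.mul_left_cancel
  rw [← h]
  conv_lhs => rw [qd_pos hp n]
  ring

/-- `K = -n ≤ 0`: `S = cmi n * S'`. -/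
theorem str_rel_neg {v : Rˣ} {p : PowerSeries R} (hp : QD v p)
    (h1 : PowerSeries.constantCoeff p = 1) {n : ℕ} {S S' : PowerSeries R}
    (h : p * S = PowerSeries.rescale ((v ^ (2 * (-(n : ℤ))) : Rˣ) : R) p * S') :
    S = (cmi v n : R[X]) * S' := by
  have hu := isUnit_of_one h1
  apply hu.mul_left_cancel
  have e : 2 * (-(n : ℤ)) = -(2 * (n : ℤ)) := by ring
  rw [h, e, qd_neg hp n]
  ring

theorem coeff_mul_zero_of_bound {f : R[X]} {n : ℕ} (hf : f.natDegree ≤ n) {S : PowerSeries R}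
    {M : ℕ} (hS : ∀ a, M < a → PowerSeries.coeff a S = 0) (a : ℕ) (ha : M + n < a) :
    PowerSeries.coeff a ((f : PowerSeries R) * S) = 0 := by
  rw [PowerSeries.coeff_mul]
  apply Finset.sum_eq_zero
  rintro ⟨i, j⟩ hij
  rw [Finset.HasAntidiagonal.mem_antidiagonal] at hij
  simp only at hij ⊢
  by_cases hi : n < i
  · rw [Polynomial.coeff_coe, Polynomial.coeff_eq_zero_of_natDegree_lt (lt_of_le_of_lt hf hi),
      zero_mul]
  · rw [hS j (by omega), mul_zero]

/-! ### reflection -/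

theorem eq_coe_of_bound {S : PowerSeries R} {M : ℕ}
    (hS : ∀ a, M < a → PowerSeries.coeff a S = 0) :
    ((PowerSeries.trunc (M + 1) S : R[X]) : PowerSeries R) = S := by
  ext a
  rw [Polynomial.coeff_coe, PowerSeries.coeff_trunc]
  split_ifs with h
  · rfl
  · exact (hS a (by omega)).symm

/-- the reflected string: `S̃_b = v^{-MK} S_{M-b}` for `b ≤ M`. -/
noncomputable def refl (v : Rˣ) (K : ℤ) (M : ℕ) (S : PowerSeries R) : PowerSeries R :=
  (C ((v ^ (-((M : ℤ) * K)) : Rˣ) : R) * reflect M (PowerSeries.trunc (M + 1) S) : R[X])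

theorem coeff_refl (v : Rˣ) (K : ℤ) (M : ℕ) (S : PowerSeries R) (b : ℕ) :
    PowerSeries.coeff b (refl v K M S) =
      if b ≤ M then ((v ^ (-((M : ℤ) * K)) : Rˣ) : R) * PowerSeries.coeff (M - b) S else 0 := by
  rw [refl, Polynomial.coeff_coe, coeff_C_mul, coeff_reflect, PowerSeries.coeff_trunc]
  by_cases h : b ≤ M
  · rw [if_pos h, revAt_le h, if_pos (by omega)]
  · rw [if_neg h, revAt_eq_self_of_lt (by omega), if_neg (by omega), mul_zero]

theorem refl_rel {v : Rˣ} {p : PowerSeries R} (hp : QD v p)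
    (h1 : PowerSeries.constantCoeff p = 1) {K : ℤ} {M N : ℕ} (hN : (N : ℤ) = M + K)
    {S S' : PowerSeries R}
    (hS : ∀ a, M < a → PowerSeries.coeff a S = 0)
    (hS' : ∀ a, N < a → PowerSeries.coeff a S' = 0)
    (h : p * S = PowerSeries.rescale ((v ^ (2 * K) : Rˣ) : R) p * S') :
    PowerSeries.rescale ((v ^ (2 * (-K)) : Rˣ) : R) p * refl v K M S = p * refl v K N S' := by
  have hs := eq_coe_of_bound hS
  have hs' := eq_coe_of_bound hS'
  rcases le_total 0 K with hK | hK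
  · obtain ⟨n, rfl⟩ := Int.eq_ofNat_of_zero_le hK
    have hrel := str_rel_pos hp h1 h
    have hNn : N = n + M := by omega
    subst hNn
    have hpol : PowerSeries.trunc (n + M + 1) S' = cpl v n * PowerSeries.trunc (M + 1) S := by
      apply Polynomial.coe_injective
      rw [hs', hrel, Polynomial.coe_mul, hs]
    have hdeg : (PowerSeries.trunc (M + 1) S).natDegree ≤ M :=
      Nat.lt_succ_iff.mp (PowerSeries.natDegree_trunc_lt S M)
    rw [refl, refl, hpol, reflect_mul _ _ (natDegree_cpl v n) hdeg, reflect_cpl]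
    have e : 2 * (-(n : ℤ)) = -(2 * (n : ℤ)) := by ring
    rw [e, qd_neg hp n]
    simp only [Polynomial.coe_mul, Polynomial.coe_C]
    have e2 : ((v ^ (-((M : ℤ) * n)) : Rˣ) : R) =
        ((v ^ (-(((n + M : ℕ) : ℤ) * n)) : Rˣ) : R) * ((v ^ ((n : ℤ) * n) : Rˣ) : R) := by
      rw [← Units.val_mul, ← zpow_add]
      congr 2
      push_cast
      ring
    rw [e2, map_mul]
    ring
  · obtain ⟨n, hn⟩ := Int.eq_ofNat_of_zero_le (neg_nonneg.mpr hK)
    have hK' : K = -(n : ℤ) := by omega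
    subst hK'
    have hrel := str_rel_neg hp h1 h
    have hMn : M = n + N := by omega
    subst hMn
    have hpol : PowerSeries.trunc (n + N + 1) S = cmi v n * PowerSeries.trunc (N + 1) S' := by
      apply Polynomial.coe_injective
      rw [hs, hrel, Polynomial.coe_mul, hs']
    have hdeg : (PowerSeries.trunc (N + 1) S').natDegree ≤ N :=
      Nat.lt_succ_iff.mp (PowerSeries.natDegree_trunc_lt S' N)
    rw [refl, refl, hpol, reflect_mul _ _ (natDegree_cmi v n) hdeg, reflect_cmi]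
    have e : 2 * (-(-(n : ℤ))) = 2 * (n : ℤ) := by ring
    rw [e]
    conv_rhs => rw [qd_pos hp n]
    simp only [Polynomial.coe_mul, Polynomial.coe_C]
    have e2 : ((v ^ (-((N : ℤ) * (-(n : ℤ)))) : Rˣ) : R) =
        ((v ^ (-(((n + N : ℕ) : ℤ) * (-(n : ℤ)))) : Rˣ) : R) *
          ((v ^ (-((n : ℤ) * n)) : Rˣ) : R) := by
      rw [← Units.val_mul, ← zpow_add]
      congr 2
      push_cast
      ring
    rw [e2, map_mul]
    ring

end Crest.Agent.R059.Mu
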