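import Crest.Agent.R059.MutIso2_456
import Crest.Agent.R059.Mu1_633
import Crest.Agent.R059.Mu1b_633

set_option autoImplicit false
set_option linter.unusedSectionVars false

/-!
Row 59 (S0081), leaf MUT, part 3 (helper456): support bounds and the mutation lemma.
-/

namespace Crest.Agent.R059.Mut456

open Finset TPS HasAntidiagonal

/-! ### change of the degree functional -/

section cross

variable {M : Type*} [AddCommMonoid M] [HasAntidiagonal M] {R : Type*} [CommRing R]
  {T : Tw M R}

open Tr201 in
/-- `l d * lam h d = h d * lam l d`. -/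
theorem lam_cross (h l : M →+ R) {d : M} {a a' : TPS T} (ha : SuppIn (comKer T d) a)
    (ha' : SuppIn (comKer T d) a') (h1 : a * a' = 1) (h2 : a' * a = 1) :
    l d * lam h d a a' = h d * lam l d a a' := by
  have key : ∀ g : M →+ R, der g a' = - (a' * (der g a * a')) := by
    intro g
    have e := der_mul g a a'
    rw [h1, der_one] at e
    have e2 : a' * (der g a * a' + a * der g a') = 0 := by rw [← e, mul_zero]
    rw [mul_add, ← mul_assoc a' a, h2, one_mul] at e2
    exact (neg_eq_of_add_eq_zero_right e2).symm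
  have hcomm : ∀ f : TPS T, der l (der h f) = der h (der l f) := by
    intro f; ext e; simp only [co_der]; ring
  have e1 : der l (der h a * a') = der l (der h a) * a' - (der h a * a') * (der l a * a') := by
    rw [der_mul, key l, mul_neg, ← sub_eq_add_neg]
    congr 1
    simp only [mul_assoc]
  have e2 : der h (der l a * a') = der l (der h a) * a' - (der l a * a') * (der h a * a') := by
    rw [der_mul, key h, mul_neg, ← sub_eq_add_neg, hcomm]
    congr 1
    simp only [mul_assoc]
  have hs : SuppIn (comKer T d) (der l a * a') := (ha.der l).mul ha'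
  have e3 : (der l a * a' * (der h a * a')).co d = (der h a * a' * (der l a * a')).co d :=
    co_mul_comm hs _
  have e4 := congrArg (fun f : TPS T => f.co d) e1
  have e5 := congrArg (fun f : TPS T => f.co d) e2
  simp only [co_der, co_sub] at e4 e5
  unfold lam
  rw [e4, e5, e3]

end cross

/-! ### irreducible exponents -/

section irr

variable {M : Type*} [AddCommMonoid M] [PartialOrder M] [IsOrderedCancelAddMonoid M]
  [CanonicallyOrderedAdd M] [WellFoundedLT M] [HasAntidiagonal M]
variable {R : Type*} [CommRing R] {T : Tw M R}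

/-- `m` has no non trivial decomposition inside `S`. -/
def Irr (S : M → Prop) (m : M) : Prop := ∀ a b, a ≠ 0 → b ≠ 0 → S a → S b → a + b ≠ m

theorem co_mul_irr {S : M → Prop} {m : M} (hm : m ≠ 0) (hi : Irr S m) {f g : TPS T}
    (hf : In1 S f) (hg : In1 S g) : (f * g).co m = f.co m + g.co m := by
  classical
  rw [co_mul_split hf.one hg.one hm, Finset.sum_eq_zero, add_zero]
  intro p hp
  by_cases h : p.1 ≠ 0 ∧ p.2 ≠ 0
  · rw [if_pos h]
    rw [HasAntidiagonal.mem_antidiagonal] at hp
    by_contra hne
    have h1 : f.co p.1 ≠ 0 := fun h0 => hne (by rw [h0]; ring)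
    have h2 : g.co p.2 ≠ 0 := fun h0 => hne (by rw [h0]; ring)
    rcases hf.eq_zero_or h1 with e | e
    · exact h.1 e
    rcases hg.eq_zero_or h2 with e' | e'
    · exact h.2 e'
    exact hi _ _ h.1 h.2 e e' hp
  · rw [if_neg h]

theorem lam_irr {S : M → Prop} (hS : ∀ a b, S a → S b → S (a + b)) {m : M} (hm : m ≠ 0)
    (hi : Irr S m) (h : M →+ R) {f : TPS T} (hf : In1 S f) :
    Tr201.lam h m f (inv f) = h m * f.co m := by
  unfold Tr201.lam
  rw [co_mul, Finset.sum_eq_single (m, 0)]
  · simp [wt_zero_right]
  · rintro ⟨a, b⟩ hp hne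
    rw [HasAntidiagonal.mem_antidiagonal] at hp
    simp only at hp ⊢
    by_contra hne2
    have h1 : f.co a ≠ 0 := fun h0 => hne2 (by rw [Tr201.co_der, h0]; ring)
    have h2 : (inv f).co b ≠ 0 := fun h0 => hne2 (by rw [h0]; ring)
    rcases hf.eq_zero_or h1 with e | e
    · apply hne2; rw [e, Tr201.co_der_zero]; ring
    rcases (hf.inv hS).eq_zero_or h2 with e' | e'
    · apply hne
      rw [e', add_zero] at hp
      rw [hp, e']
    by_cases ha : a = 0
    · apply hne2; rw [ha, Tr201.co_der_zero]; ring
    by_cases hb : b = 0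
    · apply hne
      rw [hb, add_zero] at hp
      rw [hp, hb]
    exact hi a b ha hb e e' hp
  · intro h4
    exact absurd (by simp [HasAntidiagonal.mem_antidiagonal]) h4

variable {V : Type*} [AddCommGroup V] [LinearOrder V] [IsOrderedAddMonoid V]

/-- in an irreducible degree with `x m = 0` only the zero part contributes. -/
theorem co_eq_zer_irr {S : M → Prop} (hS : ∀ a b, S a → S b → S (a + b)) {m : M} (hm : m ≠ 0)
    (hi : Irr S m) (x : M →+ V) (hx : x m = 0) {f : TPS T} (hf : In1 S f) :
    f.co m = (zer x f).co m := by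
  have h1 : In1 S (pos x f) := (hf.pos hS x).mono fun _ _ h => h.2
  have h2 : In1 S (zer x f) := (hf.zer hS x).mono fun _ _ h => h.2
  have h3 : In1 S (neg x f) := (hf.neg hS x).mono fun _ _ h => h.2
  have e1 : (pos x f).co m = 0 := (in1_pos x f).supp m hm (by rw [hx]; exact lt_irrefl 0)
  have e3 : (neg x f).co m = 0 := (in1_neg x f).supp m hm (by rw [hx]; exact lt_irrefl 0)
  conv_lhs => rw [← pos_mul_zer_mul_neg x hf.one]
  rw [co_mul_irr hm hi (h1.mul hS h2) h3, co_mul_irr hm hi h1 h2, e1, e3, zero_add, add_zero]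

/-- the attractor datum. -/
noncomputable def lamz (T : Tw M R) (h : M →+ R) (d : M) (A : TPS T) : R :=
  Tr201.lam h d (zer (T.β d) A) (inv (zer (T.β d) A))

theorem co_zero_of_irr {S : M → Prop} (hS : ∀ a b, S a → S b → S (a + b)) {m : M} (hm : m ≠ 0)
    (hi : Irr S m) (h : M →+ R) (hreg : IsLeftRegular (h m)) (hmm : T.β m m = 0)
    {f : TPS T} (hf : In1 S f) (hl : lamz T h m f = 0) : f.co m = 0 := by
  have h2 : In1 S (zer (T.β m) f) := (hf.zer hS _).mono fun _ _ h => h.2
  rw [co_eq_zer_irr hS hm hi (T.β m) hmm hf]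
  apply hreg
  show h m * _ = h m * 0
  rw [← lam_irr hS hm hi h h2, mul_zero]
  exact hl

theorem suppIn_of_in1 (hs : ∀ a b, T.β a b = - T.β b a) {d : M} {f : TPS T}
    (hf : In1 (fun e => T.β d e = 0) f) : Tr201.SuppIn (Tr201.comKer T d) f := by
  intro a ha
  rw [Tr201.mem_comKer, Tr201.com_apply]
  rcases hf.eq_zero_or ha with e | e
  · rw [e]; simp
  · rw [hs a d, e]; simp

theorem suppIn_inv_of_in1 (hs : ∀ a b, T.β a b = - T.β b a) {d : M} {f : TPS T}
    (hf : In1 (fun e => T.β d e = 0) f) : Tr201.SuppIn (Tr201.comKer T d) (inv f) :=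
  suppIn_of_in1 hs (hf.inv (closed_zero (T.β d)))

/-- change of the degree functional for the attractor datum. -/
theorem lamz_cross (hs : ∀ a b, T.β a b = - T.β b a) (h l : M →+ R) (d : M) (A : TPS T) :
    l d * lamz T h d A = h d * lamz T l d A :=
  lam_cross h l (suppIn_of_in1 hs (in1_zer _ A)) (suppIn_inv_of_in1 hs (in1_zer _ A))
    (mul_inv (zer_co_zero _ _)) (inv_mul (zer_co_zero _ _))

theorem zer_mul_left0 (x : M →+ V) {P B : TPS T} (hP : In1 (fun d => x d = 0) P)
    (hB : B.co 0 = 1) : zer x (P * B) = P * zer x B := by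
  have hp := (conj_pos x hP (in1_pos x B)).1
  refine (pzn_unique' x hp (hP.mul (closed_zero x) (in1_zer x B)) (in1_neg x B) ?_).2.1
  calc P * pos x B * inv P * (P * zer x B) * neg x B
      = P * pos x B * (inv P * P) * zer x B * neg x B := by simp only [mul_assoc]
    _ = P * (pos x B * zer x B * neg x B) := by
        rw [inv_mul hP.one, mul_one]; simp only [mul_assoc]
    _ = P * B := by rw [pos_mul_zer_mul_neg x hB]

theorem zer_mul_right0 (x : M →+ V) {P B : TPS T} (hP : In1 (fun d => x d = 0) P)
    (hB : B.co 0 = 1) : zer x (B * P) = zer x B * P := by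
  have hn := (conj_neg x hP (in1_neg x B)).2
  refine (pzn_unique' x (in1_pos x B) ((in1_zer x B).mul (closed_zero x) hP) hn ?_).2.1
  calc pos x B * (zer x B * P) * (inv P * neg x B * P)
      = pos x B * zer x B * (P * inv P) * neg x B * P := by simp only [mul_assoc]
    _ = (pos x B * zer x B * neg x B) * P := by
        rw [mul_inv hP.one, mul_one]
    _ = B * P := by rw [pos_mul_zer_mul_neg x hB]

/-- left multiplication by a series supported on `β d > 0`. -/
theorem lamz_pos_mul (h : M →+ R) {d : M} {P B : TPS T} (hP : In1 (fun e => 0 < T.β d e) P)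
    (hB : B.co 0 = 1) : lamz T h d (P * B) = lamz T h d B := by
  unfold lamz
  rw [(parts_pos_mul (T.β d) hP hB).2.1]

theorem lamz_mul_neg (h : M →+ R) {d : M} {P B : TPS T} (hP : In1 (fun e => T.β d e < 0) P)
    (hB : B.co 0 = 1) : lamz T h d (B * P) = lamz T h d B := by
  unfold lamz
  rw [(parts_mul_neg (T.β d) hP hB).2.1]

theorem lamz_zero_mul (hs : ∀ a b, T.β a b = - T.β b a) (h : M →+ R) {d : M} {P B : TPS T}
    (hP : In1 (fun e => T.β d e = 0) P) (hB : B.co 0 = 1) :
    lamz T h d (P * B) = Tr201.lam h d P (inv P) + lamz T h d B := by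
  unfold lamz
  rw [zer_mul_left0 (T.β d) hP hB, inv_mul_rev hP.one (zer_co_zero _ _)]
  exact Tr201.lam_mul h (suppIn_of_in1 hs hP) (inv_mul hP.one) (mul_inv (zer_co_zero _ _))

theorem lamz_mul_zero (hs : ∀ a b, T.β a b = - T.β b a) (h : M →+ R) {d : M} {P B : TPS T}
    (hP : In1 (fun e => T.β d e = 0) P) (hB : B.co 0 = 1) :
    lamz T h d (B * P) = lamz T h d B + Tr201.lam h d P (inv P) := by
  unfold lamz
  rw [zer_mul_right0 (T.β d) hP hB, inv_mul_rev (zer_co_zero _ _) hP.one]
  exact Tr201.lam_mul h (suppIn_of_in1 hs (in1_zer _ B)) (inv_mul (zer_co_zero _ _))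
    (mul_inv hP.one)

end irr

/-! ### the series of a node -/

section node

open Finsupp Mu MutIso

variable {ι : Type*} [DecidableEq ι] {R : Type*} [CommRing R] {T T' : Tw (ι →₀ ℕ) R}

theorem single_eq_nsmul (k : ι) (a : ℕ) : (single k a : ι →₀ ℕ) = a • single k 1 := by simp

theorem split_k (k : ι) (m : ι →₀ ℕ) : m.erase k + single k (m k) = m := by
  ext j
  by_cases hj : j = k
  · subst hj; simp
  · simp [Finsupp.erase_ne hj, Finsupp.single_apply, Ne.symm hj]

theorem erase_single_add (k : ι) {m : ι →₀ ℕ} (hm : m k = 0) (a : ℕ) :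
    (m + single k a).erase k = m := by
  ext j
  by_cases hj : j = k
  · subst hj; simp [hm]
  · simp [Finsupp.erase_ne hj, Finsupp.single_apply, Ne.symm hj]

theorem co_evk_zero (k : ι) {p : PowerSeries R} (h1 : PowerSeries.constantCoeff p = 1) :
    (evk T k p).co 0 = 1 := by
  have := evk_single (T := T) k p 0
  rw [single_zero] at this
  rw [this]
  simpa using h1

theorem in1_evk (k : ι) {p : PowerSeries R} (h1 : PowerSeries.constantCoeff p = 1)
    {P : (ι →₀ ℕ) → Prop} (hP : ∀ a, 0 < a → P (single k a)) : In1 P (evk T k p) := by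
  refine ⟨co_evk_zero k h1, fun d hd hPd => ?_⟩
  apply evk_ne
  intro he
  by_cases h0 : d k = 0
  · rw [h0, single_zero] at he; exact hd he
  · apply hPd
    rw [he]
    exact hP _ (Nat.pos_of_ne_zero h0)

theorem evk_mul (hs : ∀ a b, T.β a b = - T.β b a) (k : ι) (p q : PowerSeries R) :
    evk T k p * evk T k q = evk T k (p * q) := by
  ext d
  rw [← split_k k d]
  have hm : (d.erase k) k = 0 := by simp
  rw [co_evk_mul hs k p _ hm (d k)]
  by_cases h0 : d.erase k = 0
  · rw [h0]
    simp only [zero_add]
    rw [evk_single, PowerSeries.coeff_mul]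
    apply Finset.sum_congr rfl
    intro ij _
    rw [evk_single]
    simp
  · have hne : ∀ (r : PowerSeries R) (a : ℕ), (evk T k r).co (d.erase k + single k a) = 0 := by
      intro r a
      apply evk_ne
      intro he
      apply h0
      have h1 : (d.erase k + single k a) k = a := by simp
      rw [h1] at he
      ext j
      have := DFunLike.congr_fun he j
      rw [Finsupp.add_apply] at this
      simpa using this
    rw [hne, Finset.sum_eq_zero]
    intro ij _
    rw [hne]; ring

theorem evk_one (k : ι) : evk T k (1 : PowerSeries R) = 1 := by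
  ext d
  by_cases hd : d = 0
  · rw [hd, co_evk_zero k (by simp)]; simp
  · rw [co_one_ne hd]
    by_cases he : d = single k (d k)
    · rw [he, evk_single, PowerSeries.coeff_one, if_neg]
      intro h0
      apply hd
      rw [he, h0, single_zero]
    · exact evk_ne he

theorem inv_evk (hs : ∀ a b, T.β a b = - T.β b a) (k : ι) {p : PowerSeries R}
    (h1 : PowerSeries.constantCoeff p = 1) :
    inv (evk T k p) = evk T k (PowerSeries.invOfUnit p 1) := by
  apply inv_eq_of_mul (co_evk_zero k h1)
  rw [evk_mul hs, PowerSeries.mul_invOfUnit p 1 (by simpa using h1), evk_one]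

theorem der_evk (h : (ι →₀ ℕ) →+ R) (k : ι) (p : PowerSeries R) :
    Tr201.der h (evk T k p) =
      evk T k (PowerSeries.mk fun j => h (single k j) * PowerSeries.coeff j p) := by
  ext d
  rw [Tr201.co_der]
  by_cases he : d = single k (d k)
  · rw [he, evk_single, evk_single, PowerSeries.coeff_mk]
  · rw [evk_ne he, evk_ne he, mul_zero]

/-- the datum of a node. -/
noncomputable def kap (g : ℕ → R) (p : PowerSeries R) (a : ℕ) : R :=
  PowerSeries.coeff a ((PowerSeries.mk fun j => g j * PowerSeries.coeff j p) *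
    PowerSeries.invOfUnit p 1)

theorem lam_evk (hs : ∀ a b, T.β a b = - T.β b a) (h : (ι →₀ ℕ) →+ R) (k : ι)
    {p : PowerSeries R} (h1 : PowerSeries.constantCoeff p = 1) (a : ℕ) :
    Tr201.lam h (single k a) (evk T k p) (inv (evk T k p)) =
      kap (fun j => h (single k j)) p a := by
  unfold Tr201.lam
  rw [inv_evk hs k h1, der_evk, evk_mul hs, evk_single]
  rfl

theorem lam_evk_ne (hs : ∀ a b, T.β a b = - T.β b a) (h : (ι →₀ ℕ) →+ R) (k : ι)
    {p : PowerSeries R} (h1 : PowerSeries.constantCoeff p = 1) {d : ι →₀ ℕ}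
    (hd : d ≠ single k (d k)) :
    Tr201.lam h d (evk T k p) (inv (evk T k p)) = 0 := by
  unfold Tr201.lam
  rw [inv_evk hs k h1, der_evk, evk_mul hs, evk_ne hd]

/-- `A` is plain (attractor data only at the nodes, those of `p`). -/
structure Plain (T : Tw (ι →₀ ℕ) R) (h : (ι →₀ ℕ) →+ R) (p : PowerSeries R) (A : TPS T) :
    Prop where
  one : A.co 0 = 1
  node : ∀ i j, 0 < j → lamz T h (single i j) A = kap (fun j => h (single i j)) p j
  zero : ∀ d, (∀ i j, d ≠ single i j) → lamz T h d A = 0

theorem β_single_right' (k : ι) (a : ℕ) (m : ι →₀ ℕ) :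
    T.β m (single k a) = a * T.β m (single k 1) := β_single_right k a m

/-- left multiplication by the node series, `0 ≤ β d e_k`. -/
theorem lamz_evk_mul (hs : ∀ a b, T.β a b = - T.β b a) (h : (ι →₀ ℕ) →+ R) (k : ι)
    {p : PowerSeries R} (h1 : PowerSeries.constantCoeff p = 1) {d : ι →₀ ℕ}
    (hK : 0 ≤ T.β d (single k 1)) (hd : d ≠ single k (d k)) {B : TPS T} (hB : B.co 0 = 1) :
    lamz T h d (evk T k p * B) = lamz T h d B := by
  rcases hK.lt_or_eq with hK | hK
  · apply lamz_pos_mul h _ hB
    apply in1_evk k h1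
    intro a ha
    rw [β_single_right']
    exact mul_pos (by exact_mod_cast ha) hK
  · rw [lamz_zero_mul hs h _ hB, lam_evk_ne hs h k h1 hd, zero_add]
    apply in1_evk k h1
    intro a _
    rw [β_single_right', ← hK, mul_zero]

/-- right multiplication by the node series, `β d e_k ≤ 0`. -/
theorem lamz_mul_evk (hs : ∀ a b, T.β a b = - T.β b a) (h : (ι →₀ ℕ) →+ R) (k : ι)
    {p : PowerSeries R} (h1 : PowerSeries.constantCoeff p = 1) {d : ι →₀ ℕ}
    (hK : T.β d (single k 1) ≤ 0) (hd : d ≠ single k (d k)) {B : TPS T} (hB : B.co 0 = 1) :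
    lamz T h d (B * evk T k p) = lamz T h d B := by
  rcases hK.lt_or_eq with hK | hK
  · apply lamz_mul_neg h _ hB
    apply in1_evk k h1
    intro a ha
    rw [β_single_right']
    exact mul_neg_of_pos_of_neg (by exact_mod_cast ha) hK
  · rw [lamz_mul_zero hs h _ hB, lam_evk_ne hs h k h1 hd, add_zero]
    apply in1_evk k h1
    intro a _
    rw [β_single_right', hK, mul_zero]

theorem β_single_single (hs : ∀ a b, T.β a b = - T.β b a) (k : ι) (a b : ℕ) :
    T.β (single k a) (single k b) = 0 := by
  rw [β_single_right', β_single_left k a (single k 1), β_self hs]; ring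

theorem lamz_evk_mul_node (hs : ∀ a b, T.β a b = - T.β b a) (h : (ι →₀ ℕ) →+ R) (k : ι)
    {p : PowerSeries R} (h1 : PowerSeries.constantCoeff p = 1) (j : ℕ) {B : TPS T}
    (hB : B.co 0 = 1) :
    lamz T h (single k j) (evk T k p * B) =
      kap (fun j => h (single k j)) p j + lamz T h (single k j) B := by
  rw [lamz_zero_mul hs h _ hB, lam_evk hs h k h1]
  apply in1_evk k h1
  intro a _
  exact β_single_single hs k j a

theorem lamz_mul_evk_node (hs : ∀ a b, T.β a b = - T.β b a) (h : (ι →₀ ℕ) →+ R) (k : ι)
    {p : PowerSeries R} (h1 : PowerSeries.constantCoeff p = 1) (j : ℕ) {B : TPS T}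
    (hB : B.co 0 = 1) :
    lamz T h (single k j) (B * evk T k p) =
      lamz T h (single k j) B + kap (fun j => h (single k j)) p j := by
  rw [lamz_mul_zero hs h _ hB, lam_evk hs h k h1]
  apply in1_evk k h1
  intro a _
  exact β_single_single hs k j a

/-! ### strings -/

theorem str_rel (hs : ∀ a b, T.β a b = - T.β b a) (k : ι) {p : PowerSeries R} {B B' : TPS T}
    (hBB : evk T k p * B = B' * evk T k p) {m : ι →₀ ℕ} (hm : m k = 0) :
    p * str T k m B =
      PowerSeries.rescale ((T.v ^ (2 * T.β m (single k 1)) : Rˣ) : R) p * str T k m B' := by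
  rw [← str_evk_mul hs k p B hm, ← str_mul_evk hs k p B' hm, hBB]

theorem coeff_str_zero {k : ι} {m : ι →₀ ℕ} {B : TPS T} {c : ℕ}
    (hB : ∀ a, c < a → B.co (m + single k a) = 0) :
    ∀ a, c < a → PowerSeries.coeff a (str T k m B) = 0 := by
  intro a ha
  rw [coeff_str, hB a ha, mul_zero]

theorem bound_pos (hs : ∀ a b, T.β a b = - T.β b a) (k : ι) {p : PowerSeries R}
    (hp : QD T.v p) (h1 : PowerSeries.constantCoeff p = 1) {B B' : TPS T}
    (hBB : evk T k p * B = B' * evk T k p) {m : ι →₀ ℕ} (hm : m k = 0) {c c' : ℕ}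
    (hc : (c' : ℤ) = c + T.β m (single k 1)) (hK : 0 ≤ T.β m (single k 1))
    (hB : ∀ a, c < a → B.co (m + single k a) = 0) :
    ∀ a, c' < a → B'.co (m + single k a) = 0 := by
  intro a ha
  obtain ⟨n, hn⟩ := Int.eq_ofNat_of_zero_le hK
  have h := str_rel hs k hBB hm
  rw [hn] at h
  have h2 := str_rel_pos hp h1 h
  have h3 := coeff_mul_zero_of_bound (natDegree_cpl T.v n) (coeff_str_zero hB) a (by omega)
  rw [← h2] at h3
  rw [str_co, h3, mul_zero]

theorem bound_neg (hs : ∀ a b, T.β a b = - T.β b a) (k : ι) {p : PowerSeries R}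
    (hp : QD T.v p) (h1 : PowerSeries.constantCoeff p = 1) {B B' : TPS T}
    (hBB : evk T k p * B = B' * evk T k p) {m : ι →₀ ℕ} (hm : m k = 0) {c c' : ℕ}
    (hc : (c' : ℤ) = c + T.β m (single k 1)) (hK : T.β m (single k 1) ≤ 0)
    (hB : ∀ a, c' < a → B'.co (m + single k a) = 0) :
    ∀ a, c < a → B.co (m + single k a) = 0 := by
  intro a ha
  obtain ⟨n, hn⟩ := Int.eq_ofNat_of_zero_le (neg_nonneg.mpr hK)
  have hn' : T.β m (single k 1) = -(n : ℤ) := by omega
  have h := str_rel hs k hBB hm
  rw [hn'] at h
  have h2 := str_rel_neg hp h1 h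
  have h3 := coeff_mul_zero_of_bound (natDegree_cmi T.v n) (coeff_str_zero hB) a (by omega)
  rw [← h2] at h3
  rw [str_co, h3, mul_zero]

/-! ### the support bounds -/

/-- height off `k`. -/
noncomputable def htk (k : ι) (m : ι →₀ ℕ) : ℕ := Finsupp.degree (m.erase k)

theorem htk_add (k : ι) (a b : ι →₀ ℕ) : htk k (a + b) = htk k a + htk k b := by
  unfold htk
  rw [Finsupp.erase_add, map_add]

theorem htk_single (k : ι) (a : ℕ) : htk k (single k a) = 0 := by
  unfold htk
  have : (single k a : ι →₀ ℕ).erase k = 0 := by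
    ext j; by_cases hj : j = k <;> simp [hj]
  rw [this, map_zero]

theorem erase_of_htk {k : ι} {m : ι →₀ ℕ} (h : htk k m = 0) : m.erase k = 0 :=
  (Finsupp.degree_eq_zero_iff _).1 h

theorem eq_single_of_htk {k : ι} {m : ι →₀ ℕ} (h : htk k m = 0) : m = single k (m k) := by
  have := split_k k m
  rw [erase_of_htk h, zero_add] at this
  exact this.symm

theorem not_cp_single {c : (ι →₀ ℕ) →+ ℕ} {k : ι} (hc : c (single k 1) = 0) {m : ι →₀ ℕ}
    (h : htk k m = 0) (hm : m ≠ 0) : ¬ Cp c k m := by
  intro hcp
  have h1 := eq_single_of_htk h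
  unfold Cp at hcp
  rw [cap_split hc, erase_of_htk h, map_zero] at hcp
  apply hm
  rw [h1, Nat.le_zero.1 hcp, single_zero]

theorem base_zero (hs : ∀ a b, T.β a b = - T.β b a) {h : (ι →₀ ℕ) →+ R}
    (hreg : ∀ d, d ≠ 0 → IsLeftRegular (h d)) {k : ι} {B : TPS T} (hB : B.co 0 = 1)
    (hl : ∀ a, 0 < a → lamz T h (single k a) B = 0) :
    ∀ a, 0 < a → B.co (single k a) = 0 := by
  intro a
  induction a using Nat.strong_induction_on with
  | _ a ih =>
    intro ha
    have hne : (single k a : ι →₀ ℕ) ≠ 0 := by
      intro h0; rw [Finsupp.single_eq_zero] at h0; omega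
    refine co_zero_of_irr (S := fun m => 0 < htk k m ∨ a ≤ m k) ?_ hne ?_ h (hreg _ hne)
      (β_single_single hs k a a) ⟨hB, ?_⟩ (hl a ha)
    · intro x y hx hy
      rw [htk_add, Finsupp.add_apply]
      rcases hx with hx | hx
      · exact Or.inl (by omega)
      rcases hy with hy | hy
      · exact Or.inl (by omega)
      exact Or.inr (by omega)
    · intro x y hx hy hSx hSy hxy
      have e1 : htk k x + htk k y = 0 := by rw [← htk_add, hxy, htk_single]
      have e2 : x k + y k = a := by rw [← Finsupp.add_apply, hxy]; simp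
      rcases hSx with hSx | hSx
      · omega
      rcases hSy with hSy | hSy
      · omega
      omega
    · intro d hd hSd
      have hSd' : ¬ (0 < htk k d) ∧ ¬ (a ≤ d k) := not_or.1 hSd
      have h0 : htk k d = 0 := by omega
      have h1 := eq_single_of_htk h0
      have h2 : d k ≠ 0 := by
        intro h3; apply hd; rw [h1, h3, single_zero]
      rw [h1]
      exact ih (d k) (by omega) (by omega)

theorem step_zero (hs : ∀ a b, T.β a b = - T.β b a) {h : (ι →₀ ℕ) →+ R}
    (hreg : ∀ d, d ≠ 0 → IsLeftRegular (h d)) {k : ι} {c : (ι →₀ ℕ) →+ ℕ}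
    (hc : c (single k 1) = 0) {B : TPS T} (hB : B.co 0 = 1) {n : ℕ} (hn : 0 < n)
    (ih : ∀ m, htk k m < n → ¬ Cp c k m → B.co m = 0) {m : ι →₀ ℕ} (hm : htk k m = n)
    (hmc : ¬ Cp c k m) (hl : lamz T h m B = 0) : B.co m = 0 := by
  have hne : m ≠ 0 := by rintro rfl; exact hmc Cp.zero
  refine co_zero_of_irr (S := fun m => Cp c k m ∨ n ≤ htk k m) ?_ hne ?_ h (hreg _ hne)
      (β_self hs m) ⟨hB, ?_⟩ hl
  · intro x y hx hy
    rw [htk_add]
    rcases hx with hx | hx
    · rcases hy with hy | hy
      · exact Or.inl (hx.add hy)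
      · exact Or.inr (by omega)
    · exact Or.inr (by omega)
  · intro x y hx hy hSx hSy hxy
    have e1 : htk k x + htk k y = n := by rw [← htk_add, hxy, hm]
    have e2 : ∀ z : ι →₀ ℕ, z ≠ 0 → (Cp c k z ∨ n ≤ htk k z) → htk k z ≠ 0 := by
      intro z hz hSz h0
      rcases hSz with hSz | hSz
      · exact not_cp_single hc h0 hz hSz
      · omega
    have e3 := e2 x hx hSx
    have e4 := e2 y hy hSy
    rcases hSx with hSx | hSx
    · rcases hSy with hSy | hSy
      · exact hmc (hxy ▸ hSx.add hSy)
      · omega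
    · omega
  · intro d hd hSd
    have hSd' : ¬ Cp c k d ∧ ¬ (n ≤ htk k d) := not_or.1 hSd
    exact ih d (by omega) hSd'.1

theorem caps_rel (hs : ∀ a b, T.β a b = - T.β b a) (k : ι) (m : ι →₀ ℕ) :
    (capOf (-T.β) k m : ℤ) = capOf T.β k m + T.β m (single k 1) := by
  have := capOf_sub T.β (-T.β) (k := k) (β_self hs _) (fun j _ => rfl) m
  rw [hs m (single k 1)]
  omega

theorem ne_single_of_not_cp {c : (ι →₀ ℕ) →+ ℕ} {k : ι} {m : ι →₀ ℕ} (h0 : htk k m ≠ 0)
    (hmc : ¬ Cp c k m) : ∀ i j, m ≠ single i j := by
  rintro i j rfl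
  by_cases hi : i = k
  · subst hi; exact h0 (htk_single i j)
  · apply hmc
    unfold Cp
    rw [Finsupp.single_eq_of_ne (Ne.symm hi)]
    exact Nat.zero_le _

theorem Plain.bound (hs : ∀ a b, T.β a b = - T.β b a) {h : (ι →₀ ℕ) →+ R}
    (hreg : ∀ d, d ≠ 0 → IsLeftRegular (h d)) {k : ι} {p : PowerSeries R}
    (hp : QD T.v p) (h1 : PowerSeries.constantCoeff p = 1) {A B B' : TPS T}
    (hA : Plain T h p A) (hB : B.co 0 = 1) (hB' : B'.co 0 = 1)
    (e1 : evk T k p * B = A) (e2 : B' * evk T k p = A) :
    Capped (capOf T.β k) k B ∧ Capped (capOf (-T.β) k) k B' := by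
  have hBB : evk T k p * B = B' * evk T k p := by rw [e1, e2]
  have main : ∀ n, (∀ m, htk k m < n → ¬ Cp (capOf T.β k) k m → B.co m = 0) ∧
      (∀ m, htk k m < n → ¬ Cp (capOf (-T.β) k) k m → B'.co m = 0) := by
    intro n
    induction n with
    | zero => exact ⟨fun m hm => absurd hm (Nat.not_lt_zero _),
        fun m hm => absurd hm (Nat.not_lt_zero _)⟩
    | succ n ih =>
      obtain ⟨ihB, ihB'⟩ := ih
      rcases Nat.eq_zero_or_pos n with hn | hn
      · subst hn
        have hbB := base_zero hs hreg (k := k) hB (fun a ha => by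
          have h2 := lamz_evk_mul_node hs h k h1 a hB
          rw [e1, hA.node k a ha] at h2
          exact (left_eq_add.1 h2))
        have hbB' := base_zero hs hreg (k := k) hB' (fun a ha => by
          have h2 := lamz_mul_evk_node hs h k h1 a hB'
          rw [e2, hA.node k a ha] at h2
          exact (right_eq_add.1 h2))
        constructor
        · intro m hm hmc
          have h0 : htk k m = 0 := by omega
          have hm0 : m ≠ 0 := by rintro rfl; exact hmc Cp.zero
          have h3 := eq_single_of_htk h0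
          rw [h3]
          apply hbB
          rcases Nat.eq_zero_or_pos (m k) with h4 | h4
          · exact absurd (by rw [h3, h4, single_zero]) hm0
          · exact h4
        · intro m hm hmc
          have h0 : htk k m = 0 := by omega
          have hm0 : m ≠ 0 := by rintro rfl; exact hmc Cp.zero
          have h3 := eq_single_of_htk h0
          rw [h3]
          apply hbB'
          rcases Nat.eq_zero_or_pos (m k) with h4 | h4
          · exact absurd (by rw [h3, h4, single_zero]) hm0
          · exact h4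
      · -- the string through `m'`
        have string : ∀ m' : ι →₀ ℕ, m' k = 0 → htk k m' = n →
            (∀ a, capOf T.β k m' < a → B.co (m' + single k a) = 0) ∧
            (∀ a, capOf (-T.β) k m' < a → B'.co (m' + single k a) = 0) := by
          intro m' hm'k hm'n
          have hcr := caps_rel hs k m'
          have hht : ∀ a, htk k (m' + single k a) = n := by
            intro a; rw [htk_add, htk_single, hm'n]; rfl
          have hβ : ∀ a, T.β (m' + single k a) (single k 1) = T.β m' (single k 1) := by
            intro a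
            rw [map_add, AddMonoidHom.add_apply, β_single_single hs k a 1, add_zero]
          have hcap : ∀ (γ : (ι →₀ ℕ) →+ (ι →₀ ℕ) →+ ℤ) a,
              capOf γ k (m' + single k a) = capOf γ k m' := by
            intro γ a
            rw [map_add, single_eq_nsmul, map_nsmul, capOf_self]
            simp
          have hnc : ∀ (γ : (ι →₀ ℕ) →+ (ι →₀ ℕ) →+ ℤ) a, capOf γ k m' < a →
              ¬ Cp (capOf γ k) k (m' + single k a) := by
            intro γ a ha
            unfold Cp
            rw [hcap, Finsupp.add_apply, hm'k]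
            simpa using ha
          rcases le_total 0 (T.β m' (single k 1)) with hK | hK
          · have hb : ∀ a, capOf T.β k m' < a → B.co (m' + single k a) = 0 := by
              intro a ha
              refine step_zero hs hreg (capOf_self _ _) hB hn ihB (hht a) (hnc _ a ha) ?_
              have hns := ne_single_of_not_cp (by rw [hht a]; omega) (hnc T.β a ha)
              rw [← lamz_evk_mul hs h k h1 (by rw [hβ a]; exact hK) (hns _ _) hB, e1]
              exact hA.zero _ hns
            exact ⟨hb, bound_pos hs k hp h1 hBB hm'k hcr hK hb⟩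
          · have hb : ∀ a, capOf (-T.β) k m' < a → B'.co (m' + single k a) = 0 := by
              intro a ha
              refine step_zero hs hreg (capOf_self _ _) hB' hn ihB' (hht a) (hnc _ a ha) ?_
              have hns := ne_single_of_not_cp (by rw [hht a]; omega) (hnc (-T.β) a ha)
              rw [← lamz_mul_evk hs h k h1 (by rw [hβ a]; exact hK) (hns _ _) hB', e2]
              exact hA.zero _ hns
            exact ⟨bound_neg hs k hp h1 hBB hm'k hcr hK hb, hb⟩
        constructor
        · intro m hm hmc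
          rcases Nat.lt_or_ge (htk k m) n with h3 | h3
          · exact ihB m h3 hmc
          · have h4 : htk k (m.erase k) = n := by
              have : htk k (m.erase k) = htk k m := by
                unfold htk
                congr 1
                ext j; by_cases hj : j = k <;> simp [hj]
              omega
            rw [← split_k k m]
            apply (string (m.erase k) (by simp) h4).1
            rw [← cap_split (capOf_self _ _)]
            exact not_le.1 hmc
        · intro m hm hmc
          rcases Nat.lt_or_ge (htk k m) n with h3 | h3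
          · exact ihB' m h3 hmc
          · have h4 : htk k (m.erase k) = n := by
              have : htk k (m.erase k) = htk k m := by
                unfold htk
                congr 1
                ext j; by_cases hj : j = k <;> simp [hj]
              omega
            rw [← split_k k m]
            apply (string (m.erase k) (by simp) h4).2
            rw [← cap_split (capOf_self _ _)]
            exact not_le.1 hmc
  constructor
  · intro m hm
    by_contra hmc
    exact hm ((main (htk k m + 1)).1 m (Nat.lt_succ_self _) hmc)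
  · intro m hm
    by_contra hmc
    exact hm ((main (htk k m + 1)).2 m (Nat.lt_succ_self _) hmc)

end node

end Crest.Agent.R059.Mut456
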