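import Crest.Agent.R059.MutIso2_456
import Crest.Agent.R059.Mu1_633
import Crest.Agent.R059.Mu1b_633

set_option autoImplicit false
set_option linter.unusedSectionVars false
set_option linter.unusedSimpArgs false

/-!
Row 59 (S0081), leaf MUT, part 2a (helper633): the logarithmic derivative `lamI`, change of the
height functional, first violation lemma.
-/

namespace Crest.Agent.R059.Mu

open Finset TPS

section general

variable {M : Type*} [AddCommMonoid M] [PartialOrder M] [IsOrderedCancelAddMonoid M]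
  [CanonicallyOrderedAdd M] [WellFoundedLT M] [HasAntidiagonal M]
  {R : Type*} [CommRing R] {T : Tw M R}

/-- logarithmic derivative with the canonical inverse. -/
noncomputable def lamI (h : M →+ R) (d : M) (a : TPS T) : R := Tr201.lam h d a (TPS.inv a)

theorem lamI_def (h : M →+ R) (d : M) (a : TPS T) :
    lamI h d a = (Tr201.der h a * TPS.inv a).co d := rfl

theorem suppIn_of_in1 {S : AddSubmonoid M} {f : TPS T} (h : In1 (fun e => e ∈ S) f) :
    Tr201.SuppIn S f := by
  intro a ha
  rcases h.eq_zero_or ha with rfl | h1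
  · exact S.zero_mem
  · exact h1

theorem in1_of_suppIn {S : AddSubmonoid M} {f : TPS T} (h0 : f.co 0 = 1)
    (h : Tr201.SuppIn S f) : In1 (fun e => e ∈ S) f :=
  ⟨h0, fun _ _ hd => h.zero_of_not hd⟩

theorem suppIn_inv {S : AddSubmonoid M} {f : TPS T} (h0 : f.co 0 = 1)
    (h : Tr201.SuppIn S f) : Tr201.SuppIn S (TPS.inv f) :=
  suppIn_of_in1 ((in1_of_suppIn h0 h).inv (fun _ _ ha hb => S.add_mem ha hb))

theorem der_inv (h : M →+ R) {z : TPS T} (hz : z.co 0 = 1) :
    Tr201.der h (TPS.inv z) = - (TPS.inv z * Tr201.der h z * TPS.inv z) := by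
  have h1 : Tr201.der h (TPS.inv z * z) = 0 := by rw [inv_mul hz, Tr201.der_one]
  rw [Tr201.der_mul] at h1
  have h2 : Tr201.der h (TPS.inv z) * z = - (TPS.inv z * Tr201.der h z) :=
    eq_neg_of_add_eq_zero_left h1
  calc Tr201.der h (TPS.inv z) = Tr201.der h (TPS.inv z) * z * TPS.inv z := by
        rw [mul_assoc, mul_inv hz, mul_one]
    _ = - (TPS.inv z * Tr201.der h z * TPS.inv z) := by rw [h2, neg_mul]

/-- change of the height functional. -/
theorem lamI_change (h l : M →+ R) {d : M} {z : TPS T} (hz : z.co 0 = 1)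
    (hs : Tr201.SuppIn (Tr201.comKer T d) z) : l d * lamI h d z = h d * lamI l d z := by
  have hs' := suppIn_inv hz hs
  have e1 : Tr201.der h (Tr201.der l z * TPS.inv z) =
      Tr201.der h (Tr201.der l z) * TPS.inv z
        - (Tr201.der l z * TPS.inv z) * (Tr201.der h z * TPS.inv z) := by
    rw [Tr201.der_mul, der_inv h hz]
    simp only [mul_neg, mul_assoc, sub_eq_add_neg]
  have e2 : Tr201.der l (Tr201.der h z * TPS.inv z) =
      Tr201.der l (Tr201.der h z) * TPS.inv z
        - (Tr201.der h z * TPS.inv z) * (Tr201.der l z * TPS.inv z) := by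
    rw [Tr201.der_mul, der_inv l hz]
    simp only [mul_neg, mul_assoc, sub_eq_add_neg]
  have e3 : Tr201.der h (Tr201.der l z) = Tr201.der l (Tr201.der h z) := by
    ext e; simp only [Tr201.co_der]; ring
  have e4 : ((Tr201.der l z * TPS.inv z) * (Tr201.der h z * TPS.inv z)).co d =
      ((Tr201.der h z * TPS.inv z) * (Tr201.der l z * TPS.inv z)).co d :=
    Tr201.co_mul_comm ((hs.der l).mul hs') _
  have f1 := congrArg (fun t : TPS T => t.co d) e1
  have f2 := congrArg (fun t : TPS T => t.co d) e2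
  simp only [Tr201.co_der, co_sub] at f1 f2
  rw [lamI_def, lamI_def, f1, f2, e3, e4]

theorem lamI_zero_of {S : M → Prop} (hadd : ∀ a b, S a → S b → S (a + b)) (h : M →+ R)
    {z : TPS T} (hz : In1 S z) {d : M} (hd : ¬ S d) : lamI h d z = 0 := by
  have h1 : Supp S (Tr201.der h z) := by
    intro e he
    rw [Tr201.co_der]
    by_cases h0 : e = 0
    · subst h0; simp
    · rw [hz.supp e h0 he, mul_zero]
  have h2 : Supp (fun e => e = 0 ∨ S e) (TPS.inv z) := (hz.inv hadd).toSupp
  have h3 : Supp S (Tr201.der h z * TPS.inv z) := h1.mul h2 (by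
    rintro a b ha (rfl | hb)
    · rwa [add_zero]
    · exact hadd a b ha hb)
  exact h3 d hd

theorem lamI_sub (h : M →+ R) {z w : TPS T} {d : M} (hd : d ≠ 0)
    (he : ∀ e, e < d → z.co e = w.co e) :
    lamI h d z - lamI h d w = h d * (z.co d - w.co d) := by
  rw [lamI_def, lamI_def, co_mul, co_mul, ← Finset.sum_sub_distrib]
  rw [Finset.sum_eq_single (d, 0)]
  · simp only [Tr201.co_der, wt_zero_right, TPS.inv_zero]
    ring
  · rintro ⟨a, b⟩ hp hne
    have hp' := hp
    rw [HasAntidiagonal.mem_antidiagonal] at hp'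
    simp only at hp'
    have hb : b ≠ 0 := by
      rintro rfl
      apply hne
      rw [← hp', add_zero]
    have ha : a < d := fst_lt_of_mem hp hb
    by_cases ha0 : a = 0
    · subst ha0; simp [Tr201.co_der]
    · have hbd : b < d := snd_lt_of_mem hp ha0
      have h1 : (TPS.inv z).co b = (TPS.inv w).co b :=
        co_inv_congr_le b (fun e hee => he e (lt_of_le_of_lt hee hbd))
      simp only [Tr201.co_der]
      rw [he a ha, h1, sub_self]
  · intro hn
    exact absurd (by simp [HasAntidiagonal.mem_antidiagonal]) hn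

section parts

variable {V : Type*} [AddCommGroup V] [LinearOrder V] [IsOrderedAddMonoid V]

theorem zer_congr_lt (x : M →+ V) {a b : TPS T} (ha : a.co 0 = 1) {d : M}
    (he : ∀ e, e < d → a.co e = b.co e) (e : M) (hed : e < d) :
    (zer x a).co e = (zer x b).co e :=
  (zer_congr x x ha e (fun f hf => he f (lt_of_le_of_lt hf hed)) (fun _ _ => Iff.rfl)
    (fun _ _ => Iff.rfl)).1

theorem zer_sub (x : M →+ V) {a b : TPS T} (ha : a.co 0 = 1) (hb : b.co 0 = 1) {d : M}
    (hd : d ≠ 0) (hx : x d = 0) (he : ∀ e, e < d → a.co e = b.co e) :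
    (zer x a).co d - (zer x b).co d = a.co d - b.co d := by
  classical
  have hpos : ∀ e, e < d → (pos x a).co e = (pos x b).co e := fun e hed =>
    (pos_congr x x ha e (fun f hf => he f (lt_of_le_of_lt hf hed)) (fun _ _ => Iff.rfl)).1
  have hnpos : ∀ e, e < d → (npos x a).co e = (npos x b).co e := fun e hed =>
    (pos_congr x x ha e (fun f hf => he f (lt_of_le_of_lt hf hed)) (fun _ _ => Iff.rfl)).2
  have hzer : ∀ e, e < d → (zer x a).co e = (zer x b).co e := zer_congr_lt x ha he
  have hneg : ∀ e, e < d → (neg x a).co e = (neg x b).co e := fun e hed =>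
    (zer_congr x x ha e (fun f hf => he f (lt_of_le_of_lt hf hed)) (fun _ _ => Iff.rfl)
      (fun _ _ => Iff.rfl)).2
  have p0 : ∀ f : TPS T, (pos x f).co d = 0 := fun f =>
    (in1_pos x f).supp d hd (by rw [hx]; exact lt_irrefl 0)
  have n0 : ∀ f : TPS T, (neg x f).co d = 0 := fun f =>
    (in1_neg x f).supp d hd (by rw [hx]; exact lt_irrefl 0)
  have e1 : a.co d = (pos x a * npos x a).co d := by rw [pos_mul_npos x ha]
  have e2 : b.co d = (pos x b * npos x b).co d := by rw [pos_mul_npos x hb]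
  have e3 : (npos x a).co d = (zer x a * neg x a).co d := by rw [zer_mul_neg]
  have e4 : (npos x b).co d = (zer x b * neg x b).co d := by rw [zer_mul_neg]
  rw [co_mul_split (pos_co_zero x a) (npos_co_zero x a) hd, p0, zero_add] at e1
  rw [co_mul_split (pos_co_zero x b) (npos_co_zero x b) hd, p0, zero_add] at e2
  rw [co_mul_split (zer_co_zero x a) (neg_co_zero x a) hd, n0, add_zero] at e3
  rw [co_mul_split (zer_co_zero x b) (neg_co_zero x b) hd, n0, add_zero] at e4
  have s1 : (∑ p ∈ HasAntidiagonal.antidiagonal d,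
      if p.1 ≠ 0 ∧ p.2 ≠ 0 then wt T p.1 p.2 * ((pos x a).co p.1 * (npos x a).co p.2) else 0) =
      ∑ p ∈ HasAntidiagonal.antidiagonal d,
      if p.1 ≠ 0 ∧ p.2 ≠ 0 then wt T p.1 p.2 * ((pos x b).co p.1 * (npos x b).co p.2) else 0 := by
    refine Finset.sum_congr rfl (fun p hp => ?_)
    split_ifs with h
    · rw [hpos _ (fst_lt_of_mem hp h.2), hnpos _ (snd_lt_of_mem hp h.1)]
    · rfl
  have s2 : (∑ p ∈ HasAntidiagonal.antidiagonal d,
      if p.1 ≠ 0 ∧ p.2 ≠ 0 then wt T p.1 p.2 * ((zer x a).co p.1 * (neg x a).co p.2) else 0) =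
      ∑ p ∈ HasAntidiagonal.antidiagonal d,
      if p.1 ≠ 0 ∧ p.2 ≠ 0 then wt T p.1 p.2 * ((zer x b).co p.1 * (neg x b).co p.2) else 0 := by
    refine Finset.sum_congr rfl (fun p hp => ?_)
    split_ifs with h
    · rw [hzer _ (fst_lt_of_mem hp h.2), hneg _ (snd_lt_of_mem hp h.1)]
    · rfl
  rw [e1, e2, e3, e4, s1, s2]
  ring

/-- **first violation**: if `d ∉ S` and all smaller classes in the support of `B` are in `S`,
then the attractor coefficient at `d` is `h d * B.co d`. -/
theorem first_violation {S : M → Prop} (hadd : ∀ a b, S a → S b → S (a + b)) (h : M →+ R)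
    (x : M →+ V) {B : TPS T} (hB : B.co 0 = 1) {d : M} (hd0 : d ≠ 0) (hx : x d = 0)
    (hd : ¬ S d) (hlow : ∀ e, e < d → e ≠ 0 → B.co e ≠ 0 → S e) :
    lamI h d (zer x B) = h d * B.co d := by
  classical
  let b : TPS T := ⟨fun e => if e < d then B.co e else 0⟩
  have hbco : ∀ e, b.co e = if e < d then B.co e else 0 := fun e => rfl
  have h0d : (0 : M) < d := pos_iff_ne_zero.mpr hd0
  have hb0 : b.co 0 = 1 := by rw [hbco, if_pos h0d, hB]
  have hbS : In1 S b := ⟨hb0, fun e he hS => by
    rw [hbco]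
    split_ifs with hlt
    · by_contra hne
      exact hS (hlow e hlt he hne)
    · rfl⟩
  have hbB : ∀ e, e < d → B.co e = b.co e := fun e he => by rw [hbco, if_pos he]
  have hbd : b.co d = 0 := by rw [hbco, if_neg (lt_irrefl d)]
  have hzS : In1 S (zer x b) := (hbS.zer hadd x).mono fun _ _ h => h.2
  have h1 : (zer x b).co d = 0 := hzS.supp d hd0 hd
  have h2 : lamI h d (zer x b) = 0 := lamI_zero_of hadd h hzS hd
  have h3 := zer_sub x hB hb0 hd0 hx hbB
  rw [h1, hbd, sub_zero, sub_zero] at h3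
  have h4 := lamI_sub (T := T) h (z := zer x B) (w := zer x b) hd0
    (zer_congr_lt x hB hbB)
  rw [h2, h1, sub_zero, sub_zero, h3] at h4
  exact h4

end parts

theorem lamI_congr (h : M →+ R) {z w : TPS T} (d : M)
    (he : ∀ e, e ≤ d → z.co e = w.co e) : lamI h d z = lamI h d w := by
  rw [lamI_def, lamI_def]
  apply co_mul_congr_le
  · intro e hed
    rw [Tr201.co_der, Tr201.co_der, he e hed]
  · intro e hed
    exact co_inv_congr_le e (fun f hf => he f (hf.trans hed))

/-- additivity. -/
theorem lamI_mul (h : M →+ R) {d : M} {a b : TPS T} (ha0 : a.co 0 = 1) (hb0 : b.co 0 = 1)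
    (ha : Tr201.SuppIn (Tr201.comKer T d) a) :
    lamI h d (a * b) = lamI h d a + lamI h d b := by
  unfold lamI
  rw [inv_mul_rev ha0 hb0, Tr201.lam_mul h ha (inv_mul ha0) (mul_inv hb0)]

end general

end Crest.Agent.R059.Mu
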