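import Crest.Agent.R059.Mu2a_633

set_option autoImplicit false
set_option linter.unusedSectionVars false
set_option linter.unusedSimpArgs false

/-!
Row 59 (S0081), leaf MUT, part 2b (helper633): the support bounds.
If `A` is plain, `B = E⁻¹ A` is capped by `c` and `B' = A E⁻¹` is capped by `c'`.
-/

namespace Crest.Agent.R059.Mu

open Finset TPS MutIso

variable {ι : Type*} [DecidableEq ι] {R : Type*} [CommRing R] {T : Tw (ι →₀ ℕ) R}

/-- `d` is a multiple of a basis vector. -/
def IsRay (d : ι →₀ ℕ) : Prop := ∃ i, d = Finsupp.single i (d i)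

theorem erase_add_single' (k : ι) (d : ι →₀ ℕ) :
    d.erase k + Finsupp.single k (d k) = d := Finsupp.erase_add_single k d

theorem evk_zero {k : ι} {p : PowerSeries R} (hp0 : PowerSeries.constantCoeff p = 1) :
    (evk T k p).co 0 = 1 := by
  have := evk_single (T := T) k p 0
  rw [Finsupp.single_zero] at this
  rw [this, PowerSeries.coeff_zero_eq_constantCoeff_apply, hp0]

theorem evk_in1 {k : ι} {p : PowerSeries R} (hp0 : PowerSeries.constantCoeff p = 1) :
    In1 (fun e => e = Finsupp.single k (e k)) (evk T k p) :=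
  ⟨evk_zero hp0, fun _ _ h => evk_ne h⟩

theorem ray_add (k : ι) : ∀ a b : ι →₀ ℕ, a = Finsupp.single k (a k) →
    b = Finsupp.single k (b k) → a + b = Finsupp.single k ((a + b) k) := by
  intro a b ha hb
  conv_lhs => rw [ha, hb]
  rw [Finsupp.add_apply, Finsupp.single_add]

theorem map_single_nsmul {V : Type*} [AddCommGroup V] (x : (ι →₀ ℕ) →+ V) (k : ι) (a : ℕ) :
    x (Finsupp.single k a) = a • x (Finsupp.single k 1) := by
  rw [single_nsmul, map_nsmul]

theorem evk_in1_of {k : ι} {p : PowerSeries R} (hp0 : PowerSeries.constantCoeff p = 1)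
    {P : (ι →₀ ℕ) → Prop} (hP : ∀ a : ℕ, a ≠ 0 → P (Finsupp.single k a)) :
    In1 P (evk T k p) := by
  refine (evk_in1 hp0).mono fun d hd h => ?_
  rw [h]
  apply hP
  intro h0
  apply hd
  rw [h, h0, Finsupp.single_zero]

section zer

variable {V : Type*} [AddCommGroup V] [LinearOrder V] [IsOrderedAddMonoid V]
variable (x : (ι →₀ ℕ) →+ V) {k : ι} {p : PowerSeries R}

theorem evk_pos (hp0 : PowerSeries.constantCoeff p = 1) (hx : 0 < x (Finsupp.single k 1)) :
    In1 (fun d => 0 < x d) (evk T k p) :=
  evk_in1_of hp0 fun a ha => by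
    rw [map_single_nsmul]; exact nsmul_pos hx ha

theorem evk_neg (hp0 : PowerSeries.constantCoeff p = 1) (hx : x (Finsupp.single k 1) < 0) :
    In1 (fun d => x d < 0) (evk T k p) :=
  evk_in1_of hp0 fun a ha => by
    rw [map_single_nsmul]; exact nsmul_neg hx ha

theorem evk_zer (hp0 : PowerSeries.constantCoeff p = 1) (hx : x (Finsupp.single k 1) = 0) :
    In1 (fun d => x d = 0) (evk T k p) :=
  evk_in1_of hp0 fun a ha => by
    rw [map_single_nsmul, hx, smul_zero]

theorem zer_evk_mul_pos (hp0 : PowerSeries.constantCoeff p = 1)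
    (hx : 0 < x (Finsupp.single k 1)) {a : TPS T} (ha : a.co 0 = 1) :
    zer x (evk T k p * a) = zer x a :=
  (parts_pos_mul x (evk_pos x hp0 hx) ha).2.1

theorem zer_mul_evk_neg (hp0 : PowerSeries.constantCoeff p = 1)
    (hx : x (Finsupp.single k 1) < 0) {a : TPS T} (ha : a.co 0 = 1) :
    zer x (a * evk T k p) = zer x a :=
  (parts_mul_neg x (evk_neg x hp0 hx) ha).2.1

theorem zer_evk_mul_zero (hp0 : PowerSeries.constantCoeff p = 1)
    (hx : x (Finsupp.single k 1) = 0) {a : TPS T} (ha : a.co 0 = 1) :
    zer x (evk T k p * a) = evk T k p * zer x a := by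
  have hE := evk_zer (T := T) x hp0 hx
  refine (pzn_unique' x (conj_pos x hE (in1_pos x a)).1
    (hE.mul (closed_zero x) (in1_zer x a)) (in1_neg x a) ?_).2.1
  calc evk T k p * pos x a * TPS.inv (evk T k p) * (evk T k p * zer x a) * neg x a
      = evk T k p * pos x a * (TPS.inv (evk T k p) * evk T k p) * zer x a * neg x a := by
        simp only [mul_assoc]
    _ = evk T k p * a := by
        rw [inv_mul hE.one, mul_one, mul_assoc, mul_assoc, ← mul_assoc (pos x a),
          pos_mul_zer_mul_neg x ha]

theorem zer_mul_evk_zero (hp0 : PowerSeries.constantCoeff p = 1)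
    (hx : x (Finsupp.single k 1) = 0) {a : TPS T} (ha : a.co 0 = 1) :
    zer x (a * evk T k p) = zer x a * evk T k p := by
  have hE := evk_zer (T := T) x hp0 hx
  refine (pzn_unique' x (in1_pos x a)
    ((in1_zer x a).mul (closed_zero x) hE) (conj_neg x hE (in1_neg x a)).2 ?_).2.1
  calc pos x a * (zer x a * evk T k p) * (TPS.inv (evk T k p) * neg x a * evk T k p)
      = pos x a * zer x a * (evk T k p * TPS.inv (evk T k p)) * neg x a * evk T k p := by
        simp only [mul_assoc]
    _ = a * evk T k p := by
        rw [mul_inv hE.one, mul_one, pos_mul_zer_mul_neg x ha]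

end zer

theorem com_skew (hs : ∀ a b, T.β a b = - T.β b a) (d e : ι →₀ ℕ) :
    Tr201.com T d e = 2 * T.β d e := by
  rw [Tr201.com_apply, hs e d]; ring

theorem suppIn_of_zero (hs : ∀ a b, T.β a b = - T.β b a) {d : ι →₀ ℕ} {f : TPS T}
    (h : In1 (fun e => T.β d e = 0) f) : Tr201.SuppIn (Tr201.comKer T d) f := by
  intro e he
  rw [Tr201.mem_comKer, com_skew hs]
  rcases h.eq_zero_or he with rfl | h1
  · simp
  · rw [h1]; simp

theorem lamI_evk {k : ι} {p : PowerSeries R} (hp0 : PowerSeries.constantCoeff p = 1)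
    (h : (ι →₀ ℕ) →+ R) {d : ι →₀ ℕ} (hd : d ≠ Finsupp.single k (d k)) :
    lamI h d (evk T k p) = 0 :=
  lamI_zero_of (ray_add k) h (evk_in1 hp0) hd

/-- `x(e_k) ≥ 0`: attractor coefficient of `E B` and of `B` agree off `ℕ e_k`. -/
theorem lamI_left (hs : ∀ a b, T.β a b = - T.β b a) {k : ι} {p : PowerSeries R}
    (hp0 : PowerSeries.constantCoeff p = 1) (h : (ι →₀ ℕ) →+ R) {d : ι →₀ ℕ}
    (hd : d ≠ Finsupp.single k (d k)) (hK : 0 ≤ T.β d (Finsupp.single k 1))
    {B : TPS T} (hB : B.co 0 = 1) :
    lamI h d (zer (T.β d) (evk T k p * B)) = lamI h d (zer (T.β d) B) := by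
  rcases hK.lt_or_eq with hK | hK
  · rw [zer_evk_mul_pos _ hp0 hK hB]
  · rw [zer_evk_mul_zero _ hp0 hK.symm hB,
      lamI_mul h (evk_zero hp0) (zer_co_zero _ _)
        (suppIn_of_zero hs (evk_zer (T.β d) hp0 hK.symm)), lamI_evk hp0 h hd, zero_add]

/-- `x(e_k) ≤ 0`: attractor coefficient of `B E` and of `B` agree off `ℕ e_k`. -/
theorem lamI_right (hs : ∀ a b, T.β a b = - T.β b a) {k : ι} {p : PowerSeries R}
    (hp0 : PowerSeries.constantCoeff p = 1) (h : (ι →₀ ℕ) →+ R) {d : ι →₀ ℕ}
    (hd : d ≠ Finsupp.single k (d k)) (hK : T.β d (Finsupp.single k 1) ≤ 0)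
    {B : TPS T} (hB : B.co 0 = 1) :
    lamI h d (zer (T.β d) (B * evk T k p)) = lamI h d (zer (T.β d) B) := by
  rcases hK.lt_or_eq with hK | hK
  · rw [zer_mul_evk_neg _ hp0 hK hB]
  · rw [zer_mul_evk_zero _ hp0 hK hB,
      lamI_mul h (zer_co_zero _ _) (evk_zero hp0)
        (suppIn_of_zero hs (in1_zer (T.β d) B)), lamI_evk hp0 h hd, add_zero]

/-- string relation. -/
theorem str_rel (hs : ∀ a b, T.β a b = - T.β b a) {k : ι} {p : PowerSeries R}
    {B B' : TPS T} (h : evk T k p * B = B' * evk T k p) {m : ι →₀ ℕ} (hm : m k = 0) :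
    p * str T k m B =
      PowerSeries.rescale ((T.v ^ (2 * T.β m (Finsupp.single k 1)) : Rˣ) : R) p *
        str T k m B' := by
  rw [← str_evk_mul hs k p B hm, h, str_mul_evk hs k p B' hm]

theorem coeff_str_eq_zero {k : ι} {m : ι →₀ ℕ} {f : TPS T} {a : ℕ}
    (h : f.co (m + Finsupp.single k a) = 0) : PowerSeries.coeff a (str T k m f) = 0 := by
  rw [coeff_str, h, mul_zero]

theorem co_eq_zero_of_str {k : ι} {m : ι →₀ ℕ} {f : TPS T} {a : ℕ}
    (h : PowerSeries.coeff a (str T k m f) = 0) : f.co (m + Finsupp.single k a) = 0 := by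
  rw [str_co, h, mul_zero]

theorem bound_right (hs : ∀ a b, T.β a b = - T.β b a) {k : ι} {p : PowerSeries R}
    (hp : QD T.v p) (hp0 : PowerSeries.constantCoeff p = 1)
    {B B' : TPS T} (h : evk T k p * B = B' * evk T k p) {m : ι →₀ ℕ} (hm : m k = 0)
    (hK : 0 ≤ T.β m (Finsupp.single k 1)) {c c' : ℕ}
    (hc : (c' : ℤ) = c + T.β m (Finsupp.single k 1))
    (hB : ∀ a, c < a → B.co (m + Finsupp.single k a) = 0) (a : ℕ) (ha : c' < a) :
    B'.co (m + Finsupp.single k a) = 0 := by
  have hrel := str_rel hs h hm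
  obtain ⟨n, hn⟩ := Int.eq_ofNat_of_zero_le hK
  rw [hn] at hrel
  have h1 := str_rel_pos hp hp0 hrel
  apply co_eq_zero_of_str
  rw [h1]
  exact coeff_mul_zero_of_bound (natDegree_cpl _ n)
    (fun a ha => coeff_str_eq_zero (hB a ha)) a (by omega)

theorem bound_left (hs : ∀ a b, T.β a b = - T.β b a) {k : ι} {p : PowerSeries R}
    (hp : QD T.v p) (hp0 : PowerSeries.constantCoeff p = 1)
    {B B' : TPS T} (h : evk T k p * B = B' * evk T k p) {m : ι →₀ ℕ} (hm : m k = 0)
    (hK : T.β m (Finsupp.single k 1) ≤ 0) {c c' : ℕ}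
    (hc : (c' : ℤ) = c + T.β m (Finsupp.single k 1))
    (hB : ∀ a, c' < a → B'.co (m + Finsupp.single k a) = 0) (a : ℕ) (ha : c < a) :
    B.co (m + Finsupp.single k a) = 0 := by
  have hrel := str_rel hs h hm
  obtain ⟨n, hn⟩ := Int.eq_ofNat_of_zero_le (neg_nonneg.mpr hK)
  have hn' : T.β m (Finsupp.single k 1) = -(n : ℤ) := by omega
  rw [hn'] at hrel
  have h1 := str_rel_neg hp hp0 hrel
  apply co_eq_zero_of_str
  rw [h1]
  exact coeff_mul_zero_of_bound (natDegree_cmi _ n)
    (fun a ha => coeff_str_eq_zero (hB a ha)) a (by omega)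

theorem β_add_single {k : ι} (hs : ∀ a b, T.β a b = - T.β b a) (m : ι →₀ ℕ) (a : ℕ) :
    T.β (m + Finsupp.single k a) (Finsupp.single k 1) = T.β m (Finsupp.single k 1) := by
  rw [map_add, AddMonoidHom.add_apply, β_single_left k a (Finsupp.single k 1), β_self hs]
  simp

theorem c_add_single {k : ι} {c : (ι →₀ ℕ) →+ ℕ} (hc : c (Finsupp.single k 1) = 0)
    (m : ι →₀ ℕ) (a : ℕ) : c (m + Finsupp.single k a) = c m := by
  rw [map_add, single_nsmul, map_nsmul, hc]; simp

/-- the size of `m` away from `k`. -/
noncomputable def wht : (ι →₀ ℕ) →+ ℕ := Finsupp.liftAddHom (fun _ => AddMonoidHom.id ℕ)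

theorem wht_single (i : ι) (a : ℕ) : wht (Finsupp.single i a) = a := by
  unfold wht
  simp [Finsupp.liftAddHom_apply_single]

theorem wht_eq_zero {m : ι →₀ ℕ} (h : wht m = 0) : m = 0 := by
  ext i
  have h1 : m = m.erase i + Finsupp.single i (m i) := (Finsupp.erase_add_single i m).symm
  rw [h1, map_add, wht_single] at h
  have : m i = 0 := by omega
  simpa using this

theorem wht_lt {m m' : ι →₀ ℕ} (h : m ≤ m') (hne : m ≠ m') : wht m < wht m' := by
  obtain ⟨d, rfl⟩ := exists_add_of_le h
  have hd : d ≠ 0 := by rintro rfl; exact hne (by simp)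
  rw [map_add]
  have : wht d ≠ 0 := fun h0 => hd (wht_eq_zero h0)
  omega

theorem erase_le_erase {e d : ι →₀ ℕ} (k : ι) (h : e ≤ d) : e.erase k ≤ d.erase k := by
  intro i
  by_cases hi : i = k
  · subst hi; simp
  · rw [Finsupp.erase_ne hi, Finsupp.erase_ne hi]; exact h i

/-- one violation step: if everything below `d = m + a e_k` is capped and the attractor
coefficient at `d` vanishes then the coefficient at `d` vanishes. -/
theorem step {k : ι} {c : (ι →₀ ℕ) →+ ℕ} (hc : c (Finsupp.single k 1) = 0)
    (hs : ∀ a b, T.β a b = - T.β b a)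
    (h : (ι →₀ ℕ) →+ R) (hreg : ∀ d, d ≠ 0 → IsLeftRegular (h d))
    {B : TPS T} (hB : B.co 0 = 1) {m : ι →₀ ℕ} (hm : m k = 0)
    (hlow : ∀ m' : ι →₀ ℕ, m' k = 0 → wht m' < wht m → ∀ a, c m' < a →
      B.co (m' + Finsupp.single k a) = 0)
    (hlam : ∀ a, c m < a → lamI h (m + Finsupp.single k a)
      (zer (T.β (m + Finsupp.single k a)) B) = 0)
    (a : ℕ) (ha : c m < a) : B.co (m + Finsupp.single k a) = 0 := by
  induction a using Nat.strong_induction_on with
  | _ a ih =>
    have hd0 : m + Finsupp.single k a ≠ 0 := by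
      intro h0
      have := DFunLike.congr_fun h0 k
      simp [hm] at this
      omega
    have hnS : ¬ Cp c k (m + Finsupp.single k a) := by
      rw [cp_def, c_add_single hc]
      simp [hm]
      exact ha
    have hx : T.β (m + Finsupp.single k a) (m + Finsupp.single k a) = 0 := β_self hs _
    have hfv := first_violation (T := T) (S := Cp c k) cp_add h
      (T.β (m + Finsupp.single k a)) hB hd0 hx hnS (by
        intro e he he0 hne
        by_contra hcp
        apply hne
        rw [cp_def, not_le] at hcp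
        have hce : c e = c (e.erase k) := cap_split hc e
        rw [hce] at hcp
        have hek : (e.erase k) k = 0 := by simp
        have hle : e.erase k ≤ m := by
          have h1 := erase_le_erase k he.le
          have h2 : (m + Finsupp.single k a).erase k = m := by
            ext i
            by_cases hi : i = k
            · subst hi; simp [hm]
            · rw [Finsupp.erase_ne hi]; simp [Finsupp.single_apply, Ne.symm hi]
          rwa [h2] at h1
        rw [← erase_add_single' k e]
        by_cases hem : e.erase k = m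
        · rw [hem] at hcp ⊢
          apply ih (e k) _ hcp
          have h1 : e k ≤ a := by
            have := he.le k
            simpa [hm] using this
          rcases h1.lt_or_eq with h2 | h2
          · exact h2
          · exfalso
            apply he.ne
            rw [← erase_add_single' k e, hem, h2]
        · exact hlow _ hek (wht_lt hle hem) _ hcp)
    rw [hlam a ha] at hfv
    exact (hreg _ hd0) (by simp only [mul_zero]; exact hfv.symm)

/-- **BOUND.** -/
theorem bound (hs : ∀ a b, T.β a b = - T.β b a) {k : ι} {p : PowerSeries R}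
    (hp : QD T.v p) (hp0 : PowerSeries.constantCoeff p = 1)
    {c c' : (ι →₀ ℕ) →+ ℕ} (hc : c (Finsupp.single k 1) = 0)
    (hc' : c' (Finsupp.single k 1) = 0)
    (hcc : ∀ m, (c' m : ℤ) = c m + T.β m (Finsupp.single k 1))
    (h : (ι →₀ ℕ) →+ R) (hreg : ∀ d, d ≠ 0 → IsLeftRegular (h d))
    {A B B' : TPS T} (hA0 : A.co 0 = 1) (hAB : A = evk T k p * B) (hAB' : A = B' * evk T k p)
    (hface : ∀ a, A.co (Finsupp.single k a) = PowerSeries.coeff a p)
    (hpl : ∀ d, ¬ IsRay d → lamI h d (zer (T.β d) A) = 0) :
    Capped c k B ∧ Capped c' k B' := by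
  have hE0 : (evk T k p).co 0 = 1 := evk_zero hp0
  have hB0 : B.co 0 = 1 := by
    have := hA0
    rw [hAB, co_mul_zero', hE0, one_mul] at this
    exact this
  have hB0' : B'.co 0 = 1 := by
    have := hA0
    rw [hAB', co_mul_zero', hE0, mul_one] at this
    exact this
  have hz : (0 : ι →₀ ℕ) k = 0 := rfl
  have hstrA : str T k 0 A = p := by
    ext a
    rw [coeff_str, zero_add, hface]
    simp
  have hu := isUnit_of_one hp0
  have hstrB : str T k 0 B = 1 := by
    have h1 := str_evk_mul hs k p B hz
    rw [← hAB, hstrA] at h1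
    apply hu.mul_left_cancel
    rw [← h1, mul_one]
  have hstrB' : str T k 0 B' = 1 := by
    have h1 := str_mul_evk hs k p B' hz
    rw [← hAB', hstrA] at h1
    apply hu.mul_left_cancel
    rw [mul_one]
    conv_rhs => rw [h1]
    simp
  have key : ∀ n : ℕ, ∀ m : ι →₀ ℕ, m k = 0 → wht m = n →
      (∀ a, c m < a → B.co (m + Finsupp.single k a) = 0) ∧
      (∀ a, c' m < a → B'.co (m + Finsupp.single k a) = 0) := by
    intro n
    induction n using Nat.strong_induction_on with
    | _ n ih =>
      intro m hm hn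
      by_cases hm0 : m = 0
      · subst hm0
        constructor
        · intro a ha
          apply co_eq_zero_of_str
          rw [hstrB, PowerSeries.coeff_one, if_neg (by omega)]
        · intro a ha
          apply co_eq_zero_of_str
          rw [hstrB', PowerSeries.coeff_one, if_neg (by omega)]
      · have hray : ∀ a, 0 < a → ¬ IsRay (m + Finsupp.single k a) := by
          rintro a ha ⟨i, hi⟩
          by_cases hik : i = k
          · subst hik
            apply hm0
            ext j
            by_cases hj : j = i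
            · subst hj; exact hm
            · have := DFunLike.congr_fun hi j
              simpa [Finsupp.single_apply, Ne.symm hj] using this
          · have := DFunLike.congr_fun hi k
            simp [Finsupp.single_apply, hik, hm] at this
            omega
        have hnk : ∀ a, m + Finsupp.single k a ≠
            Finsupp.single k ((m + Finsupp.single k a) k) := by
          intro a hi
          apply hm0
          ext j
          by_cases hj : j = k
          · subst hj; exact hm
          · have := DFunLike.congr_fun hi j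
            simpa [Finsupp.single_apply, Ne.symm hj] using this
        rcases le_total 0 (T.β m (Finsupp.single k 1)) with hK | hK
        · have h1 : ∀ a, c m < a → B.co (m + Finsupp.single k a) = 0 := by
            apply step hc hs h hreg hB0 hm
            · intro m' hm' hlt
              exact (ih (wht m') (by omega) m' hm' rfl).1
            · intro a ha
              rw [← lamI_left hs hp0 h (hnk a) (by rw [β_add_single hs]; exact hK) hB0,
                ← hAB]
              exact hpl _ (hray a (by omega))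
          exact ⟨h1, bound_right hs hp hp0 (hAB ▸ hAB') hm hK (hcc m) h1⟩
        · have h1 : ∀ a, c' m < a → B'.co (m + Finsupp.single k a) = 0 := by
            apply step hc' hs h hreg hB0' hm
            · intro m' hm' hlt
              exact (ih (wht m') (by omega) m' hm' rfl).2
            · intro a ha
              rw [← lamI_right hs hp0 h (hnk a) (by rw [β_add_single hs]; exact hK) hB0',
                ← hAB']
              exact hpl _ (hray a (by omega))
          exact ⟨bound_left hs hp hp0 (hAB ▸ hAB') hm hK (hcc m) h1, h1⟩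
  constructor
  · intro d hd
    by_contra hcp
    apply hd
    rw [cp_def, not_le, cap_split hc d] at hcp
    rw [← erase_add_single' k d]
    exact (key _ (d.erase k) (by simp) rfl).1 _ hcp
  · intro d hd
    by_contra hcp
    apply hd
    rw [cp_def, not_le, cap_split hc' d] at hcp
    rw [← erase_add_single' k d]
    exact (key _ (d.erase k) (by simp) rfl).2 _ hcp

end Crest.Agent.R059.Mu
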