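import Crest.Agent.R059.Mu2b_633

set_option autoImplicit false
set_option linter.unusedSectionVars false
set_option linter.unusedSimpArgs false

/-!
Row 59 (S0081), leaf MUT, part 2c (helper633): the mutated element
`Ã = tilS B * E' = E' * tilS' B'` and its attractor data.
-/

namespace Crest.Agent.R059.Mu

open Finset TPS MutIso

variable {ι : Type*} [DecidableEq ι] {R : Type*} [CommRing R] {T T' : Tw (ι →₀ ℕ) R}

theorem erase_of_zero {k : ι} {m : ι →₀ ℕ} (hm : m k = 0) : m.erase k = m := by
  ext i
  by_cases hi : i = k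
  · subst hi; simp [hm]
  · rw [Finsupp.erase_ne hi]

theorem erase_add_single_same {k : ι} {m : ι →₀ ℕ} (hm : m k = 0) (a : ℕ) :
    (m + Finsupp.single k a).erase k = m := by
  ext i
  by_cases hi : i = k
  · subst hi; simp [hm]
  · rw [Finsupp.erase_ne hi]; simp [Finsupp.single_apply, Ne.symm hi]

theorem til_add_single {k : ι} {c : (ι →₀ ℕ) →+ ℕ} (hc : c (Finsupp.single k 1) = 0)
    {m : ι →₀ ℕ} (hm : m k = 0) (a : ℕ) :
    til c k (m + Finsupp.single k a) = m + Finsupp.single k (c m - a) := by
  unfold til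
  rw [erase_add_single_same hm, c_add_single hc]
  congr 2
  simp [hm]

theorem cp_add_single {k : ι} {c : (ι →₀ ℕ) →+ ℕ} (hc : c (Finsupp.single k 1) = 0)
    {m : ι →₀ ℕ} (hm : m k = 0) (a : ℕ) : Cp c k (m + Finsupp.single k a) ↔ a ≤ c m := by
  rw [cp_def, c_add_single hc]
  simp [hm]

theorem str_tilS {k : ι} {c : (ι →₀ ℕ) →+ ℕ} (hc : c (Finsupp.single k 1) = 0)
    (hv : T'.v = T.v)
    (hβ : ∀ m, T'.β m (Finsupp.single k 1) = - T.β m (Finsupp.single k 1))
    {m : ι →₀ ℕ} (hm : m k = 0) (B : TPS T) :
    str T' k m (tilS c k T' B) =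
      refl T.v (T.β m (Finsupp.single k 1)) (c m) (str T k m B) := by
  ext b
  rw [coeff_str, coeff_refl, hβ, hv]
  by_cases hb : b ≤ c m
  · rw [if_pos hb, co_tilS_of ((cp_add_single hc hm b).2 hb), til_add_single hc hm, coeff_str,
      ← mul_assoc, ← Units.val_mul, ← zpow_add]
    congr 3
    rw [Nat.cast_sub hb]
    ring
  · rw [if_neg hb, co_tilS_not (fun h => hb ((cp_add_single hc hm b).1 h)), mul_zero]

theorem capped_str {k : ι} {c : (ι →₀ ℕ) →+ ℕ} (hc : c (Finsupp.single k 1) = 0)
    {B : TPS T} (hB : Capped c k B) {m : ι →₀ ℕ} (hm : m k = 0) (a : ℕ) (ha : c m < a) :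
    PowerSeries.coeff a (str T k m B) = 0 := by
  apply coeff_str_eq_zero
  apply hB.co_not
  rw [cp_add_single hc hm]
  omega

theorem ext_str {k : ι} {f g : TPS T} (h : ∀ m : ι →₀ ℕ, m k = 0 → str T k m f = str T k m g) :
    f = g := by
  ext d
  rw [← erase_add_single' k d, str_co, str_co, h _ (by simp)]

/-- `Ã = tilS B * E' = E' * tilS' B'`. -/
theorem mut_two_sides (hs : ∀ a b, T.β a b = - T.β b a) (hs' : ∀ a b, T'.β a b = - T'.β b a)
    {k : ι} {p : PowerSeries R} (hp : QD T.v p) (hp0 : PowerSeries.constantCoeff p = 1)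
    {c c' : (ι →₀ ℕ) →+ ℕ} (hc : c (Finsupp.single k 1) = 0)
    (hc' : c' (Finsupp.single k 1) = 0)
    (hcc : ∀ m, (c' m : ℤ) = c m + T.β m (Finsupp.single k 1))
    (hv : T'.v = T.v)
    (hβ : ∀ m, T'.β m (Finsupp.single k 1) = - T.β m (Finsupp.single k 1))
    {B B' : TPS T} (h : evk T k p * B = B' * evk T k p)
    (hB : Capped c k B) (hB' : Capped c' k B') :
    tilS c k T' B * evk T' k p = evk T' k p * tilS c' k T' B' := by
  apply ext_str (k := k)
  intro m hm
  rw [str_mul_evk hs' k p _ hm, str_evk_mul hs' k p _ hm, str_tilS hc hv hβ hm,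
    str_tilS hc' hv hβ hm, hβ, hv]
  exact refl_rel hp hp0 (hcc m) (capped_str hc hB hm) (capped_str hc' hB' hm) (str_rel hs h hm)

/-! ### attractor data -/

theorem map_single_nsmul_nat (x : (ι →₀ ℕ) →+ ℕ) (k : ι) (a : ℕ) :
    x (Finsupp.single k a) = a • x (Finsupp.single k 1) := by
  rw [single_nsmul, map_nsmul]

theorem flipF_single_of_zero {c : (ι →₀ ℕ) →+ ℕ} {k i : ι} (hi : i ≠ k)
    (h0 : c (Finsupp.single i 1) = 0) (l : (ι →₀ ℕ) →+ R) (a : ℕ) :
    flipF c k l (Finsupp.single i a) = l (Finsupp.single i a) := by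
  rw [map_single_nsmul, map_single_nsmul l, flipF_single_ne hi, h0, zero_smul, add_zero]

/-- transport of attractor data of a capped series. -/
theorem data_tilS {k : ι} {c : (ι →₀ ℕ) →+ ℕ} (hc : c (Finsupp.single k 1) = 0)
    (H : Rel c k T T') {B : TPS T} (hB : Capped c k B) (hB0 : B.co 0 = 1)
    (l : (ι →₀ ℕ) →+ R) {d : ι →₀ ℕ} (hd : Cp c k d) :
    lamI l d (zer (T'.β d) (tilS c k T' B)) =
      lamI (flipF c k l) (til c k d) (zer (T.β (til c k d)) B) := by
  have hz := hB.zer hB0 (T.β (til c k d))
  have e1 : zer (T'.β d) (tilS c k T' B) = tilS c k T' (zer (T.β (til c k d)) B) := by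
    have := tilS_zer_att hc H (Cp.til hc d) hB hB0
    rwa [til_til hc hd] at this
  have e2 := lam_til (T' := T') hc H (flipF c k l) hz (hz.inv (zer_co_zero _ _)) (Cp.til hc d)
  rw [til_til hc hd, flipF_flipF hc] at e2
  unfold lamI
  rw [e1, ← tilS_inv hc H hz (zer_co_zero _ _), e2]

theorem data_tilS_not {k : ι} {c : (ι →₀ ℕ) →+ ℕ}
    {B : TPS T} (hB0 : B.co 0 = 1)
    (l : (ι →₀ ℕ) →+ R) {d : ι →₀ ℕ} (hd : ¬ Cp c k d) :
    lamI l d (zer (T'.β d) (tilS c k T' B)) = 0 := by
  have h0 : (tilS c k T' B).co 0 = 1 := by rw [tilS_co_zero, hB0]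
  have hz := (capped_tilS (T' := T') (c := c) (k := k) B).zer h0 (T'.β d)
  exact lam_not_capped l hz (hz.inv (zer_co_zero _ _)) hd

/-- the attractor datum on a ray `ℕ e_k` only depends on the face. -/
theorem data_face (hs : ∀ a b, T.β a b = - T.β b a) {k : ι} {p : PowerSeries R}
    (hp0 : PowerSeries.constantCoeff p = 1) {A : TPS T} (hA0 : A.co 0 = 1)
    (hface : ∀ a, A.co (Finsupp.single k a) = PowerSeries.coeff a p)
    (l : (ι →₀ ℕ) →+ R) (a : ℕ) :
    lamI l (Finsupp.single k a) (zer (T.β (Finsupp.single k a)) A) =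
      lamI l (Finsupp.single k a) (evk T k p) := by
  have hle : ∀ e : ι →₀ ℕ, e ≤ Finsupp.single k a → e = Finsupp.single k (e k) := by
    intro e he
    ext i
    by_cases hi : i = k
    · subst hi; simp
    · have h1 := he i
      rw [Finsupp.single_eq_of_ne hi] at h1
      rw [Finsupp.single_eq_of_ne hi]
      omega
  have hco : ∀ e, e ≤ Finsupp.single k a → A.co e = (evk T k p).co e := by
    intro e he
    rw [hle e he, hface, evk_single]
  have hx : T.β (Finsupp.single k a) (Finsupp.single k 1) = 0 := by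
    rw [β_single_left k a (Finsupp.single k 1), β_self hs, mul_zero]
  have hz := evk_zer (T := T) (T.β (Finsupp.single k a)) hp0 hx
  apply lamI_congr
  intro e he
  have h1 := (zer_congr (T.β (Finsupp.single k a)) (T.β (Finsupp.single k a)) hA0 e
    (fun f hf => hco f (hf.trans he)) (fun _ _ => Iff.rfl) (fun _ _ => Iff.rfl)).1
  rw [h1, (parts_of_zer _ hz).2.1]

/-- **the mutation lemma, data form.**  `K` = the (common) value of the attractor data on the
rays; `dataA` is the plainness of `A` for every height functional. -/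
theorem mut_data (hs : ∀ a b, T.β a b = - T.β b a) (hs' : ∀ a b, T'.β a b = - T'.β b a)
    {k : ι} {p : PowerSeries R} (hp : QD T.v p) (hp0 : PowerSeries.constantCoeff p = 1)
    {c c' : (ι →₀ ℕ) →+ ℕ} (hc : c (Finsupp.single k 1) = 0)
    (hc' : c' (Finsupp.single k 1) = 0)
    (hcc : ∀ m, (c' m : ℤ) = c m + T.β m (Finsupp.single k 1))
    (hcz : ∀ i, 0 ≤ T.β (Finsupp.single i 1) (Finsupp.single k 1) →
      c (Finsupp.single i 1) = 0)
    (hcz' : ∀ i, T.β (Finsupp.single i 1) (Finsupp.single k 1) ≤ 0 →
      c' (Finsupp.single i 1) = 0)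
    (hR : Rel c k T T') (hR' : Rel c' k T T')
    (hβ : ∀ m, T'.β m (Finsupp.single k 1) = - T.β m (Finsupp.single k 1))
    {A B B' : TPS T} (hA0 : A.co 0 = 1) (hAB : A = evk T k p * B) (hAB' : A = B' * evk T k p)
    (hB : Capped c k B) (hB' : Capped c' k B')
    (val : ((ι →₀ ℕ) →+ R) → ι → ℕ → R)
    (hval : ∀ (l l' : (ι →₀ ℕ) →+ R) (i : ι) (a : ℕ),
      (∀ b, l (Finsupp.single i b) = l' (Finsupp.single i b)) → val l i a = val l' i a)
    (hnode : ∀ (l : (ι →₀ ℕ) →+ R) (i : ι) (a : ℕ), 0 < a → i ≠ k →
      lamI l (Finsupp.single i a) (zer (T.β (Finsupp.single i a)) A) = val l i a)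
    (hzero : ∀ (l : (ι →₀ ℕ) →+ R) (d : ι →₀ ℕ), ¬ IsRay d → lamI l d (zer (T.β d) A) = 0) :
    (∀ (l : (ι →₀ ℕ) →+ R) (i : ι) (a : ℕ), 0 < a → i ≠ k →
      lamI l (Finsupp.single i a)
        (zer (T'.β (Finsupp.single i a)) (tilS c k T' B * evk T' k p)) = val l i a) ∧
    (∀ (l : (ι →₀ ℕ) →+ R) (d : ι →₀ ℕ), ¬ IsRay d →
      lamI l d (zer (T'.β d) (tilS c k T' B * evk T' k p)) = 0) ∧
    (∀ a, (tilS c k T' B * evk T' k p).co (Finsupp.single k a) = PowerSeries.coeff a p) := by
  have hE0 : (evk T k p).co 0 = 1 := evk_zero hp0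
  have hB0 : B.co 0 = 1 := by
    have := hA0
    rw [hAB, co_mul_zero', hE0, one_mul] at this
    exact this
  have hB0' : B'.co 0 = 1 := by
    have := hA0
    rw [hAB', co_mul_zero', hE0, mul_one] at this
    exact this
  have htwo := mut_two_sides (T' := T') hs hs' hp hp0 hc hc' hcc hR.hv hβ (hAB ▸ hAB') hB hB'
  -- not a ray in direction `k`: reduce to `d̃` of `A`
  have key : ∀ (l : (ι →₀ ℕ) →+ R) (d : ι →₀ ℕ), d.erase k ≠ 0 →
      (T'.β d (Finsupp.single k 1) ≤ 0 ∧
        lamI l d (zer (T'.β d) (tilS c k T' B * evk T' k p)) =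
          (open Classical in if Cp c k d then
            lamI (flipF c k l) (til c k d) (zer (T.β (til c k d)) A) else 0)) ∨
      (0 ≤ T'.β d (Finsupp.single k 1) ∧
        lamI l d (zer (T'.β d) (tilS c k T' B * evk T' k p)) =
          (open Classical in if Cp c' k d then
            lamI (flipF c' k l) (til c' k d) (zer (T.β (til c' k d)) A) else 0)) := by
    classical
    intro l d hd
    have hdk : ∀ e : ι →₀ ℕ, e.erase k = d.erase k → e ≠ Finsupp.single k (e k) := by
      intro e he h0
      apply hd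
      rw [← he, h0]
      ext i
      by_cases hi : i = k
      · subst hi; simp
      · rw [Finsupp.erase_ne hi]; simp [Finsupp.single_apply, Ne.symm hi]
    have hβtil : ∀ (cc : (ι →₀ ℕ) →+ ℕ),
        T.β (til cc k d) (Finsupp.single k 1) = - T'.β d (Finsupp.single k 1) := by
      intro cc
      rw [hβ, neg_neg]
      have h1 : til cc k d = d.erase k + Finsupp.single k (cc d - d k) := rfl
      rw [h1, β_add_single hs]
      conv_rhs => rw [← erase_add_single' k d]
      rw [β_add_single hs]
    rcases le_total (T'.β d (Finsupp.single k 1)) 0 with hK | hK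
    · left
      refine ⟨hK, ?_⟩
      have h0 : (tilS c k T' B).co 0 = 1 := by rw [tilS_co_zero, hB0]
      rw [lamI_right hs' hp0 l (hdk d rfl) hK h0]
      split_ifs with hcp
      · rw [data_tilS hc hR hB hB0 l hcp, hAB,
          lamI_left hs hp0 _ (hdk _ (til_erase d)) (by rw [hβtil c]; omega) hB0]
      · exact data_tilS_not hB0 l hcp
    · right
      refine ⟨hK, ?_⟩
      have h0 : (tilS c' k T' B').co 0 = 1 := by rw [tilS_co_zero, hB0']
      rw [htwo, lamI_left hs' hp0 l (hdk d rfl) hK h0]
      split_ifs with hcp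
      · rw [data_tilS hc' hR' hB' hB0' l hcp, hAB',
          lamI_right hs hp0 _ (hdk _ (til_erase d)) (by rw [hβtil c']; omega) hB0']
      · exact data_tilS_not hB0' l hcp
  have herase : ∀ (i : ι) (a : ℕ), 0 < a → i ≠ k → (Finsupp.single i a).erase k ≠ 0 := by
    intro i a ha hi h0
    have h1 := DFunLike.congr_fun h0 i
    rw [Finsupp.erase_ne hi] at h1
    simp at h1
    omega
  refine ⟨?_, ?_, ?_⟩
  · intro l i a ha hi
    have hsg : T'.β (Finsupp.single i a) (Finsupp.single k 1) =
        - (a * T.β (Finsupp.single i 1) (Finsupp.single k 1)) := by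
      rw [hβ, β_single_left i a (Finsupp.single k 1)]
    have hpos : (0 : ℤ) < a := by exact_mod_cast ha
    have hik : (Finsupp.single i a : ι →₀ ℕ) k = 0 := Finsupp.single_eq_of_ne (Ne.symm hi)
    have htil : ∀ cc : (ι →₀ ℕ) →+ ℕ, cc (Finsupp.single i 1) = 0 →
        til cc k (Finsupp.single i a) = Finsupp.single i a := by
      intro cc h0
      unfold til
      rw [erase_of_zero hik, map_single_nsmul_nat cc i a, h0]
      simp
    rcases key l (Finsupp.single i a) (herase i a ha hi) with ⟨hK, h1⟩ | ⟨hK, h1⟩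
    · have h0 : c (Finsupp.single i 1) = 0 := by
        apply hcz
        rw [hsg] at hK
        by_contra hneg
        push Not at hneg
        nlinarith
      rw [h1, if_pos, htil c h0, hnode _ i a ha hi]
      · exact hval _ _ i a (flipF_single_of_zero hi h0 l)
      · rw [cp_def, hik]; exact Nat.zero_le _
    · have h0 : c' (Finsupp.single i 1) = 0 := by
        apply hcz'
        rw [hsg] at hK
        by_contra hneg
        push Not at hneg
        nlinarith
      rw [h1, if_pos, htil c' h0, hnode _ i a ha hi]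
      · exact hval _ _ i a (flipF_single_of_zero hi h0 l)
      · rw [cp_def, hik]; exact Nat.zero_le _
  · intro l d hray
    have hd : d.erase k ≠ 0 := by
      intro h0
      apply hray
      refine ⟨k, ?_⟩
      conv_lhs => rw [← erase_add_single' k d, h0, zero_add]
    -- `til cc d` a ray forces `d` a ray
    have hback : ∀ cc : (ι →₀ ℕ) →+ ℕ, cc (Finsupp.single k 1) = 0 →
        (∀ i, i ≠ k → (d.erase k = Finsupp.single i (d.erase k i)) →
          d.erase k i ≠ 0 → cc (Finsupp.single i 1) = 0) →
        Cp cc k d → ¬ IsRay (til cc k d) := by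
      rintro cc hcc0 hz hcp ⟨i, hi⟩
      by_cases hik : i = k
      · subst hik
        apply hd
        rw [← til_erase (c := cc) d, hi]
        ext j
        by_cases hj : j = i
        · subst hj; simp
        · rw [Finsupp.erase_ne hj]; simp [Finsupp.single_apply, Ne.symm hj]
      · -- `d.erase k` is the same ray, `cc d = 0`, so `d k = 0`
        have h1 : d.erase k = Finsupp.single i (d.erase k i) := by
          have hti : til cc k d i = d.erase k i := by
            rw [← til_erase (c := cc) d, Finsupp.erase_ne hik]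
          ext j
          by_cases hj : j = k
          · subst hj; simp [Finsupp.single_apply, hik]
          · have h6 := DFunLike.congr_fun hi j
            have h7 : d.erase k j = til cc k d j := by
              rw [← til_erase (c := cc) d, Finsupp.erase_ne hj]
            rw [h7, h6, hti]
        have h2 : d.erase k i ≠ 0 := by
          intro h0
          apply hd
          rw [h1, h0, Finsupp.single_zero]
        have h3 := hz i hik h1 h2
        have h4 : cc d = 0 := by
          rw [cap_split hcc0 d, h1, map_single_nsmul_nat, h3, smul_zero]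
        rw [cp_def, h4] at hcp
        apply hray
        refine ⟨i, ?_⟩
        have h5 : d k = 0 := by omega
        rw [← erase_of_zero h5]
        exact h1
    rcases key l d hd with ⟨hK, h1⟩ | ⟨hK, h1⟩
    · rw [h1]
      split_ifs with hcp
      · apply hzero
        apply hback c hc _ hcp
        intro i hik hi hne
        apply hcz
        rw [hβ, ← erase_add_single' k d, β_add_single hs, hi,
          β_single_left i _ (Finsupp.single k 1)] at hK
        have hpos : (0 : ℤ) < (d.erase k i : ℕ) := by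
          exact_mod_cast Nat.pos_of_ne_zero hne
        by_contra hneg
        push Not at hneg
        nlinarith
      · rfl
    · rw [h1]
      split_ifs with hcp
      · apply hzero
        apply hback c' hc' _ hcp
        intro i hik hi hne
        apply hcz'
        rw [hβ, ← erase_add_single' k d, β_add_single hs, hi,
          β_single_left i _ (Finsupp.single k 1)] at hK
        have hpos : (0 : ℤ) < (d.erase k i : ℕ) := by
          exact_mod_cast Nat.pos_of_ne_zero hne
        by_contra hneg
        push Not at hneg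
        nlinarith
      · rfl
  · intro a
    have hz : (0 : ι →₀ ℕ) k = 0 := rfl
    have h1 : str T' k 0 (tilS c k T' B) = 1 := by
      ext b
      rw [coeff_str, zero_add, PowerSeries.coeff_one]
      by_cases hb : b = 0
      · subst hb
        simp [tilS_co_zero, hB0]
      · rw [if_neg hb, co_tilS_not, mul_zero]
        intro hcp
        have := (cp_add_single (m := 0) hc hz b)
        rw [zero_add] at this
        have h2 := this.1 hcp
        rw [map_zero] at h2
        omega
    have h2 := str_mul_evk hs' k p (tilS c k T' B) hz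
    rw [h1, mul_one] at h2
    have h3 := congrArg (PowerSeries.coeff a) h2
    rw [coeff_str, zero_add] at h3
    simpa using h3

end Crest.Agent.R059.Mu
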