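import Crest.Agent.R059.Wall_999
import Crest.Agent.R059.CloC_987
import Crest.Agent.R059.JTwo_269

/-!
# Row 59, WALL: positivity of every wall of a plain element, all degrees (helper999)
-/

set_option autoImplicit false
set_option linter.unusedSectionVars false

open Finset

namespace Crest.Agent.R059.Wall999

open TPS FlowV999

section ray

variable {ι : Type}

theorem OnRay.add {a b c : ι →₀ ℕ} (ha : OnRay a c) (hb : OnRay b c) : OnRay (a + b) c := by
  obtain ⟨i, j, hi, hj, hij⟩ := ha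
  obtain ⟨k, l, hk, hl, hkl⟩ := hb
  refine ⟨i * k, j * k + l * i, by positivity, by positivity, ?_⟩
  have h1 : (i * k) • a = (j * k) • c := by
    rw [mul_comm i k, mul_comm j k, mul_smul, mul_smul, hij]
  have h2 : (i * k) • b = (l * i) • c := by
    rw [mul_comm l i, mul_smul, mul_smul, hkl]
  rw [smul_add, h1, h2, add_smul]

theorem onRay_nsmul {k : ℕ} (hk : 0 < k) (c : ι →₀ ℕ) : OnRay (k • c) c :=
  ⟨1, k, one_pos, hk, by rw [one_smul]⟩

/-- multiples of a basis vector -/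
theorem onRay_single [DecidableEq ι] {e : ι →₀ ℕ} {i : ι} {k : ℕ} (h : OnRay e (Finsupp.single i k)) :
    e = Finsupp.single i (e i) := by
  obtain ⟨a, b, ha, _, hab⟩ := h
  ext j
  by_cases hj : j = i
  · subst hj; simp
  · have := DFunLike.congr_fun hab j
    simp only [Finsupp.coe_smul, Pi.smul_apply, smul_eq_mul, Finsupp.single_apply,
      if_neg (Ne.symm hj), mul_zero] at this
    rw [Finsupp.single_apply, if_neg (Ne.symm hj)]
    rcases mul_eq_zero.1 this with h | h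
    · omega
    · exact h

end ray

section dt

variable {ι : Type} [DecidableEq ι] {R : Type*} [CommRing R] [TopologicalSpace R]
  {T : Tw (ι →₀ ℕ) R}

/-- the factors of the ray of `k` -/
def RGen (Dil : (ι →₀ ℕ) → ℤ → TPS T) (k : ι →₀ ℕ) : Set (TPS T) :=
  {f | ∃ (c : ι →₀ ℕ) (a : ℤ), OnRay c k ∧ f = Dil c a}

/-- limits of finite products of factors of the ray of `k` -/
def DTr (Dil : (ι →₀ ℕ) → ℤ → TPS T) (k : ι →₀ ℕ) : Set (TPS T) :=
  closure (Submonoid.closure (RGen Dil k) : Set (TPS T))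

theorem RGen_congr (Dil : (ι →₀ ℕ) → ℤ → TPS T) {k k' : ι →₀ ℕ} (h : OnRay k k') :
    RGen Dil k = RGen Dil k' := by
  ext f
  constructor
  · rintro ⟨c, a, hc, rfl⟩; exact ⟨c, a, hc.trans h, rfl⟩
  · rintro ⟨c, a, hc, rfl⟩; exact ⟨c, a, hc.trans h.symm, rfl⟩

theorem DTr_congr (Dil : (ι →₀ ℕ) → ℤ → TPS T) {k k' : ι →₀ ℕ} (h : OnRay k k') :
    DTr Dil k = DTr Dil k' := by
  rw [DTr, DTr, RGen_congr Dil h]

theorem one_mem_DTr (Dil : (ι →₀ ℕ) → ℤ → TPS T) (k : ι →₀ ℕ) : (1 : TPS T) ∈ DTr Dil k :=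
  subset_closure (Submonoid.one_mem _)

theorem dil_mem_DTr (Dil : (ι →₀ ℕ) → ℤ → TPS T) {k c : ι →₀ ℕ} (a : ℤ) (h : OnRay c k) :
    Dil c a ∈ DTr Dil k :=
  subset_closure (Submonoid.subset_closure ⟨c, a, h, rfl⟩)

theorem in1_closure_RGen (Dil : (ι →₀ ℕ) → ℤ → TPS T)
    (hDil : ∀ c a, c ≠ 0 → In1 (fun e => OnRay e c) (Dil c a)) {k : ι →₀ ℕ} (hk : k ≠ 0)
    {f : TPS T} (hf : f ∈ Submonoid.closure (RGen Dil k)) : In1 (fun e => OnRay e k) f := by
  induction hf using Submonoid.closure_induction with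
  | mem f hf =>
    obtain ⟨c, a, hc, rfl⟩ := hf
    exact (hDil c a (hc.ne_zero hk)).mono fun e _ he => he.trans hc
  | one => exact in1_one _
  | mul f g _ _ hf hg => exact In1.mul (fun a b ha hb => ha.add hb) hf hg

theorem in1_DTr [T1Space R] (Dil : (ι →₀ ℕ) → ℤ → TPS T)
    (hDil : ∀ c a, c ≠ 0 → In1 (fun e => OnRay e c) (Dil c a)) {k : ι →₀ ℕ} (hk : k ≠ 0)
    {f : TPS T} (hf : f ∈ DTr Dil k) : In1 (fun e => OnRay e k) f := by
  refine ⟨?_, fun d hd hdk => ?_⟩
  · exact closure_co_eq (fun g hg => (in1_closure_RGen Dil hDil hk hg).one) hf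
  · exact closure_co_eq (fun g hg => (in1_closure_RGen Dil hDil hk hg).supp d hd hdk) hf

theorem mem_closure_of_fin {D : Set (TPS T)} {f : TPS T}
    (h : ∀ S : Finset (ι →₀ ℕ), ∃ g ∈ D, ∀ d ∈ S, g.co d = f.co d) : f ∈ closure D := by
  rw [mem_closure_iff]
  rintro _ ⟨U, hU, rfl⟩ hf
  obtain ⟨I, u, hu, hIu⟩ := isOpen_pi_iff.1 hU _ hf
  obtain ⟨g, hg, hgf⟩ := h I
  refine ⟨g, hIu fun a ha => ?_, hg⟩
  rw [hgf a ha]
  exact (hu a ha).2

/-- box version of positivity -/
def PosBox (Dil : (ι →₀ ℕ) → ℤ → TPS T) (k : ι →₀ ℕ) (b : TPS T) : Prop :=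
  ∃ f ∈ DTr Dil k, ∀ c ≤ k, f.co c = b.co c

theorem PosBox.loc (Dil : (ι →₀ ℕ) → ℤ → TPS T) (k : ι →₀ ℕ) (b b' : TPS T)
    (h : ∀ c ≤ k, b.co c = b'.co c) (hb : PosBox Dil k b) : PosBox Dil k b' := by
  obtain ⟨f, hf, hfb⟩ := hb
  exact ⟨f, hf, fun c hc => (hfb c hc).trans (h c hc)⟩

/-- from boxes to all degrees -/
theorem mem_DTr_of_box [T1Space R] (Dil : (ι →₀ ℕ) → ℤ → TPS T)
    (hDil : ∀ c a, c ≠ 0 → In1 (fun e => OnRay e c) (Dil c a)) {c : ι →₀ ℕ} (hc : c ≠ 0)
    {b : TPS T} (hb : In1 (fun e => OnRay e c) b) (h : ∀ d, OnRay d c → PosBox Dil d b) :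
    b ∈ DTr Dil c := by
  classical
  unfold DTr
  rw [← closure_closure]
  refine mem_closure_of_fin fun S => ?_
  set d : ι →₀ ℕ := c + ∑ e ∈ S.filter (fun e => OnRay e c), e with hd
  have hdc : OnRay d c := by
    have key : ∀ S' : Finset (ι →₀ ℕ), (∀ e ∈ S', OnRay e c) → OnRay (c + ∑ e ∈ S', e) c := by
      intro S'
      induction S' using Finset.induction_on with
      | empty => intro _; simpa using OnRay.refl c
      | insert a s ha ih =>
        intro h1
        rw [Finset.sum_insert ha, add_left_comm]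
        exact (h1 a (Finset.mem_insert_self a s)).add
          (ih fun e he => h1 e (Finset.mem_insert_of_mem he))
    exact key _ fun e he => (Finset.mem_filter.1 he).2
  obtain ⟨f, hf, hfb⟩ := h d hdc
  rw [DTr_congr Dil hdc] at hf
  refine ⟨f, hf, fun e he => ?_⟩
  by_cases he0 : e = 0
  · rw [he0]; exact hfb 0 (zero_le)
  by_cases hec : OnRay e c
  · refine hfb e ?_
    have h1 : e ≤ ∑ e ∈ S.filter (fun e => OnRay e c), e :=
      Finset.single_le_sum (f := fun e => e) (fun _ _ => zero_le)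
        (Finset.mem_filter.2 ⟨he, hec⟩)
    exact h1.trans (le_add_self)
  · rw [(in1_DTr Dil hDil hc hf).supp e he0 hec, hb.supp e he0 hec]

end dt

section wall

open Tr201

variable {ι : Type} [DecidableEq ι] {R : Type*} [CommRing R] [IsDomain R] [TopologicalSpace R]
  [T1Space R] {T : Tw (ι →₀ ℕ) R}

/-- plain attractor data: node series `nd i` on the basis vectors, nothing else. -/
structure PlainData (h : (ι →₀ ℕ) →+ R) (nd : ι → TPS T) (A : TPS T) : Prop where
  one : A.co 0 = 1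
  node : ∀ i k, 0 < k → lam h (Finsupp.single i k) (zer (T.β (Finsupp.single i k)) A)
    (TPS.inv (zer (T.β (Finsupp.single i k)) A)) =
      lam h (Finsupp.single i k) (nd i) (TPS.inv (nd i))
  zero : ∀ d, d ≠ 0 → (∀ i k, d ≠ Finsupp.single i k) →
    lam h d (zer (T.β d) A) (TPS.inv (zer (T.β d) A)) = 0

/-- **WALLS**: every wall of a plain element is positive. -/
theorem wall (hs : ∀ a b, T.β a b = - T.β b a) (h : (ι →₀ ℕ) →+ R)
    (hreg : ∀ d, d ≠ 0 → h d ≠ 0) (Dil : (ι →₀ ℕ) → ℤ → TPS T)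
    (hDil : ∀ c a, c ≠ 0 → In1 (fun e => OnRay e c) (Dil c a))
    (nd : ι → TPS T) (hnd : ∀ i, nd i ∈ DTr Dil (Finsupp.single i 1))
    {A : TPS T} (hA : PlainData h nd A)
    (h2D : ∀ (V : Type) [AddCommGroup V] [LinearOrder V] [IsOrderedAddMonoid V]
      (x : (ι →₀ ℕ) →+ V) (d : ι →₀ ℕ), d ≠ 0 → JointAt T x d → x d = 0 →
      (∀ k ≤ d, k ≠ 0 → x k = 0 → PosBox Dil k (zer (T.β k) (zer x A))) →
      PosBox Dil d (zer (- T.β d) (zer x A)))
    (V : Type) [AddCommGroup V] [LinearOrder V] [IsOrderedAddMonoid V]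
    (x : (ι →₀ ℕ) →+ V) (c : ι →₀ ℕ) (hc : Trans569.KerRay x c) : zer x A ∈ DTr Dil c := by
  have hAT : ∀ (V : Type) [AddCommGroup V] [LinearOrder V] [IsOrderedAddMonoid V]
      (x : (ι →₀ ℕ) →+ V) (d : ι →₀ ℕ), Trans569.KerRay x d →
      (∀ c ≤ d, T.β d c ≠ 0 → SameSg (x c) (T.β d c)) → PosBox Dil d (zer x A) := by
    intro V _ _ _ x d hK hsg
    by_cases hd : ∃ i k, d = Finsupp.single i k
    · obtain ⟨i, k, rfl⟩ := hd
      have hk : 0 < k := Nat.pos_of_ne_zero fun h0 => hK.1 (by rw [h0, Finsupp.single_zero])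
      have hr : OnRay (Finsupp.single i k) (Finsupp.single i 1) := by
        have := onRay_nsmul hk (Finsupp.single i 1)
        simpa [Finsupp.smul_single] using this
      have h1 : nd i ∈ DTr Dil (Finsupp.single i k) := by
        rw [DTr_congr Dil hr]; exact hnd i
      refine ⟨nd i, h1, fun e he => ?_⟩
      refine (att_box hs h hreg x hK hA.one hsg (in1_DTr Dil hDil hK.1 h1) ?_ e he).symm
      intro e _ he0 hed
      have h2 := onRay_single hed
      have h3 : 0 < e i := Nat.pos_of_ne_zero fun h0 => he0 (by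
        rw [h2, h0, Finsupp.single_zero])
      rw [h2]
      exact hA.node i (e i) h3
    · refine ⟨1, one_mem_DTr Dil d, fun e he => ?_⟩
      refine (att_box hs h hreg x hK hA.one hsg (in1_one _) ?_ e he).symm
      intro e _ he0 hed
      rw [TPS.inv_one, lam_one]
      refine hA.zero e he0 fun i k hik => hd ?_
      rw [hik] at hed
      exact ⟨i, d i, onRay_single hed.symm⟩
  refine mem_DTr_of_box Dil hDil hc.1
    ((in1_zer x A).mono fun e he0 he => onRay_of_kerRay hc he0 he) fun d hd => ?_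
  exact wall_box hs hA.one (PosBox Dil) (PosBox.loc Dil) h2D hAT V x d (kerRay_onRay hc hd)

end wall

end Crest.Agent.R059.Wall999
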