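import Crest.Agent.R059.Mu2c_633
import Crest.Agent.R059.Att_201
import Crest.Agent.R059.Wall2_999
import Crest.Agent.R059.Chain_231

set_option autoImplicit false
set_option linter.unusedSectionVars false
set_option linter.unusedSimpArgs false

/-!
Row 59 (S0081), leaf MUT, part 3 (helper633): the mutation lemma for plain elements,
in the form consumed by the chain: `MutStable v (PlainData h nodes)`.
-/

namespace Crest.Agent.R059.Mu

open Finset TPS MutIso Wall999

section ray

variable {ι : Type*} [DecidableEq ι] {R : Type*} [CommRing R] {T T' : Tw (ι →₀ ℕ) R}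

theorem str_evk_self {k : ι} (p : PowerSeries R) {m : ι →₀ ℕ} (hm : m k = 0) (hm0 : m ≠ 0) :
    str T k m (evk T k p) = 0 := by
  ext a
  rw [coeff_str, evk_ne, mul_zero, map_zero]
  intro h0
  apply hm0
  ext j
  by_cases hj : j = k
  · subst hj; exact hm
  · have := DFunLike.congr_fun h0 j
    simpa [Finsupp.single_apply, Ne.symm hj] using this

theorem str_evk_zero (k : ι) (p : PowerSeries R) : str T k 0 (evk T k p) = p := by
  ext a
  rw [coeff_str, zero_add, evk_single]
  simp

theorem evk_mul (hs : ∀ a b, T.β a b = - T.β b a) (k : ι) (p q : PowerSeries R) :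
    evk T k p * evk T k q = evk T k (p * q) := by
  apply ext_str (k := k)
  intro m hm
  rw [str_evk_mul hs k p _ hm]
  by_cases hm0 : m = 0
  · subst hm0; rw [str_evk_zero, str_evk_zero]
  · rw [str_evk_self _ hm hm0, str_evk_self _ hm hm0, mul_zero]

theorem evk_one (k : ι) : evk T k 1 = 1 := by
  apply ext_str (k := k)
  intro m hm
  by_cases hm0 : m = 0
  · subst hm0; rw [str_evk_zero, str_one_zero]
  · rw [str_evk_self _ hm hm0]
    ext a
    rw [coeff_str, co_one_ne, mul_zero, map_zero]
    intro h0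
    apply hm0
    ext j
    by_cases hj : j = k
    · subst hj; exact hm
    · have := DFunLike.congr_fun h0 j
      simpa [Finsupp.single_apply, Ne.symm hj] using this

theorem der_evk (l : (ι →₀ ℕ) →+ R) (k : ι) (p : PowerSeries R) :
    Tr201.der l (evk T k p) =
      evk T k (PowerSeries.mk fun a => l (Finsupp.single k a) * PowerSeries.coeff a p) := by
  ext d
  rw [Tr201.co_der]
  by_cases hd : d = Finsupp.single k (d k)
  · rw [hd, evk_single, evk_single, PowerSeries.coeff_mk]
  · rw [evk_ne hd, evk_ne hd, mul_zero]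

theorem lamI_evk_single (hs : ∀ a b, T.β a b = - T.β b a) (l : (ι →₀ ℕ) →+ R) (k : ι)
    {p pi : PowerSeries R} (hp0 : PowerSeries.constantCoeff p = 1) (hpi : p * pi = 1) (a : ℕ) :
    lamI l (Finsupp.single k a) (evk T k p) =
      PowerSeries.coeff a
        ((PowerSeries.mk fun a => l (Finsupp.single k a) * PowerSeries.coeff a p) * pi) := by
  have h1 : TPS.inv (evk T k p) = evk T k pi := by
    apply inv_eq_of_mul (evk_zero hp0)
    rw [evk_mul hs, hpi, evk_one]
  rw [lamI_def, h1, der_evk, evk_mul hs, evk_single]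

theorem lamI_evk_eq (hs : ∀ a b, T.β a b = - T.β b a) (hs' : ∀ a b, T'.β a b = - T'.β b a)
    (l : (ι →₀ ℕ) →+ R) (k : ι) {p : PowerSeries R} (hp0 : PowerSeries.constantCoeff p = 1)
    (a : ℕ) : lamI l (Finsupp.single k a) (evk T k p) =
      lamI l (Finsupp.single k a) (evk T' k p) := by
  obtain ⟨pi, hpi⟩ := (isUnit_of_one hp0).exists_right_inv
  rw [lamI_evk_single hs l k hp0 hpi, lamI_evk_single hs' l k hp0 hpi]

theorem ev_eq_evk (hs : ∀ a b, T.β a b = - T.β b a) (k : ι) (f : PowerSeries R) :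
    TPS.ev T (Finsupp.single k 1) f = evk T k f := by
  have hne : (Finsupp.single k 1 : ι →₀ ℕ) ≠ 0 := by
    intro h0
    have := DFunLike.congr_fun h0 k
    simp at this
  ext d
  by_cases hd : d = Finsupp.single k (d k)
  · have h1 := co_ev_nsmul (T := T) (nsmul_inj hne) f (d k)
    rw [pw_one_of _ (β_self hs _), mul_one, ← single_nsmul] at h1
    rw [hd, evk_single]
    exact h1
  · rw [evk_ne hd]
    apply co_ev_of_not
    intro j hj
    apply hd
    rw [hj, Finsupp.smul_single]
    simp

end ray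

section plain

variable {ι : Type} [DecidableEq ι] {R : Type*} [CommRing R] [IsDomain R]

/-- the mutation lemma for plain elements with node series `p(Y_i)`, `p` the solution of
`p(v⁻² X) = (1 + v⁻¹ X) p(X)`, `p(0) = 1`. -/
theorem plain_mut {T : Tw (ι →₀ ℕ) R} (hs : ∀ a b, T.β a b = - T.β b a) (k : ι)
    {p : PowerSeries R} (hp : QD T.v p) (hp0 : PowerSeries.constantCoeff p = 1)
    (h : (ι →₀ ℕ) →+ R) (hreg : ∀ d, d ≠ 0 → h d ≠ 0) {A : TPS T}
    (hA : PlainData h (fun i => evk T i p) A) :
    ∃ B : TPS T, Capped (capOf T.β k) k B ∧ A = evk T k p * B ∧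
      PlainData h (fun i => evk (mutTw T (capOf T.β k) k) i p)
        (tilS (capOf T.β k) k (mutTw T (capOf T.β k) k) B *
          evk (mutTw T (capOf T.β k) k) k p) := by
  have hregL : ∀ d : ι →₀ ℕ, d ≠ 0 → IsLeftRegular (h d) := fun d hd =>
    (IsRegular.of_ne_zero (hreg d hd)).left
  have hskk : T.β (Finsupp.single k 1) (Finsupp.single k 1) = 0 := β_self hs _
  set c := capOf T.β k with hcdef
  set c' := capOf (-T.β) k with hcdef'
  set T' := mutTw T c k with hT'
  have hc : c (Finsupp.single k 1) = 0 := capOf_self _ _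
  have hc' : c' (Finsupp.single k 1) = 0 := capOf_self _ _
  have hcc : ∀ m, (c' m : ℤ) = c m + T.β m (Finsupp.single k 1) := by
    intro m
    have h1 := capOf_sub T.β (-T.β) hskk (fun j _ => by simp) m
    rw [← hcdef, ← hcdef', hs (Finsupp.single k 1) m] at h1
    omega
  have hcz : ∀ i, 0 ≤ T.β (Finsupp.single i 1) (Finsupp.single k 1) →
      c (Finsupp.single i 1) = 0 := by
    intro i hi
    by_cases hik : i = k
    · rw [hik]; exact hc
    · rw [hcdef, capOf_single_one _ hik, hs]
      exact Int.toNat_of_nonpos (by omega)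
  have hcz' : ∀ i, T.β (Finsupp.single i 1) (Finsupp.single k 1) ≤ 0 →
      c' (Finsupp.single i 1) = 0 := by
    intro i hi
    by_cases hik : i = k
    · rw [hik]; exact hc'
    · rw [hcdef', capOf_single_one _ hik]
      have : (-T.β) (Finsupp.single k 1) (Finsupp.single i 1) =
          T.β (Finsupp.single i 1) (Finsupp.single k 1) := by
        rw [hs (Finsupp.single i 1)]; simp
      rw [this]
      exact Int.toNat_of_nonpos hi
  have hs' : ∀ a b, T'.β a b = - T'.β b a := mutForm_skew T.β c k hs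
  have hβ : ∀ m, T'.β m (Finsupp.single k 1) = - T.β m (Finsupp.single k 1) :=
    fun m => mutForm_self_right T.β hc hskk m
  have hR : MutIso.Rel c k T T' := rel_mut hc
  have hR' : MutIso.Rel c' k T T' := by
    refine ⟨rfl, fun a b ha hb => ?_⟩
    have e0 : ∀ x : ι →₀ ℕ, Cp c' k x →
        dl c k (til c' k x) = (x k : ℤ) - T.β (x.erase k) (Finsupp.single k 1) := by
      intro x hx
      have h1 := hcc x
      have h2 : T.β x (Finsupp.single k 1) = T.β (x.erase k) (Finsupp.single k 1) := by
        conv_lhs => rw [← erase_add_single' k x]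
        rw [β_add_single hs]
      have h3 : c (til c' k x) = c x := by
        rw [cap_split hc (til c' k x), til_erase, ← cap_split hc]
      rw [dl_apply, til_apply_self, h3]
      unfold Cp at hx
      omega
    change mutForm T.β c k (til c' k a) (til c' k b) = T.β a b
    rw [mutForm_apply, til_erase, til_erase, e0 a ha, e0 b hb, form_split T.β k a b, hskk,
      hs (Finsupp.single k 1) (b.erase k)]
    ring
  -- the data of `A`
  have hE0 : (evk T k p).co 0 = 1 := evk_zero hp0
  have hAB : A = evk T k p * (TPS.inv (evk T k p) * A) := by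
    rw [← mul_assoc, mul_inv hE0, one_mul]
  have hAB' : A = A * TPS.inv (evk T k p) * evk T k p := by
    rw [mul_assoc, inv_mul hE0, mul_one]
  have hray0 : ∀ d : ι →₀ ℕ, ¬ IsRay d → d ≠ 0 := by
    rintro d hd rfl
    exact hd ⟨k, by simp⟩
  have hzero : ∀ d, ¬ IsRay d → lamI h d (zer (T.β d) A) = 0 := by
    intro d hd
    refine hA.zero d (hray0 d hd) fun i a hi => hd ⟨i, ?_⟩
    rw [hi]; simp
  have hzeroL : ∀ (l : (ι →₀ ℕ) →+ R) (d : ι →₀ ℕ), ¬ IsRay d →
      lamI l d (zer (T.β d) A) = 0 := by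
    intro l d hd
    have h1 := lamI_change h l (zer_co_zero (T.β d) A)
      (suppIn_of_zero hs (in1_zer (T.β d) A))
    rw [hzero d hd, mul_zero] at h1
    rcases mul_eq_zero.1 h1.symm with h2 | h2
    · exact absurd h2 (hreg d (hray0 d hd))
    · exact h2
  have hsingle0 : ∀ (i : ι) (a : ℕ), 0 < a → (Finsupp.single i a : ι →₀ ℕ) ≠ 0 := by
    intro i a ha h0
    have := DFunLike.congr_fun h0 i
    simp at this
    omega
  have hβray : ∀ (i : ι) (a : ℕ),
      T.β (Finsupp.single i a) (Finsupp.single i 1) = 0 := by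
    intro i a
    rw [β_single_left i a (Finsupp.single i 1), β_self hs, mul_zero]
  have hnode : ∀ (i : ι) (a : ℕ), 0 < a →
      lamI h (Finsupp.single i a) (zer (T.β (Finsupp.single i a)) A) =
        lamI h (Finsupp.single i a) (evk T i p) := fun i a ha => hA.node i a ha
  have hnodeL : ∀ (l : (ι →₀ ℕ) →+ R) (i : ι) (a : ℕ), 0 < a →
      lamI l (Finsupp.single i a) (zer (T.β (Finsupp.single i a)) A) =
        lamI l (Finsupp.single i a) (evk T i p) := by
    intro l i a ha
    have h1 := lamI_change h l (zer_co_zero (T.β (Finsupp.single i a)) A)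
      (suppIn_of_zero hs (in1_zer (T.β (Finsupp.single i a)) A))
    have h2 := lamI_change h l (evk_zero (T := T) (k := i) hp0)
      (suppIn_of_zero hs (evk_zer (T.β (Finsupp.single i a)) hp0 (hβray i a)))
    rw [hnode i a ha, h2] at h1
    exact (mul_left_cancel₀ (hreg _ (hsingle0 i a ha)) h1).symm
  have hface : ∀ a, A.co (Finsupp.single k a) = PowerSeries.coeff a p := by
    intro a
    rw [← evk_single (T := T) k p a]
    have hle : ∀ e : ι →₀ ℕ, e ≤ Finsupp.single k a → e = Finsupp.single k (e k) := by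
      intro e he
      ext i
      by_cases hi : i = k
      · subst hi; simp
      · have h1 := he i
        rw [Finsupp.single_eq_of_ne hi] at h1
        rw [Finsupp.single_eq_of_ne hi]
        omega
    refine Att201.eq_of_dat_le hs h hA.one hE0 (Finsupp.single k a)
      (fun e _ he0 => hregL e he0) (fun e he he0 => ?_)
    have h1 := hle e he
    have h2 : 0 < e k := Nat.pos_of_ne_zero fun h0 => he0 (by rw [h1, h0, Finsupp.single_zero])
    rw [h1]
    have h3 := hnode k (e k) h2
    have h4 : zer (T.β (Finsupp.single k (e k))) (evk T k p) = evk T k p :=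
      (parts_of_zer _ (evk_zer (T.β (Finsupp.single k (e k))) hp0 (hβray k (e k)))).2.1
    change lamI h (Finsupp.single k (e k)) (zer (T.β (Finsupp.single k (e k))) A) =
      lamI h (Finsupp.single k (e k)) (zer (T.β (Finsupp.single k (e k))) (evk T k p))
    rw [h3, h4]
  obtain ⟨hB, hB'⟩ := bound hs hp hp0 hc hc' hcc h hregL hA.one hAB hAB' hface hzero
  refine ⟨TPS.inv (evk T k p) * A, hB, hAB, ?_⟩
  have hval : ∀ (l l' : (ι →₀ ℕ) →+ R) (i : ι) (a : ℕ),
      (∀ b, l (Finsupp.single i b) = l' (Finsupp.single i b)) →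
      lamI l (Finsupp.single i a) (evk T i p) = lamI l' (Finsupp.single i a) (evk T i p) := by
    intro l l' i a hll
    obtain ⟨pi, hpi⟩ := (isUnit_of_one hp0).exists_right_inv
    rw [lamI_evk_single hs l i hp0 hpi, lamI_evk_single hs l' i hp0 hpi]
    simp only [hll]
  obtain ⟨m1, m2, m3⟩ := mut_data hs hs' hp hp0 hc hc' hcc hcz hcz' hR hR' hβ hA.one hAB hAB'
    hB hB' (fun l i a => lamI l (Finsupp.single i a) (evk T i p)) hval
    (fun l i a ha _ => hnodeL l i a ha) hzeroL
  have hB0 : (TPS.inv (evk T k p) * A).co 0 = 1 := by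
    rw [co_mul_zero', TPS.inv_zero, hA.one, one_mul]
  have hone : (tilS c k T' (TPS.inv (evk T k p) * A) * evk T' k p).co 0 = 1 := by
    rw [co_mul_zero', tilS_co_zero, hB0, evk_zero hp0, one_mul]
  refine ⟨hone, ?_, ?_⟩
  · intro i a ha
    by_cases hik : i = k
    · subst hik
      exact data_face hs' hp0 hone m3 h a
    · have h1 := m1 h i a ha hik
      have h2 := lamI_evk_eq (T := T) (T' := T') hs hs' h i hp0 a
      exact h1.trans h2
  · intro d hd0 hd
    refine m2 h d ?_
    rintro ⟨i, hi⟩
    exact hd i (d i) hi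

theorem qd_EE {v : Rˣ} (hq : Dilog344.QReg ((v : R) ^ 2)) : QD v (Dilog344.EE v true 1) := by
  unfold QD
  rw [Dilog344.rescale_zpow_EE]
  have h1 := Dilog344.EE_shift hq true 1 1
  have e1 : (1 : ℤ) - 2 * ((1 : ℕ) : ℤ) = 1 + -2 := by norm_num
  rw [e1] at h1
  rw [h1]
  have h2 : Dilog344.XF v true 1 1 =
      1 + PowerSeries.C ((v ^ (-1 : ℤ) : Rˣ) : R) * PowerSeries.X := by
    simp [Dilog344.XF, Dilog344.oddF]
  rw [h2]
  ring

/-- **MUT** in the form consumed by `Chain_231`. -/
theorem mutStable {n : ℕ} (v : Rˣ) (hq : Dilog344.QReg ((v : R) ^ 2))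
    (h : (Fin n →₀ ℕ) →+ R) (hreg : ∀ d, d ≠ 0 → h d ≠ 0) :
    Seeds231.MutStable (n := n) v (fun T A =>
      (∀ a b, T.β a b = - T.β b a) ∧ T.v = v ∧
        PlainData h (fun i => TPS.dil T (Finsupp.single i 1) true 1) A) := by
  intro T hv hs k A hA
  obtain ⟨_, _, hA⟩ := hA
  have hnd : ∀ (T : Tw (Fin n →₀ ℕ) R), (∀ a b, T.β a b = - T.β b a) → T.v = v → ∀ i,
      TPS.dil T (Finsupp.single i 1) true 1 = evk T i (Dilog344.EE v true 1) := by
    intro T hs hv i
    unfold TPS.dil
    rw [ev_eq_evk hs, hv]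
  have hs' : ∀ a b, (mutTw T (capOf T.β k) k).β a b = - (mutTw T (capOf T.β k) k).β b a :=
    mutForm_skew T.β _ k hs
  have hv' : (mutTw T (capOf T.β k) k).v = v := hv
  have hA' : PlainData h (fun i => evk T i (Dilog344.EE v true 1)) A := by
    have : (fun i => TPS.dil T (Finsupp.single i 1) true 1) =
        fun i => evk T i (Dilog344.EE v true 1) := funext (hnd T hs hv)
    rw [← this]
    exact hA
  obtain ⟨B, hB1, hB2, hB3⟩ := plain_mut hs k (p := Dilog344.EE v true 1)
    (by rw [hv]; exact qd_EE hq) (Dilog344.constantCoeff_EE _ _) h hreg hA'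
  refine ⟨B, hB1, ?_, hs', hv', ?_⟩
  · rw [hnd T hs hv]; exact hB2
  · have : (fun i => TPS.dil (mutTw T (capOf T.β k) k) (Finsupp.single i 1) true 1) =
        fun i => evk (mutTw T (capOf T.β k) k) i (Dilog344.EE v true 1) :=
      funext (hnd _ hs' hv')
    rw [this, hnd _ hs' hv']
    exact hB3

end plain

end Crest.Agent.R059.Mu
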