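import Crest.Agent.R059.Mu3_456
import Crest.Agent.R059.Wall4_999
import Crest.Agent.R059.Chain_231

set_option autoImplicit false
set_option linter.unusedSectionVars false

/-!
Row 59 (S0081), leaf MUT, part 5 (helper456): binding of the mutation theorem `Plain.mutate` to
`Wall999.PlainData` (node series `dil T (single i 1) true 1`) and to `Seeds231.MutStable`.
-/

namespace Crest.Agent.R059.Mut456

open Finset TPS HasAntidiagonal Finsupp Mu MutIso Dilog344

section bind

variable {ι : Type} [DecidableEq ι] {R : Type*} [CommRing R] {T : Tw (ι →₀ ℕ) R}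

theorem ev_eq_evk (hs : ∀ a b, T.β a b = - T.β b a) (k : ι) (f : PowerSeries R) :
    ev T (single k 1) f = evk T k f := by
  have hinj : Function.Injective (fun j : ℕ => j • (single k 1 : ι →₀ ℕ)) :=
    nsmul_inj (by simp)
  ext d
  by_cases hd : d = single k (d k)
  · rw [hd, evk_single, single_eq_nsmul k (d k), co_ev_nsmul hinj,
      pw_one_of _ (β_self hs _), mul_one]
  · rw [evk_ne hd]
    apply co_ev_of_not
    intro j hj
    apply hd
    rw [hj, ← single_eq_nsmul]
    simp

theorem qd_EE {v : Rˣ} (hq : QReg ((v : R) ^ 2)) : QD v (Dilog344.EE v true 1) := by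
  unfold QD
  rw [rescale_zpow_EE]
  have h := EE_shift hq true 1 1
  have e : (1 : ℤ) - 2 * ((1 : ℕ) : ℤ) = 1 + -2 := by norm_num
  rw [e] at h
  rw [h, mul_comm]
  congr 1
  simp only [XF, cond_true, oddF, Finset.prod_range_one, pow_zero, one_mul]
  norm_num

/-- the plain nodes. -/
noncomputable def ndT (T : Tw (ι →₀ ℕ) R) (i : ι) : TPS T := dil T (single i 1) true 1

theorem plain_iff_plainData (hs : ∀ a b, T.β a b = - T.β b a) (h : (ι →₀ ℕ) →+ R)
    (A : TPS T) : Plain T h (Dilog344.EE T.v true 1) A ↔ Wall999.PlainData h (ndT T) A := by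
  have hnd : ∀ i j, Tr201.lam h (single i j) (ndT T i) (TPS.inv (ndT T i)) =
      kap (fun j => h (single i j)) (Dilog344.EE T.v true 1) j := by
    intro i j
    unfold ndT dil
    rw [ev_eq_evk hs]
    exact lam_evk hs h i (constantCoeff_EE _ _) j
  constructor
  · rintro ⟨a1, a2, a3⟩
    exact ⟨a1, fun i k hk => by rw [hnd]; exact a2 i k hk, fun d _ hd => a3 d hd⟩
  · rintro ⟨a1, a2, a3⟩
    refine ⟨a1, fun i k hk => by rw [← hnd]; exact a2 i k hk, fun d hd => ?_⟩
    by_cases h0 : d = 0
    · subst h0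
      unfold lamz Tr201.lam
      rw [co_mul_zero', Tr201.co_der_zero, zero_mul]
    · exact a3 d h0 hd

/-- **mutation of plain data.** -/
theorem plainData_mutate (hs : ∀ a b, T.β a b = - T.β b a) (hq : QReg ((T.v : R) ^ 2))
    {h : (ι →₀ ℕ) →+ R} (hreg : ∀ d, d ≠ 0 → IsLeftRegular (h d)) (k : ι) {A : TPS T}
    (hA : Wall999.PlainData h (ndT T) A) :
    ∃ B : TPS T, Capped (capOf T.β k) k B ∧ A = dil T (single k 1) true 1 * B ∧
      Wall999.PlainData h (ndT (mutTw T (capOf T.β k) k))
        (tilS (capOf T.β k) k (mutTw T (capOf T.β k) k) B *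
          dil (mutTw T (capOf T.β k) k) (single k 1) true 1) := by
  have hP := (plain_iff_plainData hs h A).2 hA
  have h1 : PowerSeries.constantCoeff (Dilog344.EE T.v true 1) = 1 := constantCoeff_EE _ _
  have hz := co_evk_zero (T := T) k h1
  have hs' := mutTw_skew hs (capOf T.β k) k
  have e1 : evk T k (Dilog344.EE T.v true 1) * (TPS.inv (evk T k (Dilog344.EE T.v true 1)) * A) = A := by
    rw [← mul_assoc, mul_inv hz, one_mul]
  have e2 : (A * TPS.inv (evk T k (Dilog344.EE T.v true 1))) * evk T k (Dilog344.EE T.v true 1) = A := by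
    rw [mul_assoc, inv_mul hz, mul_one]
  have hB : (TPS.inv (evk T k (Dilog344.EE T.v true 1)) * A).co 0 = 1 := by
    rw [co_mul_zero', TPS.inv_zero, hP.one, one_mul]
  have hB' : (A * TPS.inv (evk T k (Dilog344.EE T.v true 1))).co 0 = 1 := by
    rw [co_mul_zero', TPS.inv_zero, hP.one, one_mul]
  refine ⟨TPS.inv (evk T k (Dilog344.EE T.v true 1)) * A,
    (hP.bound hs hreg (qd_EE hq) h1 hB hB' e1 e2).1, ?_, ?_⟩
  · rw [dil, ev_eq_evk hs, e1]
  · have h2 := (hP.mutate hs hreg k (qd_EE hq) h1 hB hB' e1 e2).1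
    rw [dil, ev_eq_evk hs']
    exact (plain_iff_plainData (T := mutTw T (capOf T.β k) k) hs' h _).1 h2

end bind

/-- **the hypothesis of the chain**, for plain data. -/
theorem mutStable {n : ℕ} {R : Type*} [CommRing R] (v : Rˣ) (hq : QReg ((v : R) ^ 2))
    (h : (Fin n →₀ ℕ) →+ R) (hreg : ∀ d, d ≠ 0 → IsLeftRegular (h d)) :
    Seeds231.MutStable v (fun T A => Wall999.PlainData h (ndT T) A) := by
  intro T hv hs k A hA
  exact plainData_mutate hs (by rw [hv]; exact hq) hreg k hA

/-- the same in Wall999's form (`S = univ`) over `KK`. -/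
theorem plainS_univ {I : Type} [Fintype I] [DecidableEq I]
    (β : (I →₀ ℕ) →+ (I →₀ ℕ) →+ ℤ) (A : TPS (twK β)) :
    Wall999.PlainS β Set.univ A ↔ Wall999.PlainData Wall999.hK (ndT (twK β)) A := by
  have : Wall999.ndS β Set.univ = ndT (twK β) := by
    funext i
    simp [Wall999.ndS, ndT]
  unfold Wall999.PlainS
  rw [this]

end Crest.Agent.R059.Mut456
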