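import Crest.Agent.R059.MutIso_456
import Crest.Agent.R059.Fac_150
import Crest.Agent.R059.Tr_201

set_option autoImplicit false

/-!
Row 59 (S0081), leaf MUT, part 2 (helper456): the transport `tilS` of `MutIso_456` is compatible
with inverses, the two-fold / three-fold factorisations, derivations and `lam`.
-/

namespace Crest.Agent.R059

namespace MutIso

open Finset Finsupp TPS

variable {ι : Type*} [DecidableEq ι]
variable {R : Type*} [CommRing R] {T T' : Tw (ι →₀ ℕ) R}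
variable {c : (ι →₀ ℕ) →+ ℕ} {k : ι}

theorem Capped.in1 {f : TPS T} (hf : Capped c k f) (h0 : f.co 0 = 1) :
    In1 (Cp c k) f := ⟨h0, fun _ _ h => hf.co_not h⟩

theorem capped_of_in1 {P : (ι →₀ ℕ) → Prop} {f : TPS T} (h : In1 P f)
    (hP : ∀ d, P d → Cp c k d) : Capped c k f := by
  intro m hm
  rcases h.eq_zero_or hm with rfl | h1
  · exact Cp.zero
  · exact hP m h1

theorem cp_add : ∀ a b : ι →₀ ℕ, Cp c k a → Cp c k b → Cp c k (a + b) :=
  fun _ _ ha hb => ha.add hb

theorem Capped.inv {f : TPS T} (hf : Capped c k f) (h0 : f.co 0 = 1) :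
    Capped c k (TPS.inv f) :=
  capped_of_in1 ((hf.in1 h0).inv cp_add) fun _ h => h

theorem Capped.lft {f : TPS T} (hf : Capped c k f) (h0 : f.co 0 = 1) (P : (ι →₀ ℕ) → Prop) :
    Capped c k (TPS.lft P f) :=
  capped_of_in1 ((hf.in1 h0).lft cp_add P) fun _ h => h.2

theorem Capped.rgt {f : TPS T} (hf : Capped c k f) (h0 : f.co 0 = 1) (P : (ι →₀ ℕ) → Prop) :
    Capped c k (TPS.rgt P f) :=
  capped_of_in1 ((hf.in1 h0).rgt cp_add P) fun _ h => h.2

section parts

variable {V : Type*} [AddCommGroup V] [LinearOrder V] [IsOrderedAddMonoid V]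

omit [IsOrderedAddMonoid V] in
theorem Capped.pos {f : TPS T} (hf : Capped c k f) (h0 : f.co 0 = 1) (x : (ι →₀ ℕ) →+ V) :
    Capped c k (TPS.pos x f) := hf.lft h0 _

omit [IsOrderedAddMonoid V] in
theorem Capped.npos {f : TPS T} (hf : Capped c k f) (h0 : f.co 0 = 1) (x : (ι →₀ ℕ) →+ V) :
    Capped c k (TPS.npos x f) := hf.rgt h0 _

omit [IsOrderedAddMonoid V] in
theorem Capped.zer {f : TPS T} (hf : Capped c k f) (h0 : f.co 0 = 1) (x : (ι →₀ ℕ) →+ V) :
    Capped c k (TPS.zer x f) := (hf.npos h0 x).lft (npos_co_zero x f) _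

omit [IsOrderedAddMonoid V] in
theorem Capped.part_neg {f : TPS T} (hf : Capped c k f) (h0 : f.co 0 = 1)
    (x : (ι →₀ ℕ) →+ V) :
    Capped c k (TPS.neg x f) := (hf.npos h0 x).rgt (npos_co_zero x f) _

end parts

/-- `tilS` respects supports. -/
theorem tilS_in1 (hc : c (single k 1) = 0) {f : TPS T} {P P' : (ι →₀ ℕ) → Prop}
    (hP : ∀ m, Cp c k m → P m → P' (til c k m)) (hf : In1 P f) :
    In1 P' (tilS c k T' f) := by
  refine ⟨by rw [tilS_co_zero, hf.one], fun d hd hPd => ?_⟩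
  by_cases hm : Cp c k d
  · rw [co_tilS_of hm]
    by_contra hne
    rcases hf.eq_zero_or hne with h1 | h1
    · exact hd ((til_eq_zero hc hm).1 h1)
    · apply hPd
      have := hP _ (Cp.til hc d) h1
      rwa [til_til hc hm] at this
  · exact co_tilS_not hm

theorem tilS_inv (hc : c (single k 1) = 0) (H : Rel c k T T') {f : TPS T}
    (hf : Capped c k f) (h0 : f.co 0 = 1) :
    tilS c k T' (TPS.inv f) = TPS.inv (tilS c k T' f) := by
  symm
  apply inv_eq_of_mul
  · rw [tilS_co_zero, h0]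
  · rw [← tilS_mul hc H hf (hf.inv h0), mul_inv h0, tilS_one hc]

theorem tilS_lft_rgt (hc : c (single k 1) = 0) (H : Rel c k T T') {f : TPS T}
    (hf : Capped c k f) (h0 : f.co 0 = 1) {P P' : (ι →₀ ℕ) → Prop}
    (hP : ∀ m, Cp c k m → (P' (til c k m) ↔ P m)) :
    TPS.lft P' (tilS c k T' f) = tilS c k T' (TPS.lft P f) ∧
      TPS.rgt P' (tilS c k T' f) = tilS c k T' (TPS.rgt P f) := by
  have h1 : In1 P' (tilS c k T' (TPS.lft P f)) :=
    tilS_in1 hc (fun m hm h => (hP m hm).2 h) (in1_lft P f)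
  have h2 : In1 (fun d => ¬ P' d) (tilS c k T' (TPS.rgt P f)) :=
    tilS_in1 hc (fun m hm h => fun h' => h ((hP m hm).1 h')) (in1_rgt P f)
  have h3 := fac_unique (P := P') (a := tilS c k T' f) h1.one h2.one h1.supp
    (fun e he h => h2.supp e he (not_not.2 h))
    (by rw [← tilS_mul hc H (hf.lft h0 P) (hf.rgt h0 P), lft_mul_rgt P h0])
  exact ⟨h3.1.symm, h3.2.symm⟩

section parts

variable {V : Type*} [AddCommGroup V] [LinearOrder V] [IsOrderedAddMonoid V]
variable {x x' : (ι →₀ ℕ) →+ V}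

omit [IsOrderedAddMonoid V] in
theorem tilS_pos' (hc : c (single k 1) = 0) (H : Rel c k T T')
    (hx : ∀ m, Cp c k m → x' (til c k m) = x m) {f : TPS T}
    (hf : Capped c k f) (h0 : f.co 0 = 1) :
    TPS.pos x' (tilS c k T' f) = tilS c k T' (TPS.pos x f) :=
  (tilS_lft_rgt hc H hf h0 (fun m hm => by rw [hx m hm])).1

omit [IsOrderedAddMonoid V] in
theorem tilS_npos' (hc : c (single k 1) = 0) (H : Rel c k T T')
    (hx : ∀ m, Cp c k m → x' (til c k m) = x m) {f : TPS T}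
    (hf : Capped c k f) (h0 : f.co 0 = 1) :
    TPS.npos x' (tilS c k T' f) = tilS c k T' (TPS.npos x f) :=
  (tilS_lft_rgt hc H hf h0 (fun m hm => by rw [hx m hm])).2

omit [IsOrderedAddMonoid V] in
theorem tilS_zer' (hc : c (single k 1) = 0) (H : Rel c k T T')
    (hx : ∀ m, Cp c k m → x' (til c k m) = x m) {f : TPS T}
    (hf : Capped c k f) (h0 : f.co 0 = 1) :
    TPS.zer x' (tilS c k T' f) = tilS c k T' (TPS.zer x f) := by
  unfold TPS.zer
  rw [tilS_npos' hc H hx hf h0]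
  exact (tilS_lft_rgt hc H (hf.npos h0 x) (npos_co_zero x f) (fun m hm => by rw [hx m hm])).1

omit [IsOrderedAddMonoid V] in
theorem tilS_neg' (hc : c (single k 1) = 0) (H : Rel c k T T')
    (hx : ∀ m, Cp c k m → x' (til c k m) = x m) {f : TPS T}
    (hf : Capped c k f) (h0 : f.co 0 = 1) :
    TPS.neg x' (tilS c k T' f) = tilS c k T' (TPS.neg x f) := by
  unfold TPS.neg
  rw [tilS_npos' hc H hx hf h0]
  exact (tilS_lft_rgt hc H (hf.npos h0 x) (npos_co_zero x f) (fun m hm => by rw [hx m hm])).2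

omit [IsOrderedAddMonoid V] in
/-- the parts for `flipF x`. -/
theorem tilS_pos (hc : c (single k 1) = 0) (H : Rel c k T T') (x : (ι →₀ ℕ) →+ V)
    {f : TPS T} (hf : Capped c k f) (h0 : f.co 0 = 1) :
    TPS.pos (flipF c k x) (tilS c k T' f) = tilS c k T' (TPS.pos x f) :=
  tilS_pos' hc H (fun _ hm => flipF_til hc x hm) hf h0

omit [IsOrderedAddMonoid V] in
theorem tilS_npos (hc : c (single k 1) = 0) (H : Rel c k T T') (x : (ι →₀ ℕ) →+ V)
    {f : TPS T} (hf : Capped c k f) (h0 : f.co 0 = 1) :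
    TPS.npos (flipF c k x) (tilS c k T' f) = tilS c k T' (TPS.npos x f) :=
  tilS_npos' hc H (fun _ hm => flipF_til hc x hm) hf h0

omit [IsOrderedAddMonoid V] in
theorem tilS_zer (hc : c (single k 1) = 0) (H : Rel c k T T') (x : (ι →₀ ℕ) →+ V)
    {f : TPS T} (hf : Capped c k f) (h0 : f.co 0 = 1) :
    TPS.zer (flipF c k x) (tilS c k T' f) = tilS c k T' (TPS.zer x f) :=
  tilS_zer' hc H (fun _ hm => flipF_til hc x hm) hf h0

omit [IsOrderedAddMonoid V] in
theorem tilS_part_neg (hc : c (single k 1) = 0) (H : Rel c k T T') (x : (ι →₀ ℕ) →+ V)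
    {f : TPS T} (hf : Capped c k f) (h0 : f.co 0 = 1) :
    TPS.neg (flipF c k x) (tilS c k T' f) = tilS c k T' (TPS.neg x f) :=
  tilS_neg' hc H (fun _ hm => flipF_til hc x hm) hf h0

end parts

/-! attractor functionals `T.β d`, `d` capped -/

theorem tilS_pos_att (hc : c (single k 1) = 0) (H : Rel c k T T') {d : ι →₀ ℕ}
    (hd : Cp c k d) {f : TPS T} (hf : Capped c k f) (h0 : f.co 0 = 1) :
    TPS.pos (T'.β (til c k d)) (tilS c k T' f) = tilS c k T' (TPS.pos (T.β d) f) :=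
  tilS_pos' hc H (fun m hm => H.hβ d m hd hm) hf h0

theorem tilS_zer_att (hc : c (single k 1) = 0) (H : Rel c k T T') {d : ι →₀ ℕ}
    (hd : Cp c k d) {f : TPS T} (hf : Capped c k f) (h0 : f.co 0 = 1) :
    TPS.zer (T'.β (til c k d)) (tilS c k T' f) = tilS c k T' (TPS.zer (T.β d) f) :=
  tilS_zer' hc H (fun m hm => H.hβ d m hd hm) hf h0

theorem tilS_neg_att (hc : c (single k 1) = 0) (H : Rel c k T T') {d : ι →₀ ℕ}
    (hd : Cp c k d) {f : TPS T} (hf : Capped c k f) (h0 : f.co 0 = 1) :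
    TPS.neg (T'.β (til c k d)) (tilS c k T' f) = tilS c k T' (TPS.neg (T.β d) f) :=
  tilS_neg' hc H (fun m hm => H.hβ d m hd hm) hf h0

/-! derivations and `lam` -/

theorem tilS_der' {h h' : (ι →₀ ℕ) →+ R} (hc : c (single k 1) = 0)
    (hh : ∀ m, Cp c k m → h' (til c k m) = h m) (f : TPS T) :
    tilS c k T' (Tr201.der h f) = Tr201.der h' (tilS c k T' f) := by
  ext m
  by_cases hm : Cp c k m
  · rw [co_tilS_of hm, Tr201.co_der, Tr201.co_der, co_tilS_of hm,
      ← hh _ (Cp.til hc m), til_til hc hm]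
  · rw [co_tilS_not hm, Tr201.co_der, co_tilS_not hm, mul_zero]

theorem tilS_der (hc : c (single k 1) = 0) (h : (ι →₀ ℕ) →+ R) (f : TPS T) :
    tilS c k T' (Tr201.der h f) = Tr201.der (flipF c k h) (tilS c k T' f) :=
  tilS_der' hc (fun _ hm => flipF_til hc h hm) f

theorem Capped.der {f : TPS T} (hf : Capped c k f) (h : (ι →₀ ℕ) →+ R) :
    Capped c k (Tr201.der h f) := by
  intro m hm
  by_contra h1
  apply hm
  rw [Tr201.co_der, hf.co_not h1, mul_zero]

theorem lam_til' {h h' : (ι →₀ ℕ) →+ R} (hc : c (single k 1) = 0) (H : Rel c k T T')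
    (hh : ∀ m, Cp c k m → h' (til c k m) = h m) {a a' : TPS T}
    (ha : Capped c k a) (ha' : Capped c k a') {d : ι →₀ ℕ} (hd : Cp c k d) :
    Tr201.lam h' (til c k d) (tilS c k T' a) (tilS c k T' a') = Tr201.lam h d a a' := by
  unfold Tr201.lam
  rw [← tilS_der' hc hh, ← tilS_mul hc H (ha.der h) ha', co_tilS_til hc hd]

theorem lam_til (hc : c (single k 1) = 0) (H : Rel c k T T') (h : (ι →₀ ℕ) →+ R)
    {a a' : TPS T} (ha : Capped c k a) (ha' : Capped c k a') {d : ι →₀ ℕ}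
    (hd : Cp c k d) :
    Tr201.lam (flipF c k h) (til c k d) (tilS c k T' a) (tilS c k T' a')
      = Tr201.lam h d a a' :=
  lam_til' hc H (fun _ hm => flipF_til hc h hm) ha ha' hd

/-- `lam` of a capped series vanishes off the capped exponents. -/
theorem lam_not_capped (h : (ι →₀ ℕ) →+ R) {a a' : TPS T} (ha : Capped c k a)
    (ha' : Capped c k a') {d : ι →₀ ℕ} (hd : ¬ Cp c k d) : Tr201.lam h d a a' = 0 :=
  ((ha.der h).mul ha').co_not hd

/-! the mutated commutator form `com` -/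

theorem com_til (H : Rel c k T T') {a b : ι →₀ ℕ} (ha : Cp c k a) (hb : Cp c k b) :
    Tr201.com T' (til c k a) (til c k b) = Tr201.com T a b := by
  rw [Tr201.com_apply, Tr201.com_apply, H.hβ a b ha hb, H.hβ b a hb ha]

end MutIso

end Crest.Agent.R059
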