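import Crest.Agent.H695_Kill59
import Crest.Agent.R059.Mono_409

/-!
# Row 59 (S0081), track T, Step 4(b): the killing path, in lexicographic form

No reals and no times: all bends happen at explicit lexicographic functionals whose kernel on the
`W`-lattice is exactly the line of one `W_j`.
-/

set_option autoImplicit false

open Crest.CombinatoricsR.UnitInterval Crest.Agent.Kill59 Crest.Agent.R059.Mono409

namespace Crest.Agent.R059.Nest409

variable {n : ℕ}

/-- `s(m, ·)` as a homomorphism. -/
def sH (h : Fin n → ℕ) (m : Fin n → ℤ) : (Fin n → ℤ) →+ ℤ where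
  toFun e := s h m e
  map_zero' := by simp [s]
  map_add' a b := by
    simp only [s, Pi.add_apply, ← Finset.sum_add_distrib]
    refine Finset.sum_congr rfl fun _ _ => Finset.sum_congr rfl fun _ _ => by ring

theorem sH_apply (h : Fin n → ℕ) (m e : Fin n → ℤ) : sH h m e = s h m e := rfl

/-- tails. -/
def tl (k : ℕ) : (Fin n → ℤ) →+ ℤ where
  toFun e := ∑ c : Fin n, if k ≤ (c : ℕ) then e c else 0
  map_zero' := by simp
  map_add' a b := by
    rw [← Finset.sum_add_distrib]
    refine Finset.sum_congr rfl fun c _ => ?_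
    split_ifs <;> simp

theorem tl_apply (k : ℕ) (e : Fin n → ℤ) :
    tl k e = ∑ c : Fin n, if k ≤ (c : ℕ) then e c else 0 := rfl

/-- the `W`-lattice. -/
def ZW (n : ℕ) : AddSubgroup (Fin n → ℤ) := (tl 0).ker

/-- the nonzero classes of the `W`-cone. -/
def Cn (e : Fin n → ℤ) : Prop := e ∈ ZW n ∧ (∀ k, 0 ≤ tl k e) ∧ e ≠ 0

theorem tl_of_le {k : ℕ} (hk : n ≤ k) (e : Fin n → ℤ) : tl k e = 0 := by
  rw [tl_apply]
  refine Finset.sum_eq_zero fun c _ => ?_
  have := c.2
  rw [if_neg (by omega)]

theorem tl_sub (c : Fin n) (e : Fin n → ℤ) : tl (c : ℕ) e - tl ((c : ℕ) + 1) e = e c := by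
  rw [tl_apply, tl_apply, ← Finset.sum_sub_distrib, Finset.sum_eq_single c]
  · rw [if_pos le_rfl, if_neg (by omega), sub_zero]
  · intro b _ hb
    have hb' : (b : ℕ) ≠ c := fun h => hb (Fin.ext h)
    by_cases h1 : (c : ℕ) ≤ b
    · rw [if_pos h1, if_pos (by omega), sub_self]
    · rw [if_neg h1, if_neg (by omega), sub_self]
  · intro h; exact absurd (Finset.mem_univ _) h

theorem eq_zero_of_tl {e : Fin n → ℤ} (h : ∀ k, tl k e = 0) : e = 0 := by
  funext c
  rw [← tl_sub c e, h, h]; rfl

theorem tl_u (k : ℕ) (c : Fin n) : tl k (u c) = if k ≤ (c : ℕ) then 1 else 0 := by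
  rw [tl_apply, Finset.sum_eq_single c]
  · simp [u]
  · intro b _ hb
    simp [u, Pi.single_eq_of_ne hb]
  · intro h; exact absurd (Finset.mem_univ _) h

theorem tl_W (k j : ℕ) (hj : j + 1 < n) : tl k (W (n := n) j hj) = if k = j + 1 then 1 else 0 := by
  rw [W, map_sub, tl_u, tl_u]
  by_cases h1 : k = j + 1
  · subst h1
    rw [if_pos (by simp), if_neg (by simp), if_pos rfl]; rfl
  · rw [if_neg h1]
    by_cases h2 : k ≤ j
    · rw [if_pos (by simp; omega), if_pos (by simpa using h2)]; rfl
    · rw [if_neg (by simp; omega), if_neg (by simpa using h2)]; rfl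

theorem W_mem (j : ℕ) (hj : j + 1 < n) : W (n := n) j hj ∈ ZW n := by
  show tl 0 _ = 0
  rw [tl_W, if_neg (by omega)]

theorem W_ne (j : ℕ) (hj : j + 1 < n) : W (n := n) j hj ≠ 0 := by
  intro h
  have := tl_W (j + 1) j hj
  rw [h, if_pos rfl, map_zero] at this
  exact absurd this (by norm_num)

/-- the pairings `s(m, W_i)` (zero outside the range). -/
def kap (h : Fin n → ℕ) (m : Fin n → ℤ) (i : ℕ) : ℤ :=
  if hi : i + 1 < n then s h m (W i hi) else 0

/-- expansion in the `W`-basis. -/
theorem expand {e : Fin n → ℤ} (he : e ∈ ZW n) :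
    e = ∑ i ∈ Finset.range (n - 1), if hi : i + 1 < n then tl (i + 1) e • W i hi else 0 := by
  have key : ∀ k, tl k e = tl k (∑ i ∈ Finset.range (n - 1),
      if hi : i + 1 < n then tl (i + 1) e • W i hi else 0) := by
    intro k
    rw [map_sum]
    rcases Nat.eq_zero_or_pos k with rfl | hk
    · have h0 : tl 0 e = 0 := he
      rw [h0]
      symm
      refine Finset.sum_eq_zero fun i hi => ?_
      rw [Finset.mem_range] at hi
      rw [dif_pos (by omega), map_zsmul, tl_W, if_neg (by omega), smul_zero]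
    · obtain ⟨k, rfl⟩ := Nat.exists_eq_succ_of_ne_zero hk.ne'
      by_cases hkn : k + 1 < n
      · rw [Finset.sum_eq_single k]
        · rw [dif_pos hkn, map_zsmul, tl_W, if_pos rfl]; simp
        · intro b _ hb
          split_ifs with hb2
          · rw [map_zsmul, tl_W, if_neg (by omega), smul_zero]
          · simp
        · intro hk2
          exact absurd (Finset.mem_range.2 (by omega)) hk2
      · rw [tl_of_le (by omega)]
        symm
        refine Finset.sum_eq_zero fun i hi => ?_
        rw [Finset.mem_range] at hi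
        rw [dif_pos (by omega), map_zsmul, tl_W, if_neg (by omega), smul_zero]
  rw [← sub_eq_zero]
  refine eq_zero_of_tl fun k => ?_
  rw [map_sub, ← key k, sub_self]

theorem s_expand (h : Fin n → ℕ) (m : Fin n → ℤ) {e : Fin n → ℤ} (he : e ∈ ZW n) :
    s h m e = ∑ i ∈ Finset.range (n - 1), tl (i + 1) e * kap h m i := by
  conv_lhs => rw [expand he]
  rw [← sH_apply, map_sum]
  refine Finset.sum_congr rfl fun i _ => ?_
  unfold kap
  split_ifs with hi
  · rw [map_zsmul, sH_apply, smul_eq_mul]
  · simp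

theorem Cn_par : ∀ e c : Fin n → ℤ, Cn e → Cn c → ∀ a b : ℤ, a • e = b • c → 0 < a → 0 < b := by
  intro e c he hc a b hab ha
  have h1 : ∃ k, 0 < tl k e := by
    by_contra hcon
    push Not at hcon
    exact he.2.2 (eq_zero_of_tl fun k => le_antisymm (hcon k) (he.2.1 k))
  obtain ⟨k, hk⟩ := h1
  have h2 := congrArg (tl k) hab
  rw [map_zsmul, map_zsmul, smul_eq_mul, smul_eq_mul] at h2
  have h3 : 0 < b * tl k c := by rw [← h2]; exact mul_pos ha hk
  exact pos_of_mul_pos_left h3 (hc.2.1 k)

/-! ### lexicographic points -/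

theorem lexPi_neg {N : ℕ} {f : Fin N → ℤ} (i : Fin N) (h1 : ∀ j < i, f j = 0) (h2 : f i < 0) :
    (toLex f : Lex (Fin N → ℤ)) < 0 := ⟨i, fun j hj => h1 j hj, h2⟩

theorem lexPi_pos {N : ℕ} {f : Fin N → ℤ} (i : Fin N) (h1 : ∀ j < i, f j = 0) (h2 : 0 < f i) :
    (0 : Lex (Fin N → ℤ)) < toLex f := ⟨i, fun j hj => (h1 j hj).symm, h2⟩

/-- the point `p_j` of the killing path (`mm` = sequence of exponents, start vertex `a`). -/
def pt (h : Fin n → ℕ) (a : ℕ) (mm : ℕ → Fin n → ℤ) (j : ℕ) :
    (Fin n → ℤ) →+ Lex (Fin n → ℤ) where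
  toFun e := toLex fun t : Fin n =>
    if (t : ℕ) < a then - tl ((t : ℕ) + 1) e
    else if (t : ℕ) - a + 1 ≤ j then
      - ∑ i ∈ Finset.range ((t : ℕ) + 1), tl (i + 1) e * kap h (mm ((t : ℕ) - a + 1)) i
    else ∑ i ∈ Finset.Ico ((t : ℕ) + 1) (n - 1), tl (i + 1) e * kap h (mm ((t : ℕ) - a + 1)) i
  map_zero' := by
    have : (fun t : Fin n => if (t : ℕ) < a then - tl ((t : ℕ) + 1) (0 : Fin n → ℤ)
      else if (t : ℕ) - a + 1 ≤ j then
        - ∑ i ∈ Finset.range ((t : ℕ) + 1), tl (i + 1) (0 : Fin n → ℤ) * kap h (mm ((t : ℕ) - a + 1)) i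
      else ∑ i ∈ Finset.Ico ((t : ℕ) + 1) (n - 1),
        tl (i + 1) (0 : Fin n → ℤ) * kap h (mm ((t : ℕ) - a + 1)) i) = 0 := by
      funext t
      simp
    rw [this]; rfl
  map_add' x y := by
    rw [← toLex_add]
    congr 1
    funext t
    simp only [Pi.add_apply, map_add, add_mul, Finset.sum_add_distrib]
    split_ifs <;> ring

theorem pt_apply (h : Fin n → ℕ) (a : ℕ) (mm : ℕ → Fin n → ℤ) (j : ℕ) (e : Fin n → ℤ) :
    pt h a mm j e = toLex fun t : Fin n =>
      if (t : ℕ) < a then - tl ((t : ℕ) + 1) e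
      else if (t : ℕ) - a + 1 ≤ j then
        - ∑ i ∈ Finset.range ((t : ℕ) + 1), tl (i + 1) e * kap h (mm ((t : ℕ) - a + 1)) i
      else ∑ i ∈ Finset.Ico ((t : ℕ) + 1) (n - 1), tl (i + 1) e * kap h (mm ((t : ℕ) - a + 1)) i :=
  rfl

theorem pt_step (h : Fin n → ℕ) (a : ℕ) (mm : ℕ → Fin n → ℤ) (j : ℕ) (hj : a + j < n)
    {e : Fin n → ℤ} (he : e ∈ ZW n) :
    pt h a mm j e = pt h a mm (j + 1) e + s h (mm (j + 1)) e • toLex (Pi.single ⟨a + j, hj⟩ (1 : ℤ)) := by
  rw [pt_apply, pt_apply]
  have h1 : s h (mm (j + 1)) e • (toLex (Pi.single (⟨a + j, hj⟩ : Fin n) (1 : ℤ)) : Lex (Fin n → ℤ)) =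
      toLex (Pi.single (⟨a + j, hj⟩ : Fin n) (s h (mm (j + 1)) e)) := by
    have : (s h (mm (j + 1)) e • Pi.single (⟨a + j, hj⟩ : Fin n) (1 : ℤ) : Fin n → ℤ) =
        Pi.single (⟨a + j, hj⟩ : Fin n) (s h (mm (j + 1)) e) := by
      rw [← Pi.single_smul]; simp
    rw [← this]; rfl
  rw [h1, ← toLex_add]
  congr 1
  funext t
  rw [Pi.add_apply]
  by_cases ht : t = ⟨a + j, hj⟩
  · subst ht
    rw [Pi.single_eq_same]
    simp only
    have e1 : a + j - a + 1 = j + 1 := by omega
    rw [if_neg (by omega), if_neg (by omega), if_neg (by omega), e1, if_pos le_rfl, s_expand h _ he]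
    have e2 : Finset.range (n - 1) = Finset.range (a + j + 1) ∪ Finset.Ico (a + j + 1) (n - 1) ∨
        n - 1 < a + j + 1 := by
      by_cases h2 : a + j + 1 ≤ n - 1
      · left
        ext i
        simp only [Finset.mem_union, Finset.mem_range, Finset.mem_Ico]
        omega
      · right; omega
    rcases e2 with e2 | e2
    · rw [e2, Finset.sum_union]
      · ring
      · rw [Finset.disjoint_left]
        intro i hi hi2
        rw [Finset.mem_range] at hi
        rw [Finset.mem_Ico] at hi2
        omega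
    · have e3 : a + j + 1 = n := by omega
      rw [Finset.Ico_eq_empty (by omega), Finset.sum_empty]
      have e4 : a + j + 1 = (n - 1) + 1 := by omega
      rw [e4, Finset.sum_range_succ, tl_of_le (show n ≤ n - 1 + 1 by omega)]
      ring
  · rw [Pi.single_eq_of_ne ht, add_zero]
    have ht2 : (t : ℕ) ≠ a + j := fun h2 => ht (Fin.ext h2)
    by_cases h3 : (t : ℕ) < a
    · rw [if_pos h3, if_pos h3]
    · rw [if_neg h3, if_neg h3]
      by_cases h4 : (t : ℕ) - a + 1 ≤ j
      · rw [if_pos h4, if_pos (by omega)]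
      · rw [if_neg h4, if_neg (by omega)]

/-- kernel of `p_j` on the `W`-lattice. -/
theorem pt_ker (h : Fin n → ℕ) (a : ℕ) (mm : ℕ → Fin n → ℤ) (j : ℕ)
    (hK1 : ∀ k, a + k + 1 < n → kap h (mm k) (a + k) ≠ 0)
    (hK2 : ∀ k, a + k + 1 < n → kap h (mm (k + 1)) (a + k) ≠ 0)
    {e : Fin n → ℤ} (h0 : pt h a mm j e = 0) :
    ∀ i, i ≠ a + j → tl (i + 1) e = 0 := by
  have hval : ∀ t : Fin n, (if (t : ℕ) < a then - tl ((t : ℕ) + 1) e
      else if (t : ℕ) - a + 1 ≤ j then
        - ∑ i ∈ Finset.range ((t : ℕ) + 1), tl (i + 1) e * kap h (mm ((t : ℕ) - a + 1)) i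
      else ∑ i ∈ Finset.Ico ((t : ℕ) + 1) (n - 1),
        tl (i + 1) e * kap h (mm ((t : ℕ) - a + 1)) i) = 0 := by
    intro t
    have := congrFun (show (fun t : Fin n => if (t : ℕ) < a then - tl ((t : ℕ) + 1) e
      else if (t : ℕ) - a + 1 ≤ j then
        - ∑ i ∈ Finset.range ((t : ℕ) + 1), tl (i + 1) e * kap h (mm ((t : ℕ) - a + 1)) i
      else ∑ i ∈ Finset.Ico ((t : ℕ) + 1) (n - 1),
        tl (i + 1) e * kap h (mm ((t : ℕ) - a + 1)) i) = fun _ => 0 from h0) t
    exact this
  -- low indices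
  have hlow : ∀ i, i < a + j → tl (i + 1) e = 0 := by
    intro i
    induction i using Nat.strong_induction_on with
    | _ i ih =>
      intro hi
      by_cases hin : i + 1 < n
      · have h1 := hval ⟨i, by omega⟩
        simp only at h1
        by_cases hia : i < a
        · rw [if_pos hia] at h1
          omega
        · rw [if_neg hia, if_pos (by omega)] at h1
          rw [Finset.sum_range_succ, Finset.sum_eq_zero (fun b hb => by
            rw [Finset.mem_range] at hb
            rw [ih b hb (by omega), zero_mul]), zero_add, neg_eq_zero] at h1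
          rcases mul_eq_zero.1 h1 with h2 | h2
          · exact h2
          · exfalso
            have h3 := hK2 (i - a) (by omega)
            rw [show a + (i - a) = i by omega] at h3
            exact h3 h2
      · exact tl_of_le (by omega) e
  -- high indices
  have hhigh : ∀ d i, i + d = n → a + j < i → tl (i + 1) e = 0 := by
    intro d
    induction d using Nat.strong_induction_on with
    | _ d ih =>
      intro i hid hi
      by_cases hin : i + 1 < n
      · have h1 := hval ⟨i - 1, by omega⟩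
        simp only at h1
        have e1 : i - 1 + 1 = i := by omega
        rw [if_neg (by omega), if_neg (by omega), e1] at h1
        rw [Finset.sum_eq_single i] at h1
        · rcases mul_eq_zero.1 h1 with h2 | h2
          · exact h2
          · exfalso
            have h3 := hK1 (i - a) (by omega)
            rw [show a + (i - a) = i by omega] at h3
            rw [show i - 1 - a + 1 = i - a by omega] at h2
            exact h3 h2
        · intro b hb hbi
          rw [Finset.mem_Ico] at hb
          rw [ih (n - b) (by omega) b (by omega) (by omega), zero_mul]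
        · intro h2
          exact absurd (Finset.mem_Ico.2 ⟨le_rfl, by omega⟩) h2
      · exact tl_of_le (by omega) e
  intro i hi
  rcases lt_or_gt_of_ne hi with h1 | h1
  · exact hlow i h1
  · by_cases hin : i < n
    · exact hhigh (n - i) i (by omega) h1
    · exact tl_of_le (by omega) e

/-- the last point lies in the chamber `INC`. -/
theorem pt_last_neg (h : Fin n → ℕ) (a : ℕ) (mm : ℕ → Fin n → ℤ) (T : ℕ) (hT : a + T + 1 = n)
    (hK2 : ∀ k, a + k + 1 < n → 0 < kap h (mm (k + 1)) (a + k))
    (i : ℕ) (hi : i + 1 < n) : pt h a mm T (W i hi) < 0 := by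
  rw [pt_apply]
  refine lexPi_neg ⟨i, by omega⟩ (fun t ht => ?_) ?_
  · have ht' : (t : ℕ) < i := ht
    simp only [tl_W]
    by_cases h1 : (t : ℕ) < a
    · rw [if_pos h1, if_neg (by omega), neg_zero]
    · rw [if_neg h1, if_pos (by omega), Finset.sum_eq_zero, neg_zero]
      intro b hb
      rw [Finset.mem_range] at hb
      rw [if_neg (by omega), zero_mul]
  · simp only [tl_W]
    by_cases h1 : i < a
    · rw [if_pos h1, if_pos trivial]; norm_num
    · rw [if_neg h1, if_pos (by omega), Finset.sum_eq_single i]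
      · rw [if_pos rfl, one_mul, neg_lt_zero]
        have := hK2 (i - a) (by omega)
        rwa [show a + (i - a) = i by omega] at this
      · intro b hb hbi
        rw [if_neg (by omega), zero_mul]
      · intro h2
        exact absurd (Finset.mem_range.2 (by omega)) h2

/-- an injective point of the chamber `INC`. -/
def incP (n : ℕ) : (Fin n → ℤ) →+ Lex (Fin n → ℤ) where
  toFun e := toLex fun t : Fin n => - tl ((t : ℕ) + 1) e
  map_zero' := by
    have : (fun t : Fin n => - tl ((t : ℕ) + 1) (0 : Fin n → ℤ)) = 0 := by funext t; simp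
    rw [this]; rfl
  map_add' x y := by
    rw [← toLex_add]
    congr 1
    funext t
    simp only [Pi.add_apply, map_add]
    ring

theorem incP_neg (i : ℕ) (hi : i + 1 < n) : incP n (W i hi) < 0 := by
  refine lexPi_neg (f := fun t : Fin n => - tl ((t : ℕ) + 1) (W i hi)) ⟨i, by omega⟩
    (fun t ht => ?_) ?_
  · have ht' : (t : ℕ) < i := ht
    simp only [tl_W]
    rw [if_neg (by omega), neg_zero]
  · simp only [tl_W]
    rw [if_pos trivial]; norm_num

theorem incP_inj {e : Fin n → ℤ} (he : e ∈ ZW n) (h0 : incP n e = 0) : e = 0 := by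
  refine eq_zero_of_tl fun k => ?_
  rcases Nat.eq_zero_or_pos k with rfl | hk
  · exact he
  · by_cases hkn : k < n
    · have := congrFun (show (fun t : Fin n => - tl ((t : ℕ) + 1) e) = fun _ => 0 from h0)
        ⟨k - 1, by omega⟩
      simp only at this
      rw [show k - 1 + 1 = k by omega] at this
      omega
    · exact tl_of_le (by omega) e

theorem lex_ne {V V' : Type} [AddCommGroup V] [AddCommGroup V'] {a : V} {b : V'}
    (h : b ≠ 0) : (toLex (a, b) : Lex (V × V')) ≠ 0 := fun h0 => h (congrArg Prod.snd h0)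

/-- **Step 4(b), abstract form.** -/
theorem nest (h : Fin n → ℕ) (hh : IsHessenberg h)
    (hc : ∀ i : Fin n, (i : ℕ) + 1 < n → (i : ℕ) + 2 ≤ h i)
    (S : ∀ (V : Type) [AddCommGroup V] [LinearOrder V] [IsOrderedAddMonoid V],
      ((Fin n → ℤ) →+ V) → (Fin n → ℤ) → Prop)
    (D : (Fin n → ℤ) → Finset (Fin n → ℤ)) (hD : ∀ m, ∀ e ∈ D m, Cn e)
    (sgn : ∀ (m : Fin n → ℤ) (V : Type) [AddCommGroup V] [LinearOrder V] [IsOrderedAddMonoid V]
      (V' : Type) [AddCommGroup V'] [LinearOrder V'] [IsOrderedAddMonoid V']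
      (x : (Fin n → ℤ) →+ V) (x' : (Fin n → ℤ) →+ V'),
      (∀ e ∈ D m, SS (x e) (x' e)) → S V x m → S V' x' m)
    (cross : ∀ (m : Fin n → ℤ) (V : Type) [AddCommGroup V] [LinearOrder V] [IsOrderedAddMonoid V]
      (x : (Fin n → ℤ) →+ V) (c : Fin n → ℤ), Cn c → s h m c ≠ 0 → x c = 0 →
      (∀ e ∈ ZW n, x e = 0 → s h m c • e = s h m e • c) →
      S (Lex (V × ℤ)) (lexF x (sH h m)) m → S (Lex (V × ℤ)) (lexF x (-sH h m)) m)
    (bend : ∀ (m : Fin n → ℤ) (V : Type) [AddCommGroup V] [LinearOrder V] [IsOrderedAddMonoid V]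
      (x : (Fin n → ℤ) →+ V) (j : ℕ) (hj : j + 1 < n), 0 < s h m (W j hj) → x (W j hj) = 0 →
      (∀ e ∈ ZW n, x e = 0 → ∃ t : ℤ, e = t • W j hj) →
      S (Lex (V × ℤ)) (lexF x (sH h m)) m →
      S (Lex (V × ℤ)) (lexF x (-sH h m)) (m + s h m (W j hj) • W j hj))
    (inc : ∀ (m : Fin n → ℤ) (V : Type) [AddCommGroup V] [LinearOrder V] [IsOrderedAddMonoid V]
      (x : (Fin n → ℤ) →+ V), (∀ (j : ℕ) (hj : j + 1 < n), x (W j hj) < 0) → S V x m →
      ∀ c, 0 ≤ m c)
    (g : Fin n → ℤ)
    (hT : ∀ (V : Type) [AddCommGroup V] [LinearOrder V] [IsOrderedAddMonoid V]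
      (x : (Fin n → ℤ) →+ V), S (Lex (ℤ × V)) (lexF (sH h g) x) g) :
    (∀ c, 0 ≤ g c) ∧ ∀ c, 0 ≤ s h g (u c) := by
  classical
  have hmono := fun (m : Fin n → ℤ) (V : Type) [AddCommGroup V] [LinearOrder V]
      [IsOrderedAddMonoid V] (x : (Fin n → ℤ) →+ V) (τ : V) =>
    mono (ZW n) Cn (fun e he => he.1) (fun e he => he.2.2) Cn_par (sH h m) (D m) (hD m)
      (fun V _ _ _ x => S V x m) (fun V _ _ _ V' _ _ _ x x' => sgn m V V' x x')
      (fun V _ _ _ x c => cross m V x c) V x τ
  -- from infinity to a finite point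
  have hinf : ∀ (V : Type) [AddCommGroup V] [LinearOrder V] [IsOrderedAddMonoid V]
      (x : (Fin n → ℤ) →+ V), (∀ e ∈ ZW n, x e = 0 → e = 0) → S V x g := by
    intro V _ _ _ x hx
    have h1 : S (Lex (ℤ × V)) (lexF (0 : (Fin n → ℤ) →+ ℤ) x) g := by
      let τ : Lex (ℤ × V) := toLex (1, 0)
      have happ : ∀ e, (lexF (0 : (Fin n → ℤ) →+ ℤ) x + smF (sH h g) τ) e =
            toLex (sH h g e, x e) := by
        intro e
        have h2 : (lexF (0 : (Fin n → ℤ) →+ ℤ) x + smF (sH h g) τ) e =
            toLex ((0 : ℤ) + sH h g e • (1 : ℤ), x e + sH h g e • (0 : V)) := rfl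
        rw [h2, smul_zero, add_zero, zero_add, smul_eq_mul, mul_one]
      refine hmono g (Lex (ℤ × V)) (lexF 0 x) τ ?_ ?_ ?_ ?_
      · exact (lex_pos _ _).2 (Or.inl one_pos)
      · intro e he h0
        exact hx e he (congrArg Prod.snd h0)
      · intro e he h0
        rw [happ] at h0
        exact (hD g e he).2.2 (hx e (hD g e he).1 (congrArg Prod.snd h0))
      · have h2 : (lexF (0 : (Fin n → ℤ) →+ ℤ) x + smF (sH h g) τ) = lexF (sH h g) x :=
          DFunLike.ext _ _ fun e => happ e
        rw [h2]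
        exact hT V x
    refine sgn g _ V _ _ (fun e _ => ?_) h1
    rw [lexF_apply]
    constructor
    · rw [lex_pos]
      constructor
      · rintro (h2 | ⟨_, h2⟩)
        · exact absurd h2 (lt_irrefl _)
        · exact h2
      · intro h2; exact Or.inr ⟨rfl, h2⟩
    · rw [lex_neg]
      constructor
      · rintro (h2 | ⟨_, h2⟩)
        · exact absurd h2 (lt_irrefl _)
        · exact h2
      · intro h2; exact Or.inr ⟨rfl, h2⟩
  have hg0 : ∀ c, 0 ≤ g c := inc g _ (incP n) (fun j hj => incP_neg j hj)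
    (hinf _ (incP n) fun e he h0 => incP_inj he h0)
  refine ⟨hg0, ?_⟩
  by_contra hbad
  push Not at hbad
  obtain ⟨a, han, hK, hneg⟩ := kill h hh hc g hbad hg0
  set mm : ℕ → Fin n → ℤ := chain h a g with hmm
  have hm0 : mm 0 = g := rfl
  have hms : ∀ k (hk : a + k + 1 < n), mm (k + 1) = mm k + s h (mm k) (W (a + k) hk) • W (a + k) hk :=
    fun k hk => chain_succ h a g k hk
  have hWW : ∀ j (hj : j + 1 < n), s h (W j hj) (W j hj) = 0 := by
    intro j hj
    have := s_skew h (W j hj) (W j hj)
    omega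
  have hsame : ∀ k (hk : a + k + 1 < n), s h (mm (k + 1)) (W (a + k) hk) =
      s h (mm k) (W (a + k) hk) := by
    intro k hk
    rw [hms k hk, s_add_left, s_smul_left, hWW, mul_zero, add_zero]
  have hK1 : ∀ k, a + k + 1 < n → 0 < kap h (mm k) (a + k) := by
    intro k hk
    unfold kap
    rw [dif_pos hk]
    exact hK k hk
  have hK2 : ∀ k, a + k + 1 < n → 0 < kap h (mm (k + 1)) (a + k) := by
    intro k hk
    unfold kap
    rw [dif_pos hk, hsame k hk]
    exact hK k hk
  have hker : ∀ j, ∀ e ∈ ZW n, pt h a mm j e = 0 → ∀ i, i ≠ a + j → tl (i + 1) e = 0 :=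
    fun j e _ h0 => pt_ker h a mm j (fun k hk => (hK1 k hk).ne') (fun k hk => (hK2 k hk).ne') h0
  -- kernel is the line of `W_{a+j}`
  have hline : ∀ j (hj : a + j + 1 < n), ∀ e ∈ ZW n, pt h a mm j e = 0 →
      e = tl (a + j + 1) e • W (a + j) hj := by
    intro j hj e he h0
    have h1 := hker j e he h0
    rw [← sub_eq_zero]
    refine eq_zero_of_tl fun k => ?_
    rw [map_sub, map_zsmul, tl_W]
    rcases Nat.eq_zero_or_pos k with rfl | hk
    · rw [if_neg (by omega), smul_zero, sub_zero]; exact he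
    · by_cases h2 : k = a + j + 1
      · subst h2; rw [if_pos rfl]; simp
      · rw [if_neg h2, smul_zero, sub_zero]
        have := h1 (k - 1) (by omega)
        rwa [show k - 1 + 1 = k by omega] at this
  have hline0 : ∀ j, ¬ (a + j + 1 < n) → ∀ e ∈ ZW n, pt h a mm j e = 0 → e = 0 := by
    intro j hj e he h0
    have h1 := hker j e he h0
    refine eq_zero_of_tl fun k => ?_
    rcases Nat.eq_zero_or_pos k with rfl | hk
    · exact he
    · by_cases h2 : k = a + j + 1
      · subst h2; exact tl_of_le (by omega) e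
      · have := h1 (k - 1) (by omega)
        rwa [show k - 1 + 1 = k by omega] at this
  -- `lex (p_j, s(m_j, .))` is injective
  have hinj : ∀ j, ∀ e ∈ ZW n, lexF (pt h a mm j) (sH h (mm j)) e = 0 → e = 0 := by
    intro j e he h0
    have h1 : pt h a mm j e = 0 := congrArg Prod.fst h0
    have h2 : s h (mm j) e = 0 := congrArg Prod.snd h0
    by_cases hj : a + j + 1 < n
    · have h3 := hline j hj e he h1
      rw [h3, ← sH_apply, map_zsmul, sH_apply, smul_eq_mul] at h2
      rcases mul_eq_zero.1 h2 with h4 | h4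
      · rw [h3, h4, zero_smul]
      · exact absurd h4 (hK j hj).ne'
    · exact hline0 j hj e he h1
  -- the path
  have hpath : ∀ j, a + j < n → S _ (lexF (pt h a mm j) (sH h (mm j))) (mm j) := by
    intro j
    induction j with
    | zero =>
      intro _
      exact hinf _ _ (hinj 0)
    | succ j ih =>
      intro hj
      have hj' : a + j + 1 < n := hj
      have h1 := ih (by omega)
      have hpW : pt h a mm j (W (a + j) hj') = 0 := by
        rw [pt_apply]
        have : (fun t : Fin n => if (t : ℕ) < a then - tl ((t : ℕ) + 1) (W (a + j) hj')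
          else if (t : ℕ) - a + 1 ≤ j then
            - ∑ i ∈ Finset.range ((t : ℕ) + 1),
              tl (i + 1) (W (a + j) hj') * kap h (mm ((t : ℕ) - a + 1)) i
          else ∑ i ∈ Finset.Ico ((t : ℕ) + 1) (n - 1),
            tl (i + 1) (W (a + j) hj') * kap h (mm ((t : ℕ) - a + 1)) i) = 0 := by
          funext t
          simp only [tl_W]
          by_cases h2 : (t : ℕ) < a
          · rw [if_pos h2, if_neg (by omega)]; rfl
          · rw [if_neg h2]
            by_cases h3 : (t : ℕ) - a + 1 ≤ j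
            · rw [if_pos h3, Finset.sum_eq_zero]
              · rfl
              · intro b hb
                rw [Finset.mem_range] at hb
                rw [if_neg (by omega), zero_mul]
            · rw [if_neg h3, Finset.sum_eq_zero]
              · rfl
              · intro b hb
                rw [Finset.mem_Ico] at hb
                rw [if_neg (by omega), zero_mul]
        rw [this]; rfl
      have h2 := bend (mm j) _ (pt h a mm j) (a + j) hj' (hK j hj') hpW
        (fun e he h0 => ⟨_, hline j hj' e he h0⟩) h1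
      rw [← hms j hj'] at h2
      -- straight piece
      let τ : Lex (Lex (Fin n → ℤ) × ℤ) :=
        toLex (toLex (Pi.single (⟨a + j, by omega⟩ : Fin n) (1 : ℤ)), -2)
      have happ : ∀ e ∈ ZW n, (lexF (pt h a mm (j + 1)) (sH h (mm (j + 1))) +
          smF (sH h (mm (j + 1))) τ) e = toLex (pt h a mm j e, - s h (mm (j + 1)) e) := by
        intro e he
        have h3 : (lexF (pt h a mm (j + 1)) (sH h (mm (j + 1))) + smF (sH h (mm (j + 1))) τ) e =
            toLex (pt h a mm (j + 1) e + s h (mm (j + 1)) e •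
              (toLex (Pi.single (⟨a + j, by omega⟩ : Fin n) (1 : ℤ)) : Lex (Fin n → ℤ)),
              s h (mm (j + 1)) e + s h (mm (j + 1)) e • (-2 : ℤ)) := rfl
        rw [h3, ← pt_step h a mm j (by omega) he, smul_eq_mul]
        congr 2
        ring
      refine hmono (mm (j + 1)) _ (lexF (pt h a mm (j + 1)) (sH h (mm (j + 1)))) τ
        ?_ (hinj (j + 1)) ?_ ?_
      · refine (lex_pos _ _).2 (Or.inl ?_)
        refine lexPi_pos ⟨a + j, by omega⟩ (fun t ht => ?_) ?_
        · rw [Pi.single_eq_of_ne ht.ne]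
        · rw [Pi.single_eq_same]; exact one_pos
      · intro e he
        have heZ := (hD _ e he).1
        rw [happ e heZ]
        intro h0
        have h4 : pt h a mm j e = 0 := congrArg Prod.fst h0
        have h5 : - s h (mm (j + 1)) e = 0 := congrArg Prod.snd h0
        have h6 : s h (mm (j + 1)) e = 0 := by omega
        have h7 := hline j hj' e heZ h4
        rw [h7, ← sH_apply, map_zsmul, sH_apply, smul_eq_mul, hsame j hj'] at h6
        rcases mul_eq_zero.1 h6 with h8 | h8
        · exact (hD _ e he).2.2 (by rw [h7, h8, zero_smul])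
        · exact absurd h8 (hK j hj').ne'
      · refine sgn (mm (j + 1)) _ _ _ _ (fun e he => ?_) h2
        have heZ := (hD _ e he).1
        rw [happ e heZ, lexF_apply]
        have h4 : pt h a mm j e = 0 → s h (mm (j + 1)) e = s h (mm j) e := by
          intro h0
          have h7 := hline j hj' e heZ h0
          rw [h7, ← sH_apply, ← sH_apply, map_zsmul, map_zsmul, sH_apply, sH_apply, hsame j hj']
        have h5 : (-sH h (mm j)) e = - s h (mm j) e := rfl
        rw [h5]
        constructor
        · rw [lex_pos, lex_pos]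
          constructor
          · rintro (h6 | ⟨h6, h7⟩)
            · exact Or.inl h6
            · refine Or.inr ⟨h6, ?_⟩
              rw [h4 h6]; omega
          · rintro (h6 | ⟨h6, h7⟩)
            · exact Or.inl h6
            · refine Or.inr ⟨h6, ?_⟩
              rw [h4 h6] at h7; omega
        · rw [lex_neg, lex_neg]
          constructor
          · rintro (h6 | ⟨h6, h7⟩)
            · exact Or.inl h6
            · refine Or.inr ⟨h6, ?_⟩
              rw [h4 h6]; omega
          · rintro (h6 | ⟨h6, h7⟩)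
            · exact Or.inl h6
            · refine Or.inr ⟨h6, ?_⟩
              rw [h4 h6] at h7; omega
  -- the end
  have hTn : a + (n - 1 - a) + 1 = n := by omega
  have hlast := hpath (n - 1 - a) (by omega)
  have hlast2 : S _ (pt h a mm (n - 1 - a)) (mm (n - 1 - a)) := by
    refine sgn _ _ _ _ _ (fun e he => ?_) hlast
    have heZ := (hD _ e he).1
    have h1 : pt h a mm (n - 1 - a) e ≠ 0 := fun h0 =>
      (hD _ e he).2.2 (hline0 _ (by omega) e heZ h0)
    rw [lexF_apply]
    constructor
    · rw [lex_pos]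
      constructor
      · rintro (h2 | ⟨h2, _⟩)
        · exact h2
        · exact absurd h2 h1
      · intro h2; exact Or.inl h2
    · rw [lex_neg]
      constructor
      · rintro (h2 | ⟨h2, _⟩)
        · exact h2
        · exact absurd h2 h1
      · intro h2; exact Or.inl h2
  obtain ⟨c, hc0⟩ := hneg
  have := inc _ _ _ (fun i hi => pt_last_neg h a mm (n - 1 - a) hTn hK2 i hi) hlast2 c
  exact absurd this (not_le.2 hc0)

end Crest.Agent.R059.Nest409
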