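/-
Row 59 (S0081), helper940: the q null relations (gauge relations without root).

For every kernel `B(k;c) = q^{ex R c (k-c)} ∏_j φ_j(k_j-c_j, D_j)`, `D_j = k(N⁻ j) - c(N⁺ j)`
with the Pascal rule, the sum `∑_c B(k;c) E(|k|-|c|) W(c)` satisfies the one variable recursion of
`W`; hence it equals `λ W(k)`.  With `φ = q^A [A+D-1; A]` we get
`∑_c B(k;c) E(|k|-|c|) W(c) = E(0) W(k)` for every function `E`.
-/
import Crest.Agent.R059.DeflEnd

set_option autoImplicit false

namespace Crest.Agent.R059.Null_940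

open Finset Crest.Agent.R059.Defl Crest.Agent.R059.ThickAlg

variable {ι : Type*} [LinearOrder ι] [Fintype ι]
variable {R : ι → ι → Prop} [DecidableRel R]

section step

variable {K : Type*} [CommRing K]

/-- expansion of one summand. -/
theorem prod_split0 (S : Finset ι) (cond : ι → Prop) [DecidablePred cond]
    (hcond : ∀ j ∈ S, ¬ cond j) (u v : ι → K) (w : ι → K)
    (h1 : ∀ j, j ∈ S → w j = u j)
    (h2 : ∀ j, cond j → w j = v j)
    (h3 : ∀ j, j ∉ S → ¬ cond j → w j = u j + v j) :
    ∏ j, w j = ∑ T ∈ (Finset.univ : Finset ι).powerset,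
      if S ⊆ T ∧ ∀ j ∈ T, ¬ cond j then (∏ j ∈ T, u j) * ∏ j ∈ Finset.univ \ T, v j else 0 := by
  classical
  have e : ∏ j, w j = ∏ j, ((if cond j then 0 else u j) + (if j ∈ S then 0 else v j)) := by
    apply Finset.prod_congr rfl
    intro j _
    by_cases hjS : j ∈ S
    · rw [if_neg (hcond j hjS), if_pos hjS, h1 j hjS, add_zero]
    · by_cases hc : cond j
      · rw [if_pos hc, if_neg hjS, h2 j hc, zero_add]
      · rw [if_neg hc, if_neg hjS, h3 j hjS hc]
  rw [e, Finset.prod_add]
  apply Finset.sum_congr rfl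
  intro T hT
  split_ifs with h
  · congr 1
    · apply Finset.prod_congr rfl
      intro j hj
      rw [if_neg (h.2 j hj)]
    · apply Finset.prod_congr rfl
      intro j hj
      rw [Finset.mem_sdiff] at hj
      rw [if_neg]
      intro hjS
      exact hj.2 (h.1 hjS)
  · rw [not_and_or] at h
    rcases h with h | h
    · rw [Finset.not_subset] at h
      obtain ⟨j, hj, hjT⟩ := h
      have : ∏ i ∈ Finset.univ \ T, (if i ∈ S then (0 : K) else v i) = 0 := by
        apply Finset.prod_eq_zero (i := j)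
        · rw [Finset.mem_sdiff]
          exact ⟨Finset.mem_univ _, hjT⟩
        · rw [if_pos hj]
      rw [this, mul_zero]
    · push Not at h
      obtain ⟨j, hj, hc⟩ := h
      have : ∏ i ∈ T, (if cond i then (0 : K) else u i) = 0 :=
        Finset.prod_eq_zero hj (by rw [if_pos hc])
      rw [this, zero_mul]

/-- the step identity without root. -/
theorem step0 (hR : UI R) (u v : ι → K) (wL wR : Finset ι → ι → K) (ω : ℕ → K)
    (hL1 : ∀ S, St R S → ∀ j, j ∈ S → wL S j = u j)
    (hL2 : ∀ S, St R S → ∀ j, (∃ i ∈ S, R i j) → wL S j = v j)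
    (hL3 : ∀ S, St R S → ∀ j, j ∉ S → (¬ ∃ i ∈ S, R i j) → wL S j = u j + v j)
    (hR1 : ∀ S, St R S → ∀ j, j ∈ S → wR S j = u j)
    (hR2 : ∀ S, St R S → ∀ j, (∃ i ∈ S, R j i) → wR S j = v j)
    (hR3 : ∀ S, St R S → ∀ j, j ∉ S → (¬ ∃ i ∈ S, R j i) → wR S j = u j + v j) :
    ∑ S ∈ (Finset.univ : Finset ι).powerset.filter (fun S => St R S),
        ω S.card * ∏ j, wL S j =
      ∑ S ∈ (Finset.univ : Finset ι).powerset.filter (fun S => St R S),
        ω S.card * ∏ j, wR S j := by
  classical
  have hl : ∑ S ∈ (Finset.univ : Finset ι).powerset.filter (fun S => St R S),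
        ω S.card * ∏ j, wL S j =
      ∑ T ∈ (Finset.univ : Finset ι).powerset, ((∏ j ∈ T, u j) * ∏ j ∈ Finset.univ \ T, v j) *
        ∑ S ∈ (Lm R T).powerset, ω S.card := by
    have : ∀ S ∈ (Finset.univ : Finset ι).powerset.filter (fun S => St R S),
        ω S.card * ∏ j, wL S j = ∑ T ∈ (Finset.univ : Finset ι).powerset,
          if S ⊆ T ∧ ∀ j ∈ T, ¬ ∃ i ∈ S, R i j then
            ω S.card * ((∏ j ∈ T, u j) * ∏ j ∈ Finset.univ \ T, v j) else 0 := by
      intro S hS
      have hS' := (Finset.mem_filter.1 hS).2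
      rw [prod_split0 S (fun j => ∃ i ∈ S, R i j)
        (by rintro j hj ⟨i, hi, hij⟩; exact hS' i hi j hj hij) u v (wL S)
        (hL1 S hS') (hL2 S hS') (hL3 S hS'), Finset.mul_sum]
      apply Finset.sum_congr rfl
      intro T _
      rw [mul_ite, mul_zero]
    rw [Finset.sum_congr rfl this, Finset.sum_comm]
    apply Finset.sum_congr rfl
    intro T _
    rw [← Finset.sum_filter, Finset.mul_sum]
    have e1 : ((Finset.univ : Finset ι).powerset.filter (fun S => St R S)).filter
        (fun S => S ⊆ T ∧ ∀ j ∈ T, ¬ ∃ i ∈ S, R i j) = (Lm R T).powerset := by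
      ext S
      simp only [Finset.mem_filter, Finset.mem_powerset]
      constructor
      · rintro ⟨⟨_, hst⟩, h1, h2⟩ i hi
        refine mem_Lm.2 ⟨h1 hi, ?_⟩
        intro j hj hij
        exact h2 j hj ⟨i, hi, hij⟩
      · intro h
        have h' : ∀ i ∈ S, i ∈ T ∧ ∀ j ∈ T, ¬ R i j := fun i hi => mem_Lm.1 (h hi)
        refine ⟨⟨Finset.subset_univ _, fun a ha b hb => (h' a ha).2 b (h' b hb).1⟩, ?_, ?_⟩
        · intro i hi
          exact (h' i hi).1
        · rintro j hj ⟨i, hi, hij⟩
          exact (h' i hi).2 j hj hij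
    rw [e1]
    apply Finset.sum_congr rfl
    intro S _
    ring
  have hr : ∑ S ∈ (Finset.univ : Finset ι).powerset.filter (fun S => St R S),
        ω S.card * ∏ j, wR S j =
      ∑ T ∈ (Finset.univ : Finset ι).powerset, ((∏ j ∈ T, u j) * ∏ j ∈ Finset.univ \ T, v j) *
        ∑ S ∈ (Mm R T).powerset, ω S.card := by
    have : ∀ S ∈ (Finset.univ : Finset ι).powerset.filter (fun S => St R S),
        ω S.card * ∏ j, wR S j = ∑ T ∈ (Finset.univ : Finset ι).powerset,
          if S ⊆ T ∧ ∀ j ∈ T, ¬ ∃ i ∈ S, R j i then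
            ω S.card * ((∏ j ∈ T, u j) * ∏ j ∈ Finset.univ \ T, v j) else 0 := by
      intro S hS
      have hS' := (Finset.mem_filter.1 hS).2
      rw [prod_split0 S (fun j => ∃ i ∈ S, R j i)
        (by rintro j hj ⟨i, hi, hij⟩; exact hS' j hj i hi hij) u v (wR S)
        (hR1 S hS') (hR2 S hS') (hR3 S hS'), Finset.mul_sum]
      apply Finset.sum_congr rfl
      intro T _
      rw [mul_ite, mul_zero]
    rw [Finset.sum_congr rfl this, Finset.sum_comm]
    apply Finset.sum_congr rfl
    intro T _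
    rw [← Finset.sum_filter, Finset.mul_sum]
    have e1 : ((Finset.univ : Finset ι).powerset.filter (fun S => St R S)).filter
        (fun S => S ⊆ T ∧ ∀ j ∈ T, ¬ ∃ i ∈ S, R j i) = (Mm R T).powerset := by
      ext S
      simp only [Finset.mem_filter, Finset.mem_powerset]
      constructor
      · rintro ⟨⟨_, hst⟩, h1, h2⟩ i hi
        refine mem_Mm.2 ⟨h1 hi, ?_⟩
        intro j hj hij
        exact h2 j hj ⟨i, hi, hij⟩
      · intro h
        have h' : ∀ i ∈ S, i ∈ T ∧ ∀ j ∈ T, ¬ R j i := fun i hi => mem_Mm.1 (h hi)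
        refine ⟨⟨Finset.subset_univ _, fun a ha b hb => (h' b hb).2 a (h' a ha).1⟩, ?_, ?_⟩
        · intro i hi
          exact (h' i hi).1
        · rintro j hj ⟨i, hi, hij⟩
          exact (h' i hi).2 j hj hij
    rw [e1]
    apply Finset.sum_congr rfl
    intro S _
    ring
  rw [hl, hr]
  apply Finset.sum_congr rfl
  intro T _
  congr 1
  rw [Finset.sum_powerset_apply_card (fun m => ω m), Finset.sum_powerset_apply_card (fun m => ω m),
    card_Lm hR]

end step

variable {F : Type*} [Field F] {P : Type*}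

/-- the kernel function (product over all vertices). -/
def Phi0 (Q : Finset P) (φ : P → ι → ℤ → ℤ → F) (A D : ι → ℤ) : F :=
  ∑ p ∈ Q, ∏ j, φ p j (A j) (D j)

/-- pointwise identity. -/
theorem key0 (hR : UI R) (q : F) (hq : q ≠ 0) (x : ℕ → F)
    (Q : Finset P) (φ : P → ι → ℤ → ℤ → F)
    (hφ : ∀ p ∈ Q, ∀ j, ∀ A D : ℤ, φ p j A D = q ^ D * φ p j (A - 1) D + φ p j A (D - 1))
    (E : ℤ → F) (N : ℕ) (M : ℤ) (k c : ι → ℤ) :
    ∑ S ∈ (Finset.univ : Finset ι).powerset.filter (fun S => St R S),
        x N ^ S.card * q ^ (∑ b ∈ S, nb R k b) *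
          (q ^ ex R c (k - ind S - c) * Phi0 Q φ (k - ind S - c) (Dv R (k - ind S) c) *
            E (M - S.card)) =
      ∑ S ∈ (Finset.univ : Finset ι).powerset.filter (fun S => St R S),
        x N ^ S.card * q ^ (∑ b ∈ S, nb R (c + ind S) b) *
          (q ^ ex R (c + ind S) (k - (c + ind S)) *
            Phi0 Q φ (k - (c + ind S)) (Dv R k (c + ind S)) * E (M - S.card)) := by
  classical
  set ω : ℕ → F := fun s => x N ^ s * E (M - s) with hω
  have hprod : ∀ S : Finset ι, q ^ (∑ b ∈ S, Dv R k c b) =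
      ∏ j, (if j ∈ S then q ^ Dv R k c j else 1) := by
    intro S
    rw [Finset.prod_ite_mem, Finset.univ_inter]
    induction S using Finset.induction_on with
    | empty => simp
    | insert a s ha ih => rw [Finset.sum_insert ha, Finset.prod_insert ha, zpow_add₀ hq, ih]
  have hl : ∀ S ∈ (Finset.univ : Finset ι).powerset.filter (fun S => St R S),
      x N ^ S.card * q ^ (∑ b ∈ S, nb R k b) *
          (q ^ ex R c (k - ind S - c) * Phi0 Q φ (k - ind S - c) (Dv R (k - ind S) c) *
            E (M - S.card)) =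
      ∑ p ∈ Q, q ^ ex R c (k - c) * (ω S.card * ∏ j, ((if j ∈ S then q ^ Dv R k c j else 1) *
        φ p j (k j - c j - if j ∈ S then 1 else 0)
          (Dv R k c j - if ∃ i ∈ S, R i j then 1 else 0))) := by
    intro S hS
    have hS' := (Finset.mem_filter.1 hS).2
    have h1 : x N ^ S.card * q ^ (∑ b ∈ S, nb R k b) *
          (q ^ ex R c (k - ind S - c) * Phi0 Q φ (k - ind S - c) (Dv R (k - ind S) c) *
            E (M - S.card)) =
        ω S.card * (q ^ ((∑ b ∈ S, nb R k b) + ex R c (k - ind S - c))) *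
          Phi0 Q φ (k - ind S - c) (Dv R (k - ind S) c) := by
      rw [zpow_add₀ hq, hω]; ring
    rw [h1, exL, zpow_add₀ hq, hprod, Phi0, Finset.mul_sum]
    apply Finset.sum_congr rfl
    intro p _
    rw [Finset.prod_mul_distrib]
    have h2 : ∏ j, φ p j ((k - ind S - c) j) (Dv R (k - ind S) c j) =
        ∏ j, φ p j (k j - c j - if j ∈ S then 1 else 0)
          (Dv R k c j - if ∃ i ∈ S, R i j then 1 else 0) := by
      apply Finset.prod_congr rfl
      intro j _
      congr 1
      · simp only [Pi.sub_apply, ind]; ring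
      · unfold Dv
        rw [nb_sub, nb_ind hR hS']; ring
    rw [h2]; ring
  have hr : ∀ S ∈ (Finset.univ : Finset ι).powerset.filter (fun S => St R S),
      x N ^ S.card * q ^ (∑ b ∈ S, nb R (c + ind S) b) *
          (q ^ ex R (c + ind S) (k - (c + ind S)) *
            Phi0 Q φ (k - (c + ind S)) (Dv R k (c + ind S)) * E (M - S.card)) =
      ∑ p ∈ Q, q ^ ex R c (k - c) * (ω S.card *
        ∏ j, ((if j ∈ S then q ^ Dv R k c j else 1) *
        φ p j (k j - c j - if j ∈ S then 1 else 0)
          (Dv R k c j - if ∃ i ∈ S, R j i then 1 else 0))) := by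
    intro S hS
    have hS' := (Finset.mem_filter.1 hS).2
    have h1 : x N ^ S.card * q ^ (∑ b ∈ S, nb R (c + ind S) b) *
          (q ^ ex R (c + ind S) (k - (c + ind S)) *
            Phi0 Q φ (k - (c + ind S)) (Dv R k (c + ind S)) * E (M - S.card)) =
        ω S.card *
          (q ^ ((∑ b ∈ S, nb R (c + ind S) b) + ex R (c + ind S) (k - (c + ind S)))) *
          Phi0 Q φ (k - (c + ind S)) (Dv R k (c + ind S)) := by
      rw [zpow_add₀ hq, hω]; ring
    rw [h1, exR hR k c hS', zpow_add₀ hq, hprod, Phi0, Finset.mul_sum]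
    apply Finset.sum_congr rfl
    intro p _
    rw [Finset.prod_mul_distrib]
    have h2 : ∏ j, φ p j ((k - (c + ind S)) j) (Dv R k (c + ind S) j) =
        ∏ j, φ p j (k j - c j - if j ∈ S then 1 else 0)
          (Dv R k c j - if ∃ i ∈ S, R j i then 1 else 0) := by
      apply Finset.prod_congr rfl
      intro j _
      congr 1
      · simp only [Pi.sub_apply, Pi.add_apply, ind]; ring
      · unfold Dv
        rw [nf_add, nf_ind hR hS']; ring
    rw [h2]; ring
  rw [Finset.sum_congr rfl hl, Finset.sum_congr rfl hr, Finset.sum_comm, Finset.sum_comm (t := Q)]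
  apply Finset.sum_congr rfl
  intro p hp
  rw [← Finset.mul_sum, ← Finset.mul_sum]
  congr 1
  exact step0 hR (fun j => q ^ Dv R k c j * φ p j (k j - c j - 1) (Dv R k c j))
    (fun j => φ p j (k j - c j) (Dv R k c j - 1)) _ _ ω
    (by
      intro S hS j hjS
      have hn : ¬ ∃ i ∈ S, R i j := by rintro ⟨i, hi, hij⟩; exact hS i hi j hjS hij
      simp only [if_pos hjS, if_neg hn, sub_zero])
    (by
      intro S hS j hex
      have hn : j ∉ S := by obtain ⟨i, hi, hij⟩ := hex; exact fun h => hS i hi j h hij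
      simp only [if_pos hex, if_neg hn, sub_zero, one_mul])
    (by
      intro S hS j hjS hex
      simp only [if_neg hjS, if_neg hex, sub_zero, one_mul]
      exact hφ p hp j _ _)
    (by
      intro S hS j hjS
      have hn : ¬ ∃ i ∈ S, R j i := by rintro ⟨i, hi, hij⟩; exact hS j hjS i hi hij
      simp only [if_pos hjS, if_neg hn, sub_zero])
    (by
      intro S hS j hex
      have hn : j ∉ S := by obtain ⟨i, hi, hij⟩ := hex; exact fun h => hS j h i hi hij
      simp only [if_pos hex, if_neg hn, sub_zero, one_mul])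
    (by
      intro S hS j hjS hex
      simp only [if_neg hjS, if_neg hex, sub_zero, one_mul]
      exact hφ p hp j _ _)

/-- all integer vectors with entries in `[0, B]`. -/
noncomputable def box0 (ι : Type*) [LinearOrder ι] [Fintype ι] (B : ℤ) : Finset (ι → ℤ) :=
  Fintype.piFinset (fun _ : ι => Finset.Icc 0 B)

omit [DecidableRel R] in
theorem mem_box0 {B : ℤ} {c : ι → ℤ} : c ∈ box0 ι B ↔ ∀ j, 0 ≤ c j ∧ c j ≤ B := by
  unfold box0
  rw [Fintype.mem_piFinset]
  simp only [Finset.mem_Icc]

theorem shift0 (q : F) (x : ℕ → F) (N : ℕ) (B M : ℤ) (hMB : M ≤ B) (H : (ι → ℤ) → F)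
    (hH : ∀ c, M < ∑ j, c j → H c = 0) (S : Finset ι) :
    ∑ c ∈ box0 ι B, H c * W R q x N (c - ind S) =
      ∑ c ∈ box0 ι B, H (c + ind S) * W R q x N c := by
  classical
  have hi01 : ∀ j, 0 ≤ ind S j := by intro j; unfold ind; split_ifs <;> omega
  refine Finset.sum_bij_ne_zero (fun c _ _ => c - ind S) ?_ ?_ ?_ ?_
  · intro c hc hne
    rw [mem_box0] at hc ⊢
    have hW : W R q x N (c - ind S) ≠ 0 := right_ne_zero_of_mul hne
    have hpos : ∀ j, 0 ≤ (c - ind S) j := by
      intro j
      by_contra hj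
      exact hW (W_neg q x N _ ⟨j, not_le.1 hj⟩)
    refine fun j => ⟨hpos j, ?_⟩
    have := (hc j).2
    have := hi01 j
    simp only [Pi.sub_apply]
    omega
  · intro c₁ _ _ c₂ _ _ h
    exact sub_left_injective h
  · intro b hb hne
    rw [mem_box0] at hb
    have hHb : H (b + ind S) ≠ 0 := left_ne_zero_of_mul hne
    have hsum : ∑ j, (b + ind S) j ≤ M := by
      by_contra hj
      exact hHb (hH _ (not_le.1 hj))
    have hpos : ∀ j, 0 ≤ (b + ind S) j := by
      intro j
      have := (hb j).1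
      have := hi01 j
      simp only [Pi.add_apply]
      omega
    refine ⟨b + ind S, ?_, ?_, ?_⟩
    · rw [mem_box0]
      refine fun j => ⟨hpos j, ?_⟩
      have : (b + ind S) j ≤ ∑ j, (b + ind S) j :=
        Finset.single_le_sum (fun i _ => hpos i) (Finset.mem_univ j)
      omega
    · rw [add_sub_cancel_right]
      exact hne
    · exact add_sub_cancel_right b (ind S)
  · intro c _ _
    rw [sub_add_cancel]

/-- **The gauge relation** (general chart). -/
theorem gauge0 (hR : UI R) (q : F) (hq : q ≠ 0) (x : ℕ → F)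
    (Q : Finset P) (φ : P → ι → ℤ → ℤ → F)
    (hφ : ∀ p ∈ Q, ∀ j, ∀ A D : ℤ, φ p j A D = q ^ D * φ p j (A - 1) D + φ p j A (D - 1))
    (E : ℤ → F) (hE : ∀ M : ℤ, M < 0 → E M = 0) (lam : F)
    (hbase : ∀ k : ι → ℤ, Phi0 Q φ k (fun j => nb R k j) * E (∑ j, k j) = if k = 0 then lam else 0)
    (N : ℕ) (k : ι → ℤ) (B : ℤ) (hB0 : 0 ≤ B) (hB : ∑ j, k j ≤ B) :
    ∑ c ∈ box0 ι B, q ^ ex R c (k - c) * Phi0 Q φ (k - c) (Dv R k c) *
      E (∑ j, k j - ∑ j, c j) * W R q x N c = lam * W R q x N k := by
  classical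
  induction N generalizing k with
  | zero =>
    rw [Finset.sum_eq_single 0]
    · have h1 : ex R (0 : ι → ℤ) (k - 0) = 0 := by
        unfold ex nf; simp
      have h2 : Dv R k 0 = fun j => nb R k j := by
        funext j; unfold Dv nf; simp
      have h3 : W R q x 0 (0 : ι → ℤ) = 1 := by
        show (if (0 : ι → ℤ) = 0 then (1 : F) else 0) = 1
        rw [if_pos rfl]
      have h4 : W R q x 0 k = if k = 0 then 1 else 0 := rfl
      have h5 : ∑ j, k j - ∑ j, (0 : ι → ℤ) j = ∑ j, k j := by simp
      rw [h1, h2, h3, h4, sub_zero, zpow_zero, one_mul, mul_one, h5, hbase k]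
      split_ifs <;> simp
    · intro c _ hc
      have : W R q x 0 c = 0 := by
        show (if c = 0 then (1 : F) else 0) = 0
        rw [if_neg hc]
      rw [this, mul_zero]
    · intro h
      exfalso
      apply h
      rw [mem_box0]
      exact fun j => ⟨le_rfl, hB0⟩
  | succ N ih =>
    have hW : ∀ k : ι → ℤ, W R q x (N + 1) k =
        ∑ S ∈ (Finset.univ : Finset ι).powerset.filter (fun S => St R S),
          x N ^ S.card * q ^ (∑ b ∈ S, nb R k b) * W R q x N (k - ind S) := fun _ => rfl
    have hsum : ∀ S : Finset ι, ∑ j, (k - ind S) j = ∑ j, k j - S.card := by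
      intro S
      simp only [Pi.sub_apply]
      rw [Finset.sum_sub_distrib, sum_ind]
    have hsum' : ∀ (c : ι → ℤ) (S : Finset ι), ∑ j, (c + ind S) j = ∑ j, c j + S.card := by
      intro c S
      simp only [Pi.add_apply]
      rw [Finset.sum_add_distrib, sum_ind]
    -- right side
    have hr : lam * W R q x (N + 1) k = ∑ c ∈ box0 ι B,
        (∑ S ∈ (Finset.univ : Finset ι).powerset.filter (fun S => St R S),
          x N ^ S.card * q ^ (∑ b ∈ S, nb R (c + ind S) b) *
          (q ^ ex R (c + ind S) (k - (c + ind S)) *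
            Phi0 Q φ (k - (c + ind S)) (Dv R k (c + ind S)) *
              E (∑ j, k j - ∑ j, c j - S.card))) * W R q x N c := by
      have e1 : ∀ S ∈ (Finset.univ : Finset ι).powerset.filter (fun S => St R S),
          lam * (x N ^ S.card * q ^ (∑ b ∈ S, nb R k b) * W R q x N (k - ind S)) =
          ∑ c ∈ box0 ι B, (x N ^ S.card * q ^ (∑ b ∈ S, nb R k b) *
            (q ^ ex R c (k - ind S - c) * Phi0 Q φ (k - ind S - c) (Dv R (k - ind S) c) *
              E (∑ j, k j - ∑ j, c j - S.card))) * W R q x N c := by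
        intro S _
        have e2 : lam * (x N ^ S.card * q ^ (∑ b ∈ S, nb R k b) * W R q x N (k - ind S)) =
            x N ^ S.card * q ^ (∑ b ∈ S, nb R k b) * (lam * W R q x N (k - ind S)) := by ring
        rw [e2, ← ih (k - ind S) (by rw [hsum S]; omega), Finset.mul_sum]
        apply Finset.sum_congr rfl
        intro c _
        rw [hsum S]
        have : ∑ j, k j - (S.card : ℤ) - ∑ j, c j = ∑ j, k j - ∑ j, c j - S.card := by ring
        rw [this]
        ring
      rw [hW, Finset.mul_sum, Finset.sum_congr rfl e1, Finset.sum_comm]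
      apply Finset.sum_congr rfl
      intro c hc
      rw [← Finset.sum_mul]
      congr 1
      exact key0 hR q hq x Q φ hφ E N _ k c
    -- left side
    have hl : ∑ c ∈ box0 ι B, q ^ ex R c (k - c) * Phi0 Q φ (k - c) (Dv R k c) *
        E (∑ j, k j - ∑ j, c j) * W R q x (N + 1) c =
        ∑ S ∈ (Finset.univ : Finset ι).powerset.filter (fun S => St R S), ∑ c ∈ box0 ι B,
          (q ^ ex R c (k - c) * Phi0 Q φ (k - c) (Dv R k c) *
            E (∑ j, k j - ∑ j, c j) * (x N ^ S.card * q ^ (∑ b ∈ S, nb R c b))) *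
              W R q x N (c - ind S) := by
      have e1 : ∀ c ∈ box0 ι B, q ^ ex R c (k - c) * Phi0 Q φ (k - c) (Dv R k c) *
          E (∑ j, k j - ∑ j, c j) * W R q x (N + 1) c =
          ∑ S ∈ (Finset.univ : Finset ι).powerset.filter (fun S => St R S),
            (q ^ ex R c (k - c) * Phi0 Q φ (k - c) (Dv R k c) *
            E (∑ j, k j - ∑ j, c j) * (x N ^ S.card * q ^ (∑ b ∈ S, nb R c b))) *
              W R q x N (c - ind S) := by
        intro c hc
        rw [hW c, Finset.mul_sum]
        apply Finset.sum_congr rfl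
        intro S _
        ring
      rw [Finset.sum_congr rfl e1, Finset.sum_comm]
    rw [hl, hr]
    simp_rw [Finset.sum_mul]
    rw [Finset.sum_comm (s := box0 ι B)]
    apply Finset.sum_congr rfl
    intro S hS
    rw [shift0 q x N B (∑ j, k j) hB (fun c => q ^ ex R c (k - c) * Phi0 Q φ (k - c) (Dv R k c) *
            E (∑ j, k j - ∑ j, c j) * (x N ^ S.card * q ^ (∑ b ∈ S, nb R c b)))
          (by
            intro c hc
            have : E (∑ j, k j - ∑ j, c j) = 0 := hE _ (by omega)
            simp only [this, mul_zero, zero_mul]) S]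
    apply Finset.sum_congr rfl
    intro c _
    rw [hsum' c S]
    have : ∑ j, k j - (∑ j, c j + (S.card : ℤ)) = ∑ j, k j - ∑ j, c j - S.card := by ring
    rw [this]
    ring

/-- the null kernel factor `q^A [A+D-1; A]`. -/
noncomputable def g0 (q : F) (A D : ℤ) : F := q ^ A * gb q (A + D - 1) A

theorem g0_pascal {q : F} (g : Gen q) (A D : ℤ) :
    g0 q A D = q ^ D * g0 q (A - 1) D + g0 q A (D - 1) := by
  have h := gk_pascal (ι := Fin 1) g ∅ 0 A D
  simpa [gk, g0] using h

theorem g0_neg (q : F) {A : ℤ} (D : ℤ) (h : A < 0) : g0 q A D = 0 := by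
  unfold g0; rw [gb_neg q _ h, mul_zero]

theorem g0_zero (q : F) (D : ℤ) : g0 q 0 D = 1 := by
  unfold g0; rw [gb_zero, zpow_zero, mul_one]

theorem g0_pos (q : F) {A : ℤ} (h : 0 < A) : g0 q A 0 = 0 := by
  obtain ⟨m, rfl⟩ : ∃ m : ℕ, A = m + 1 := ⟨(A - 1).toNat, by omega⟩
  have := gb_nat q (m : ℤ) (m + 1)
  push_cast at this
  unfold g0
  have e1 : (m : ℤ) + 1 + 0 - 1 = m := by ring
  rw [e1, this, Finset.prod_eq_zero (i := m) (Finset.self_mem_range_succ m)]
  · rw [zero_div, mul_zero]
  · rw [sub_self, qz_zero]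

/-- base value of the null kernel. -/
theorem g0_base (hR : UI R) (q : F) (k : ι → ℤ) :
    ∏ j, g0 q (k j) (nb R k j) = if k = 0 then 1 else 0 := by
  classical
  split_ifs with h
  · subst h
    apply Finset.prod_eq_one
    intro j _
    exact g0_zero q _
  · have hne : (Finset.univ.filter (fun j => k j ≠ 0)).Nonempty := by
      by_contra hn
      rw [Finset.not_nonempty_iff_eq_empty, Finset.filter_eq_empty_iff] at hn
      apply h
      funext j
      have := hn (Finset.mem_univ j)
      push Not at this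
      exact this
    set b := (Finset.univ.filter (fun j => k j ≠ 0)).min' hne with hb
    have hbm := Finset.min'_mem _ hne
    rw [← hb] at hbm
    have hkb : k b ≠ 0 := (Finset.mem_filter.1 hbm).2
    have hlt : ∀ i, i < b → k i = 0 := by
      intro i hi
      by_contra hk
      exact absurd (Finset.min'_le _ i (Finset.mem_filter.2 ⟨Finset.mem_univ _, hk⟩)) (not_le.2 hi)
    have hD : nb R k b = 0 := by
      unfold nb
      apply Finset.sum_eq_zero
      intro i _
      split_ifs with hi
      · exact hlt i (hR.lt hi)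
      · rfl
    apply Finset.prod_eq_zero (Finset.mem_univ b)
    rw [hD]
    rcases lt_or_gt_of_ne hkb with h1 | h1
    · exact g0_neg q _ h1
    · exact g0_pos q h1

/-- **The q null relations.**  `∑_c q^{ex(c,k-c)} ∏_j q^{A_j}[A_j+D_j-1;A_j] E(|k|-|c|) W(c) = E(0) W(k)`
for every function `E : ℤ → F`. -/
theorem null0 (hR : UI R) {q : F} (g : Gen q) (x : ℕ → F) (E : ℤ → F)
    (N : ℕ) (k : ι → ℤ) (B : ℤ) (hB0 : 0 ≤ B) (hB : ∑ j, k j ≤ B) :
    ∑ c ∈ box0 ι B, q ^ ex R c (k - c) * (∏ j, g0 q (k j - c j) (Dv R k c j)) *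
      E (∑ j, k j - ∑ j, c j) * W R q x N c = E 0 * W R q x N k := by
  classical
  rw [← gauge0 hR q g.q0 x (Finset.univ : Finset Unit) (fun _ _ A D => g0 q A D)
    (fun _ _ _ A D => g0_pascal g A D) (fun M => if M < 0 then 0 else E M)
    (fun M hM => if_pos hM) (E 0) ?_ N k B hB0 hB]
  · apply Finset.sum_congr rfl
    intro c _
    have e1 : Phi0 (Finset.univ : Finset Unit) (fun _ _ A D => g0 q A D) (k - c) (Dv R k c) =
        ∏ j, g0 q (k j - c j) (Dv R k c j) := by
      unfold Phi0
      rw [Finset.univ_unique, Finset.sum_singleton]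
      rfl
    rw [e1]
    by_cases h : ∑ j, k j - ∑ j, c j < 0
    · have h2 : ∏ j, g0 q (k j - c j) (Dv R k c j) = 0 := by
        obtain ⟨j, hj⟩ : ∃ j, k j - c j < 0 := by
          by_contra hn
          push Not at hn
          have : 0 ≤ ∑ j, (k j - c j) := Finset.sum_nonneg (fun j _ => hn j)
          rw [Finset.sum_sub_distrib] at this
          omega
        exact Finset.prod_eq_zero (Finset.mem_univ j) (g0_neg q _ hj)
      rw [h2]; ring
    · rw [if_neg h]
  · intro k
    have e1 : Phi0 (Finset.univ : Finset Unit) (fun _ _ A D => g0 q A D) k (fun j => nb R k j) =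
        ∏ j, g0 q (k j) (nb R k j) := by
      unfold Phi0
      rw [Finset.univ_unique, Finset.sum_singleton]
    rw [e1, g0_base hR]
    split_ifs with h1 h2 h2
    · subst h1; simp at h2
    · subst h1; simp
    · simp
    · simp

/-! ### the mirrored relation: `D'_j = k(N⁺ j) - c(N⁻ j)` -/

/-- exponents `Σ_j A_j c(N⁻ j)`. -/
def exm (R : ι → ι → Prop) [DecidableRel R] (c A : ι → ℤ) : ℤ := ∑ i, A i * nb R c i

/-- `D'_j = k(N⁺(j)) - c(N⁻(j))`. -/
def Dm (R : ι → ι → Prop) [DecidableRel R] (k c : ι → ℤ) (j : ι) : ℤ := nf R k j - nb R c j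

theorem nf_sub (k c : ι → ℤ) (j : ι) : nf R (k - c) j = nf R k j - nf R c j := by
  unfold nf
  rw [← Finset.sum_sub_distrib]
  apply Finset.sum_congr rfl
  intro i _
  split_ifs <;> simp

theorem exmL (k c : ι → ℤ) (S : Finset ι) :
    (∑ b ∈ S, nb R k b) + exm R c (k - ind S - c) =
      exm R c (k - c) + ∑ j, (k - c) j * nf R (ind S) j := by
  have h1 : exm R c (k - ind S - c) = exm R c (k - c) - ∑ b ∈ S, nb R c b := by
    unfold exm
    rw [← sum_ind_mul S (fun b => nb R c b), ← Finset.sum_sub_distrib]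
    apply Finset.sum_congr rfl
    intro i _
    simp only [Pi.sub_apply]
    ring
  rw [h1, swap_sum (k - c) (ind S), sum_ind_mul]
  have h3 : ∑ b ∈ S, nb R (k - c) b = ∑ b ∈ S, nb R k b - ∑ b ∈ S, nb R c b := by
    rw [← Finset.sum_sub_distrib]
    apply Finset.sum_congr rfl
    intro b _
    rw [nb_sub]
  rw [h3]
  ring

theorem exmR (hR : UI R) (k c : ι → ℤ) {S : Finset ι} (hS : St R S) :
    (∑ b ∈ S, nb R (c + ind S) b) + exm R (c + ind S) (k - (c + ind S)) =
      exm R c (k - c) + ∑ j, (k - c) j * nb R (ind S) j := by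
  have h0 : ∀ b ∈ S, nb R (ind S) b = 0 := by
    intro b hb
    rw [nb_ind hR hS, if_neg]
    rintro ⟨i, hi, hib⟩
    exact hS i hi b hb hib
  have h1 : exm R (c + ind S) (k - (c + ind S)) = exm R c (k - c) + ∑ j, (k - c) j * nb R (ind S) j
      - ∑ b ∈ S, nb R c b := by
    have e1 : exm R (c + ind S) (k - (c + ind S)) =
        ∑ i, (k - c) i * nb R c i + ∑ i, (k - c) i * nb R (ind S) i
          - ∑ i, ind S i * nb R c i - ∑ i, ind S i * nb R (ind S) i := by
      unfold exm
      rw [← Finset.sum_add_distrib, ← Finset.sum_sub_distrib, ← Finset.sum_sub_distrib]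
      apply Finset.sum_congr rfl
      intro i _
      rw [nb_add]
      simp only [Pi.sub_apply, Pi.add_apply]
      ring
    rw [e1, sum_ind_mul, sum_ind_mul, Finset.sum_eq_zero h0]
    unfold exm
    ring
  rw [h1]
  have h2 : ∑ b ∈ S, nb R (c + ind S) b = ∑ b ∈ S, nb R c b := by
    apply Finset.sum_congr rfl
    intro b hb
    rw [nb_add, h0 b hb, add_zero]
  rw [h2]
  ring

theorem prod_zpow (q : F) (hq : q ≠ 0) (A : ι → ℤ) (s : ι → Prop) [DecidablePred s]
    (f : ι → ℤ) (hf : ∀ j, f j = if s j then 1 else 0) :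
    q ^ (∑ j, A j * f j) = ∏ j, (if s j then q ^ A j else 1) := by
  classical
  have h : ∀ T : Finset ι, q ^ (∑ j ∈ T, A j * f j) = ∏ j ∈ T, (if s j then q ^ A j else 1) := by
    intro T
    induction T using Finset.induction_on with
    | empty => simp
    | insert a t ha ih =>
      rw [Finset.sum_insert ha, Finset.prod_insert ha, zpow_add₀ hq, ih, hf a]
      split_ifs <;> simp
  exact h Finset.univ

/-- pointwise identity (mirrored). -/
theorem key1 (hR : UI R) (q : F) (hq : q ≠ 0) (x : ℕ → F)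
    (Q : Finset P) (φ : P → ι → ℤ → ℤ → F)
    (hφ : ∀ p ∈ Q, ∀ j, ∀ A D : ℤ, φ p j A D = φ p j (A - 1) D + q ^ A * φ p j A (D - 1))
    (E : ℤ → F) (N : ℕ) (M : ℤ) (k c : ι → ℤ) :
    ∑ S ∈ (Finset.univ : Finset ι).powerset.filter (fun S => St R S),
        x N ^ S.card * q ^ (∑ b ∈ S, nb R k b) *
          (q ^ exm R c (k - ind S - c) * Phi0 Q φ (k - ind S - c) (Dm R (k - ind S) c) *
            E (M - S.card)) =
      ∑ S ∈ (Finset.univ : Finset ι).powerset.filter (fun S => St R S),
        x N ^ S.card * q ^ (∑ b ∈ S, nb R (c + ind S) b) *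
          (q ^ exm R (c + ind S) (k - (c + ind S)) *
            Phi0 Q φ (k - (c + ind S)) (Dm R k (c + ind S)) * E (M - S.card)) := by
  classical
  set ω : ℕ → F := fun s => x N ^ s * E (M - s) with hω
  have hl : ∀ S ∈ (Finset.univ : Finset ι).powerset.filter (fun S => St R S),
      x N ^ S.card * q ^ (∑ b ∈ S, nb R k b) *
          (q ^ exm R c (k - ind S - c) * Phi0 Q φ (k - ind S - c) (Dm R (k - ind S) c) *
            E (M - S.card)) =
      ∑ p ∈ Q, q ^ exm R c (k - c) * (ω S.card * ∏ j,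
        ((if ∃ i ∈ S, R j i then q ^ (k j - c j) else 1) *
        φ p j (k j - c j - if j ∈ S then 1 else 0)
          (Dm R k c j - if ∃ i ∈ S, R j i then 1 else 0))) := by
    intro S hS
    have hS' := (Finset.mem_filter.1 hS).2
    have h1 : x N ^ S.card * q ^ (∑ b ∈ S, nb R k b) *
          (q ^ exm R c (k - ind S - c) * Phi0 Q φ (k - ind S - c) (Dm R (k - ind S) c) *
            E (M - S.card)) =
        ω S.card * (q ^ ((∑ b ∈ S, nb R k b) + exm R c (k - ind S - c))) *
          Phi0 Q φ (k - ind S - c) (Dm R (k - ind S) c) := by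
      rw [zpow_add₀ hq, hω]; ring
    rw [h1, exmL, zpow_add₀ hq, prod_zpow q hq (k - c) (fun j => ∃ i ∈ S, R j i) _
      (fun j => nf_ind hR hS' j), Phi0, Finset.mul_sum]
    apply Finset.sum_congr rfl
    intro p _
    rw [Finset.prod_mul_distrib]
    have h2 : ∏ j, φ p j ((k - ind S - c) j) (Dm R (k - ind S) c j) =
        ∏ j, φ p j (k j - c j - if j ∈ S then 1 else 0)
          (Dm R k c j - if ∃ i ∈ S, R j i then 1 else 0) := by
      apply Finset.prod_congr rfl
      intro j _
      congr 1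
      · simp only [Pi.sub_apply, ind]; ring
      · unfold Dm
        rw [nf_sub, nf_ind hR hS']; ring
    rw [h2]
    simp only [Pi.sub_apply]
    ring
  have hr : ∀ S ∈ (Finset.univ : Finset ι).powerset.filter (fun S => St R S),
      x N ^ S.card * q ^ (∑ b ∈ S, nb R (c + ind S) b) *
          (q ^ exm R (c + ind S) (k - (c + ind S)) *
            Phi0 Q φ (k - (c + ind S)) (Dm R k (c + ind S)) * E (M - S.card)) =
      ∑ p ∈ Q, q ^ exm R c (k - c) * (ω S.card *
        ∏ j, ((if ∃ i ∈ S, R i j then q ^ (k j - c j) else 1) *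
        φ p j (k j - c j - if j ∈ S then 1 else 0)
          (Dm R k c j - if ∃ i ∈ S, R i j then 1 else 0))) := by
    intro S hS
    have hS' := (Finset.mem_filter.1 hS).2
    have h1 : x N ^ S.card * q ^ (∑ b ∈ S, nb R (c + ind S) b) *
          (q ^ exm R (c + ind S) (k - (c + ind S)) *
            Phi0 Q φ (k - (c + ind S)) (Dm R k (c + ind S)) * E (M - S.card)) =
        ω S.card *
          (q ^ ((∑ b ∈ S, nb R (c + ind S) b) + exm R (c + ind S) (k - (c + ind S)))) *
          Phi0 Q φ (k - (c + ind S)) (Dm R k (c + ind S)) := by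
      rw [zpow_add₀ hq, hω]; ring
    rw [h1, exmR hR k c hS', zpow_add₀ hq, prod_zpow q hq (k - c) (fun j => ∃ i ∈ S, R i j) _
      (fun j => nb_ind hR hS' j), Phi0, Finset.mul_sum]
    apply Finset.sum_congr rfl
    intro p _
    rw [Finset.prod_mul_distrib]
    have h2 : ∏ j, φ p j ((k - (c + ind S)) j) (Dm R k (c + ind S) j) =
        ∏ j, φ p j (k j - c j - if j ∈ S then 1 else 0)
          (Dm R k c j - if ∃ i ∈ S, R i j then 1 else 0) := by
      apply Finset.prod_congr rfl
      intro j _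
      congr 1
      · simp only [Pi.sub_apply, Pi.add_apply, ind]; ring
      · unfold Dm
        rw [nb_add, nb_ind hR hS']; ring
    rw [h2]
    simp only [Pi.sub_apply]
    ring
  rw [Finset.sum_congr rfl hl, Finset.sum_congr rfl hr, Finset.sum_comm, Finset.sum_comm (t := Q)]
  apply Finset.sum_congr rfl
  intro p hp
  rw [← Finset.mul_sum, ← Finset.mul_sum]
  congr 1
  exact (step0 hR (fun j => φ p j (k j - c j - 1) (Dm R k c j))
    (fun j => q ^ (k j - c j) * φ p j (k j - c j) (Dm R k c j - 1)) _ _ ω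
    (by
      intro S hS j hjS
      have hn : ¬ ∃ i ∈ S, R i j := by rintro ⟨i, hi, hij⟩; exact hS i hi j hjS hij
      simp only [if_pos hjS, if_neg hn, sub_zero, one_mul])
    (by
      intro S hS j hex
      have hn : j ∉ S := by obtain ⟨i, hi, hij⟩ := hex; exact fun h => hS i hi j h hij
      simp only [if_pos hex, if_neg hn, sub_zero])
    (by
      intro S hS j hjS hex
      simp only [if_neg hjS, if_neg hex, sub_zero, one_mul]
      exact hφ p hp j _ _)
    (by
      intro S hS j hjS
      have hn : ¬ ∃ i ∈ S, R j i := by rintro ⟨i, hi, hij⟩; exact hS j hjS i hi hij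
      simp only [if_pos hjS, if_neg hn, sub_zero, one_mul])
    (by
      intro S hS j hex
      have hn : j ∉ S := by obtain ⟨i, hi, hij⟩ := hex; exact fun h => hS j h i hi hij
      simp only [if_pos hex, if_neg hn, sub_zero])
    (by
      intro S hS j hjS hex
      simp only [if_neg hjS, if_neg hex, sub_zero, one_mul]
      exact hφ p hp j _ _)).symm

/-- **The mirrored gauge relation** (general chart). -/
theorem gauge1 (hR : UI R) (q : F) (hq : q ≠ 0) (x : ℕ → F)
    (Q : Finset P) (φ : P → ι → ℤ → ℤ → F)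
    (hφ : ∀ p ∈ Q, ∀ j, ∀ A D : ℤ, φ p j A D = φ p j (A - 1) D + q ^ A * φ p j A (D - 1))
    (E : ℤ → F) (hE : ∀ M : ℤ, M < 0 → E M = 0) (lam : F)
    (hbase : ∀ k : ι → ℤ, Phi0 Q φ k (fun j => nf R k j) * E (∑ j, k j) = if k = 0 then lam else 0)
    (N : ℕ) (k : ι → ℤ) (B : ℤ) (hB0 : 0 ≤ B) (hB : ∑ j, k j ≤ B) :
    ∑ c ∈ box0 ι B, q ^ exm R c (k - c) * Phi0 Q φ (k - c) (Dm R k c) *
      E (∑ j, k j - ∑ j, c j) * W R q x N c = lam * W R q x N k := by
  classical
  induction N generalizing k with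
  | zero =>
    rw [Finset.sum_eq_single 0]
    · have h1 : exm R (0 : ι → ℤ) (k - 0) = 0 := by
        unfold exm nb; simp
      have h2 : Dm R k 0 = fun j => nf R k j := by
        funext j; unfold Dm nb; simp
      have h3 : W R q x 0 (0 : ι → ℤ) = 1 := by
        show (if (0 : ι → ℤ) = 0 then (1 : F) else 0) = 1
        rw [if_pos rfl]
      have h4 : W R q x 0 k = if k = 0 then 1 else 0 := rfl
      have h5 : ∑ j, k j - ∑ j, (0 : ι → ℤ) j = ∑ j, k j := by simp
      rw [h1, h2, h3, h4, sub_zero, zpow_zero, one_mul, mul_one, h5, hbase k]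
      split_ifs <;> simp
    · intro c _ hc
      have : W R q x 0 c = 0 := by
        show (if c = 0 then (1 : F) else 0) = 0
        rw [if_neg hc]
      rw [this, mul_zero]
    · intro h
      exfalso
      apply h
      rw [mem_box0]
      exact fun j => ⟨le_rfl, hB0⟩
  | succ N ih =>
    have hW : ∀ k : ι → ℤ, W R q x (N + 1) k =
        ∑ S ∈ (Finset.univ : Finset ι).powerset.filter (fun S => St R S),
          x N ^ S.card * q ^ (∑ b ∈ S, nb R k b) * W R q x N (k - ind S) := fun _ => rfl
    have hsum : ∀ S : Finset ι, ∑ j, (k - ind S) j = ∑ j, k j - S.card := by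
      intro S
      simp only [Pi.sub_apply]
      rw [Finset.sum_sub_distrib, sum_ind]
    have hsum' : ∀ (c : ι → ℤ) (S : Finset ι), ∑ j, (c + ind S) j = ∑ j, c j + S.card := by
      intro c S
      simp only [Pi.add_apply]
      rw [Finset.sum_add_distrib, sum_ind]
    -- right side
    have hr : lam * W R q x (N + 1) k = ∑ c ∈ box0 ι B,
        (∑ S ∈ (Finset.univ : Finset ι).powerset.filter (fun S => St R S),
          x N ^ S.card * q ^ (∑ b ∈ S, nb R (c + ind S) b) *
          (q ^ exm R (c + ind S) (k - (c + ind S)) *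
            Phi0 Q φ (k - (c + ind S)) (Dm R k (c + ind S)) *
              E (∑ j, k j - ∑ j, c j - S.card))) * W R q x N c := by
      have e1 : ∀ S ∈ (Finset.univ : Finset ι).powerset.filter (fun S => St R S),
          lam * (x N ^ S.card * q ^ (∑ b ∈ S, nb R k b) * W R q x N (k - ind S)) =
          ∑ c ∈ box0 ι B, (x N ^ S.card * q ^ (∑ b ∈ S, nb R k b) *
            (q ^ exm R c (k - ind S - c) * Phi0 Q φ (k - ind S - c) (Dm R (k - ind S) c) *
              E (∑ j, k j - ∑ j, c j - S.card))) * W R q x N c := by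
        intro S _
        have e2 : lam * (x N ^ S.card * q ^ (∑ b ∈ S, nb R k b) * W R q x N (k - ind S)) =
            x N ^ S.card * q ^ (∑ b ∈ S, nb R k b) * (lam * W R q x N (k - ind S)) := by ring
        rw [e2, ← ih (k - ind S) (by rw [hsum S]; omega), Finset.mul_sum]
        apply Finset.sum_congr rfl
        intro c _
        rw [hsum S]
        have : ∑ j, k j - (S.card : ℤ) - ∑ j, c j = ∑ j, k j - ∑ j, c j - S.card := by ring
        rw [this]
        ring
      rw [hW, Finset.mul_sum, Finset.sum_congr rfl e1, Finset.sum_comm]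
      apply Finset.sum_congr rfl
      intro c hc
      rw [← Finset.sum_mul]
      congr 1
      exact key1 hR q hq x Q φ hφ E N _ k c
    -- left side
    have hl : ∑ c ∈ box0 ι B, q ^ exm R c (k - c) * Phi0 Q φ (k - c) (Dm R k c) *
        E (∑ j, k j - ∑ j, c j) * W R q x (N + 1) c =
        ∑ S ∈ (Finset.univ : Finset ι).powerset.filter (fun S => St R S), ∑ c ∈ box0 ι B,
          (q ^ exm R c (k - c) * Phi0 Q φ (k - c) (Dm R k c) *
            E (∑ j, k j - ∑ j, c j) * (x N ^ S.card * q ^ (∑ b ∈ S, nb R c b))) *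
              W R q x N (c - ind S) := by
      have e1 : ∀ c ∈ box0 ι B, q ^ exm R c (k - c) * Phi0 Q φ (k - c) (Dm R k c) *
          E (∑ j, k j - ∑ j, c j) * W R q x (N + 1) c =
          ∑ S ∈ (Finset.univ : Finset ι).powerset.filter (fun S => St R S),
            (q ^ exm R c (k - c) * Phi0 Q φ (k - c) (Dm R k c) *
            E (∑ j, k j - ∑ j, c j) * (x N ^ S.card * q ^ (∑ b ∈ S, nb R c b))) *
              W R q x N (c - ind S) := by
        intro c hc
        rw [hW c, Finset.mul_sum]
        apply Finset.sum_congr rfl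
        intro S _
        ring
      rw [Finset.sum_congr rfl e1, Finset.sum_comm]
    rw [hl, hr]
    simp_rw [Finset.sum_mul]
    rw [Finset.sum_comm (s := box0 ι B)]
    apply Finset.sum_congr rfl
    intro S hS
    rw [shift0 q x N B (∑ j, k j) hB (fun c => q ^ exm R c (k - c) * Phi0 Q φ (k - c) (Dm R k c) *
            E (∑ j, k j - ∑ j, c j) * (x N ^ S.card * q ^ (∑ b ∈ S, nb R c b)))
          (by
            intro c hc
            have : E (∑ j, k j - ∑ j, c j) = 0 := hE _ (by omega)
            simp only [this, mul_zero, zero_mul]) S]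
    apply Finset.sum_congr rfl
    intro c _
    rw [hsum' c S]
    have : ∑ j, k j - (∑ j, c j + (S.card : ℤ)) = ∑ j, k j - ∑ j, c j - S.card := by ring
    rw [this]
    ring

/-- the mirrored null kernel factor `[A+D-1; A]`. -/
noncomputable def g1 (q : F) (A D : ℤ) : F := gb q (A + D - 1) A

theorem g1_pascal {q : F} (g : Gen q) (A D : ℤ) :
    g1 q A D = g1 q (A - 1) D + q ^ A * g1 q A (D - 1) := by
  unfold g1
  rw [pascal1 g]
  have e1 : A - 1 + D - 1 = A + D - 1 - 1 := by ring
  have e2 : A + (D - 1) - 1 = A + D - 1 - 1 := by ring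
  rw [e1, e2]

theorem g1_neg (q : F) {A : ℤ} (D : ℤ) (h : A < 0) : g1 q A D = 0 := gb_neg q _ h

theorem g1_zero (q : F) (D : ℤ) : g1 q 0 D = 1 := gb_zero q _

theorem g1_pos (q : F) {A : ℤ} (h : 0 < A) : g1 q A 0 = 0 := by
  obtain ⟨m, rfl⟩ : ∃ m : ℕ, A = m + 1 := ⟨(A - 1).toNat, by omega⟩
  have := gb_nat q (m : ℤ) (m + 1)
  push_cast at this
  unfold g1
  have e1 : (m : ℤ) + 1 + 0 - 1 = m := by ring
  rw [e1, this, Finset.prod_eq_zero (i := m) (Finset.self_mem_range_succ m)]
  · rw [zero_div]
  · rw [sub_self, qz_zero]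

/-- base value of the mirrored null kernel. -/
theorem g1_base (hR : UI R) (q : F) (k : ι → ℤ) :
    ∏ j, g1 q (k j) (nf R k j) = if k = 0 then 1 else 0 := by
  classical
  split_ifs with h
  · subst h
    apply Finset.prod_eq_one
    intro j _
    exact g1_zero q _
  · have hne : (Finset.univ.filter (fun j => k j ≠ 0)).Nonempty := by
      by_contra hn
      rw [Finset.not_nonempty_iff_eq_empty, Finset.filter_eq_empty_iff] at hn
      apply h
      funext j
      have := hn (Finset.mem_univ j)
      push Not at this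
      exact this
    set b := (Finset.univ.filter (fun j => k j ≠ 0)).max' hne with hb
    have hbm := Finset.max'_mem _ hne
    rw [← hb] at hbm
    have hkb : k b ≠ 0 := (Finset.mem_filter.1 hbm).2
    have hlt : ∀ i, b < i → k i = 0 := by
      intro i hi
      by_contra hk
      exact absurd (Finset.le_max' _ i (Finset.mem_filter.2 ⟨Finset.mem_univ _, hk⟩)) (not_le.2 hi)
    have hD : nf R k b = 0 := by
      unfold nf
      apply Finset.sum_eq_zero
      intro i _
      split_ifs with hi
      · exact hlt i (hR.lt hi)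
      · rfl
    apply Finset.prod_eq_zero (Finset.mem_univ b)
    rw [hD]
    rcases lt_or_gt_of_ne hkb with h1 | h1
    · exact g1_neg q _ h1
    · exact g1_pos q h1

/-- **The mirrored q null relations.**
`∑_c q^{∑ A_j c(N⁻ j)} ∏_j [A_j+D'_j-1;A_j] E(|k|-|c|) W(c) = E(0) W(k)`, `D'_j = k(N⁺ j) - c(N⁻ j)`. -/
theorem null1 (hR : UI R) {q : F} (g : Gen q) (x : ℕ → F) (E : ℤ → F)
    (N : ℕ) (k : ι → ℤ) (B : ℤ) (hB0 : 0 ≤ B) (hB : ∑ j, k j ≤ B) :
    ∑ c ∈ box0 ι B, q ^ exm R c (k - c) * (∏ j, g1 q (k j - c j) (Dm R k c j)) *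
      E (∑ j, k j - ∑ j, c j) * W R q x N c = E 0 * W R q x N k := by
  classical
  rw [← gauge1 hR q g.q0 x (Finset.univ : Finset Unit) (fun _ _ A D => g1 q A D)
    (fun _ _ _ A D => g1_pascal g A D) (fun M => if M < 0 then 0 else E M)
    (fun M hM => if_pos hM) (E 0) ?_ N k B hB0 hB]
  · apply Finset.sum_congr rfl
    intro c _
    have e1 : Phi0 (Finset.univ : Finset Unit) (fun _ _ A D => g1 q A D) (k - c) (Dm R k c) =
        ∏ j, g1 q (k j - c j) (Dm R k c j) := by
      unfold Phi0
      rw [Finset.univ_unique, Finset.sum_singleton]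
      rfl
    rw [e1]
    by_cases h : ∑ j, k j - ∑ j, c j < 0
    · have h2 : ∏ j, g1 q (k j - c j) (Dm R k c j) = 0 := by
        obtain ⟨j, hj⟩ : ∃ j, k j - c j < 0 := by
          by_contra hn
          push Not at hn
          have : 0 ≤ ∑ j, (k j - c j) := Finset.sum_nonneg (fun j _ => hn j)
          rw [Finset.sum_sub_distrib] at this
          omega
        exact Finset.prod_eq_zero (Finset.mem_univ j) (g1_neg q _ hj)
      rw [h2]; ring
    · rw [if_neg h]
  · intro k
    have e1 : Phi0 (Finset.univ : Finset Unit) (fun _ _ A D => g1 q A D) k (fun j => nf R k j) =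
        ∏ j, g1 q (k j) (nf R k j) := by
      unfold Phi0
      rw [Finset.univ_unique, Finset.sum_singleton]
    rw [e1, g1_base hR]
    split_ifs with h1 h2 h2
    · subst h1; simp at h2
    · subst h1; simp
    · simp
    · simp

end Crest.Agent.R059.Null_940
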