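import Mathlib
import Crest.Agent.R059.Iso_158

/-!
# Row 59, AB7 part (a): the triangular lemma (helper158)

A finite group `G` acts on `V` and on the finite set `X`; `M x ≤ V` with `g M x ⊆ M (g • x)`,
`N x ≤ M x`, `key : X → Λ` invariant, and the family is triangular.  Then the `χ`-part of
`U = ⨆ x, M x` is the sum over the orbits of the `χ`-parts (for the stabilisers) of `M x / N x`.
-/

set_option autoImplicit false
set_option linter.unusedSectionVars false

namespace Crest.Agent.R059.NumA158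

open Module Iso158

section Tri

variable {K G V X Λ : Type*} [Field K] [Group G] [AddCommGroup V] [Module K V]
  [MulAction G X]

/-- `χ`-part for the stabiliser of `x` -/
def stabChi (ρ : Representation K G V) (χ : G →* Kˣ) (x : X) : Submodule K V where
  carrier := {v | ∀ g : G, g • x = x → ρ g v = (χ g : K) • v}
  add_mem' := by
    intro a b ha hb g hg
    rw [map_add, ha g hg, hb g hg, smul_add]
  zero_mem' := by intro g _; simp
  smul_mem' := by
    intro c v hv g hg
    rw [map_smul, hv g hg, smul_comm]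

theorem mem_stabChi {ρ : Representation K G V} {χ : G →* Kˣ} {x : X} {v : V} :
    v ∈ stabChi ρ χ x ↔ ∀ g : G, g • x = x → ρ g v = (χ g : K) • v := Iff.rfl

theorem proj_smul [Fintype G] (ρ : Representation K G V) (χ : G →* Kˣ) (g : G) (v : V) :
    proj ρ χ (ρ g v) = (χ g : K) • proj ρ χ v := by
  rw [proj_apply, proj_apply, smul_comm (χ g : K), Finset.smul_sum (r := (χ g : K))]
  congr 1
  apply Fintype.sum_bijective (fun h => h * g) (Group.mulRight_bijective g)
  intro h
  rw [map_mul, map_mul, smul_smul]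
  have : (χ g : K) * (((χ h * χ g)⁻¹ : Kˣ) : K) = (((χ h)⁻¹ : Kˣ) : K) := by
    rw [mul_inv_rev]
    push_cast
    rw [← mul_assoc, mul_inv_cancel₀ (Units.ne_zero _), one_mul]
  rw [this]
  rfl

/-- averaging over the stabiliser (indexed by a decidable filter) -/
noncomputable def avStab [Fintype G] [DecidableEq X] (ρ : Representation K G V) (χ : G →* Kˣ)
    (x : X) (v : V) : V :=
  (((Finset.univ.filter (fun g : G => g • x = x)).card : ℕ) : K)⁻¹ •
    ∑ g ∈ Finset.univ.filter (fun g : G => g • x = x), ((χ g)⁻¹ : Kˣ).val • ρ g v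

theorem avStab_mem_of_stable [Fintype G] [DecidableEq X] (ρ : Representation K G V)
    (χ : G →* Kˣ) (x : X) (W : Submodule K V) (hW : ∀ g : G, g • x = x → ∀ v ∈ W, ρ g v ∈ W)
    {v : V} (hv : v ∈ W) : avStab ρ χ x v ∈ W :=
  W.smul_mem _ (W.sum_mem fun g hg => W.smul_mem _ (hW g (Finset.mem_filter.1 hg).2 v hv))

theorem avStab_mem [Fintype G] [DecidableEq X] (ρ : Representation K G V)
    (χ : G →* Kˣ) (x : X) (v : V) : avStab ρ χ x v ∈ stabChi ρ χ x := by
  apply Submodule.smul_mem
  intro h hh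
  rw [map_sum, Finset.smul_sum]
  have key : ∀ g : G, ρ h (((χ g)⁻¹ : Kˣ).val • ρ g v)
      = (χ h : K) • (((χ (h * g))⁻¹ : Kˣ).val • ρ (h * g) v) := by
    intro g
    rw [map_smul, map_mul, map_mul, smul_smul]
    have : (χ h : K) * (((χ h * χ g)⁻¹ : Kˣ) : K) = (((χ g)⁻¹ : Kˣ) : K) := by
      rw [mul_inv_rev]
      push_cast
      rw [mul_comm ((χ g : K)⁻¹) _, ← mul_assoc, mul_inv_cancel₀ (Units.ne_zero _), one_mul]
    rw [this]
    rfl
  rw [Finset.sum_congr rfl (fun g _ => key g)]
  apply Finset.sum_bij (fun g _ => h * g)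
  · intro g hg
    rw [Finset.mem_filter] at hg ⊢
    exact ⟨Finset.mem_univ _, by rw [mul_smul, hg.2, hh]⟩
  · intro a _ b _ hab
    exact mul_left_cancel hab
  · intro b hb
    refine ⟨h⁻¹ * b, ?_, by simp⟩
    rw [Finset.mem_filter] at hb ⊢
    exact ⟨Finset.mem_univ _, by rw [mul_smul, hb.2, inv_smul_eq_iff, hh]⟩
  · intro g _
    rfl

theorem proj_avStab [Fintype G] [DecidableEq X] (hG : (Fintype.card G : K) ≠ 0)
    (ρ : Representation K G V) (χ : G →* Kˣ) (x : X) (v : V) :
    proj ρ χ (avStab ρ χ x v) = proj ρ χ v := by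
  have hc := card_stab_ne_zero (K := K) hG x
  rw [avStab, map_smul, map_sum]
  have : ∀ g ∈ Finset.univ.filter (fun g : G => g • x = x),
      proj ρ χ (((χ g)⁻¹ : Kˣ).val • ρ g v) = proj ρ χ v := by
    intro g _
    rw [map_smul, proj_smul, smul_smul]
    push_cast
    rw [inv_mul_cancel₀ (Units.ne_zero _), one_smul]
  rw [Finset.sum_congr rfl this, Finset.sum_const, ← Nat.cast_smul_eq_nsmul K, smul_smul,
    inv_mul_cancel₀ hc, one_smul]

/-- Triangular data. -/
structure Tri [LE Λ] [LT Λ] (ρ : Representation K G V) (M N : X → Submodule K V) (key : X → Λ)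
    (U : Submodule K V) : Prop where
  hM : ∀ (g : G) (x : X) (v : V), v ∈ M x → ρ g v ∈ M (g • x)
  key_smul : ∀ (g : G) (x : X), key (g • x) = key x
  NM : ∀ x, N x ≤ M x
  low : ∀ x, N x ≤ ⨆ y, ⨆ (_ : key y < key x), M y
  tri : ∀ x, M x ⊓ (⨆ y, ⨆ (_ : y ≠ x ∧ key y ≤ key x), M y) ≤ N x
  sup : ⨆ x, M x = U

theorem exists_compl_in {N W : Submodule K V} (h : N ≤ W) :
    ∃ C, C ≤ W ∧ N ⊓ C = ⊥ ∧ N ⊔ C = W := by
  obtain ⟨D, hD⟩ := Submodule.exists_isCompl N
  refine ⟨D ⊓ W, inf_le_right, ?_, ?_⟩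
  · rw [← inf_assoc, hD.inf_eq_bot, bot_inf_eq]
  · rw [← sup_inf_assoc_of_le D h, hD.sup_eq_top, top_inf_eq]

theorem finrank_compl_in {N W C : Submodule K V} [FiniteDimensional K W] (h : N ≤ W)
    (hC : C ≤ W) (h1 : N ⊓ C = ⊥) (h2 : N ⊔ C = W) :
    finrank K C = finrank K W - finrank K N := by
  have : FiniteDimensional K N := Submodule.finiteDimensional_of_le h
  have : FiniteDimensional K C := Submodule.finiteDimensional_of_le hC
  have h3 := Submodule.finrank_sup_add_finrank_inf_eq N C
  rw [h1, h2, finrank_bot] at h3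
  omega

theorem finrank_tri [Fintype G] [Finite X] [LinearOrder Λ] (hG : (Fintype.card G : K) ≠ 0)
    {ρ : Representation K G V} {χ : G →* Kˣ}
    {M N : X → Submodule K V} {key : X → Λ} {U : Submodule K V} [FiniteDimensional K U]
    (T : Tri ρ M N key U) (reps : Finset X) (hr : ∀ x, ∃ r ∈ reps, ∃ g : G, g • r = x)
    (hr' : ∀ r ∈ reps, ∀ r' ∈ reps, ∀ g : G, g • r = r' → r = r') :
    finrank K (U ⊓ chiPart ρ χ : Submodule K V)
      = ∑ r ∈ reps, (finrank K (M r ⊓ stabChi ρ χ r : Submodule K V)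
          - finrank K (N r ⊓ stabChi ρ χ r : Submodule K V)) := by
  classical
  have hMU : ∀ x, M x ≤ U := fun x => T.sup ▸ le_iSup M x
  have hUst : ∀ g, ∀ u ∈ U, ρ g u ∈ U := by
    intro g u hu
    rw [← T.sup] at hu
    refine Submodule.iSup_induction M (motive := fun u => ρ g u ∈ U) hu ?_ ?_ ?_
    · intro x v hv
      exact hMU _ (T.hM g x v hv)
    · rw [map_zero]; exact U.zero_mem
    · intro a b ha hb
      rw [map_add]; exact U.add_mem ha hb
  have hMf : ∀ x, FiniteDimensional K (M x) := fun x => Submodule.finiteDimensional_of_le (hMU x)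
  choose C hC1 hC2 hC3 using fun x : X =>
    exists_compl_in (inf_le_inf_right (stabChi ρ χ x) (T.NM x))
  have hCf : ∀ x, FiniteDimensional K (C x) := fun x =>
    Submodule.finiteDimensional_of_le ((hC1 x).trans (inf_le_left.trans (hMU x)))
  let Ψ : (∀ r : reps, C r.1) →ₗ[K] V :=
    ∑ r : reps, (proj ρ χ).comp ((C r.1).subtype.comp (LinearMap.proj r))
  have hΨ : ∀ c, Ψ c = ∑ r : reps, proj ρ χ (c r : V) := by
    intro c
    simp [Ψ, LinearMap.sum_apply]
  -- range
  have hrange1 : ∀ c, Ψ c ∈ (U ⊓ chiPart ρ χ : Submodule K V) := by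
    intro c
    rw [hΨ]
    refine Submodule.sum_mem _ fun r _ => ⟨?_, proj_mem ρ χ _⟩
    exact proj_mem_of_stable ρ χ U hUst (hMU r.1 (hC1 r.1 (c r).2).1)
  have hprojC : ∀ r ∈ reps, ∀ v ∈ C r, proj ρ χ v ∈ LinearMap.range Ψ := by
    intro r hr v hv
    refine ⟨Pi.single (⟨r, hr⟩ : reps) ⟨v, hv⟩, ?_⟩
    rw [hΨ, Finset.sum_eq_single (⟨r, hr⟩ : reps)]
    · rw [Pi.single_eq_same]
    · intro b _ hb
      rw [Pi.single_eq_of_ne hb]
      simp
    · intro h
      exact absurd (Finset.mem_univ _) h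
  have hwf : WellFounded (fun x y : X => key x < key y) := by
    have : IsTrans X (fun x y : X => key x < key y) := ⟨fun _ _ _ h1 h2 => lt_trans h1 h2⟩
    have : Std.Irrefl (fun x y : X => key x < key y) := ⟨fun _ h => lt_irrefl _ h⟩
    exact Finite.wellFounded_of_trans_of_irrefl _
  have hspan : ∀ x, ∀ m ∈ M x, proj ρ χ m ∈ LinearMap.range Ψ := by
    intro x
    induction x using hwf.induction with
    | _ x ih =>
      intro m hm
      obtain ⟨r, hrr, g, rfl⟩ := hr x
      have hm' : ρ g⁻¹ m ∈ M r := by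
        have := T.hM g⁻¹ _ m hm
        rwa [inv_smul_smul] at this
      have e1 : m = ρ g (ρ g⁻¹ m) := by
        rw [← Module.End.mul_apply, ← map_mul, mul_inv_cancel, map_one, Module.End.one_apply]
      rw [e1, proj_smul, ← proj_avStab hG ρ χ r]
      apply Submodule.smul_mem
      have h2 : avStab ρ χ r (ρ g⁻¹ m) ∈ (M r ⊓ stabChi ρ χ r : Submodule K V) := by
        refine ⟨avStab_mem_of_stable ρ χ r (M r) ?_ hm', avStab_mem ρ χ r _⟩
        intro g hg v hv
        have := T.hM g r v hv
        rwa [hg] at this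
      rw [← hC3 r] at h2
      obtain ⟨n, hn, c, hc, hnc⟩ := Submodule.mem_sup.1 h2
      rw [← hnc, map_add]
      refine Submodule.add_mem _ ?_ (hprojC r hrr c hc)
      have hn2 := T.low r hn.1
      refine Submodule.iSup_induction (fun y => ⨆ (_ : key y < key r), M y)
        (motive := fun u => proj ρ χ u ∈ LinearMap.range Ψ) hn2 ?_ ?_ ?_
      · intro y v hv
        by_cases hy : key y < key r
        · rw [iSup_pos hy] at hv
          exact ih y (by rw [T.key_smul]; exact hy) v hv
        · rw [iSup_neg hy] at hv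
          rw [(Submodule.mem_bot K).1 hv, map_zero]
          exact Submodule.zero_mem _
      · rw [map_zero]
        exact Submodule.zero_mem _
      · intro a b ha hb
        rw [map_add]
        exact Submodule.add_mem _ ha hb
  have hrange : LinearMap.range Ψ = (U ⊓ chiPart ρ χ : Submodule K V) := by
    apply le_antisymm
    · rintro _ ⟨c, rfl⟩
      exact hrange1 c
    · rintro v ⟨hvU, hv⟩
      rw [← proj_of_mem hG hv]
      rw [SetLike.mem_coe, ← T.sup] at hvU
      refine Submodule.iSup_induction M (motive := fun u => proj ρ χ u ∈ LinearMap.range Ψ)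
        hvU hspan ?_ ?_
      · rw [map_zero]
        exact Submodule.zero_mem _
      · intro a b ha hb
        rw [map_add]
        exact Submodule.add_mem _ ha hb
  -- injectivity
  have hinj : Function.Injective Ψ := by
    rw [injective_iff_map_eq_zero]
    intro c hc0
    by_contra hne
    have hne' : (Finset.univ.filter (fun r : reps => (c r : V) ≠ 0)).Nonempty := by
      by_contra hemp
      apply hne
      rw [Finset.not_nonempty_iff_eq_empty, Finset.filter_eq_empty_iff] at hemp
      funext r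
      have := hemp (Finset.mem_univ r)
      rw [not_not] at this
      exact Subtype.ext this
    obtain ⟨r0, hr0, hmax⟩ := Finset.exists_max_image _ (fun r : reps => key r.1) hne'
    have hcr0 : (c r0 : V) ≠ 0 := (Finset.mem_filter.1 hr0).2
    set W : Submodule K V := ⨆ y, ⨆ (_ : y ≠ r0.1 ∧ key y ≤ key r0.1), M y with hW
    have hMW : ∀ y, y ≠ r0.1 → key y ≤ key r0.1 → M y ≤ W := by
      intro y h1 h2
      exact le_iSup_of_le y (le_iSup_of_le ⟨h1, h2⟩ le_rfl)
    have hGi : (Fintype.card G : K)⁻¹ ≠ 0 := inv_ne_zero hG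
    -- the other terms
    have hoth : ∀ r : reps, r ≠ r0 → proj ρ χ (c r : V) ∈ W := by
      intro r hrne
      by_cases h0 : (c r : V) = 0
      · rw [h0, map_zero]; exact W.zero_mem
      rw [proj_apply]
      refine W.smul_mem _ (W.sum_mem fun g _ => W.smul_mem _ ?_)
      apply hMW (g • r.1)
      · intro h
        apply hrne
        exact Subtype.ext (hr' r.1 r.2 r0.1 r0.2 g h)
      · rw [T.key_smul]
        exact hmax r (Finset.mem_filter.2 ⟨Finset.mem_univ _, h0⟩)
      · exact T.hM g r.1 _ (hC1 r.1 (c r).2).1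
    have hself : proj ρ χ (c r0 : V) - (Fintype.card G : K)⁻¹ •
        (((Finset.univ.filter (fun g : G => g • r0.1 = r0.1)).card : ℕ) : K) • (c r0 : V) ∈ W := by
      rw [proj_apply, ← smul_sub]
      refine W.smul_mem _ ?_
      rw [← Finset.sum_filter_add_sum_filter_not Finset.univ (fun g : G => g • r0.1 = r0.1)]
      have h1 : ∀ g ∈ Finset.univ.filter (fun g : G => g • r0.1 = r0.1),
          ((χ g)⁻¹ : Kˣ).val • ρ g (c r0 : V) = (c r0 : V) := by
        intro g hg
        rw [(hC1 r0.1 (c r0).2).2 g (Finset.mem_filter.1 hg).2, smul_smul]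
        push_cast
        rw [inv_mul_cancel₀ (Units.ne_zero _), one_smul]
      rw [Finset.sum_congr rfl h1, Finset.sum_const, ← Nat.cast_smul_eq_nsmul K, add_sub_cancel_left]
      refine W.sum_mem fun g hg => W.smul_mem _ ?_
      apply hMW (g • r0.1)
      · exact (Finset.mem_filter.1 hg).2
      · rw [T.key_smul]
      · exact T.hM g r0.1 _ (hC1 r0.1 (c r0).2).1
    have hc0' : proj ρ χ (c r0 : V) ∈ W := by
      rw [hΨ, ← Finset.add_sum_erase _ _ (Finset.mem_univ r0)] at hc0
      rw [eq_neg_of_add_eq_zero_left hc0]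
      exact W.neg_mem (W.sum_mem fun r hr => hoth r (Finset.ne_of_mem_erase hr))
    have hcW : (c r0 : V) ∈ W := by
      have h3 := W.sub_mem hc0' hself
      rw [sub_sub_cancel] at h3
      have hc := card_stab_ne_zero (K := K) hG r0.1
      have h4 := W.smul_mem ((((Finset.univ.filter (fun g : G => g • r0.1 = r0.1)).card : ℕ) : K)⁻¹)
        (W.smul_mem (Fintype.card G : K) h3)
      rwa [smul_smul (Fintype.card G : K), mul_inv_cancel₀ hG, one_smul, smul_smul,
        inv_mul_cancel₀ hc, one_smul] at h4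
    have h5 : (c r0 : V) ∈ ((N r0.1 ⊓ stabChi ρ χ r0.1) ⊓ C r0.1 : Submodule K V) := by
      refine ⟨⟨T.tri r0.1 ⟨(hC1 r0.1 (c r0).2).1, hcW⟩, (hC1 r0.1 (c r0).2).2⟩, (c r0).2⟩
    rw [hC2] at h5
    exact hcr0 ((Submodule.mem_bot K).1 h5)
  rw [← hrange, LinearMap.finrank_range_of_inj hinj, Module.finrank_pi_fintype]
  rw [← Finset.sum_coe_sort reps]
  apply Finset.sum_congr rfl
  intro r _
  have : FiniteDimensional K (M r.1 ⊓ stabChi ρ χ r.1 : Submodule K V) :=
    Submodule.finiteDimensional_inf_left _ _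
  exact finrank_compl_in (inf_le_inf_right (stabChi ρ χ r.1) (T.NM r.1)) (hC1 r.1) (hC2 r.1)
    (hC3 r.1)

end Tri

end Crest.Agent.R059.NumA158
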