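import Mathlib
import Crest.Agent.R059.NumA1_158
import Crest.Agent.R059.ThinA_313

/-!
# Row 59, AB7 part (b): the filtration of the alternating polynomials (helper158)
-/

set_option autoImplicit false
set_option linter.unusedSectionVars false

namespace Crest.Agent.R059.NumA158

open Module Iso158 MvPolynomial ThinA

section homog

variable {P : Type*}

/-- homogeneous component of a product with a homogeneous factor -/
theorem hc_mul {R : Type*} [CommSemiring R] {φ : MvPolynomial P R} {e : ℕ}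
    (hφ : φ.IsHomogeneous e) (n : ℕ) (g : MvPolynomial P R) :
    homogeneousComponent n (φ * g)
      = if e ≤ n then φ * homogeneousComponent (n - e) g else 0 := by
  have h1 : φ * g = ∑ i ∈ Finset.range (g.totalDegree + 1), φ * homogeneousComponent i g := by
    rw [← Finset.mul_sum, sum_homogeneousComponent]
  rw [h1, map_sum]
  have h2 : ∀ i, homogeneousComponent n (φ * homogeneousComponent i g)
      = if e + i = n then φ * homogeneousComponent i g else 0 := by
    intro i
    rw [homogeneousComponent_of_mem (m := n) (n := e + i)]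
    · by_cases h : e + i = n
      · rw [if_pos h, if_pos h.symm]
      · rw [if_neg h, if_neg (fun h' => h h'.symm)]
    · exact (mem_homogeneousSubmodule _ _).2 (hφ.mul (homogeneousComponent_isHomogeneous i g))
  rw [Finset.sum_congr rfl (fun i _ => h2 i)]
  by_cases he : e ≤ n
  · rw [if_pos he]
    by_cases hd : n - e ≤ g.totalDegree
    · rw [Finset.sum_eq_single (n - e)]
      · rw [if_pos (by omega)]
      · intro b _ hb
        rw [if_neg (by omega)]
      · intro h
        exact absurd (Finset.mem_range.2 (by omega)) h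
    · rw [homogeneousComponent_eq_zero (n - e) g (by omega), mul_zero]
      apply Finset.sum_eq_zero
      intro i hi
      rw [Finset.mem_range] at hi
      rw [if_neg (by omega)]
  · rw [if_neg he]
    apply Finset.sum_eq_zero
    intro i _
    rw [if_neg (by omega)]

theorem homog_of_mul {R : Type*} [CommRing R] [IsDomain R] {φ : MvPolynomial P R} {e n : ℕ}
    (hφ : φ.IsHomogeneous e) (h0 : φ ≠ 0) {g : MvPolynomial P R} (h : (φ * g).IsHomogeneous n)
    (he : e ≤ n) : g.IsHomogeneous (n - e) := by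
  have h1 := hc_mul hφ n g
  rw [if_pos he] at h1
  have h2 : homogeneousComponent n (φ * g) = φ * g := by
    rw [homogeneousComponent_of_mem (m := n) ((mem_homogeneousSubmodule _ _).2 h), if_pos rfl]
  rw [h2] at h1
  have h3 := mul_left_cancel₀ h0 h1
  rw [h3]
  exact homogeneousComponent_isHomogeneous _ _

theorem eq_zero_of_mul {R : Type*} [CommRing R] [IsDomain R] {φ : MvPolynomial P R} {e n : ℕ}
    (hφ : φ.IsHomogeneous e) (h0 : φ ≠ 0) {g : MvPolynomial P R} (h : (φ * g).IsHomogeneous n)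
    (he : ¬ e ≤ n) : g = 0 := by
  have h1 := hc_mul hφ n g
  rw [if_neg he] at h1
  have h2 : homogeneousComponent n (φ * g) = φ * g := by
    rw [homogeneousComponent_of_mem (m := n) ((mem_homogeneousSubmodule _ _).2 h), if_pos rfl]
  rw [h2] at h1
  rcases mul_eq_zero.1 h1 with h | h
  · exact absurd h h0
  · exact h

end homog

section colours

variable {P C : Type*}

/-- colour preserving permutations -/
def col (c : P → C) : Subgroup (Equiv.Perm P) where
  carrier := {σ | ∀ x, c (σ x) = c x}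
  mul_mem' := by
    intro a b ha hb x
    rw [Equiv.Perm.mul_apply, ha, hb]
  one_mem' := fun _ => rfl
  inv_mem' := by
    intro a ha x
    have := ha (a⁻¹ x)
    rw [← Equiv.Perm.mul_apply, mul_inv_cancel, Equiv.Perm.one_apply] at this
    exact this.symm

theorem mem_col {c : P → C} {σ : Equiv.Perm P} : σ ∈ col c ↔ ∀ x, c (σ x) = c x := Iff.rfl

/-- the permutation representation -/
noncomputable def rep (c : P → C) : Representation ℚ (col c) (MvPolynomial P ℚ) where
  toFun σ := (rename (σ.1 : P → P)).toLinearMap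
  map_one' := by
    apply LinearMap.ext
    intro f
    change rename _ f = f
    exact rename_id_apply f
  map_mul' := by
    intro a b
    apply LinearMap.ext
    intro f
    rw [Module.End.mul_apply]
    change rename _ f = rename _ (rename _ f)
    rw [rename_rename]
    rfl

theorem rep_apply (c : P → C) (σ : col c) (f : MvPolynomial P ℚ) :
    rep c σ f = rename (σ.1 : P → P) f := rfl

variable [Fintype P] [DecidableEq P]

/-- sign as a rational number -/
def sgn (σ : Equiv.Perm P) : ℚ := ((Equiv.Perm.sign σ : ℤ) : ℚ)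

/-- the sign character -/
noncomputable def chi (c : P → C) : col c →* ℚˣ :=
  ((Units.map (Int.castRingHom ℚ).toMonoidHom).comp Equiv.Perm.sign).comp (col c).subtype

theorem chi_apply (c : P → C) (σ : col c) : (chi c σ : ℚ) = sgn σ.1 := rfl

/-- alternating polynomials for a colouring -/
def Alt (c : P → C) : Submodule ℚ (MvPolynomial P ℚ) where
  carrier := {f | ∀ σ : Equiv.Perm P, (∀ x, c (σ x) = c x) → rename σ f = sgn σ • f}
  add_mem' := by
    intro a b ha hb σ hσ
    rw [map_add, ha σ hσ, hb σ hσ, smul_add]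
  zero_mem' := by intro σ _; simp
  smul_mem' := by
    intro r v hv σ hσ
    rw [map_smul, hv σ hσ, smul_comm]

theorem mem_Alt {c : P → C} {f : MvPolynomial P ℚ} :
    f ∈ Alt c ↔ ∀ σ : Equiv.Perm P, (∀ x, c (σ x) = c x) → rename σ f = sgn σ • f := Iff.rfl

theorem Alt_eq (c : P → C) : Alt c = chiPart (rep c) (chi c) := by
  ext f
  rw [mem_Alt, mem_chiPart]
  constructor
  · intro h σ
    exact h σ.1 σ.2
  · intro h σ hσ
    exact h ⟨σ, hσ⟩

/-- dimension of the degree `n` part of `(P / J)^{sgn}` -/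
noncomputable def altDim (c : P → C) (J : Ideal (MvPolynomial P ℚ)) (n : ℕ) : ℕ :=
  finrank ℚ (homogeneousSubmodule P ℚ n ⊓ Alt c : Submodule ℚ (MvPolynomial P ℚ))
    - finrank ℚ (homogeneousSubmodule P ℚ n ⊓ Alt c ⊓ J.restrictScalars ℚ :
        Submodule ℚ (MvPolynomial P ℚ))

/-- the action on finsets -/
@[reducible] def actFin (c : P → C) : MulAction (col c) (Finset P) where
  smul σ A := A.map σ.1.toEmbedding
  one_smul A := by
    change A.map _ = A
    exact Finset.map_refl
  mul_smul a b A := by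
    change A.map _ = (A.map _).map _
    rw [Finset.map_map]
    congr 1

end colours

section filtration

attribute [local instance] actFin

variable {P C Γ : Type*} [Fintype P] [DecidableEq P]
  [AddCommGroup Γ] [LinearOrder Γ] [IsOrderedAddMonoid Γ]
  (a : P → P → ℕ) (θ : P → Γ) (c : P → C)

theorem act_def (σ : col c) (A : Finset P) : σ • A = A.map σ.1.toEmbedding := rfl

theorem mem_act (σ : col c) (A : Finset P) (x : P) : σ.1 x ∈ σ • A ↔ x ∈ A := by
  rw [act_def]
  simp

/-- number of arrows from `A` to `B` -/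
def arr (A B : Finset P) : ℕ := ∑ i ∈ A, ∑ j ∈ B, a i j

/-- `E A Aᶜ` -/
noncomputable def EE (A : Finset P) : MvPolynomial P ℚ := E ℚ a A (Finset.univ \ A)

theorem E_homog (A B : Finset P) : (E ℚ a A B).IsHomogeneous (arr a A B) := by
  unfold E arr
  apply IsHomogeneous.prod
  intro i _
  apply IsHomogeneous.prod
  intro j _
  have h : (X j - X i : MvPolynomial P ℚ).IsHomogeneous 1 :=
    (isHomogeneous_X ℚ j).sub (isHomogeneous_X ℚ i)
  simpa using h.pow (a i j)

theorem E_ne_zero {A B : Finset P} (h : Disjoint A B) : E ℚ a A B ≠ 0 := by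
  unfold E
  rw [Finset.prod_ne_zero_iff]
  intro i hi
  rw [Finset.prod_ne_zero_iff]
  intro j hj
  apply pow_ne_zero
  rw [sub_ne_zero]
  intro h'
  have := X_injective (R := ℚ) h'
  subst this
  exact Finset.disjoint_left.1 h hi hj

theorem EE_homog (A : Finset P) : (EE a A).IsHomogeneous (arr a A (Finset.univ \ A)) :=
  E_homog a A _

theorem EE_ne_zero (A : Finset P) : EE a A ≠ 0 := E_ne_zero a Finset.disjoint_sdiff

theorem rename_E {P' : Type*} [DecidableEq P'] (a' : P' → P' → ℕ) (e : P ↪ P')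
    (h : ∀ x y, a' (e x) (e y) = a x y) (A B : Finset P) :
    rename e (E ℚ a A B) = E ℚ a' (A.map e) (B.map e) := by
  unfold E
  rw [map_prod, Finset.prod_map]
  apply Finset.prod_congr rfl
  intro i _
  rw [map_prod, Finset.prod_map]
  apply Finset.prod_congr rfl
  intro j _
  rw [map_pow, map_sub, rename_X, rename_X, h]

variable {a θ c}

theorem rename_EE (ha : ∀ σ ∈ col c, ∀ x y, a (σ x) (σ y) = a x y) (σ : col c) (A : Finset P) :
    rename (σ.1 : P → P) (EE a A) = EE a (σ • A) := by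
  have h := rename_E a a σ.1.toEmbedding (fun x y => ha σ.1 σ.2 x y) A (Finset.univ \ A)
  unfold EE
  have h2 : (Finset.univ \ A).map σ.1.toEmbedding = Finset.univ \ (σ • A) := by
    ext x
    simp only [Finset.mem_map, Finset.mem_sdiff, Finset.mem_univ, true_and, act_def,
      Equiv.coe_toEmbedding]
    constructor
    · rintro ⟨y, hy, rfl⟩ ⟨z, hz, hzy⟩
      exact hy (σ.1.injective hzy ▸ hz)
    · intro h
      refine ⟨σ.1.symm x, fun hx => h ⟨_, hx, by simp⟩, by simp⟩
  rw [h2] at h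
  exact h

variable (a θ)

/-- the key: `Earlier` is `<`, `NotLater` is `≤` -/
def key (A : Finset P) : Γ ×ₗ ℕ := toLex (-∑ i ∈ A, θ i, A.card)

theorem key_lt {A A' : Finset P} : key θ A' < key θ A ↔ Earlier θ A' A := by
  unfold key Earlier
  rw [Prod.Lex.toLex_lt_toLex]
  simp

theorem key_le {A A' : Finset P} : key θ A' ≤ key θ A ↔ NotLater θ A' A := by
  unfold key NotLater
  rw [Prod.Lex.toLex_le_toLex]
  simp

/-- multiples of `E A Aᶜ` of degree `n` -/
noncomputable def MM (n : ℕ) (A : Finset P) : Submodule ℚ (MvPolynomial P ℚ) where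
  carrier := {f | f.IsHomogeneous n ∧ ∃ g, f = g * EE a A}
  add_mem' := by
    rintro f g ⟨hf, f', rfl⟩ ⟨hg, g', rfl⟩
    exact ⟨hf.add hg, f' + g', by ring⟩
  zero_mem' := ⟨isHomogeneous_zero _ _ _, 0, by ring⟩
  smul_mem' := by
    rintro r f ⟨hf, f', rfl⟩
    refine ⟨(homogeneousSubmodule P ℚ n).smul_mem r hf, r • f', by rw [smul_mul_assoc]⟩

/-- the part which is earlier -/
noncomputable def NN (n : ℕ) (A : Finset P) : Submodule ℚ (MvPolynomial P ℚ) where
  carrier := {f | f.IsHomogeneous n ∧ ∃ g ∈ Lid ℚ a θ A ⊔ Jid ℚ a θ (Finset.univ \ A),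
    f = g * EE a A}
  add_mem' := by
    rintro f g ⟨hf, f', hf', rfl⟩ ⟨hg, g', hg', rfl⟩
    exact ⟨hf.add hg, f' + g', Ideal.add_mem _ hf' hg', by ring⟩
  zero_mem' := ⟨isHomogeneous_zero _ _ _, 0, Ideal.zero_mem _, by ring⟩
  smul_mem' := by
    rintro r f ⟨hf, f', hf', rfl⟩
    refine ⟨(homogeneousSubmodule P ℚ n).smul_mem r hf, r • f', ?_, by rw [smul_mul_assoc]⟩
    rw [smul_eq_C_mul]
    exact Ideal.mul_mem_left _ _ hf'

theorem mem_MM {n : ℕ} {A : Finset P} {f : MvPolynomial P ℚ} :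
    f ∈ MM a n A ↔ f.IsHomogeneous n ∧ ∃ g, f = g * EE a A := Iff.rfl

theorem mem_NN {n : ℕ} {A : Finset P} {f : MvPolynomial P ℚ} :
    f ∈ NN a θ n A ↔ f.IsHomogeneous n ∧
      ∃ g ∈ Lid ℚ a θ A ⊔ Jid ℚ a θ (Finset.univ \ A), f = g * EE a A := Iff.rfl

/-- the degree `n` part of `Fid` -/
theorem homog_Fid {n : ℕ} {S : Set (Finset P)} {f : MvPolynomial P ℚ} (hf : f.IsHomogeneous n)
    (h : f ∈ Fid ℚ a Finset.univ S) : f ∈ ⨆ A, ⨆ (_ : A ∈ S), MM a n A := by
  have key : ∀ f ∈ Fid ℚ a Finset.univ S, ∀ r : MvPolynomial P ℚ,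
      homogeneousComponent n (r * f) ∈ ⨆ A, ⨆ (_ : A ∈ S), MM a n A := by
    intro f hf
    refine Submodule.span_induction (p := fun f _ => ∀ r : MvPolynomial P ℚ,
      homogeneousComponent n (r * f) ∈ ⨆ A, ⨆ (_ : A ∈ S), MM a n A) ?_ ?_ ?_ ?_ hf
    · rintro f ⟨A, hA, rfl⟩ r
      refine Submodule.mem_iSup_of_mem A (Submodule.mem_iSup_of_mem hA ?_)
      refine ⟨homogeneousComponent_isHomogeneous n _, ?_⟩
      rw [mul_comm]
      change ∃ g, homogeneousComponent n (EE a A * r) = g * EE a A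
      rw [hc_mul (EE_homog a A)]
      split_ifs
      · exact ⟨_, mul_comm _ _⟩
      · exact ⟨0, by ring⟩
    · intro r
      rw [mul_zero, map_zero]
      exact Submodule.zero_mem _
    · intro x y _ _ hx hy r
      rw [mul_add, map_add]
      exact Submodule.add_mem _ (hx r) (hy r)
    · intro r x _ hx r'
      rw [smul_eq_mul, ← mul_assoc]
      exact hx (r' * r)
  have h2 := key f h 1
  rwa [one_mul, homogeneousComponent_of_mem (m := n) ((mem_homogeneousSubmodule _ _).2 hf),
    if_pos rfl] at h2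

theorem mul_mem_Fid {S : Set (Finset P)} {A : Finset P} (hA : A ∈ S) (g : MvPolynomial P ℚ) :
    g * EE a A ∈ Fid ℚ a Finset.univ S := Ideal.mul_mem_left _ _ (E_mem_Fid ℚ a hA)

theorem iSup_le_Fid {n : ℕ} {S : Set (Finset P)} {f : MvPolynomial P ℚ}
    (h : f ∈ ⨆ A, ⨆ (_ : A ∈ S), MM a n A) : f ∈ Fid ℚ a Finset.univ S := by
  have : (⨆ A, ⨆ (_ : A ∈ S), MM a n A) ≤ (Fid ℚ a Finset.univ S).restrictScalars ℚ := by
    apply iSup_le
    intro A
    apply iSup_le
    rintro hA f ⟨_, g, rfl⟩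
    exact mul_mem_Fid a hA g
  exact this h

variable {a}

/-- the triangular data of the filtration -/
theorem triA (ha : ∀ σ ∈ col c, ∀ x y, a (σ x) (σ y) = a x y)
    (hθ : ∀ σ ∈ col c, ∀ x, θ (σ x) = θ x) (n : ℕ) :
    Tri (rep c) (MM a n) (NN a θ n) (key θ) (homogeneousSubmodule P ℚ n) where
  hM := by
    rintro σ A _ ⟨hf, g, rfl⟩
    rw [rep_apply]
    refine ⟨hf.rename_isHomogeneous, rename (σ.1 : P → P) g, ?_⟩
    rw [map_mul, rename_EE ha]
  key_smul := by
    intro σ A
    unfold key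
    rw [act_def, Finset.sum_map, Finset.card_map]
    congr 3
    exact Finset.sum_congr rfl fun x _ => hθ σ.1 σ.2 x
  NM := by
    rintro A _ ⟨hf, g, _, rfl⟩
    exact ⟨hf, g, rfl⟩
  low := by
    rintro A _ ⟨hf, g, hg, rfl⟩
    have h := mem_Fid_of_mem ℚ a θ (T := Finset.univ) (Finset.subset_univ A)
      (S := {A' | Earlier θ A' A}) (fun A' _ h => h) hg
    have h2 := homog_Fid a hf h
    simp only [key_lt]
    exact h2
  tri := by
    rintro A _ ⟨⟨hf, g, rfl⟩, h⟩
    simp only [key_le] at h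
    have h2 := iSup_le_Fid a (S := {A' | A' ≠ A ∧ NotLater θ A' A}) h
    have h3 := mem_of_mem_Fid ℚ a θ (T := Finset.univ) (Finset.subset_univ A)
      (S := {A' | A' ≠ A ∧ NotLater θ A' A})
      (fun A' h => ⟨Finset.subset_univ _, h.1, h.2⟩) h2
    exact ⟨hf, g, h3, rfl⟩
  sup := by
    apply le_antisymm
    · apply iSup_le
      rintro A f ⟨hf, _⟩
      exact hf
    · intro f hf
      refine Submodule.mem_iSup_of_mem ∅ ⟨hf, f, ?_⟩
      unfold EE
      rw [E_empty_left, mul_one]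

/-- refined colouring: colour and membership in `A` -/
def cA (c : P → C) (A : Finset P) : P → C × Bool := fun x => (c x, decide (x ∈ A))

theorem mem_col_cA {A : Finset P} {σ : Equiv.Perm P} :
    σ ∈ col (cA c A) ↔ σ ∈ col c ∧ A.map σ.toEmbedding = A := by
  constructor
  · intro h
    refine ⟨fun x => congrArg Prod.fst (h x), ?_⟩
    have h2 : ∀ x, σ x ∈ A ↔ x ∈ A := by
      intro x
      have := congrArg Prod.snd (h x)
      simp only [cA] at this
      exact decide_eq_decide.1 this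
    ext x
    constructor
    · intro hx
      obtain ⟨y, hy, rfl⟩ := Finset.mem_map.1 hx
      exact (h2 y).2 hy
    · intro hx
      refine Finset.mem_map.2 ⟨σ.symm x, ?_, by simp⟩
      rw [← h2]
      simpa using hx
  · rintro ⟨h1, h2⟩ x
    have h3 : decide (σ x ∈ A) = decide (x ∈ A) := by
      rw [decide_eq_decide]
      conv_lhs => rw [← h2]
      simp
    exact Prod.ext (h1 x) h3

theorem stabChi_eq (A : Finset P) : stabChi (rep c) (chi c) A = Alt (cA c A) := by
  ext f
  rw [mem_stabChi, mem_Alt]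
  constructor
  · intro h σ hσ
    have h2 := mem_col_cA.1 hσ
    exact h ⟨σ, h2.1⟩ h2.2
  · intro h σ hσ
    exact h σ.1 (mem_col_cA.2 ⟨σ.2, hσ⟩)

theorem rename_EE_stab (ha : ∀ σ ∈ col c, ∀ x y, a (σ x) (σ y) = a x y) {A : Finset P}
    {σ : Equiv.Perm P} (hσ : σ ∈ col (cA c A)) : rename σ (EE a A) = EE a A := by
  have h2 := mem_col_cA.1 hσ
  have h3 := rename_EE ha ⟨σ, h2.1⟩ A
  rw [act_def] at h3
  change rename σ (EE a A) = EE a (A.map σ.toEmbedding) at h3
  rwa [h2.2] at h3

theorem mul_mem_Alt (ha : ∀ σ ∈ col c, ∀ x y, a (σ x) (σ y) = a x y) {A : Finset P}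
    (g : MvPolynomial P ℚ) : g * EE a A ∈ Alt (cA c A) ↔ g ∈ Alt (cA c A) := by
  rw [mem_Alt, mem_Alt]
  constructor
  · intro h σ hσ
    have h1 := h σ hσ
    rw [map_mul, rename_EE_stab ha hσ, ← smul_mul_assoc] at h1
    exact mul_right_cancel₀ (EE_ne_zero a A) h1
  · intro h σ hσ
    rw [map_mul, rename_EE_stab ha hσ, h σ hσ, smul_mul_assoc]

variable (a) in
/-- multiplication by `EE A` -/
noncomputable def mulE (A : Finset P) : MvPolynomial P ℚ →ₗ[ℚ] MvPolynomial P ℚ :=
  LinearMap.mulRight ℚ (EE a A)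

theorem mulE_apply (A : Finset P) (g : MvPolynomial P ℚ) : mulE a A g = g * EE a A := rfl

theorem mulE_injective (A : Finset P) : Function.Injective (mulE a A) := by
  intro f g h
  exact mul_right_cancel₀ (EE_ne_zero a A) h

theorem homog_mulE_iff {n : ℕ} {A : Finset P} (he : arr a A (Finset.univ \ A) ≤ n)
    (g : MvPolynomial P ℚ) :
    (g * EE a A).IsHomogeneous n ↔ g.IsHomogeneous (n - arr a A (Finset.univ \ A)) := by
  constructor
  · intro h
    rw [mul_comm] at h
    exact homog_of_mul (EE_homog a A) (EE_ne_zero a A) h he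
  · intro h
    have := h.mul (EE_homog a A)
    rwa [Nat.sub_add_cancel he] at this

theorem map_MM (ha : ∀ σ ∈ col c, ∀ x y, a (σ x) (σ y) = a x y) {n : ℕ} {A : Finset P}
    (he : arr a A (Finset.univ \ A) ≤ n) :
    Submodule.map (mulE a A)
      (homogeneousSubmodule P ℚ (n - arr a A (Finset.univ \ A)) ⊓ Alt (cA c A))
      = MM a n A ⊓ stabChi (rep c) (chi c) A := by
  rw [stabChi_eq]
  ext f
  constructor
  · rintro ⟨g, ⟨hg, hg'⟩, rfl⟩
    rw [mulE_apply]
    exact ⟨⟨(homog_mulE_iff he g).2 hg, g, rfl⟩, (mul_mem_Alt ha g).2 hg'⟩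
  · rintro ⟨⟨hf, g, rfl⟩, hf'⟩
    exact ⟨g, ⟨(homog_mulE_iff he g).1 hf, (mul_mem_Alt ha g).1 hf'⟩, rfl⟩

theorem map_NN (ha : ∀ σ ∈ col c, ∀ x y, a (σ x) (σ y) = a x y) {n : ℕ} {A : Finset P}
    (he : arr a A (Finset.univ \ A) ≤ n) :
    Submodule.map (mulE a A)
      (homogeneousSubmodule P ℚ (n - arr a A (Finset.univ \ A)) ⊓ Alt (cA c A) ⊓
        (Lid ℚ a θ A ⊔ Jid ℚ a θ (Finset.univ \ A)).restrictScalars ℚ)
      = NN a θ n A ⊓ stabChi (rep c) (chi c) A := by
  rw [stabChi_eq]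
  ext f
  constructor
  · rintro ⟨g, ⟨⟨hg, hg'⟩, hg''⟩, rfl⟩
    rw [mulE_apply]
    exact ⟨⟨(homog_mulE_iff he g).2 hg, g, hg'', rfl⟩, (mul_mem_Alt ha g).2 hg'⟩
  · rintro ⟨⟨hf, g, hg, rfl⟩, hf'⟩
    exact ⟨g, ⟨⟨(homog_mulE_iff he g).1 hf, (mul_mem_Alt ha g).1 hf'⟩, hg⟩, rfl⟩

theorem MM_eq_bot {n : ℕ} {A : Finset P} (he : ¬ arr a A (Finset.univ \ A) ≤ n) :
    MM a n A = ⊥ := by
  rw [eq_bot_iff]
  rintro f ⟨hf, g, rfl⟩
  rw [mul_comm] at hf
  rw [eq_zero_of_mul (EE_homog a A) (EE_ne_zero a A) hf he, zero_mul]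
  exact Submodule.zero_mem _

instance finite_homog (n : ℕ) : FiniteDimensional ℚ (homogeneousSubmodule P ℚ n) :=
  Module.Finite.iff_fg.2 (homogeneousSubmodule_fg _ _ n)

theorem finrank_step (ha : ∀ σ ∈ col c, ∀ x y, a (σ x) (σ y) = a x y) (n : ℕ) (A : Finset P) :
    finrank ℚ (MM a n A ⊓ stabChi (rep c) (chi c) A : Submodule ℚ (MvPolynomial P ℚ))
      - finrank ℚ (NN a θ n A ⊓ stabChi (rep c) (chi c) A : Submodule ℚ (MvPolynomial P ℚ))
      = if arr a A (Finset.univ \ A) ≤ n then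
          altDim (cA c A) (Lid ℚ a θ A ⊔ Jid ℚ a θ (Finset.univ \ A))
            (n - arr a A (Finset.univ \ A))
        else 0 := by
  split_ifs with he
  · rw [← map_MM ha he, ← map_NN θ ha he,
      ← (Submodule.equivMapOfInjective (mulE a A) (mulE_injective A) _).finrank_eq,
      ← (Submodule.equivMapOfInjective (mulE a A) (mulE_injective A) _).finrank_eq]
    rfl
  · rw [MM_eq_bot he, bot_inf_eq, finrank_bot, Nat.zero_sub]

/-- **Numeric Theorem A, orbit form.** -/
theorem finrank_orbits [DecidableEq C] (ha : ∀ σ ∈ col c, ∀ x y, a (σ x) (σ y) = a x y)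
    (hθ : ∀ σ ∈ col c, ∀ x, θ (σ x) = θ x) (n : ℕ)
    (reps : Finset (Finset P))
    (hr : ∀ A : Finset P, ∃ r ∈ reps, ∃ σ : Equiv.Perm P, (∀ x, c (σ x) = c x) ∧
      r.map σ.toEmbedding = A)
    (hr' : ∀ r ∈ reps, ∀ r' ∈ reps, ∀ σ : Equiv.Perm P, (∀ x, c (σ x) = c x) →
      r.map σ.toEmbedding = r' → r = r') :
    finrank ℚ (homogeneousSubmodule P ℚ n ⊓ Alt c : Submodule ℚ (MvPolynomial P ℚ))
      = ∑ A ∈ reps, if arr a A (Finset.univ \ A) ≤ n then
          altDim (cA c A) (Lid ℚ a θ A ⊔ Jid ℚ a θ (Finset.univ \ A))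
            (n - arr a A (Finset.univ \ A))
        else 0 := by
  classical
  have : Fintype (col c) := Fintype.ofFinite _
  have h0 : (Fintype.card (col c) : ℚ) ≠ 0 := by
    rw [Nat.cast_ne_zero]
    exact Fintype.card_ne_zero
  rw [Alt_eq, finrank_tri h0 (triA θ ha hθ n) reps]
  · exact Finset.sum_congr rfl fun A _ => finrank_step θ ha n A
  · intro A
    obtain ⟨r, hr1, σ, hσ, h⟩ := hr A
    exact ⟨r, hr1, ⟨σ, hσ⟩, h⟩
  · intro r h1 r' h2 σ h
    exact hr' r h1 r' h2 σ.1 σ.2 h

end filtration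

end Crest.Agent.R059.NumA158
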