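import Mathlib
import Crest.Agent.R059.NumA2_158

/-!
# Row 59, AB7 part (c): transport and tensor lemma (helper158)
-/

set_option autoImplicit false
set_option linter.unusedSectionVars false

namespace Crest.Agent.R059.NumA158

open Module Iso158 MvPolynomial ThinA

section fam

variable {K V : Type*} [Field K] [AddCommGroup V] [Module K V]

/-- a family adapted to `W` modulo `N` -/
structure Adapted {ι : Type*} [Fintype ι] (W N : Submodule K V) (v : ι → V) : Prop where
  mem : ∀ i, v i ∈ W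
  indep : ∀ l : ι → K, ∑ i, l i • v i ∈ N → l = 0
  span : ∀ w ∈ W, ∃ l : ι → K, w - ∑ i, l i • v i ∈ N

theorem exists_adapted (W N : Submodule K V) [FiniteDimensional K W] :
    ∃ v : Fin (finrank K W - finrank K (W ⊓ N : Submodule K V)) → V, Adapted W N v := by
  obtain ⟨C, hC, h1, h2⟩ := exists_compl_in (inf_le_left : W ⊓ N ≤ W)
  have : FiniteDimensional K C := Submodule.finiteDimensional_of_le hC
  have hd := finrank_compl_in (inf_le_left : W ⊓ N ≤ W) hC h1 h2
  let b := Module.finBasisOfFinrankEq K C hd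
  refine ⟨fun i => (b i : V), ⟨fun i => hC (b i).2, ?_, ?_⟩⟩
  · intro l hl
    have h3 : ∑ i, l i • (b i : V) ∈ ((W ⊓ N) ⊓ C : Submodule K V) :=
      ⟨⟨W.sum_mem fun i _ => W.smul_mem _ (hC (b i).2), hl⟩,
        C.sum_mem fun i _ => C.smul_mem _ (b i).2⟩
    rw [h1, Submodule.mem_bot] at h3
    have h4 : ∑ i, l i • b i = 0 := by
      apply Subtype.ext
      have e5 : ((∑ i, l i • b i : C) : V) = ∑ i, l i • (b i : V) := by
        rw [AddSubmonoidClass.coe_finsetSum]
        rfl
      rw [e5, h3]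
      rfl
    funext i
    exact Fintype.linearIndependent_iff.1 b.linearIndependent l h4 i
  · intro w hw
    rw [← h2] at hw
    obtain ⟨n, hn, c, hc, rfl⟩ := Submodule.mem_sup.1 hw
    refine ⟨fun i => b.repr ⟨c, hc⟩ i, ?_⟩
    have h5 : ∑ i, b.repr ⟨c, hc⟩ i • (b i : V) = c := by
      have e5 : ((∑ i, b.repr ⟨c, hc⟩ i • b i : C) : V) = ∑ i, b.repr ⟨c, hc⟩ i • (b i : V) := by
        rw [AddSubmonoidClass.coe_finsetSum]
        rfl
      rw [← e5, b.sum_repr]
    rw [h5, add_sub_cancel_right]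
    exact hn.2

theorem Adapted.card {ι : Type*} [Fintype ι] {W N : Submodule K V} [FiniteDimensional K W]
    {v : ι → V} (h : Adapted W N v) :
    finrank K W - finrank K (W ⊓ N : Submodule K V) = Fintype.card ι := by
  have hC : Submodule.span K (Set.range v) ≤ W := by
    rw [Submodule.span_le]
    rintro _ ⟨i, rfl⟩
    exact h.mem i
  have hli : LinearIndependent K v := by
    rw [Fintype.linearIndependent_iff]
    intro g hg i
    have := h.indep g (by rw [hg]; exact N.zero_mem)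
    rw [this]
    rfl
  rw [← finrank_span_eq_card hli]
  symm
  apply finrank_compl_in inf_le_left hC
  · rw [eq_bot_iff]
    rintro x ⟨⟨_, hx⟩, hx'⟩
    obtain ⟨l, rfl⟩ := (Submodule.mem_span_range_iff_exists_fun K).1 hx'
    rw [h.indep l hx]
    simp
  · apply le_antisymm (sup_le inf_le_left hC)
    intro w hw
    obtain ⟨l, hl⟩ := h.span w hw
    have h6 : ∑ i, l i • v i ∈ Submodule.span K (Set.range v) :=
      (Submodule.mem_span_range_iff_exists_fun K).2 ⟨l, rfl⟩
    rw [← sub_add_cancel w (∑ i, l i • v i)]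
    exact Submodule.add_mem_sup ⟨W.sub_mem hw (hC h6), hl⟩ h6

/-- a functional detecting one member of the family -/
theorem Adapted.functional {ι : Type*} [Fintype ι] [DecidableEq ι] {W N : Submodule K V}
    {v : ι → V} (h : Adapted W N v) (i₀ : ι) :
    ∃ φ : V →ₗ[K] K, (∀ x ∈ N, φ x = 0) ∧ φ (v i₀) ≠ 0 ∧ ∀ i, i ≠ i₀ → φ (v i) = 0 := by
  let p : Submodule K V := N ⊔ Submodule.span K {x | ∃ i, i ≠ i₀ ∧ x = v i}
  have hp : v i₀ ∉ p := by
    intro hmem
    obtain ⟨n, hn, s, hs, hns⟩ := Submodule.mem_sup.1 hmem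
    have hs' : s ∈ Submodule.span K (Set.range (fun i : {i // i ≠ i₀} => v i.1)) := by
      refine Submodule.span_mono ?_ hs
      rintro x ⟨i, hi, rfl⟩
      exact ⟨⟨i, hi⟩, rfl⟩
    obtain ⟨l, hl⟩ := (Submodule.mem_span_range_iff_exists_fun K).1 hs'
    let l' : ι → K := fun i => if hi : i = i₀ then 1 else - l ⟨i, hi⟩
    have hsum : ∑ i, l' i • v i = n := by
      rw [← Finset.add_sum_erase _ _ (Finset.mem_univ i₀)]
      have e1 : l' i₀ = 1 := by simp [l']
      have e2 : ∑ i ∈ Finset.univ.erase i₀, l' i • v i = - s := by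
        rw [← hl, ← Finset.sum_neg_distrib]
        symm
        apply Finset.sum_bij (fun (i : {i // i ≠ i₀}) _ => i.1)
        · intro i _
          exact Finset.mem_erase.2 ⟨i.2, Finset.mem_univ _⟩
        · intro i _ j _ hij
          exact Subtype.ext hij
        · intro j hj
          exact ⟨⟨j, (Finset.mem_erase.1 hj).1⟩, Finset.mem_univ _, rfl⟩
        · intro i _
          simp [l', i.2]
      rw [e1, e2, one_smul, ← hns]
      abel
    have h0 := h.indep l' (by rw [hsum]; exact hn)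
    have := congrFun h0 i₀
    simp [l'] at this
  obtain ⟨f, hf, hf2⟩ := Submodule.exists_dual_map_eq_bot_of_notMem hp inferInstance
  have hker : ∀ x ∈ p, f x = 0 := by
    intro x hx
    have : f x ∈ Submodule.map f p := ⟨x, hx, rfl⟩
    rw [hf2] at this
    exact (Submodule.mem_bot K).1 this
  refine ⟨f, fun x hx => hker x (Submodule.mem_sup_left hx), hf, fun i hi => ?_⟩
  exact hker _ (Submodule.mem_sup_right (Submodule.subset_span ⟨i, hi, rfl⟩))

end fam

section transport

variable {P P' C C' : Type*} [Fintype P] [DecidableEq P] [Fintype P'] [DecidableEq P']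

theorem sgn_permCongr (e : P ≃ P') (σ : Equiv.Perm P) : sgn (e.permCongr σ) = sgn σ := by
  unfold sgn
  rw [Equiv.Perm.sign_permCongr]

theorem rename_mem_Alt_of {e : P ≃ P'} {c : P → C} {c' : P' → C'}
    (hc : ∀ x y, c' (e x) = c' (e y) ↔ c x = c y) {f : MvPolynomial P ℚ} (hf : f ∈ Alt c) :
    rename e f ∈ Alt c' := by
  intro σ' hσ'
  have h1 : ∀ x, c ((e.symm.permCongr σ') x) = c x := by
    intro x
    rw [← hc]
    simp only [Equiv.permCongr_apply, Equiv.symm_symm, Equiv.apply_symm_apply]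
    exact hσ' _
  have h2 := hf _ h1
  rw [sgn_permCongr] at h2
  rw [rename_rename]
  have h3 : (σ' : P' → P') ∘ e = e ∘ (e.symm.permCongr σ' : P → P) := by
    funext x
    simp [Equiv.permCongr_apply]
  rw [h3, ← rename_rename, h2, map_smul]

theorem rename_mem_Alt {e : P ≃ P'} {c : P → C} {c' : P' → C'}
    (hc : ∀ x y, c' (e x) = c' (e y) ↔ c x = c y) {f : MvPolynomial P ℚ} :
    rename e f ∈ Alt c' ↔ f ∈ Alt c := by
  refine ⟨fun h => ?_, rename_mem_Alt_of hc⟩
  have h2 := rename_mem_Alt_of (e := e.symm) (c := c') (c' := c)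
    (fun x y => by rw [← hc]; simp) h
  rwa [rename_rename, Equiv.symm_comp_self, rename_id_apply] at h2

theorem rename_homog {e : P ≃ P'} {n : ℕ} {f : MvPolynomial P ℚ} :
    (rename e f).IsHomogeneous n ↔ f.IsHomogeneous n :=
  IsHomogeneous.rename_isHomogeneous_iff e.injective

theorem map_homog_Alt {e : P ≃ P'} {c : P → C} {c' : P' → C'}
    (hc : ∀ x y, c' (e x) = c' (e y) ↔ c x = c y) (n : ℕ) :
    Submodule.map (renameEquiv ℚ e).toLinearEquiv.toLinearMap
      (homogeneousSubmodule P ℚ n ⊓ Alt c) = homogeneousSubmodule P' ℚ n ⊓ Alt c' := by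
  ext f
  constructor
  · rintro ⟨g, ⟨hg, hg'⟩, rfl⟩
    exact ⟨rename_homog.2 hg, (rename_mem_Alt hc).2 hg'⟩
  · rintro ⟨hf, hf'⟩
    refine ⟨rename e.symm f, ⟨?_, ?_⟩, ?_⟩
    · exact (rename_homog (e := e.symm)).2 hf
    · exact (rename_mem_Alt (e := e.symm) (c := c') (c' := c)
        (fun x y => by rw [← hc]; simp)).2 hf'
    · change rename e (rename e.symm f) = f
      rw [rename_rename, Equiv.self_comp_symm, rename_id_apply]

theorem finrank_Alt_transport {e : P ≃ P'} {c : P → C} {c' : P' → C'}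
    (hc : ∀ x y, c' (e x) = c' (e y) ↔ c x = c y) (n : ℕ) :
    finrank ℚ (homogeneousSubmodule P ℚ n ⊓ Alt c : Submodule ℚ (MvPolynomial P ℚ))
      = finrank ℚ (homogeneousSubmodule P' ℚ n ⊓ Alt c' : Submodule ℚ (MvPolynomial P' ℚ)) := by
  rw [← map_homog_Alt hc n]
  exact (LinearEquiv.submoduleMap _ _).finrank_eq

theorem altDim_transport {e : P ≃ P'} {c : P → C} {c' : P' → C'}
    (hc : ∀ x y, c' (e x) = c' (e y) ↔ c x = c y) {J : Ideal (MvPolynomial P ℚ)}
    {J' : Ideal (MvPolynomial P' ℚ)} (hJ' : ∀ f, rename e f ∈ J' ↔ f ∈ J)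
    (n : ℕ) : altDim c J n = altDim c' J' n := by
  unfold altDim
  rw [finrank_Alt_transport hc]
  congr 1
  have h4 : Submodule.map (renameEquiv ℚ e).toLinearEquiv.toLinearMap
      (homogeneousSubmodule P ℚ n ⊓ Alt c ⊓ J.restrictScalars ℚ)
      = homogeneousSubmodule P' ℚ n ⊓ Alt c' ⊓ J'.restrictScalars ℚ := by
    rw [← map_homog_Alt hc n]
    ext f
    constructor
    · rintro ⟨g, ⟨hg, hg'⟩, rfl⟩
      exact ⟨⟨g, hg, rfl⟩, (hJ' g).2 hg'⟩
    · rintro ⟨⟨g, hg, rfl⟩, hg'⟩
      exact ⟨g, ⟨hg, (hJ' g).1 hg'⟩, rfl⟩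
  rw [← h4]
  exact (LinearEquiv.submoduleMap _ _).finrank_eq

end transport

end Crest.Agent.R059.NumA158
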