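import Mathlib
import Crest.Agent.R059.NumA3_158

/-!
# Row 59, AB7 part (c'): tensor lemma (helper158)
-/

set_option autoImplicit false
set_option linter.unusedSectionVars false

namespace Crest.Agent.R059.NumA158

open Module Iso158 MvPolynomial ThinA

/-- closed under homogeneous components -/
def HomIdeal {P : Type*} (J : Ideal (MvPolynomial P ℚ)) : Prop :=
  ∀ f ∈ J, ∀ n, homogeneousComponent n f ∈ J

theorem homIdeal_span {P : Type*} (S : Set (MvPolynomial P ℚ))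
    (hS : ∀ f ∈ S, ∃ e, f.IsHomogeneous e) : HomIdeal (Ideal.span S) := by
  intro f hf n
  have key : ∀ f ∈ Ideal.span S, ∀ r : MvPolynomial P ℚ,
      homogeneousComponent n (r * f) ∈ Ideal.span S := by
    intro f hf
    refine Submodule.span_induction (p := fun f _ => ∀ r : MvPolynomial P ℚ,
      homogeneousComponent n (r * f) ∈ Ideal.span S) ?_ ?_ ?_ ?_ hf
    · intro f hf r
      obtain ⟨e, he⟩ := hS f hf
      rw [mul_comm, hc_mul he]
      split_ifs
      · exact Ideal.mul_mem_right _ _ (Ideal.subset_span hf)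
      · exact Ideal.zero_mem _
    · intro r
      rw [mul_zero, map_zero]
      exact Ideal.zero_mem _
    · intro x y _ _ hx hy r
      rw [mul_add, map_add]
      exact Ideal.add_mem _ (hx r) (hy r)
    · intro r x _ hx r'
      rw [smul_eq_mul, ← mul_assoc]
      exact hx (r' * r)
  have := key f hf 1
  rwa [one_mul] at this

section expo

variable {P₁ P₂ : Type*}

/-- exponents -/
noncomputable def fs (u : P₁ ⊕ P₂ →₀ ℕ) : P₁ →₀ ℕ := u.comapDomain Sum.inl Sum.inl_injective.injOn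

noncomputable def sn (u : P₁ ⊕ P₂ →₀ ℕ) : P₂ →₀ ℕ := u.comapDomain Sum.inr Sum.inr_injective.injOn

noncomputable def mk2 (u : P₁ →₀ ℕ) (v : P₂ →₀ ℕ) : P₁ ⊕ P₂ →₀ ℕ :=
  u.mapDomain Sum.inl + v.mapDomain Sum.inr

theorem mk2_inl (u : P₁ →₀ ℕ) (v : P₂ →₀ ℕ) (x : P₁) : mk2 u v (Sum.inl x) = u x := by
  rw [mk2, Finsupp.add_apply, Finsupp.mapDomain_apply Sum.inl_injective,
    Finsupp.mapDomain_of_notMem_range, add_zero]
  rintro ⟨y, hy⟩
  exact Sum.inr_ne_inl hy

theorem mk2_inr (u : P₁ →₀ ℕ) (v : P₂ →₀ ℕ) (x : P₂) : mk2 u v (Sum.inr x) = v x := by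
  rw [mk2, Finsupp.add_apply, Finsupp.mapDomain_apply Sum.inr_injective,
    Finsupp.mapDomain_of_notMem_range, zero_add]
  rintro ⟨y, hy⟩
  exact Sum.inl_ne_inr hy

theorem fs_mk2 (u : P₁ →₀ ℕ) (v : P₂ →₀ ℕ) : fs (mk2 u v) = u := by
  ext x
  exact mk2_inl u v x

theorem sn_mk2 (u : P₁ →₀ ℕ) (v : P₂ →₀ ℕ) : sn (mk2 u v) = v := by
  ext x
  exact mk2_inr u v x

theorem mk2_fs_sn (u : P₁ ⊕ P₂ →₀ ℕ) : mk2 (fs u) (sn u) = u := by
  ext x
  rcases x with x | x
  · rw [mk2_inl]; rfl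
  · rw [mk2_inr]; rfl

theorem degree_mk2 (u : P₁ →₀ ℕ) (v : P₂ →₀ ℕ) : (mk2 u v).degree = u.degree + v.degree := by
  rw [mk2, map_add, Finsupp.degree_mapDomain, Finsupp.degree_mapDomain]

end expo

section tensor

variable {P₁ P₂ C₁ C₂ : Type*} [Fintype P₁] [DecidableEq P₁] [Fintype P₂] [DecidableEq P₂]

/-- external product -/
noncomputable def bet :
    MvPolynomial P₁ ℚ →ₗ[ℚ] MvPolynomial P₂ ℚ →ₗ[ℚ] MvPolynomial (P₁ ⊕ P₂) ℚ :=
  (LinearMap.mul ℚ (MvPolynomial (P₁ ⊕ P₂) ℚ)).compl₁₂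
    (rename (Sum.inl : P₁ → P₁ ⊕ P₂)).toLinearMap (rename (Sum.inr : P₂ → P₁ ⊕ P₂)).toLinearMap

theorem bet_apply (f : MvPolynomial P₁ ℚ) (g : MvPolynomial P₂ ℚ) :
    bet f g = rename Sum.inl f * rename Sum.inr g := rfl

theorem bet_monomial (u : P₁ →₀ ℕ) (v : P₂ →₀ ℕ) (r s : ℚ) :
    bet (monomial u r) (monomial v s) = monomial (mk2 u v) (r * s) := by
  rw [bet_apply, rename_monomial, rename_monomial, monomial_mul]
  rfl

theorem mono_eq_bet (u : P₁ ⊕ P₂ →₀ ℕ) (r : ℚ) :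
    monomial u r = bet (monomial (fs u) r) (monomial (sn u) 1) := by
  rw [bet_monomial, mk2_fs_sn, mul_one]

theorem bet_homog {i j : ℕ} {f : MvPolynomial P₁ ℚ} {g : MvPolynomial P₂ ℚ}
    (hf : f.IsHomogeneous i) (hg : g.IsHomogeneous j) : (bet f g).IsHomogeneous (i + j) := by
  rw [bet_apply]
  exact hf.rename_isHomogeneous.mul hg.rename_isHomogeneous

/-- `R₁`-linear extension of a functional on `R₂` -/
noncomputable def Phi (φ : MvPolynomial P₂ ℚ →ₗ[ℚ] ℚ) :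
    MvPolynomial (P₁ ⊕ P₂) ℚ →ₗ[ℚ] MvPolynomial P₁ ℚ :=
  (basisMonomials (P₁ ⊕ P₂) ℚ).constr ℚ fun u => φ (monomial (sn u) 1) • monomial (fs u) 1

theorem Phi_monomial (φ : MvPolynomial P₂ ℚ →ₗ[ℚ] ℚ) (u : P₁ ⊕ P₂ →₀ ℕ) (r : ℚ) :
    Phi φ (monomial u r) = φ (monomial (sn u) 1) • monomial (fs u) r := by
  have h1 : (monomial u r : MvPolynomial (P₁ ⊕ P₂) ℚ) = r • basisMonomials (P₁ ⊕ P₂) ℚ u := by
    rw [coe_basisMonomials, smul_monomial, smul_eq_mul, mul_one]
  rw [h1, map_smul, Phi, Basis.constr_basis, smul_comm, smul_monomial, smul_eq_mul, mul_one]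

theorem Phi_bet (φ : MvPolynomial P₂ ℚ →ₗ[ℚ] ℚ) (f : MvPolynomial P₁ ℚ)
    (g : MvPolynomial P₂ ℚ) : Phi φ (bet f g) = φ g • f := by
  induction f using MvPolynomial.induction_on' with
  | monomial u r =>
    induction g using MvPolynomial.induction_on' with
    | monomial v s =>
      rw [bet_monomial, Phi_monomial, fs_mk2, sn_mk2]
      have : (monomial v s : MvPolynomial P₂ ℚ) = s • monomial v 1 := by
        rw [smul_monomial, smul_eq_mul, mul_one]
      rw [this, map_smul, smul_monomial, smul_monomial]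
      congr 1
      simp only [smul_eq_mul]
      ring
    | add p q hp hq =>
      rw [map_add, map_add, hp, hq, map_add, add_smul]
  | add p q hp hq =>
    rw [map_add, LinearMap.add_apply, map_add, hp, hq, smul_add]

/-- the ideal of the sum -/
noncomputable def JJ (J₁ : Ideal (MvPolynomial P₁ ℚ)) (J₂ : Ideal (MvPolynomial P₂ ℚ)) :
    Ideal (MvPolynomial (P₁ ⊕ P₂) ℚ) :=
  Ideal.span (rename Sum.inl '' (J₁ : Set (MvPolynomial P₁ ℚ))) ⊔
    Ideal.span (rename Sum.inr '' (J₂ : Set (MvPolynomial P₂ ℚ)))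

theorem bet_mem_left {J₁ : Ideal (MvPolynomial P₁ ℚ)} (J₂ : Ideal (MvPolynomial P₂ ℚ))
    {f : MvPolynomial P₁ ℚ} (hf : f ∈ J₁) (g : MvPolynomial P₂ ℚ) : bet f g ∈ JJ J₁ J₂ :=
  Ideal.mem_sup_left (Ideal.mul_mem_right _ _ (Ideal.subset_span ⟨f, hf, rfl⟩))

theorem bet_mem_right (J₁ : Ideal (MvPolynomial P₁ ℚ)) {J₂ : Ideal (MvPolynomial P₂ ℚ)}
    (f : MvPolynomial P₁ ℚ) {g : MvPolynomial P₂ ℚ} (hg : g ∈ J₂) : bet f g ∈ JJ J₁ J₂ :=
  Ideal.mem_sup_right (Ideal.mul_mem_left _ _ (Ideal.subset_span ⟨g, hg, rfl⟩))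

theorem Phi_mul_left (φ : MvPolynomial P₂ ℚ →ₗ[ℚ] ℚ) {J₁ : Ideal (MvPolynomial P₁ ℚ)}
    {g : MvPolynomial P₁ ℚ} (hg : g ∈ J₁) (r : MvPolynomial (P₁ ⊕ P₂) ℚ) :
    Phi φ (r * rename Sum.inl g) ∈ J₁ := by
  induction r using MvPolynomial.induction_on' with
  | monomial u a =>
    rw [mono_eq_bet, bet_apply, mul_right_comm, ← map_mul, ← bet_apply, Phi_bet, smul_eq_C_mul]
    exact Ideal.mul_mem_left _ _ (Ideal.mul_mem_left _ _ hg)
  | add p q hp hq =>
    rw [add_mul, map_add]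
    exact Ideal.add_mem _ hp hq

theorem Phi_mul_right (φ : MvPolynomial P₂ ℚ →ₗ[ℚ] ℚ) {J₂ : Ideal (MvPolynomial P₂ ℚ)}
    (hφ : ∀ g ∈ J₂, φ g = 0) {g : MvPolynomial P₂ ℚ} (hg : g ∈ J₂)
    (r : MvPolynomial (P₁ ⊕ P₂) ℚ) : Phi φ (r * rename Sum.inr g) = 0 := by
  induction r using MvPolynomial.induction_on' with
  | monomial u a =>
    rw [mono_eq_bet, bet_apply, mul_assoc, ← map_mul, ← bet_apply, Phi_bet,
      hφ _ (Ideal.mul_mem_left _ _ hg), zero_smul]
  | add p q hp hq =>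
    rw [add_mul, map_add, hp, hq, add_zero]

theorem Phi_mem (φ : MvPolynomial P₂ ℚ →ₗ[ℚ] ℚ) {J₁ : Ideal (MvPolynomial P₁ ℚ)}
    {J₂ : Ideal (MvPolynomial P₂ ℚ)} (hφ : ∀ g ∈ J₂, φ g = 0)
    {f : MvPolynomial (P₁ ⊕ P₂) ℚ} (hf : f ∈ JJ J₁ J₂) : Phi φ f ∈ J₁ := by
  obtain ⟨a, ha, b, hb, rfl⟩ := Submodule.mem_sup.1 hf
  rw [map_add]
  refine Ideal.add_mem _ ?_ ?_
  · have key : ∀ r : MvPolynomial (P₁ ⊕ P₂) ℚ, Phi φ (r * a) ∈ J₁ := by
      refine Submodule.span_induction (p := fun a _ => ∀ r : MvPolynomial (P₁ ⊕ P₂) ℚ,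
        Phi φ (r * a) ∈ J₁) ?_ ?_ ?_ ?_ ha
      · rintro _ ⟨g, hg, rfl⟩ r
        exact Phi_mul_left φ hg r
      · intro r
        rw [mul_zero, map_zero]
        exact Ideal.zero_mem _
      · intro x y _ _ hx hy r
        rw [mul_add, map_add]
        exact Ideal.add_mem _ (hx r) (hy r)
      · intro s x _ hx r
        rw [smul_eq_mul, ← mul_assoc]
        exact hx (r * s)
    have := key 1
    rwa [one_mul] at this
  · have key : ∀ r : MvPolynomial (P₁ ⊕ P₂) ℚ, Phi φ (r * b) = 0 := by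
      refine Submodule.span_induction (p := fun b _ => ∀ r : MvPolynomial (P₁ ⊕ P₂) ℚ,
        Phi φ (r * b) = 0) ?_ ?_ ?_ ?_ hb
      · rintro _ ⟨g, hg, rfl⟩ r
        exact Phi_mul_right φ hφ hg r
      · intro r
        rw [mul_zero, map_zero]
      · intro x y _ _ hx hy r
        rw [mul_add, map_add, hx r, hy r, add_zero]
      · intro s x _ hx r
        rw [smul_eq_mul, ← mul_assoc]
        exact hx (r * s)
    have := key 1
    rw [one_mul] at this
    rw [this]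
    exact Ideal.zero_mem _

/-! ### alternating parts -/

variable {c₁ : P₁ → C₁} {c₂ : P₂ → C₂}

theorem sgn_sq (σ : Equiv.Perm P₁) : sgn σ * sgn σ = 1 := by
  unfold sgn
  rcases Int.units_eq_one_or (Equiv.Perm.sign σ) with h | h <;> rw [h] <;> norm_num

theorem sgn_sumCongr (σ₁ : Equiv.Perm P₁) (σ₂ : Equiv.Perm P₂) :
    sgn (Equiv.sumCongr σ₁ σ₂) = sgn σ₁ * sgn σ₂ := by
  unfold sgn
  have := Equiv.Perm.sign_sumCongr σ₁ σ₂
  rw [this]
  push_cast
  rfl

theorem rename_bet (σ₁ : Equiv.Perm P₁) (σ₂ : Equiv.Perm P₂) (f : MvPolynomial P₁ ℚ)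
    (g : MvPolynomial P₂ ℚ) :
    rename (Equiv.sumCongr σ₁ σ₂) (bet f g) = bet (rename σ₁ f) (rename σ₂ g) := by
  rw [bet_apply, bet_apply, map_mul, rename_rename, rename_rename, rename_rename, rename_rename]
  congr 1

theorem bet_mem_Alt {f : MvPolynomial P₁ ℚ} {g : MvPolynomial P₂ ℚ} (hf : f ∈ Alt c₁)
    (hg : g ∈ Alt c₂) : bet f g ∈ Alt (Sum.map c₁ c₂) := by
  intro σ hσ
  have h1 : Set.MapsTo σ (Set.range (Sum.inl : P₁ → P₁ ⊕ P₂)) (Set.range Sum.inl) := by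
    rintro _ ⟨x, rfl⟩
    have := hσ (Sum.inl x)
    rcases hx : σ (Sum.inl x) with y | y
    · exact ⟨y, rfl⟩
    · rw [hx] at this
      simp at this
  obtain ⟨⟨σ₁, σ₂⟩, h2⟩ := Equiv.Perm.mem_sumCongrHom_range_of_perm_mapsTo_inl h1
  have h3 : σ = Equiv.sumCongr σ₁ σ₂ := h2.symm
  have h4 : ∀ x, c₁ (σ₁ x) = c₁ x := by
    intro x
    have := hσ (Sum.inl x)
    rw [h3] at this
    simpa using this
  have h5 : ∀ x, c₂ (σ₂ x) = c₂ x := by
    intro x
    have := hσ (Sum.inr x)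
    rw [h3] at this
    simpa using this
  rw [h3, rename_bet, hf σ₁ h4, hg σ₂ h5, sgn_sumCongr, LinearMap.map_smul₂, map_smul,
    smul_smul]

/-- the (unnormalised) antisymmetriser -/
noncomputable def asym {P C : Type*} [Fintype P] [DecidableEq P] (c : P → C) [Fintype (col c)]
    (f : MvPolynomial P ℚ) : MvPolynomial P ℚ :=
  ∑ σ : col c, sgn σ.1 • rename (σ.1 : P → P) f

theorem chi_inv {P C : Type*} [Fintype P] [DecidableEq P] (c : P → C) (σ : col c) :
    (((chi c σ)⁻¹ : ℚˣ) : ℚ) = sgn σ.1 := by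
  rw [Units.val_inv_eq_inv_val, chi_apply]
  have := sgn_sq σ.1
  exact (eq_inv_of_mul_eq_one_left this).symm

theorem asym_mem {P C : Type*} [Fintype P] [DecidableEq P] (c : P → C) [Fintype (col c)]
    (f : MvPolynomial P ℚ) : asym c f ∈ Alt c := by
  have h := sum_mem (rep c) (chi c) f
  rw [← Alt_eq] at h
  have : asym c f = ∑ g : col c, ((chi c g)⁻¹ : ℚˣ).val • rep c g f := by
    unfold asym
    apply Finset.sum_congr rfl
    intro g _
    rw [chi_inv, rep_apply]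
  rw [this]
  exact h

theorem asym_homog {P C : Type*} [Fintype P] [DecidableEq P] (c : P → C) [Fintype (col c)]
    {f : MvPolynomial P ℚ} {n : ℕ} (hf : f.IsHomogeneous n) : (asym c f).IsHomogeneous n := by
  unfold asym
  rw [← mem_homogeneousSubmodule]
  exact Submodule.sum_mem _ fun σ _ => Submodule.smul_mem _ _ hf.rename_isHomogeneous

/-- double antisymmetriser on the sum -/
noncomputable def dbl (c₁ : P₁ → C₁) (c₂ : P₂ → C₂) [Fintype (col c₁)] [Fintype (col c₂)] :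
    MvPolynomial (P₁ ⊕ P₂) ℚ →ₗ[ℚ] MvPolynomial (P₁ ⊕ P₂) ℚ :=
  ∑ σ₁ : col c₁, ∑ σ₂ : col c₂, (sgn σ₁.1 * sgn σ₂.1) •
    (rename (Equiv.sumCongr σ₁.1 σ₂.1)).toLinearMap

theorem dbl_apply [Fintype (col c₁)] [Fintype (col c₂)] (f : MvPolynomial (P₁ ⊕ P₂) ℚ) :
    dbl c₁ c₂ f = ∑ σ₁ : col c₁, ∑ σ₂ : col c₂, (sgn σ₁.1 * sgn σ₂.1) •
      rename (Equiv.sumCongr σ₁.1 σ₂.1) f := by
  simp [dbl, LinearMap.sum_apply]

theorem dbl_bet [Fintype (col c₁)] [Fintype (col c₂)] (f : MvPolynomial P₁ ℚ)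
    (g : MvPolynomial P₂ ℚ) : dbl c₁ c₂ (bet f g) = bet (asym c₁ f) (asym c₂ g) := by
  rw [dbl_apply]
  unfold asym
  rw [LinearMap.map_sum₂]
  apply Finset.sum_congr rfl
  intro σ₁ _
  rw [map_sum]
  apply Finset.sum_congr rfl
  intro σ₂ _
  rw [rename_bet, LinearMap.map_smul₂, map_smul, smul_smul]

theorem dbl_of_mem [Fintype (col c₁)] [Fintype (col c₂)] {f : MvPolynomial (P₁ ⊕ P₂) ℚ}
    (hf : f ∈ Alt (Sum.map c₁ c₂)) :
    dbl c₁ c₂ f = ((Fintype.card (col c₁) * Fintype.card (col c₂) : ℕ) : ℚ) • f := by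
  rw [dbl_apply]
  have : ∀ σ₁ : col c₁, ∀ σ₂ : col c₂, (sgn σ₁.1 * sgn σ₂.1) •
      rename (Equiv.sumCongr σ₁.1 σ₂.1) f = f := by
    intro σ₁ σ₂
    rw [hf]
    · rw [sgn_sumCongr, smul_smul, mul_mul_mul_comm, sgn_sq, sgn_sq, one_mul, one_smul]
    · rintro (x | x)
      · simp only [Equiv.sumCongr_apply, Sum.map_inl]
        rw [σ₁.2 x]
      · simp only [Equiv.sumCongr_apply, Sum.map_inr]
        rw [σ₂.2 x]
  simp only [this]
  rw [Finset.sum_const, Finset.sum_const, Finset.card_univ, Finset.card_univ, smul_smul,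
    Nat.cast_smul_eq_nsmul]

/-! ### the theorem -/

section main

variable (c₁ c₂) (J₁ : Ideal (MvPolynomial P₁ ℚ)) (J₂ : Ideal (MvPolynomial P₂ ℚ))

/-- index type of the product family -/
abbrev Idx (m : ℕ) : Type :=
  Σ p : {p : ℕ × ℕ // p ∈ Finset.HasAntidiagonal.antidiagonal m},
    Fin (altDim c₁ J₁ p.1.1) × Fin (altDim c₂ J₂ p.1.2)

theorem altDim_sum (hJ₂ : HomIdeal J₂) (m : ℕ) :
    altDim (Sum.map c₁ c₂) (JJ J₁ J₂) m
      = ∑ p ∈ Finset.HasAntidiagonal.antidiagonal m, altDim c₁ J₁ p.1 * altDim c₂ J₂ p.2 := by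
  classical
  have : Fintype (col c₁) := Fintype.ofFinite _
  have : Fintype (col c₂) := Fintype.ofFinite _
  have hf1 : ∀ i, FiniteDimensional ℚ
      (homogeneousSubmodule P₁ ℚ i ⊓ Alt c₁ : Submodule ℚ (MvPolynomial P₁ ℚ)) := fun i =>
    Submodule.finiteDimensional_inf_left _ _
  have hf2 : ∀ i, FiniteDimensional ℚ
      (homogeneousSubmodule P₂ ℚ i ⊓ Alt c₂ : Submodule ℚ (MvPolynomial P₂ ℚ)) := fun i =>
    Submodule.finiteDimensional_inf_left _ _
  have hf3 : FiniteDimensional ℚ (homogeneousSubmodule (P₁ ⊕ P₂) ℚ m ⊓ Alt (Sum.map c₁ c₂) :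
      Submodule ℚ (MvPolynomial (P₁ ⊕ P₂) ℚ)) := Submodule.finiteDimensional_inf_left _ _
  have ex1 : ∀ i, ∃ v : Fin (altDim c₁ J₁ i) → MvPolynomial P₁ ℚ,
      Adapted (homogeneousSubmodule P₁ ℚ i ⊓ Alt c₁) (J₁.restrictScalars ℚ) v :=
    fun i => exists_adapted _ _
  have ex2 : ∀ i, ∃ v : Fin (altDim c₂ J₂ i) → MvPolynomial P₂ ℚ,
      Adapted (homogeneousSubmodule P₂ ℚ i ⊓ Alt c₂) (J₂.restrictScalars ℚ) v :=
    fun i => exists_adapted _ _
  choose v1 h1 using ex1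
  choose v2 h2 using ex2
  let w : Idx c₁ c₂ J₁ J₂ m → MvPolynomial (P₁ ⊕ P₂) ℚ := fun x =>
    bet (v1 x.1.1.1 x.2.1) (v2 x.1.1.2 x.2.2)
  have hw : Adapted (homogeneousSubmodule (P₁ ⊕ P₂) ℚ m ⊓ Alt (Sum.map c₁ c₂))
      ((JJ J₁ J₂).restrictScalars ℚ) w := by
    refine ⟨?_, ?_, ?_⟩
    · rintro ⟨⟨⟨i, j⟩, hp⟩, s, t⟩
      rw [Finset.HasAntidiagonal.mem_antidiagonal] at hp
      simp only at hp
      subst hp
      exact ⟨bet_homog ((h1 i).mem s).1 ((h2 j).mem t).1,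
        bet_mem_Alt ((h1 i).mem s).2 ((h2 j).mem t).2⟩
    · intro l hl
      funext x
      obtain ⟨⟨⟨i0, j0⟩, hp⟩, s0, t0⟩ := x
      have hp' := Finset.HasAntidiagonal.mem_antidiagonal.1 hp
      obtain ⟨φ, hφ1, hφ2, hφ3⟩ := (h2 j0).functional t0
      let φ' : MvPolynomial P₂ ℚ →ₗ[ℚ] ℚ := φ.comp (homogeneousComponent j0)
      have hφ' : ∀ g ∈ J₂, φ' g = 0 := fun g hg => hφ1 _ (hJ₂ g hg j0)
      have hP := Phi_mem φ' hφ' hl
      rw [map_sum] at hP
      have e1 : ∀ x : Idx c₁ c₂ J₁ J₂ m, Phi φ' (l x • w x)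
          = (l x * φ' (v2 x.1.1.2 x.2.2)) • v1 x.1.1.1 x.2.1 := by
        intro x
        rw [map_smul, Phi_bet, smul_smul]
      simp only [e1] at hP
      rw [Fintype.sum_sigma, Finset.sum_eq_single (⟨(i0, j0), hp⟩ :
        {p : ℕ × ℕ // p ∈ Finset.HasAntidiagonal.antidiagonal m})] at hP
      · rw [Fintype.sum_prod_type] at hP
        have e2 : ∀ s : Fin (altDim c₁ J₁ i0),
            (∑ t : Fin (altDim c₂ J₂ j0),
              (l ⟨⟨(i0, j0), hp⟩, s, t⟩ * φ' (v2 j0 t)) • v1 i0 s)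
            = (l ⟨⟨(i0, j0), hp⟩, s, t0⟩ * φ (v2 j0 t0)) • v1 i0 s := by
          intro s
          have e3 : ∀ t, φ' (v2 j0 t) = φ (v2 j0 t) := by
            intro t
            change φ (homogeneousComponent j0 (v2 j0 t)) = _
            rw [homogeneousComponent_of_mem ((h2 j0).mem t).1, if_pos rfl]
          rw [Finset.sum_eq_single t0]
          · rw [e3]
          · intro t _ ht
            rw [e3, hφ3 t ht, mul_zero, zero_smul]
          · intro h
            exact absurd (Finset.mem_univ _) h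
        have hP2 : (∑ s : Fin (altDim c₁ J₁ i0),
            (l ⟨⟨(i0, j0), hp⟩, s, t0⟩ * φ (v2 j0 t0)) • v1 i0 s) ∈ J₁ := by
          rw [← Finset.sum_congr rfl (fun s _ => e2 s)]
          exact hP
        have h3 := (h1 i0).indep _ hP2
        have h4 := congrFun h3 s0
        exact (mul_eq_zero.1 h4).resolve_right hφ2
      · rintro ⟨⟨i, j⟩, hq⟩ _ hne
        have hq' := Finset.HasAntidiagonal.mem_antidiagonal.1 hq
        apply Finset.sum_eq_zero
        rintro ⟨s, t⟩ _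
        have hj : j ≠ j0 := by
          intro h
          apply hne
          apply Subtype.ext
          simp only at hp' hq' ⊢
          ext
          · simp only; omega
          · exact h
        have : φ' (v2 j t) = 0 := by
          change φ (homogeneousComponent j0 (v2 j t)) = _
          rw [homogeneousComponent_of_mem ((h2 j).mem t).1, if_neg (fun h => hj h.symm), map_zero]
        change (l _ * φ' (v2 j t)) • _ = _
        rw [this, mul_zero, zero_smul]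
      · intro h
        exact absurd (Finset.mem_univ _) h
    · -- spanning
      have hS : ∀ f ∈ (homogeneousSubmodule (P₁ ⊕ P₂) ℚ m ⊓ Alt (Sum.map c₁ c₂) :
          Submodule ℚ (MvPolynomial (P₁ ⊕ P₂) ℚ)),
          f ∈ Submodule.span ℚ (Set.range w) ⊔ (JJ J₁ J₂).restrictScalars ℚ := by
        rintro f ⟨hf, hf'⟩
        set S := Submodule.span ℚ (Set.range w) ⊔ (JJ J₁ J₂).restrictScalars ℚ with hSdef
        have hbet : ∀ i j, i + j = m → ∀ x ∈ (homogeneousSubmodule P₁ ℚ i ⊓ Alt c₁ :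
            Submodule ℚ (MvPolynomial P₁ ℚ)), ∀ y ∈ (homogeneousSubmodule P₂ ℚ j ⊓ Alt c₂ :
            Submodule ℚ (MvPolynomial P₂ ℚ)), bet x y ∈ S := by
          intro i j hij x hx y hy
          obtain ⟨l, hl⟩ := (h1 i).span x hx
          obtain ⟨l', hl'⟩ := (h2 j).span y hy
          set x' := ∑ s, l s • v1 i s with hx'
          set y' := ∑ t, l' t • v2 j t with hy'
          have e1 : bet x y = bet x' y' + (bet (x - x') y + bet x' (y - y')) := by
            simp only [map_sub, LinearMap.sub_apply]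
            abel
          rw [e1]
          refine S.add_mem ?_ (S.add_mem ?_ ?_)
          · rw [hx', LinearMap.map_sum₂]
            refine S.sum_mem fun s _ => ?_
            rw [LinearMap.map_smul₂]
            refine S.smul_mem _ ?_
            rw [hy', map_sum]
            refine S.sum_mem fun t _ => ?_
            rw [map_smul]
            refine S.smul_mem _ (Submodule.mem_sup_left (Submodule.subset_span ?_))
            exact ⟨⟨⟨(i, j), Finset.HasAntidiagonal.mem_antidiagonal.2 hij⟩, s, t⟩, rfl⟩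
          · exact Submodule.mem_sup_right (bet_mem_left J₂ hl y)
          · exact Submodule.mem_sup_right (bet_mem_right J₁ x' hl')
        have hdbl : dbl c₁ c₂ f ∈ S := by
          rw [f.as_sum, map_sum]
          refine S.sum_mem fun u hu => ?_
          have hdeg : (fs u).degree + (sn u).degree = m := by
            rw [← degree_mk2, mk2_fs_sn]
            by_contra hne
            exact (mem_support_iff.1 hu)
              (((mem_homogeneousSubmodule m f).1 hf).coeff_eq_zero hne)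
          rw [mono_eq_bet, dbl_bet]
          apply hbet _ _ hdeg
          · exact ⟨asym_homog c₁ (isHomogeneous_monomial _ rfl), asym_mem c₁ _⟩
          · exact ⟨asym_homog c₂ (isHomogeneous_monomial _ rfl), asym_mem c₂ _⟩
        rw [dbl_of_mem hf'] at hdbl
        have hne : ((Fintype.card (col c₁) * Fintype.card (col c₂) : ℕ) : ℚ) ≠ 0 := by
          rw [Nat.cast_ne_zero]
          exact mul_ne_zero Fintype.card_ne_zero Fintype.card_ne_zero
        have := S.smul_mem ((Fintype.card (col c₁) * Fintype.card (col c₂) : ℕ) : ℚ)⁻¹ hdbl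
        rwa [smul_smul, inv_mul_cancel₀ hne, one_smul] at this
      intro f hf
      obtain ⟨s, hs, n, hn, rfl⟩ := Submodule.mem_sup.1 (hS f hf)
      obtain ⟨l, rfl⟩ := (Submodule.mem_span_range_iff_exists_fun ℚ).1 hs
      refine ⟨l, ?_⟩
      rwa [add_sub_cancel_left]
  have hc : altDim (Sum.map c₁ c₂) (JJ J₁ J₂) m = Fintype.card (Idx c₁ c₂ J₁ J₂ m) := hw.card
  rw [hc, Fintype.card_sigma]
  simp only [Fintype.card_prod, Fintype.card_fin]
  exact Finset.sum_coe_sort (Finset.HasAntidiagonal.antidiagonal m)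
    (fun p => altDim c₁ J₁ p.1 * altDim c₂ J₂ p.2)

end main

end tensor

end Crest.Agent.R059.NumA158
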