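import Mathlib
import Crest.Agent.R059.NumA4_158

/-!
# Row 59, AB7 part (d): numeric Theorem A in the thin model (helper158)
-/

set_option autoImplicit false
set_option linter.unusedSectionVars false

namespace Crest.Agent.R059.NumA158

open Module MvPolynomial ThinA

section ideals

variable {P P' Γ : Type*} [Fintype P] [DecidableEq P] [DecidableEq P']
  [AddCommGroup Γ] [LinearOrder Γ] [IsOrderedAddMonoid Γ]
  {a : P → P → ℕ} {a' : P' → P' → ℕ} {θ : P → Γ} {θ' : P' → Γ}

theorem span_image_le (e : P → P') {J : Ideal (MvPolynomial P ℚ)}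
    {J' : Ideal (MvPolynomial P' ℚ)} {S : Set (MvPolynomial P ℚ)} (hJ : J = Ideal.span S)
    (h : ∀ f ∈ S, rename e f ∈ J') :
    Ideal.span (rename e '' (J : Set (MvPolynomial P ℚ))) ≤ J' := by
  rw [Ideal.span_le]
  rintro _ ⟨f, hf, rfl⟩
  have h2 : J ≤ Ideal.comap (rename e : MvPolynomial P ℚ →ₐ[ℚ] MvPolynomial P' ℚ).toRingHom J' := by
    rw [hJ, Ideal.span_le]
    intro f hf
    exact h f hf
  exact h2 hf

theorem Lid_map (e : P ↪ P') (ha : ∀ x y, a' (e x) (e y) = a x y) (hθ : ∀ x, θ' (e x) = θ x)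
    (S : Finset P) :
    Lid ℚ a' θ' (S.map e) = Ideal.span (rename e '' (Lid ℚ a θ S : Set (MvPolynomial P ℚ))) := by
  apply le_antisymm
  · rw [Lid, Ideal.span_le]
    rintro f ⟨B', hB', hne, hB'θ, rfl⟩
    obtain ⟨B, hB, rfl⟩ := Finset.subset_map_iff.1 hB'
    apply Ideal.subset_span
    refine ⟨E ℚ a (S \ B) B, ?_, ?_⟩
    · apply Ideal.subset_span
      refine ⟨B, hB, ?_, ?_, rfl⟩
      · rintro rfl
        exact hne (Finset.map_empty e)
      · rw [Finset.sum_map] at hB'θ
        rwa [Finset.sum_congr rfl (fun x _ => hθ x)] at hB'θ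
    · rw [rename_E a a' e ha, Finset.map_sdiff]
  · apply span_image_le e rfl
    rintro f ⟨B, hB, hne, hBθ, rfl⟩
    rw [rename_E a a' e ha, Finset.map_sdiff]
    apply Ideal.subset_span
    refine ⟨B.map e, Finset.map_subset_map.2 hB, ?_, ?_, rfl⟩
    · rwa [Ne, Finset.map_eq_empty]
    · rwa [Finset.sum_map, Finset.sum_congr rfl (fun x _ => hθ x)]

theorem Jid_map (e : P ↪ P') (ha : ∀ x y, a' (e x) (e y) = a x y) (hθ : ∀ x, θ' (e x) = θ x)
    (S : Finset P) :
    Jid ℚ a' θ' (S.map e) = Ideal.span (rename e '' (Jid ℚ a θ S : Set (MvPolynomial P ℚ))) := by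
  apply le_antisymm
  · rw [Jid, Ideal.span_le]
    rintro f ⟨B', hB', hne, hB'θ, rfl⟩
    obtain ⟨B, hB, rfl⟩ := Finset.subset_map_iff.1 hB'
    apply Ideal.subset_span
    refine ⟨E ℚ a B (S \ B), ?_, ?_⟩
    · apply Ideal.subset_span
      refine ⟨B, hB, ?_, ?_, rfl⟩
      · rintro rfl
        exact hne (Finset.map_empty e)
      · rw [Finset.sum_map] at hB'θ
        rwa [Finset.sum_congr rfl (fun x _ => hθ x)] at hB'θ
    · rw [rename_E a a' e ha, Finset.map_sdiff]
  · apply span_image_le e rfl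
    rintro f ⟨B, hB, hne, hBθ, rfl⟩
    rw [rename_E a a' e ha, Finset.map_sdiff]
    apply Ideal.subset_span
    refine ⟨B.map e, Finset.map_subset_map.2 hB, ?_, ?_, rfl⟩
    · rwa [Ne, Finset.map_eq_empty]
    · rwa [Finset.sum_map, Finset.sum_congr rfl (fun x _ => hθ x)]

theorem homIdeal_Jid (a : P → P → ℕ) (θ : P → Γ) (S : Finset P) : HomIdeal (Jid ℚ a θ S) := by
  apply homIdeal_span
  rintro f ⟨B, _, _, _, rfl⟩
  exact ⟨_, E_homog a _ _⟩

theorem homIdeal_Lid (a : P → P → ℕ) (θ : P → Γ) (S : Finset P) : HomIdeal (Lid ℚ a θ S) := by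
  apply homIdeal_span
  rintro f ⟨B, _, _, _, rfl⟩
  exact ⟨_, E_homog a _ _⟩

/-- undo a renaming -/
theorem rename_symm_mem (e : P ≃ P') {J₁ J₂ : Ideal (MvPolynomial P ℚ)}
    {g : MvPolynomial P' ℚ}
    (hg : g ∈ Ideal.span (rename e '' (J₁ : Set (MvPolynomial P ℚ))) ⊔
      Ideal.span (rename e '' (J₂ : Set (MvPolynomial P ℚ)))) :
    rename e.symm g ∈ J₁ ⊔ J₂ := by
  have h : Ideal.span (rename e '' (J₁ : Set (MvPolynomial P ℚ))) ⊔
      Ideal.span (rename e '' (J₂ : Set (MvPolynomial P ℚ))) ≤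
      Ideal.comap (rename e.symm : MvPolynomial P' ℚ →ₐ[ℚ] MvPolynomial P ℚ).toRingHom
        (J₁ ⊔ J₂) := by
    apply sup_le
    · rw [Ideal.span_le]
      rintro _ ⟨f, hf, rfl⟩
      change rename e.symm (rename e f) ∈ J₁ ⊔ J₂
      rw [rename_rename, Equiv.symm_comp_self, rename_id_apply]
      exact Ideal.mem_sup_left hf
    · rw [Ideal.span_le]
      rintro _ ⟨f, hf, rfl⟩
      change rename e.symm (rename e f) ∈ J₁ ⊔ J₂
      rw [rename_rename, Equiv.symm_comp_self, rename_id_apply]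
      exact Ideal.mem_sup_right hf
  exact h hg

end ideals

section split

variable {P P₁ P₂ C C₁ C₂ Γ : Type*} [Fintype P] [DecidableEq P] [Fintype P₁] [DecidableEq P₁]
  [Fintype P₂] [DecidableEq P₂] [AddCommGroup Γ] [LinearOrder Γ] [IsOrderedAddMonoid Γ]
  {a : P → P → ℕ} {a₁ : P₁ → P₁ → ℕ} {a₂ : P₂ → P₂ → ℕ} {θ : P → Γ} {θ₁ : P₁ → Γ} {θ₂ : P₂ → Γ}
  {c : P → C} {c₁ : P₁ → C₁} {c₂ : P₂ → C₂}

/-- splitting `P = A ⊔ Aᶜ` -/
theorem altDim_split (A : Finset P) (e : P ≃ P₁ ⊕ P₂)
    (he : ∀ x, (e x).isLeft ↔ x ∈ A)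
    (hc : ∀ x y, Sum.map c₁ c₂ (e x) = Sum.map c₁ c₂ (e y) ↔ cA c A x = cA c A y)
    (ha₁ : ∀ x y, a (e.symm (Sum.inl x)) (e.symm (Sum.inl y)) = a₁ x y)
    (ha₂ : ∀ x y, a (e.symm (Sum.inr x)) (e.symm (Sum.inr y)) = a₂ x y)
    (hθ₁ : ∀ x, θ (e.symm (Sum.inl x)) = θ₁ x)
    (hθ₂ : ∀ x, θ (e.symm (Sum.inr x)) = θ₂ x) (m : ℕ) :
    altDim (cA c A) (Lid ℚ a θ A ⊔ Jid ℚ a θ (Finset.univ \ A)) m
      = ∑ p ∈ Finset.HasAntidiagonal.antidiagonal m,
          altDim c₁ (Lid ℚ a₁ θ₁ Finset.univ) p.1 * altDim c₂ (Jid ℚ a₂ θ₂ Finset.univ) p.2 := by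
  rw [← altDim_sum c₁ c₂ (Lid ℚ a₁ θ₁ Finset.univ) (Jid ℚ a₂ θ₂ Finset.univ)
    (homIdeal_Jid a₂ θ₂ Finset.univ) m]
  -- the arrows and weights on the sum
  let a' : P₁ ⊕ P₂ → P₁ ⊕ P₂ → ℕ := fun x y => a (e.symm x) (e.symm y)
  let θ' : P₁ ⊕ P₂ → Γ := fun x => θ (e.symm x)
  have hA : A.map e.toEmbedding = (Finset.univ : Finset P₁).map ⟨Sum.inl, Sum.inl_injective⟩ := by
    ext z
    simp only [Finset.mem_map, Finset.mem_univ, true_and,
      Function.Embedding.coeFn_mk]
    constructor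
    · rintro ⟨x, hx, rfl⟩
      obtain ⟨y, hy⟩ := Sum.isLeft_iff.1 ((he x).2 hx)
      exact ⟨y, hy.symm⟩
    · rintro ⟨y, rfl⟩
      refine ⟨e.symm (Sum.inl y), ?_, by simp⟩
      rw [← he]
      simp
  have hA' : (Finset.univ \ A).map e.toEmbedding
      = (Finset.univ : Finset P₂).map ⟨Sum.inr, Sum.inr_injective⟩ := by
    ext z
    simp only [Finset.mem_map, Finset.mem_univ, true_and,
      Function.Embedding.coeFn_mk, Finset.mem_sdiff]
    constructor
    · rintro ⟨x, hx, rfl⟩
      rw [← he] at hx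
      rcases h : e x with y | y
      · rw [h] at hx
        simp at hx
      · exact ⟨y, rfl⟩
    · rintro ⟨y, rfl⟩
      refine ⟨e.symm (Sum.inr y), ?_, by simp⟩
      rw [← he]
      simp
  have e1 := Lid_map (a := a) (a' := a') (θ := θ) (θ' := θ') e.toEmbedding
    (fun x y => by simp [a']) (fun x => by simp [θ']) A
  have e2 := Lid_map (a := a₁) (a' := a') (θ := θ₁) (θ' := θ')
    (⟨Sum.inl, Sum.inl_injective⟩ : P₁ ↪ P₁ ⊕ P₂) ha₁ hθ₁ Finset.univ
  have e3 := Jid_map (a := a) (a' := a') (θ := θ) (θ' := θ') e.toEmbedding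
    (fun x y => by simp [a']) (fun x => by simp [θ']) (Finset.univ \ A)
  have e4 := Jid_map (a := a₂) (a' := a') (θ := θ₂) (θ' := θ')
    (⟨Sum.inr, Sum.inr_injective⟩ : P₂ ↪ P₁ ⊕ P₂) ha₂ hθ₂ Finset.univ
  have hJJ : JJ (Lid ℚ a₁ θ₁ Finset.univ) (Jid ℚ a₂ θ₂ Finset.univ)
      = Ideal.span (rename e '' (Lid ℚ a θ A : Set (MvPolynomial P ℚ))) ⊔
        Ideal.span (rename e '' (Jid ℚ a θ (Finset.univ \ A) : Set (MvPolynomial P ℚ))) := by
    unfold JJ
    have e5 := e1.symm.trans ((congrArg (Lid ℚ a' θ') hA).trans e2)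
    have e6 := e3.symm.trans ((congrArg (Jid ℚ a' θ') hA').trans e4)
    exact congrArg₂ (· ⊔ ·) e5.symm e6.symm
  apply altDim_transport (e := e) hc
  intro f
  rw [hJJ]
  constructor
  · intro h
    have := rename_symm_mem e h
    rwa [rename_rename, Equiv.symm_comp_self, rename_id_apply] at this
  · intro h
    obtain ⟨x, hx, y, hy, rfl⟩ := Submodule.mem_sup.1 h
    rw [map_add]
    exact Submodule.add_mem_sup (Ideal.subset_span ⟨x, hx, rfl⟩) (Ideal.subset_span ⟨y, hy, rfl⟩)

end split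

section types

variable {P C I : Type*} [Fintype P] [DecidableEq P] [DecidableEq I]

/-- number of elements of colour `i` in `A` -/
def typ (c : P → I) (A : Finset P) (i : I) : ℕ := (A.filter (fun x => c x = i)).card

theorem exists_equiv {α β γ : Type*} [Fintype α] [Fintype β] [DecidableEq γ] (f : α → γ)
    (g : β → γ) (h : ∀ y, (Finset.univ.filter (fun x => f x = y)).card
      = (Finset.univ.filter (fun x => g x = y)).card) :
    ∃ e : α ≃ β, ∀ x, g (e x) = f x :=
  ⟨Equiv.ofFiberEquiv (f := f) (g := g) (fun y => Fintype.equivOfCardEq (by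
    rw [Fintype.card_subtype, Fintype.card_subtype, h])), fun x => Equiv.ofFiberEquiv_map _ x⟩

theorem typ_map {c : P → I} {A : Finset P} {σ : Equiv.Perm P} (hσ : ∀ x, c (σ x) = c x) (i : I) :
    typ c (A.map σ.toEmbedding) i = typ c A i := by
  unfold typ
  rw [Finset.filter_map, Finset.card_map]
  congr 1
  apply Finset.filter_congr
  intro x _
  simp [hσ]

theorem card_cA (c : P → I) (A : Finset P) (i : I) (b : Bool) :
    (Finset.univ.filter (fun x => cA c A x = (i, b))).card
      = if b then typ c A i else typ c (Finset.univ \ A) i := by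
  cases b
  · simp only [Bool.false_eq_true, if_false]
    unfold typ
    congr 1
    ext x
    simp [cA, and_comm]
  · simp only [if_true]
    unfold typ
    congr 1
    ext x
    simp [cA, and_comm]

/-- same type ⟹ same orbit -/
theorem exists_perm {c : P → I} {A B : Finset P} (h1 : ∀ i, typ c A i = typ c B i)
    (h2 : ∀ i, typ c (Finset.univ \ A) i = typ c (Finset.univ \ B) i) :
    ∃ σ : Equiv.Perm P, (∀ x, c (σ x) = c x) ∧ A.map σ.toEmbedding = B := by
  obtain ⟨e, he⟩ := exists_equiv (cA c A) (cA c B) (by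
    rintro ⟨i, b⟩
    rw [card_cA, card_cA, h1, h2])
  refine ⟨e, fun x => congrArg Prod.fst (he x), ?_⟩
  have h3 : ∀ x, e x ∈ B ↔ x ∈ A := fun x => decide_eq_decide.1 (congrArg Prod.snd (he x))
  ext x
  constructor
  · intro hx
    obtain ⟨y, hy, rfl⟩ := Finset.mem_map.1 hx
    exact (h3 y).2 hy
  · intro hx
    refine Finset.mem_map.2 ⟨e.symm x, ?_, by simp⟩
    rw [← h3]
    simpa using hx

theorem sum_typ [Fintype I] (c : P → I) (A : Finset P) {M : Type*} [AddCommMonoid M] (g : I → M) :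
    ∑ x ∈ A, g (c x) = ∑ i, typ c A i • g i := by
  rw [← Finset.sum_fiberwise A c (fun x => g (c x))]
  apply Finset.sum_congr rfl
  intro i _
  unfold typ
  rw [← Finset.sum_const]
  apply Finset.sum_congr rfl
  intro x hx
  rw [(Finset.mem_filter.1 hx).2]

theorem typ_add (c : P → I) (A : Finset P) (i : I) :
    typ c A i + typ c (Finset.univ \ A) i = typ c Finset.univ i := by
  unfold typ
  rw [← Finset.card_union_of_disjoint]
  · congr 1
    ext x
    simp only [Finset.mem_union, Finset.mem_filter, Finset.mem_sdiff, Finset.mem_univ, true_and]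
    tauto
  · rw [Finset.disjoint_left]
    intro x hx hx'
    simp only [Finset.mem_filter, Finset.mem_sdiff, Finset.mem_univ, true_and] at hx hx'
    exact hx'.1 hx.1

end types

section final

variable {I Γ : Type*} [Fintype I] [DecidableEq I]
  [AddCommGroup Γ] [LinearOrder Γ] [IsOrderedAddMonoid Γ]

/-- `d i` particles of colour `i` -/
abbrev T (d : I →₀ ℕ) : Type _ := Σ i, Fin (d i)

/-- colour -/
abbrev cl (d : I →₀ ℕ) : T d → I := Sigma.fst

/-- number of arrows -/
def kk (k : I → I → ℕ) (d e : I →₀ ℕ) : ℕ := ∑ i, ∑ j, d i * e j * k i j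

/-- weight -/
def wt (th : I → Γ) (d : I →₀ ℕ) : Γ := ∑ i, d i • th i

/-- arrows between particles -/
abbrev ar (k : I → I → ℕ) (d : I →₀ ℕ) : T d → T d → ℕ := fun x y => k x.1 y.1

/-- weight of a particle -/
abbrev tw (th : I → Γ) (d : I →₀ ℕ) : T d → Γ := fun x => th x.1

/-- the numbers of Theorem A -/
noncomputable def Hn (d : I →₀ ℕ) (n : ℕ) : ℕ :=
  finrank ℚ (homogeneousSubmodule (T d) ℚ n ⊓ Alt (cl d) : Submodule ℚ (MvPolynomial (T d) ℚ))

noncomputable def Pn (k : I → I → ℕ) (th : I → Γ) (d : I →₀ ℕ) (n : ℕ) : ℕ :=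
  altDim (cl d) (Lid ℚ (ar k d) (tw th d) Finset.univ) n

noncomputable def Qn (k : I → I → ℕ) (th : I → Γ) (d : I →₀ ℕ) (n : ℕ) : ℕ :=
  altDim (cl d) (Jid ℚ (ar k d) (tw th d) Finset.univ) n

theorem typ_univ (d : I →₀ ℕ) (i : I) : typ (cl d) Finset.univ i = d i := by
  unfold typ
  rw [← Fintype.card_subtype]
  rw [Fintype.card_congr (Equiv.sigmaSubtype i), Fintype.card_fin]

/-- the standard subset of type `b` -/
def std (d b : I →₀ ℕ) : Finset (T d) := Finset.univ.filter (fun x => x.2.1 < b x.1)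

theorem typ_std {d b : I →₀ ℕ} (h : b ≤ d) (i : I) : typ (cl d) (std d b) i = b i := by
  have h2 : (Finset.univ.filter (fun x : Fin (d i) => x.1 < b i)).card = b i := by
    rw [Fin.card_filter_val_lt, min_eq_right (h i)]
  rw [← h2]
  unfold typ std
  rw [Finset.filter_filter]
  symm
  apply Finset.card_bij (fun (x : Fin (d i)) _ => (⟨i, x⟩ : T d))
  · intro x hx
    simp only [Finset.mem_filter, Finset.mem_univ, true_and] at hx ⊢
    exact ⟨hx, trivial⟩
  · intro x _ y _ hxy
    simpa using hxy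
  · rintro ⟨j, x⟩ hx
    simp only [Finset.mem_filter, Finset.mem_univ, true_and] at hx
    obtain ⟨hx, rfl⟩ := hx
    exact ⟨x, by simpa using hx, rfl⟩

theorem typ_std_compl {d b b' : I →₀ ℕ} (h : b + b' = d) (i : I) :
    typ (cl d) (Finset.univ \ std d b) i = b' i := by
  have h1 := typ_add (cl d) (std d b) i
  have hb : b ≤ d := by rw [← h]; exact le_self_add
  have h2 : d i = b i + b' i := by rw [← h]; rfl
  rw [typ_std hb, typ_univ] at h1
  omega

theorem arr_std (k : I → I → ℕ) {d b b' : I →₀ ℕ} (h : b + b' = d) :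
    arr (ar k d) (std d b) (Finset.univ \ std d b) = kk k b b' := by
  have hb : b ≤ d := by rw [← h]; exact le_self_add
  unfold arr kk
  have h1 : ∀ x : T d, ∑ y ∈ Finset.univ \ std d b, ar k d x y = ∑ j, b' j * k x.1 j := by
    intro x
    rw [sum_typ (cl d) (Finset.univ \ std d b) (fun j => k x.1 j)]
    apply Finset.sum_congr rfl
    intro j _
    rw [typ_std_compl h, smul_eq_mul]
  rw [Finset.sum_congr rfl (fun x _ => h1 x),
    sum_typ (cl d) (std d b) (fun i => ∑ j, b' j * k i j)]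
  apply Finset.sum_congr rfl
  intro i _
  rw [typ_std hb, smul_eq_mul, Finset.mul_sum]
  apply Finset.sum_congr rfl
  intro j _
  ring

theorem exists_split {d b b' : I →₀ ℕ} (h : b + b' = d) :
    ∃ e : T d ≃ T b ⊕ T b', ∀ x, Sum.map (cl b) (cl b') (e x)
      = if x ∈ std d b then Sum.inl x.1 else Sum.inr x.1 := by
  have hb : b ≤ d := by rw [← h]; exact le_self_add
  apply exists_equiv (fun x : T d => (if x ∈ std d b then Sum.inl x.1 else Sum.inr x.1 : I ⊕ I))
    (Sum.map (cl b) (cl b'))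
  rintro (i | i)
  · trans b i
    · rw [← typ_std hb i]
      unfold typ
      congr 1
      ext x
      simp only [Finset.mem_filter, Finset.mem_univ, true_and]
      by_cases hx : x ∈ std d b
      · simp [hx]
      · simp [hx]
    · rw [← typ_univ b i]
      unfold typ
      symm
      rw [← Finset.card_map ⟨(Sum.inl : T b → T b ⊕ T b'), Sum.inl_injective⟩]
      congr 1
      ext x
      rcases x with x | x <;> simp
  · trans b' i
    · rw [← typ_std_compl h i]
      unfold typ
      congr 1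
      ext x
      simp only [Finset.mem_filter, Finset.mem_univ, true_and, Finset.mem_sdiff]
      by_cases hx : x ∈ std d b
      · simp [hx]
      · simp [hx]
    · rw [← typ_univ b' i]
      unfold typ
      symm
      rw [← Finset.card_map ⟨(Sum.inr : T b' → T b ⊕ T b'), Sum.inr_injective⟩]
      congr 1
      ext x
      rcases x with x | x <;> simp

theorem cA_std_iff {d b b' : I →₀ ℕ} {e : T d ≃ T b ⊕ T b'}
    (he : ∀ x, Sum.map (cl b) (cl b') (e x)
      = if x ∈ std d b then Sum.inl x.1 else Sum.inr x.1) (x y : T d) :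
    Sum.map (cl b) (cl b') (e x) = Sum.map (cl b) (cl b') (e y)
      ↔ cA (cl d) (std d b) x = cA (cl d) (std d b) y := by
  rw [he, he]
  unfold cA
  by_cases hx : x ∈ std d b <;> by_cases hy : y ∈ std d b <;> simp [hx, hy]

/-- the convolution for one type -/
theorem altDim_std (k : I → I → ℕ) (th : I → Γ) {d b b' : I →₀ ℕ} (h : b + b' = d) (m : ℕ) :
    altDim (cA (cl d) (std d b))
      (Lid ℚ (ar k d) (tw th d) (std d b) ⊔ Jid ℚ (ar k d) (tw th d) (Finset.univ \ std d b)) m
      = ∑ p ∈ Finset.HasAntidiagonal.antidiagonal m, Pn k th b p.1 * Qn k th b' p.2 := by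
  obtain ⟨e, he⟩ := exists_split h
  have hl : ∀ x : T b, (e.symm (Sum.inl x)).1 = x.1 := by
    intro x
    have := he (e.symm (Sum.inl x))
    rw [Equiv.apply_symm_apply] at this
    by_cases hx : e.symm (Sum.inl x) ∈ std d b
    · rw [if_pos hx] at this
      simpa using this.symm
    · rw [if_neg hx] at this
      simp at this
  have hr : ∀ x : T b', (e.symm (Sum.inr x)).1 = x.1 := by
    intro x
    have := he (e.symm (Sum.inr x))
    rw [Equiv.apply_symm_apply] at this
    by_cases hx : e.symm (Sum.inr x) ∈ std d b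
    · rw [if_pos hx] at this
      simp at this
    · rw [if_neg hx] at this
      simpa using this.symm
  apply altDim_split (std d b) e
  · intro x
    have := he x
    by_cases hx : x ∈ std d b
    · rw [if_pos hx] at this
      rcases h' : e x with y | y
      · simp [hx]
      · rw [h'] at this
        simp at this
    · rw [if_neg hx] at this
      rcases h' : e x with y | y
      · rw [h'] at this
        simp at this
      · simp [hx]
  · exact cA_std_iff he
  · intro x y
    change k _ _ = k _ _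
    rw [hl, hl]
  · intro x y
    change k _ _ = k _ _
    rw [hr, hr]
  · intro x
    change th _ = th _
    rw [hl]
  · intro x
    change th _ = th _
    rw [hr]

/-- **NUMERIC THEOREM A, thin model.** -/
theorem Hn_eq (k : I → I → ℕ) (th : I → Γ) (d : I →₀ ℕ) (n : ℕ) :
    Hn d n = ∑ p ∈ Finset.HasAntidiagonal.antidiagonal d,
      if kk k p.1 p.2 ≤ n then
        ∑ q ∈ Finset.HasAntidiagonal.antidiagonal (n - kk k p.1 p.2),
          Pn k th p.1 q.1 * Qn k th p.2 q.2
      else 0 := by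
  classical
  have hmem : ∀ p ∈ Finset.HasAntidiagonal.antidiagonal d, p.1 + p.2 = d := fun p hp =>
    Finset.HasAntidiagonal.mem_antidiagonal.1 hp
  have hle : ∀ p ∈ Finset.HasAntidiagonal.antidiagonal d, p.1 ≤ d := fun p hp => by
    rw [← hmem p hp]; exact le_self_add
  have hinj : ∀ p ∈ Finset.HasAntidiagonal.antidiagonal d,
      ∀ q ∈ Finset.HasAntidiagonal.antidiagonal d,
      (∀ i, typ (cl d) (std d p.1) i = typ (cl d) (std d q.1) i) → p = q := by
    intro p hp q hq h
    have h1 : p.1 = q.1 := by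
      ext i
      have := h i
      rwa [typ_std (hle p hp), typ_std (hle q hq)] at this
    have h2 : p.2 = q.2 := by
      have h3 := hmem p hp
      rw [← hmem q hq, h1] at h3
      exact add_left_cancel h3
    exact Prod.ext h1 h2
  unfold Hn
  rw [finrank_orbits (a := ar k d) (tw th d) (c := cl d) ?_ ?_ n
    ((Finset.HasAntidiagonal.antidiagonal d).image (fun p => std d p.1)) ?_ ?_]
  · rw [Finset.sum_image]
    · apply Finset.sum_congr rfl
      intro p hp
      rw [arr_std k (hmem p hp)]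
      split_ifs with h
      · exact altDim_std k th (hmem p hp) _
      · rfl
    · intro p hp q hq h
      have h' : std d p.1 = std d q.1 := h
      exact hinj p hp q hq (fun i => by rw [h'])
  · intro σ hσ x y
    change k _ _ = k _ _
    rw [show (σ x).1 = x.1 from hσ x, show (σ y).1 = y.1 from hσ y]
  · intro σ hσ x
    change th _ = th _
    rw [show (σ x).1 = x.1 from hσ x]
  · intro A
    let b : I →₀ ℕ := Finsupp.equivFunOnFinite.symm (typ (cl d) A)
    let b' : I →₀ ℕ := Finsupp.equivFunOnFinite.symm (typ (cl d) (Finset.univ \ A))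
    have hb : b + b' = d := by
      ext i
      have := typ_add (cl d) A i
      rw [typ_univ] at this
      exact this
    refine ⟨std d b, Finset.mem_image.2 ⟨(b, b'), Finset.HasAntidiagonal.mem_antidiagonal.2 hb, rfl⟩,
      exists_perm ?_ ?_⟩
    · intro i
      rw [typ_std (by rw [← hb]; exact le_self_add)]
      rfl
    · intro i
      rw [typ_std_compl hb]
      rfl
  · intro r hr r' hr' σ hσ h
    obtain ⟨p, hp, rfl⟩ := Finset.mem_image.1 hr
    obtain ⟨q, hq, rfl⟩ := Finset.mem_image.1 hr'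
    rw [hinj p hp q hq (fun i => by rw [← h, typ_map hσ])]

/-! ### power series form -/

variable (R : Type*) [CommSemiring R]

noncomputable def HS (d : I →₀ ℕ) : PowerSeries R := PowerSeries.mk fun n => (Hn d n : R)

noncomputable def PS (k : I → I → ℕ) (th : I → Γ) (d : I →₀ ℕ) : PowerSeries R :=
  PowerSeries.mk fun n => (Pn k th d n : R)

noncomputable def QS (k : I → I → ℕ) (th : I → Γ) (d : I →₀ ℕ) : PowerSeries R :=
  PowerSeries.mk fun n => (Qn k th d n : R)

/-- **NUMERIC THEOREM A (THA of #21459).** -/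
theorem HS_eq (k : I → I → ℕ) (th : I → Γ) (d : I →₀ ℕ) :
    HS R d = ∑ p ∈ Finset.HasAntidiagonal.antidiagonal d,
      PowerSeries.X ^ (kk k p.1 p.2) * PS R k th p.1 * QS R k th p.2 := by
  ext n
  rw [map_sum]
  unfold HS
  rw [PowerSeries.coeff_mk, Hn_eq k th d n, Nat.cast_sum]
  apply Finset.sum_congr rfl
  intro p _
  rw [mul_assoc, PowerSeries.coeff_X_pow_mul']
  split_ifs with h
  · rw [PowerSeries.coeff_mul, Nat.cast_sum]
    apply Finset.sum_congr rfl
    intro q _
    unfold PS QS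
    rw [PowerSeries.coeff_mk, PowerSeries.coeff_mk, Nat.cast_mul]
  · rw [Nat.cast_zero]

end final

end Crest.Agent.R059.NumA158
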