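import Mathlib
import Crest.Agent.R059.NumA5_158
import Crest.Agent.R059.Hilb2_568

/-!
# Row 59, AB7: supports, unit coefficients, Hilbert series (helper158)
-/

set_option autoImplicit false
set_option linter.unusedSectionVars false

namespace Crest.Agent.R059.NumA158

open Module MvPolynomial ThinA

variable {I Γ : Type*} [Fintype I] [DecidableEq I]
  [AddCommGroup Γ] [LinearOrder Γ] [IsOrderedAddMonoid Γ]

theorem altDim_top {P C : Type*} [Fintype P] [DecidableEq P] (c : P → C)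
    {J : Ideal (MvPolynomial P ℚ)} (h : (1 : MvPolynomial P ℚ) ∈ J) (n : ℕ) :
    altDim c J n = 0 := by
  have : J = ⊤ := (Ideal.eq_top_iff_one J).2 h
  unfold altDim
  rw [this, Submodule.restrictScalars_top, inf_top_eq, Nat.sub_self]

theorem sum_tw (th : I → Γ) (d : I →₀ ℕ) : ∑ x : T d, tw th d x = wt th d := by
  rw [sum_typ (cl d) Finset.univ th]
  unfold wt
  apply Finset.sum_congr rfl
  intro i _
  rw [typ_univ]

theorem Qn_eq_zero (k : I → I → ℕ) (th : I → Γ) (d : I →₀ ℕ) (h : 0 < wt th d) (n : ℕ) :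
    Qn k th d n = 0 := by
  apply altDim_top
  apply Ideal.subset_span
  refine ⟨Finset.univ, le_rfl, ?_, ?_, ?_⟩
  · intro h0
    rw [← sum_tw, h0, Finset.sum_empty] at h
    exact lt_irrefl _ h
  · rwa [sum_tw]
  · rw [Finset.sdiff_self, E_empty_right]

theorem Pn_eq_zero (k : I → I → ℕ) (th : I → Γ) (d : I →₀ ℕ) (hd : d ≠ 0) (h : ¬ 0 < wt th d)
    (n : ℕ) : Pn k th d n = 0 := by
  apply altDim_top
  apply Ideal.subset_span
  refine ⟨Finset.univ, le_rfl, ?_, ?_, ?_⟩
  · intro h0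
    apply hd
    ext i
    rw [← typ_univ d i, h0]
    rfl
  · rw [sum_tw]
    exact not_lt.1 h
  · rw [Finset.sdiff_self, E_empty_left]

theorem finrank_empty {P C : Type*} [Fintype P] [DecidableEq P] [IsEmpty P] (c : P → C) (n : ℕ) :
    finrank ℚ (homogeneousSubmodule P ℚ n ⊓ Alt c : Submodule ℚ (MvPolynomial P ℚ))
      = if n = 0 then 1 else 0 := by
  have hAlt : Alt c = (⊤ : Submodule ℚ (MvPolynomial P ℚ)) := by
    rw [eq_top_iff]
    intro f _ σ _
    have h1 : σ = 1 := Subsingleton.elim _ _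
    subst h1
    have h2 : sgn (1 : Equiv.Perm P) = 1 := by simp [sgn]
    rw [h2, one_smul]
    exact rename_id_apply f
  rw [hAlt, inf_top_eq]
  split_ifs with h
  · subst h
    have : (homogeneousSubmodule P ℚ 0 : Submodule ℚ (MvPolynomial P ℚ)) = Submodule.span ℚ {1} := by
      apply le_antisymm
      · intro f _
        rw [Submodule.mem_span_singleton]
        refine ⟨coeff 0 f, ?_⟩
        rw [smul_eq_C_mul, mul_one]
        exact (eq_C_of_isEmpty f).symm
      · rw [Submodule.span_le, Set.singleton_subset_iff]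
        exact isHomogeneous_one _ _
    rw [this, finrank_span_singleton one_ne_zero]
  · have : (homogeneousSubmodule P ℚ n : Submodule ℚ (MvPolynomial P ℚ)) = ⊥ := by
      rw [eq_bot_iff]
      intro f hf
      rw [Submodule.mem_bot]
      by_contra h0
      have h1 : f.IsHomogeneous 0 := by
        rw [eq_C_of_isEmpty f]
        exact isHomogeneous_C _ _
      exact h (IsHomogeneous.inj_right hf h1 h0)
    rw [this, finrank_bot]

theorem Qn_zero (k : I → I → ℕ) (th : I → Γ) (n : ℕ) :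
    Qn k th 0 n = if n = 0 then 1 else 0 := by
  have hE : IsEmpty (T (0 : I →₀ ℕ)) := ⟨fun x => x.2.elim0⟩
  have : Jid ℚ (ar k (0 : I →₀ ℕ)) (tw th 0) Finset.univ = ⊥ := by
    rw [eq_bot_iff, Jid, Ideal.span_le]
    rintro f ⟨A, _, hA, _⟩
    exact absurd (Finset.eq_empty_of_isEmpty A) hA
  unfold Qn altDim
  rw [this, finrank_empty]
  have h2 : (homogeneousSubmodule (T (0 : I →₀ ℕ)) ℚ n ⊓ Alt (cl 0) ⊓
      Submodule.restrictScalars ℚ (⊥ : Ideal (MvPolynomial (T (0 : I →₀ ℕ)) ℚ))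
      : Submodule ℚ (MvPolynomial (T (0 : I →₀ ℕ)) ℚ)) = ⊥ := by
    rw [Submodule.restrictScalars_bot, inf_bot_eq]
  rw [h2, finrank_bot, Nat.sub_zero]

theorem Pn_zero (k : I → I → ℕ) (th : I → Γ) (n : ℕ) :
    Pn k th 0 n = if n = 0 then 1 else 0 := by
  have hE : IsEmpty (T (0 : I →₀ ℕ)) := ⟨fun x => x.2.elim0⟩
  have : Lid ℚ (ar k (0 : I →₀ ℕ)) (tw th 0) Finset.univ = ⊥ := by
    rw [eq_bot_iff, Lid, Ideal.span_le]
    rintro f ⟨A, _, hA, _⟩
    exact absurd (Finset.eq_empty_of_isEmpty A) hA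
  unfold Pn altDim
  rw [this, finrank_empty]
  have h2 : (homogeneousSubmodule (T (0 : I →₀ ℕ)) ℚ n ⊓ Alt (cl 0) ⊓
      Submodule.restrictScalars ℚ (⊥ : Ideal (MvPolynomial (T (0 : I →₀ ℕ)) ℚ))
      : Submodule ℚ (MvPolynomial (T (0 : I →₀ ℕ)) ℚ)) = ⊥ := by
    rw [Submodule.restrictScalars_bot, inf_bot_eq]
  rw [h2, finrank_bot, Nat.sub_zero]

variable (R : Type*) [CommSemiring R]

theorem PS_zero (k : I → I → ℕ) (th : I → Γ) : PS R k th 0 = 1 := by
  ext n
  rw [PS, PowerSeries.coeff_mk, Pn_zero, PowerSeries.coeff_one]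
  split_ifs <;> simp

theorem QS_zero (k : I → I → ℕ) (th : I → Γ) : QS R k th 0 = 1 := by
  ext n
  rw [QS, PowerSeries.coeff_mk, Qn_zero, PowerSeries.coeff_one]
  split_ifs <;> simp

theorem QS_support (k : I → I → ℕ) (th : I → Γ) (d : I →₀ ℕ) (h : QS R k th d ≠ 0) :
    wt th d ≤ 0 := by
  by_contra h'
  apply h
  ext n
  rw [QS, PowerSeries.coeff_mk, Qn_eq_zero k th d (not_le.1 h'), map_zero, Nat.cast_zero]

theorem PS_support (k : I → I → ℕ) (th : I → Γ) (d : I →₀ ℕ) (h : PS R k th d ≠ 0) :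
    d = 0 ∨ 0 < wt th d := by
  by_contra h'
  rw [not_or] at h'
  apply h
  ext n
  rw [PS, PowerSeries.coeff_mk, Pn_eq_zero k th d h'.1 h'.2, map_zero, Nat.cast_zero]

/-- link with 599/568's `H c A` for `A = univ` -/
theorem Alt_eq_H {P : Type*} [Fintype P] [DecidableEq P] (c : P → I) :
    Alt c = Alt599.H c (Finset.univ : Finset P) := by
  ext F
  rw [Hilb568.mem_H_iff, mem_Alt]
  have hRA : F ∈ Alt599.RA (Finset.univ : Finset P) := by
    change F ∈ supported ℚ ((Finset.univ : Finset P) : Set P)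
    rw [mem_supported]
    intro x _
    simp
  constructor
  · intro h
    exact ⟨hRA, fun w hw => h w hw.1⟩
  · rintro ⟨_, h⟩ σ hσ
    exact h σ ⟨hσ, fun v hv => absurd (Finset.mem_univ v) hv⟩

theorem dA_univ (d : I →₀ ℕ) (i : I) : Hilb568.dA (cl d) Finset.univ i = d i := typ_univ d i

/-- **HILB** for `HS`. -/
theorem HS_hilb (S : Type*) [CommRing S] (d : I →₀ ℕ) :
    HS S d * ∏ i, ∏ r ∈ Finset.range (d i), (1 - PowerSeries.X ^ (r + 1))
      = PowerSeries.X ^ (∑ i, (d i).choose 2) := by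
  have h := Hilb568.hilb_H (cl d) (Finset.univ : Finset (T d)) S
  simp only [dA_univ] at h
  rw [← h]
  congr 1
  unfold HS
  congr 1
  funext n
  unfold Hn Alt599.hd
  rw [Alt_eq_H, inf_comm]

end Crest.Agent.R059.NumA158
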