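import Crest.Agent.R059.Iota_217
import Crest.Agent.R059.Hilb2_568

set_option autoImplicit false

/-!
# Row 59, leaf NUM: the numeric inputs (HILB), (THA) in power series form (helper217)
-/

namespace Crest.Agent.R059.NumA217

open PowerSeries Finset HasAntidiagonal

/-! ### the form with natural values -/

section form

variable {I : Type*} [Fintype I]

/-- the bilinear form `∑ k i j d_i e_j` with natural values. -/
noncomputable def kkN (k : I → I → ℕ) : (I →₀ ℕ) →+ (I →₀ ℕ) →+ ℕ where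
  toFun d :=
    { toFun := fun e => ∑ i, ∑ j, k i j * d i * e j
      map_zero' := by simp
      map_add' := fun e f => by
        simp only [Finsupp.add_apply, mul_add, sum_add_distrib] }
  map_zero' := by ext e; simp
  map_add' d e := by
    apply AddMonoidHom.ext
    intro f
    simp only [AddMonoidHom.coe_mk, ZeroHom.coe_mk, AddMonoidHom.add_apply, Finsupp.add_apply,
      mul_add, add_mul, sum_add_distrib]

@[simp] theorem kkN_apply (k : I → I → ℕ) (d e : I →₀ ℕ) :
    kkN k d e = ∑ i, ∑ j, k i j * d i * e j := rfl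

theorem kkN_cast (k : I → I → ℕ) (d e : I →₀ ℕ) :
    ((kkN k d e : ℕ) : ℤ) = ∑ i, ∑ j, (k i j : ℤ) * (d i : ℤ) * (e j : ℤ) := by
  rw [kkN_apply]; push_cast; rfl

end form

/-! ### Hilbert series -/

/-- the Hilbert series of a sequence of dimensions. -/
noncomputable def hs (h : ℕ → ℕ) : PowerSeries ℤ := PowerSeries.mk fun n => (h n : ℤ)

@[simp] theorem coeff_hs (h : ℕ → ℕ) (n : ℕ) : coeff n (hs h) = (h n : ℤ) := by simp [hs]

theorem hs_eq_one {h : ℕ → ℕ} (hh : ∀ n, h n = if n = 0 then 1 else 0) : hs h = 1 := by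
  ext n
  rw [coeff_hs, hh, coeff_one]
  split_ifs <;> simp

theorem hs_eq_zero {h : ℕ → ℕ} (hh : ∀ n, h n = 0) : hs h = 0 := by
  ext n
  rw [coeff_hs, hh, map_zero, Nat.cast_zero]

/-- `X^k * F * G` as a count. -/
theorem coeff_X_pow_mul_hs (k : ℕ) (f g : ℕ → ℕ) (n : ℕ) :
    coeff n (X ^ k * (hs f * hs g)) =
      ((if k ≤ n then ∑ pr ∈ antidiagonal (n - k), f pr.1 * g pr.2 else 0 : ℕ) : ℤ) := by
  rw [coeff_X_pow_mul']
  split_ifs with h
  · rw [coeff_mul]
    push_cast
    simp only [coeff_hs]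
  · simp

/-- the same with a triple condition. -/
theorem coeff_X_pow_mul_hs' (k : ℕ) (f g : ℕ → ℕ) (n : ℕ) :
    coeff n (X ^ k * (hs f * hs g)) =
      ((∑ pr ∈ (range (n + 1) ×ˢ range (n + 1)).filter (fun pr => pr.1 + pr.2 + k = n),
        f pr.1 * g pr.2 : ℕ) : ℤ) := by
  rw [coeff_X_pow_mul_hs]
  congr 1
  split_ifs with h
  · apply Finset.sum_congr _ fun _ _ => rfl
    ext ⟨a, b⟩
    simp only [HasAntidiagonal.mem_antidiagonal, mem_filter, mem_product, mem_range]
    omega
  · symm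
    apply Finset.sum_eq_zero
    rintro ⟨a, b⟩ hab
    simp only [mem_filter, mem_product, mem_range] at hab
    omega

section thA

variable {M : Type*} [AddCommMonoid M] [HasAntidiagonal M]

/-- **(THA)** in power series form. -/
theorem hs_of_thA (kk : M → M → ℕ) (h hg hl : M → ℕ → ℕ) (d : M)
    (hA : ∀ n, h d n = ∑ ab ∈ antidiagonal d, if kk ab.1 ab.2 ≤ n then
      ∑ pr ∈ antidiagonal (n - kk ab.1 ab.2), hg ab.1 pr.1 * hl ab.2 pr.2 else 0) :
    hs (h d) = ∑ ab ∈ antidiagonal d, X ^ kk ab.1 ab.2 * (hs (hg ab.1) * hs (hl ab.2)) := by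
  ext n
  rw [coeff_hs, hA, map_sum, Nat.cast_sum]
  exact Finset.sum_congr rfl fun ab _ => (coeff_X_pow_mul_hs _ _ _ _).symm

/-- **(THA)** in power series form, triple form of the hypothesis. -/
theorem hs_of_thA' (kk : M → M → ℕ) (h hg hl : M → ℕ → ℕ) (d : M)
    (hA : ∀ n, h d n = ∑ ab ∈ antidiagonal d,
      ∑ pr ∈ (range (n + 1) ×ˢ range (n + 1)).filter (fun pr => pr.1 + pr.2 + kk ab.1 ab.2 = n),
        hg ab.1 pr.1 * hl ab.2 pr.2) :
    hs (h d) = ∑ ab ∈ antidiagonal d, X ^ kk ab.1 ab.2 * (hs (hg ab.1) * hs (hl ab.2)) := by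
  ext n
  rw [coeff_hs, hA, map_sum, Nat.cast_sum]
  exact Finset.sum_congr rfl fun ab _ => (coeff_X_pow_mul_hs' _ _ _ _).symm

end thA

/-! ### (HILB) -/

section hilb

variable {I : Type*} [Fintype I]

/-- **(HILB)**: `H d = ∏ ee_odd (d i)`. -/
theorem eq_prod_ee {H : PowerSeries ℤ} {d : I → ℕ}
    (h : H * ∏ i, ∏ r ∈ range (d i), (1 - X ^ (r + 1)) = X ^ (∑ i, (d i).choose 2)) :
    H = ∏ i, Num469.ee true (d i) := by
  have h1 : (∏ i, Num469.ee true (d i)) * ∏ i, ∏ r ∈ range (d i), (1 - X ^ (r + 1)) =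
      X ^ (∑ i, (d i).choose 2) := by
    rw [← Finset.prod_mul_distrib, ← Finset.prod_pow_eq_pow_sum]
    refine Finset.prod_congr rfl fun i _ => ?_
    exact Num469.ee_mul_qf true (d i)
  have h2 : (∏ i, ∏ r ∈ range (d i), (1 - X ^ (r + 1)) : PowerSeries ℤ) ≠ 0 := by
    intro h0
    have h3 := congrArg constantCoeff h0
    rw [map_prod, map_zero] at h3
    have h4 : ∀ i, constantCoeff (∏ r ∈ range (d i), (1 - X ^ (r + 1)) : PowerSeries ℤ) = 1 :=
      fun i => Num469.constantCoeff_qf (d i)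
    rw [Finset.prod_congr rfl fun i _ => h4 i, Finset.prod_const_one] at h3
    exact one_ne_zero h3
  exact mul_right_cancel₀ h2 (h.trans h1.symm)

/-- the coefficients of the quiver series are `ι` of the Hilbert series. -/
theorem iota_eq_prod {H : PowerSeries ℤ} {d : I → ℕ}
    (h : H * ∏ i, ∏ r ∈ range (d i), (1 - X ^ (r + 1)) = X ^ (∑ i, (d i).choose 2)) :
    Iota217.iota H = ∏ i, coeff (d i) (Dilog344.EE vv true 0) := by
  rw [eq_prod_ee h, map_prod]
  exact Finset.prod_congr rfl fun i _ => (Iota217.coeff_EE_zero true (d i)).symm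

end hilb

/-! ### the particle set `Σ i, Fin (d i)` of 599 -/

section alt

open Alt599 Hilb568

variable {I : Type*} [Fintype I] [DecidableEq I]

theorem dA_sigma (d : I → ℕ) (i : I) :
    dA (Sigma.fst : (Σ i, Fin (d i)) → I) Finset.univ i = d i := by
  rw [dA]
  have : (Finset.univ.filter fun v : (Σ i, Fin (d i)) => v.1 = i) =
      (Finset.univ : Finset (Fin (d i))).map (Function.Embedding.sigmaMk i) := by
    ext ⟨j, x⟩
    simp only [mem_filter, mem_univ, true_and, mem_map, Function.Embedding.sigmaMk_apply]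
    constructor
    · rintro rfl
      exact ⟨x, rfl⟩
    · rintro ⟨y, hy⟩
      exact (congrArg Sigma.fst hy).symm
  rw [this, Finset.card_map, Finset.card_univ, Fintype.card_fin]

/-- **(HILB)** for 599's particle set. -/
theorem hilb_sigma (d : I → ℕ) :
    hs (hd (H (Sigma.fst : (Σ i, Fin (d i)) → I) Finset.univ)) *
      ∏ i, ∏ r ∈ range (d i), (1 - X ^ (r + 1)) = X ^ (∑ i, (d i).choose 2) := by
  have h := hilb_H (Sigma.fst : (Σ i, Fin (d i)) → I) Finset.univ ℤ
  simp only [dA_sigma] at h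
  exact h

/-- **(HILB)** for 599's particle set: `ι H_d = [y^d] gser`. -/
theorem iota_sigma (d : I → ℕ) :
    Iota217.iota (hs (hd (H (Sigma.fst : (Σ i, Fin (d i)) → I) Finset.univ))) =
      ∏ i, coeff (d i) (Dilog344.EE vv true 0) :=
  iota_eq_prod (hilb_sigma d)

end alt

end Crest.Agent.R059.NumA217
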