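import Crest.Agent.R059.NumCount_469
import Crest.Agent.R059.Fac_150

set_option autoImplicit false

/-!
Row 59 (S0081), leaf NUM, part 2: the generating series (in the twisted ring) of finite multisets
of letters `(b, a)`, `b` in a finite list of letter types, is the product of the ray series.
-/

namespace Crest.Agent.R059.Num469

open Finset PowerSeries HasAntidiagonal

section tw

variable {M : Type*} [AddCommMonoid M] {K : Type*} [CommRing K]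

/-- the natural number valued form `κ` is the form of `T` -/
def IsForm (T : Tw M K) (κ : M →+ M →+ ℕ) : Prop := ∀ a b, T.β a b = (κ a b : ℤ)

theorem wt_tw {T : Tw M K} {κ : M →+ M →+ ℕ} (hT : IsForm T κ) (a b : M) :
    TPS.wt T a b = (T.v : K) ^ (κ a b) := by
  rw [TPS.wt, hT]
  simp

/-- series with coefficients in the image of `ι` -/
noncomputable def gser (T : Tw M K) (ι : PowerSeries ℤ →+* K) (F : M → PowerSeries ℤ) : TPS T :=
  ⟨fun d => ι (F d)⟩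

@[simp] theorem gser_co (T : Tw M K) (ι : PowerSeries ℤ →+* K) (F : M → PowerSeries ℤ) (d : M) :
    (gser T ι F).co d = ι (F d) := rfl

variable [HasAntidiagonal M]

theorem gser_mul {T : Tw M K} {κ : M →+ M →+ ℕ} (hT : IsForm T κ) {ι : PowerSeries ℤ →+* K}
    (hι : ι X = T.v) (F G : M → PowerSeries ℤ) :
    gser T ι F * gser T ι G =
      gser T ι (fun d => ∑ p ∈ antidiagonal d, X ^ (κ p.1 p.2) * (F p.1 * G p.2)) := by
  ext d
  rw [TPS.co_mul, gser_co, map_sum]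
  apply sum_congr rfl
  intro p _
  rw [wt_tw hT, gser_co, gser_co, map_mul, map_mul, map_pow, hι]

end tw

/-! ### graded sets of multisets of letters -/

section graded

variable {M : Type*} [AddCommMonoid M] (κ : M →+ M →+ ℕ)
variable {Λ : Type*} (cL : Λ → M) (pL : Λ → ℕ)

/-- class of a multiset of letters -/
def cls (s : Multiset (Λ × ℕ)) : M := (s.map fun ℓ => cL ℓ.1).sum

/-- sum of the `p + a` -/
def sA (s : Multiset (Λ × ℕ)) : ℕ := (s.map fun ℓ => pL ℓ.1 + ℓ.2).sum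

/-- sum of the `κ c c` -/
def sC (s : Multiset (Λ × ℕ)) : ℕ := (s.map fun ℓ => κ (cL ℓ.1) (cL ℓ.1)).sum

theorem cls_add (s t : Multiset (Λ × ℕ)) : cls cL (s + t) = cls cL s + cls cL t := by
  simp [cls]

theorem sA_add (s t : Multiset (Λ × ℕ)) : sA pL (s + t) = sA pL s + sA pL t := by
  simp [sA]

theorem sC_add (s t : Multiset (Λ × ℕ)) : sC κ cL (s + t) = sC κ cL s + sC κ cL t := by
  simp [sC]

/-- the degree of a multiset of letters: `∑ (p + a) + ∑_{pairs} κ c c'` -/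
def Rel (s : Multiset (Λ × ℕ)) (n : ℕ) : Prop :=
  2 * n + sC κ cL s = 2 * sA pL s + κ (cls cL s) (cls cL s)

variable (Z : AddSubmonoid M)

theorem cls_mem (hc : ∀ b, cL b ∈ Z) (s : Multiset (Λ × ℕ)) : cls cL s ∈ Z := by
  apply AddSubmonoid.multiset_sum_mem
  intro x hx
  rw [Multiset.mem_map] at hx
  obtain ⟨ℓ, _, rfl⟩ := hx
  exact hc _

theorem exists_pairs (hc : ∀ b, cL b ∈ Z) (hsym : ∀ d ∈ Z, ∀ e ∈ Z, κ d e = κ e d)
    (s : Multiset (Λ × ℕ)) : ∃ t, κ (cls cL s) (cls cL s) = sC κ cL s + 2 * t := by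
  induction s using Multiset.induction with
  | empty => exact ⟨0, by simp [cls, sC]⟩
  | cons ℓ s ih =>
    obtain ⟨t, ht⟩ := ih
    refine ⟨t + κ (cL ℓ.1) (cls cL s), ?_⟩
    have e1 : cls cL (ℓ ::ₘ s) = cL ℓ.1 + cls cL s := by simp [cls]
    have e2 : sC κ cL (ℓ ::ₘ s) = κ (cL ℓ.1) (cL ℓ.1) + sC κ cL s := by simp [sC]
    have e3 := hsym _ (hc ℓ.1) _ (cls_mem cL Z hc s)
    rw [e1, e2]
    simp only [map_add, AddMonoidHom.add_apply]
    omega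

/-- the degree function -/
noncomputable def Nd (hc : ∀ b, cL b ∈ Z) (hsym : ∀ d ∈ Z, ∀ e ∈ Z, κ d e = κ e d)
    (s : Multiset (Λ × ℕ)) : ℕ :=
  sA pL s + (exists_pairs κ cL Z hc hsym s).choose

theorem Nd_spec (hc : ∀ b, cL b ∈ Z) (hsym : ∀ d ∈ Z, ∀ e ∈ Z, κ d e = κ e d)
    (s : Multiset (Λ × ℕ)) : Rel κ cL pL s (Nd κ cL pL Z hc hsym s) := by
  have := (exists_pairs κ cL Z hc hsym s).choose_spec
  unfold Rel Nd
  omega

theorem rel_iff (hc : ∀ b, cL b ∈ Z) (hsym : ∀ d ∈ Z, ∀ e ∈ Z, κ d e = κ e d)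
    (s : Multiset (Λ × ℕ)) (n : ℕ) : Rel κ cL pL s n ↔ n = Nd κ cL pL Z hc hsym s := by
  have h := Nd_spec κ cL pL Z hc hsym s
  constructor
  · intro h'
    unfold Rel at h h'
    omega
  · rintro rfl; exact h

variable {κ cL pL} in
theorem Rel.unique {s : Multiset (Λ × ℕ)} {n n' : ℕ} (h : Rel κ cL pL s n)
    (h' : Rel κ cL pL s n') : n = n' := by
  unfold Rel at h h'; omega

variable {κ cL pL Z} in
theorem Rel.add (hc : ∀ b, cL b ∈ Z) (hsym : ∀ d ∈ Z, ∀ e ∈ Z, κ d e = κ e d)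
    {s t : Multiset (Λ × ℕ)} {n n' : ℕ} (h : Rel κ cL pL s n) (h' : Rel κ cL pL t n') :
    Rel κ cL pL (s + t) (n + n' + κ (cls cL s) (cls cL t)) := by
  unfold Rel at h h' ⊢
  rw [cls_add, sA_add, sC_add]
  simp only [map_add, AddMonoidHom.add_apply]
  have := hsym _ (cls_mem cL Z hc s) _ (cls_mem cL Z hc t)
  omega

/-- the graded set of the multisets in `Φ` of class `d` and degree `n` -/
def fib (Φ : Set (Multiset (Λ × ℕ))) (d : M) (n : ℕ) : Set (Multiset (Λ × ℕ)) :=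
  {s | s ∈ Φ ∧ cls cL s = d ∧ Rel κ cL pL s n}

/-- the counting series -/
noncomputable def cser (Φ : Set (Multiset (Λ × ℕ))) (d : M) : PowerSeries ℤ :=
  PowerSeries.mk fun n => ((fib κ cL pL Φ d n).ncard : ℤ)

/-- `Φ₁ + Φ₂` where the decomposition is unique. -/
structure IsSum (Φ₁ Φ₂ Φ : Set (Multiset (Λ × ℕ))) : Prop where
  mem : ∀ s, s ∈ Φ ↔ ∃ s₁ ∈ Φ₁, ∃ s₂ ∈ Φ₂, s₁ + s₂ = s
  uniq : ∀ s₁ ∈ Φ₁, ∀ s₂ ∈ Φ₂, ∀ t₁ ∈ Φ₁, ∀ t₂ ∈ Φ₂, s₁ + s₂ = t₁ + t₂ → s₁ = t₁ ∧ s₂ = t₂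

variable [HasAntidiagonal M]

variable {κ cL pL Z} in
theorem fib_sum (hc : ∀ b, cL b ∈ Z) (hsym : ∀ d ∈ Z, ∀ e ∈ Z, κ d e = κ e d)
    {Φ₁ Φ₂ Φ : Set (Multiset (Λ × ℕ))} (hΦ : IsSum Φ₁ Φ₂ Φ)
    (f1 : ∀ d n, (fib κ cL pL Φ₁ d n).Finite) (f2 : ∀ d n, (fib κ cL pL Φ₂ d n).Finite)
    (d : M) (n : ℕ) :
    (fib κ cL pL Φ d n).Finite ∧ (fib κ cL pL Φ d n).ncard =
      ∑ p ∈ antidiagonal d, if κ p.1 p.2 ≤ n then
        ∑ r ∈ antidiagonal (n - κ p.1 p.2),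
          (fib κ cL pL Φ₁ p.1 r.1).ncard * (fib κ cL pL Φ₂ p.2 r.2).ncard else 0 := by
  classical
  set J : Finset (Σ _ : M × M, ℕ × ℕ) := (antidiagonal d).sigma
    (fun p => if κ p.1 p.2 ≤ n then antidiagonal (n - κ p.1 p.2) else ∅) with hJ
  set G : (Σ _ : M × M, ℕ × ℕ) → Finset (Multiset (Λ × ℕ)) := fun x =>
    ((f1 x.1.1 x.2.1).toFinset ×ˢ (f2 x.1.2 x.2.2).toFinset).image (fun u => u.1 + u.2) with hG
  have hmemJ : ∀ x : (Σ _ : M × M, ℕ × ℕ), x ∈ J ↔ x.1.1 + x.1.2 = d ∧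
      x.2.1 + x.2.2 + κ x.1.1 x.1.2 = n := by
    rintro ⟨p, r⟩
    rw [hJ, mem_sigma, HasAntidiagonal.mem_antidiagonal]
    simp only
    refine and_congr_right (fun _ => ?_)
    split_ifs with h
    · rw [HasAntidiagonal.mem_antidiagonal]; omega
    · simp only [notMem_empty, false_iff]; omega
  have hfib : fib κ cL pL Φ d n = ((J.biUnion G : Finset _) : Set (Multiset (Λ × ℕ))) := by
    ext s
    rw [mem_coe, mem_biUnion]
    constructor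
    · rintro ⟨hs, hd, hn⟩
      obtain ⟨s₁, h₁, s₂, h₂, rfl⟩ := (hΦ.mem s).1 hs
      have r1 := Nd_spec κ cL pL Z hc hsym s₁
      have r2 := Nd_spec κ cL pL Z hc hsym s₂
      refine ⟨⟨(cls cL s₁, cls cL s₂), (Nd κ cL pL Z hc hsym s₁, Nd κ cL pL Z hc hsym s₂)⟩, ?_, ?_⟩
      · rw [hmemJ]
        simp only
        refine ⟨by rw [← hd, cls_add], ?_⟩
        exact (Rel.add hc hsym r1 r2).unique hn
      · rw [hG]
        simp only [mem_image, mem_product, Set.Finite.mem_toFinset, Prod.exists]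
        exact ⟨s₁, s₂, ⟨⟨h₁, rfl, r1⟩, ⟨h₂, rfl, r2⟩⟩, rfl⟩
    · rintro ⟨⟨p, r⟩, hx, hs⟩
      rw [hmemJ] at hx
      rw [hG] at hs
      simp only [mem_image, mem_product, Set.Finite.mem_toFinset, Prod.exists] at hs hx
      obtain ⟨s₁, s₂, ⟨⟨h₁, c1, r1⟩, ⟨h₂, c2, r2⟩⟩, rfl⟩ := hs
      refine ⟨(hΦ.mem _).2 ⟨s₁, h₁, s₂, h₂, rfl⟩, by rw [cls_add, c1, c2, hx.1], ?_⟩
      have := Rel.add hc hsym r1 r2
      rw [c1, c2, hx.2] at this
      exact this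
  refine ⟨by rw [hfib]; exact finite_toSet _, ?_⟩
  rw [hfib, Set.ncard_coe_finset, card_biUnion]
  · have : ∀ x ∈ J, (G x).card = (fib κ cL pL Φ₁ x.1.1 x.2.1).ncard *
        (fib κ cL pL Φ₂ x.1.2 x.2.2).ncard := by
      intro x _
      rw [hG]
      simp only
      rw [card_image_of_injOn, card_product, Set.ncard_eq_toFinset_card _ (f1 _ _),
        Set.ncard_eq_toFinset_card _ (f2 _ _)]
      rintro ⟨s₁, s₂⟩ hs ⟨t₁, t₂⟩ ht h
      simp only [coe_product, Set.mem_prod, mem_coe, Set.Finite.mem_toFinset] at hs ht h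
      obtain ⟨e1, e2⟩ := hΦ.uniq _ hs.1.1 _ hs.2.1 _ ht.1.1 _ ht.2.1 h
      rw [e1, e2]
    rw [sum_congr rfl this, hJ, sum_sigma]
    apply sum_congr rfl
    intro p _
    split_ifs with h
    · rfl
    · rfl
  · rintro x hx y hy hxy
    rw [Function.onFun, Finset.disjoint_left]
    intro s h1 h2
    rw [hG] at h1 h2
    simp only [mem_image, mem_product, Set.Finite.mem_toFinset, Prod.exists] at h1 h2
    obtain ⟨s₁, s₂, ⟨⟨h₁, c1, r1⟩, ⟨h₂, c2, r2⟩⟩, rfl⟩ := h1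
    obtain ⟨t₁, t₂, ⟨⟨k₁, c1', r1'⟩, ⟨k₂, c2', r2'⟩⟩, h⟩ := h2
    obtain ⟨e1, e2⟩ := hΦ.uniq _ k₁ _ k₂ _ h₁ _ h₂ h
    subst e1 e2
    apply hxy
    obtain ⟨⟨x1, x2⟩, ⟨x3, x4⟩⟩ := x
    obtain ⟨⟨y1, y2⟩, ⟨y3, y4⟩⟩ := y
    simp only at c1 c2 c1' c2' r1 r2 r1' r2'
    rw [← c1, ← c2, ← c1', ← c2', r1.unique r1', r2.unique r2']

variable {κ cL pL Z} in
/-- the counting series of a sum is the twisted convolution. -/
theorem cser_sum (hc : ∀ b, cL b ∈ Z) (hsym : ∀ d ∈ Z, ∀ e ∈ Z, κ d e = κ e d)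
    {Φ₁ Φ₂ Φ : Set (Multiset (Λ × ℕ))} (hΦ : IsSum Φ₁ Φ₂ Φ)
    (f1 : ∀ d n, (fib κ cL pL Φ₁ d n).Finite) (f2 : ∀ d n, (fib κ cL pL Φ₂ d n).Finite)
    (d : M) : cser κ cL pL Φ d =
      ∑ p ∈ antidiagonal d, X ^ (κ p.1 p.2) * (cser κ cL pL Φ₁ p.1 * cser κ cL pL Φ₂ p.2) := by
  ext n
  rw [cser, coeff_mk, (fib_sum hc hsym hΦ f1 f2 d n).2, map_sum, Nat.cast_sum]
  apply sum_congr rfl
  intro p _
  rw [coeff_X_pow_mul']
  split_ifs with h
  · rw [coeff_mul, Nat.cast_sum]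
    apply sum_congr rfl
    intro r _
    rw [cser, cser, coeff_mk, coeff_mk, Nat.cast_mul]
  · simp

end graded

end Crest.Agent.R059.Num469
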