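import Crest.Agent.R059.NumRay_469

set_option autoImplicit false

/-!
Row 59 (S0081), leaf NUM, part 4: truncation (infinitely many letter types) and the parts of the
quiver series.
-/

namespace Crest.Agent.R059.Num469

open Finset PowerSeries HasAntidiagonal

section trunc

variable {M : Type*} [AddCommMonoid M] {κ : M →+ M →+ ℕ}
variable {Λ : Type*} [DecidableEq Λ] {cL : Λ → M} {pL : Λ → ℕ} {oL : Λ → Bool}
variable {Z : AddSubmonoid M}

/-- all supermonomials -/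
def PhiAll (oL : Λ → Bool) : Set (Multiset (Λ × ℕ)) := {s | OddOk oL s}

omit [DecidableEq Λ] in
theorem ht_le_of_mem (ht : M →+ ℕ) {s : Multiset (Λ × ℕ)} {d : M} (hd : cls cL s = d)
    {ℓ : Λ × ℕ} (hℓ : ℓ ∈ s) : ht (cL ℓ.1) ≤ ht d := by
  obtain ⟨t, rfl⟩ := Multiset.exists_cons_of_mem hℓ
  rw [← hd]
  simp only [cls, Multiset.map_cons, Multiset.sum_cons, map_add]
  exact Nat.le_add_right _ _

omit [DecidableEq Λ] in
theorem pL_le_of_mem (hc : ∀ b, cL b ∈ Z) (hsym : ∀ d ∈ Z, ∀ e ∈ Z, κ d e = κ e d)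
    {s : Multiset (Λ × ℕ)} {n : ℕ} (hn : Rel κ cL pL s n)
    {ℓ : Λ × ℕ} (hℓ : ℓ ∈ s) : pL ℓ.1 ≤ n := by
  obtain ⟨t, ht⟩ := exists_pairs κ cL Z hc hsym s
  have h1 : pL ℓ.1 ≤ sA pL s := by
    obtain ⟨u, rfl⟩ := Multiset.exists_cons_of_mem hℓ
    simp only [sA, Multiset.map_cons, Multiset.sum_cons]
    omega
  unfold Rel at hn
  omega

theorem fib_trunc (ht : M →+ ℕ) (hc : ∀ b, cL b ∈ Z)
    (hsym : ∀ d ∈ Z, ∀ e ∈ Z, κ d e = κ e d) {N B : ℕ} {l : List Λ}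
    (hl : ∀ b, ht (cL b) ≤ N → pL b < B → b ∈ l) {d : M} (hd : ht d ≤ N) {n : ℕ} (hn : n < B) :
    fib κ cL pL (PhiAll oL) d n = fib κ cL pL (Phi oL l) d n := by
  ext s
  constructor
  · rintro ⟨h1, h2, h3⟩
    refine ⟨⟨fun ℓ hℓ => hl _ ?_ ?_, h1⟩, h2, h3⟩
    · exact (ht_le_of_mem ht h2 hℓ).trans hd
    · exact (pL_le_of_mem hc hsym h3 hℓ).trans_lt hn
  · rintro ⟨h1, h2, h3⟩
    exact ⟨h1.2, h2, h3⟩

omit [DecidableEq Λ] in
theorem fib_off (hc : ∀ b, cL b ∈ Z) (Φ : Set (Multiset (Λ × ℕ))) {d : M} (hd : d ∉ Z) (n : ℕ) :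
    fib κ cL pL Φ d n = ∅ := by
  rw [Set.eq_empty_iff_forall_notMem]
  rintro s ⟨_, h2, _⟩
  exact hd (h2 ▸ cls_mem cL Z hc s)

variable {K : Type*} [CommRing K] {T : Tw M K} {ι : PowerSeries ℤ →+* K} [HasAntidiagonal M]

/-- the `E`-series of a letter type. -/
noncomputable def Eser (κ : M →+ M →+ ℕ) (T : Tw M K) (ι : PowerSeries ℤ →+* K) (o : Bool)
    (p : ℕ) (c : M) : TPS T := gser T ι (rayF κ o p c)

/-- **(ii)**: `Q` counts supermonomials `⇒` in heights `≤ N` and modulo `X^B` it is a finite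
product of `E`-series. -/
theorem num_trunc (hT : IsForm T κ) (hι : ι X = T.v) (ht : M →+ ℕ) (hc : ∀ b, cL b ∈ Z)
    (hsym : ∀ d ∈ Z, ∀ e ∈ Z, κ d e = κ e d)
    (hc0 : ∀ b, ∀ m m' : ℕ, m • cL b = m' • cL b → m = m')
    (hfin : ∀ N B, {b | ht (cL b) ≤ N ∧ pL b < B}.Finite)
    {Q : M → PowerSeries ℤ}
    (hQ : ∀ d ∈ Z, ∀ n, coeff n (Q d) = ((fib κ cL pL (PhiAll oL) d n).ncard : ℤ))
    (N B : ℕ) : ∃ l : List Λ, l.Nodup ∧ ∀ d ∈ Z, ht d ≤ N → ∃ r : PowerSeries ℤ,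
      ι (Q d) - (l.map fun b => Eser κ T ι (oL b) (pL b) (cL b)).prod.co d = ι (X ^ B * r) := by
  classical
  refine ⟨(hfin N B).toFinset.toList, Finset.nodup_toList _, fun d hdZ hd => ?_⟩
  have e := gser_cser κ cL pL oL hc0 hT hι Z hc hsym (hfin N B).toFinset.toList
    (Finset.nodup_toList _)
  have hdvd : (X : PowerSeries ℤ) ^ B ∣
      Q d - cser κ cL pL (Phi oL (hfin N B).toFinset.toList) d := by
    rw [X_pow_dvd_iff]
    intro n hn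
    rw [map_sub, hQ d hdZ, cser, coeff_mk, fib_trunc ht hc hsym (N := N) (B := B) _ hd hn,
      sub_self]
    intro b h1 h2
    rw [Finset.mem_toList, Set.Finite.mem_toFinset]
    exact ⟨h1, h2⟩
  obtain ⟨r, hr⟩ := hdvd
  refine ⟨r, ?_⟩
  rw [← hr, map_sub]
  congr 1
  unfold Eser
  rw [← e, gser_co]

/-- off `Z` products of `E`-series vanish. -/
theorem prod_off (hT : IsForm T κ) (hι : ι X = T.v) (hc : ∀ b, cL b ∈ Z)
    (hsym : ∀ d ∈ Z, ∀ e ∈ Z, κ d e = κ e d)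
    (hc0 : ∀ b, ∀ m m' : ℕ, m • cL b = m' • cL b → m = m') (l : List Λ) (hl : l.Nodup) {d : M}
    (hd : d ∉ Z) : (l.map fun b => Eser κ T ι (oL b) (pL b) (cL b)).prod.co d = 0 := by
  have e := gser_cser κ cL pL oL hc0 hT hι Z hc hsym l hl
  unfold Eser
  rw [← e, gser_co]
  have : cser κ cL pL (Phi oL l) d = 0 := by
    ext n
    rw [cser, coeff_mk, fib_off hc _ hd]
    simp
  rw [this, map_zero]

end trunc

end Crest.Agent.R059.Num469
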