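import Crest.Agent.R059.NumMain_469
import Crest.Agent.R059.Iota_217
import Crest.Agent.R059.ABOut_883
import Crest.Agent.R059.CloB_987

set_option autoImplicit false

/-!
Row 59 (S0081), leaf NUM, part 5: the numeric outputs of HILB, THEOREM A and THEOREM B give
`ABOut`.
-/

namespace Crest.Agent.R059.Num469

open Finset PowerSeries HasAntidiagonal

section defs

variable {I : Type} [Fintype I]

/-- the natural number valued form `∑ k i j d_i e_j`. -/
noncomputable def kkN (k : I → I → ℕ) : (I →₀ ℕ) →+ (I →₀ ℕ) →+ ℕ where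
  toFun d :=
    { toFun := fun e => ∑ i, ∑ j, k i j * d i * e j
      map_zero' := by simp
      map_add' := fun e f => by
        simp only [Finsupp.add_apply, mul_add, sum_add_distrib] }
  map_zero' := by ext e; simp
  map_add' d e := by
    apply AddMonoidHom.ext
    intro f
    simp only [AddMonoidHom.coe_mk, ZeroHom.coe_mk, AddMonoidHom.add_apply, Finsupp.add_apply,
      mul_add, add_mul, sum_add_distrib]

@[simp] theorem kkN_apply (k : I → I → ℕ) (d e : I →₀ ℕ) :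
    kkN k d e = ∑ i, ∑ j, k i j * d i * e j := rfl

theorem kk_eq (k : I → I → ℕ) (d e : I →₀ ℕ) : ABOut.kk k d e = (kkN k d e : ℤ) := by
  rw [ABOut.kk_apply, kkN_apply]; push_cast; rfl

theorem isForm_TW (k : I → I → ℕ) : IsForm (ABOut.TW k) (kkN k) := fun a b => kk_eq k a b

/-- parity: `true` = odd -/
noncomputable def par (k : I → I → ℕ) (c : I →₀ ℕ) : Bool := decide (ABOut.par k c = 1)

/-- INPUT (HILB). -/
def HILB (H : (I →₀ ℕ) → PowerSeries ℤ) : Prop :=
  ∀ d, H d * ∏ i, qf (d i) = X ^ (∑ i, (d i).choose 2)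

/-- INPUT (THA). -/
structure THA [DecidableEq I] (k : I → I → ℕ) (θ : I → ℤ) (H P Q : (I →₀ ℕ) → PowerSeries ℤ) : Prop where
  eq : ∀ d, H d = ∑ p ∈ antidiagonal d, X ^ (kkN k p.1 p.2) * (P p.1 * Q p.2)
  P0 : P 0 = 1
  Q0 : Q 0 = 1
  hP : ∀ a, P a ≠ 0 → a = 0 ∨ 0 < ABOut.th θ a
  hQ : ∀ b, Q b ≠ 0 → ABOut.th θ b ≤ 0

/-- the set of supermonomials of class `d` and degree `n` -/
def SM (k : I → I → ℕ) {Λ : Type} [DecidableEq Λ] (cL : Λ → (I →₀ ℕ)) (pL : Λ → ℕ)
    (d : I →₀ ℕ) (n : ℕ) : Set (Multiset (Λ × ℕ)) :=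
  {s | (∀ ℓ, par k (cL ℓ.1) = true → s.count ℓ ≤ 1) ∧ (s.map fun ℓ => cL ℓ.1).sum = d ∧
    2 * n + (s.map fun ℓ => kkN k (cL ℓ.1) (cL ℓ.1)).sum =
      2 * (s.map fun ℓ => pL ℓ.1 + ℓ.2).sum + kkN k d d}

/-- INPUT (THB). -/
def THB (k : I → I → ℕ) (θ : I → ℤ) (Q : (I →₀ ℕ) → PowerSeries ℤ) : Prop :=
  ∃ (Λ : Type) (_ : DecidableEq Λ) (cL : Λ → (I →₀ ℕ)) (pL : Λ → ℕ),
    (∀ b, cL b ≠ 0 ∧ ABOut.th θ (cL b) = 0) ∧
    (∀ c p, {b | cL b = c ∧ pL b = p}.Finite) ∧
    ∀ d, ABOut.th θ d = 0 → ∀ n, coeff n (Q d) = ((SM k cL pL d n).ncard : ℤ)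

end defs

section bind

variable {I : Type} [Fintype I]

/-- finitely many classes of bounded height -/
theorem finite_height (N : ℕ) : {c : I →₀ ℕ | Finsupp.degree c ≤ N}.Finite := by
  classical
  have : {c : I →₀ ℕ | Finsupp.degree c ≤ N} ⊆
      Set.Iic (Finsupp.equivFunOnFinite.symm (fun _ : I => N)) := by
    intro c hc
    rw [Set.mem_Iic]
    intro i
    have h1 : c i ≤ Finsupp.degree c := Finsupp.le_degree i c
    have h2 : Finsupp.degree c ≤ N := hc
    simp only [Finsupp.equivFunOnFinite_symm_apply_apply]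
    omega
  exact (Set.finite_Iic _).subset this

theorem finite_letters {Λ : Type} {cL : Λ → (I →₀ ℕ)} {pL : Λ → ℕ}
    (hfin : ∀ c p, {b | cL b = c ∧ pL b = p}.Finite) (N B : ℕ) :
    {b | Finsupp.degree (cL b) ≤ N ∧ pL b < B}.Finite := by
  have : {b | Finsupp.degree (cL b) ≤ N ∧ pL b < B} ⊆
      ⋃ c ∈ {c : I →₀ ℕ | Finsupp.degree c ≤ N}, ⋃ p ∈ Set.Iio B, {b | cL b = c ∧ pL b = p} := by
    rintro b ⟨h1, h2⟩
    simp only [Set.mem_iUnion]
    exact ⟨cL b, h1, pL b, h2, rfl, rfl⟩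
  refine Set.Finite.subset ?_ this
  refine (finite_height N).biUnion fun c _ => ?_
  exact (Set.finite_Iio B).biUnion fun p _ => hfin c p

/-- the quiver series is `ι H` -/
theorem gser_eq (k : I → I → ℕ) {H : (I →₀ ℕ) → PowerSeries ℤ} (hH : HILB H) :
    ABOut.gser k = gser (ABOut.TW k) Iota217.iota H := by
  apply TPS.ext
  funext d
  rw [gser_co]
  change ∏ i, TPS.eco vv 1 0 (d i) = _
  have h1 : ∀ i, TPS.eco vv 1 0 (d i) * Iota217.iota (qf (d i)) =
      (vv : KK) ^ (2 * (d i).choose 2) := by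
    intro i
    have e := Iota217.coeff_EE_two true 0 (d i)
    have e2 := TPS.coeff_EE_eq_eco vv (1 : ZMod 2) (2 * ((0 : ℕ) : ℤ)) (d i)
    have e3 : (decide ((1 : ZMod 2) = 1)) = true := by decide
    rw [e3, e] at e2
    have e4 : (2 * ((0 : ℕ) : ℤ)) = 0 := by norm_num
    rw [e4] at e2
    rw [← e2, ← map_mul]
    simp only [zero_mul, pow_zero, one_mul]
    rw [ee_mul_qf]
    simp only [if_true]
    exact Iota217.iota_X_pow _
  have h2 : Iota217.iota (H d) * ∏ i, Iota217.iota (qf (d i)) =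
      (vv : KK) ^ (2 * ∑ i, (d i).choose 2) := by
    rw [← map_prod, ← map_mul, hH d, Iota217.iota_X_pow]
  have h3 : (∏ i, TPS.eco vv 1 0 (d i)) * ∏ i, Iota217.iota (qf (d i)) =
      (vv : KK) ^ (2 * ∑ i, (d i).choose 2) := by
    rw [← prod_mul_distrib, prod_congr rfl (fun i _ => h1 i), prod_pow_eq_pow_sum, mul_sum]
  have h4 : (∏ i, Iota217.iota (qf (d i))) ≠ 0 := by
    rw [prod_ne_zero_iff]
    intro i _
    rw [Iota217.iota_qf]
    exact Iota217.qpv_ne _
  exact mul_right_cancel₀ h4 (h3.trans h2.symm)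

/-- the `E`-series is 883's letter -/
theorem Eser_eq_letter (k : I → I → ℕ) {c : I →₀ ℕ} (hc : c ≠ 0) (p : ℕ) :
    Eser (kkN k) (ABOut.TW k) Iota217.iota (par k c) p c = ABOut.letter k c p := by
  have hinj : Function.Injective (fun m : ℕ => m • c) := TPS.nsmul_inj hc
  apply TPS.ext
  funext d
  rw [Eser, gser_co, ABOut.letter, TPS.ray]
  by_cases h : ∃ m : ℕ, m • c = d
  · obtain ⟨m, rfl⟩ := h
    rw [rayF_smul _ _ _ (fun m m' h => hinj h)]
    have e1 := hinj.extend_apply (fun m => TPS.eco vv (ABOut.par k c) (2 * p) m *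
      ((vv ^ (ABOut.kk k c c * (m * (m - 1) : ℕ)) : KKˣ) : KK)) (0 : (I →₀ ℕ) → KK) m
    refine Eq.trans ?_ e1.symm
    rw [← TPS.coeff_EE_eq_eco]
    change _ = coeff m (Dilog344.EE vv (par k c) (2 * p)) * _
    rw [Iota217.coeff_EE_two, pow_add, mul_right_comm, map_mul, pow_mul, ← pow_mul]
    congr 1
    rw [Iota217.iota_X_pow, kk_eq]
    have h2 := two_choose m
    have h3 : 2 * m.choose 2 = m * (m - 1) := Iota217.choose_two_two m
    rw [← h3]
    rw [← zpow_natCast (vv : KK)]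
    have : ((vv ^ ((kkN k c c : ℤ) * ((2 * m.choose 2 : ℕ) : ℤ)) : KKˣ) : KK) =
      (vv : KK) ^ ((kkN k c c : ℤ) * ((2 * m.choose 2 : ℕ) : ℤ)) := by
      rw [Units.val_zpow_eq_zpow_val]
    rw [this]
    congr 1
    push_cast
    ring
  · rw [rayF_off _ _ _ h, map_zero]
    exact (Function.extend_apply' (fun m => TPS.eco vv (ABOut.par k c) (2 * p) m *
      ((vv ^ (ABOut.kk k c c * (m * (m - 1) : ℕ)) : KKˣ) : KK)) (0 : (I →₀ ℕ) → KK) d h).symm

/-- **NUM**: the numeric outputs give the closure statement for one `(k, θ)`. -/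
theorem num_closure [DecidableEq I] (k : I → I → ℕ) (θ : I → ℤ)
    (hsym : ∀ d e : I →₀ ℕ, ABOut.th θ d = 0 → ABOut.th θ e = 0 → ABOut.kk k d e = ABOut.kk k e d)
    {H P Q : (I →₀ ℕ) → PowerSeries ℤ} (hH : HILB H) (hA : THA k θ H P Q) (hB : THB k θ Q) :
    TPS.zer (ABOut.th θ) (ABOut.gser k) ∈
      closure (Submonoid.closure (ABOut.Letters k θ) : Set (TPS (ABOut.TW k))) := by
  classical
  obtain ⟨Λ, _, cL, pL, hc, hfin, hcount⟩ := hB
  have hιv : Iota217.iota X = ((ABOut.TW k).v : KK) := by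
    rw [Iota217.iota_X]
    change _ = ((vv ^ 2 : KKˣ) : KK)
    rw [Units.val_pow_eq_pow_val]
  -- factorisation
  have hfac : gser (ABOut.TW k) Iota217.iota P * gser (ABOut.TW k) Iota217.iota Q =
      ABOut.gser k := by
    rw [gser_mul (isForm_TW k) hιv, gser_eq k hH]
    congr 1
    funext d
    exact (hA.eq d).symm
  have hPin : TPS.In1 (fun d => 0 < ABOut.th θ d) (gser (ABOut.TW k) Iota217.iota P) := by
    refine ⟨by rw [gser_co, hA.P0, map_one], fun d hd hn => ?_⟩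
    rw [gser_co]
    by_cases h : P d = 0
    · rw [h, map_zero]
    · exact absurd ((hA.hP d h).resolve_left hd) hn
  have hQin : TPS.In1 (fun d => ABOut.th θ d ≤ 0) (gser (ABOut.TW k) Iota217.iota Q) := by
    refine ⟨by rw [gser_co, hA.Q0, map_one], fun d hd hn => ?_⟩
    rw [gser_co]
    by_cases h : Q d = 0
    · rw [h, map_zero]
    · exact absurd (hA.hQ d h) hn
  have hnpos : TPS.npos (ABOut.th θ) (ABOut.gser k) = gser (ABOut.TW k) Iota217.iota Q := by
    rw [← hfac]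
    exact (TPS.pos_npos_unique (ABOut.th θ) hPin hQin).2
  have hzer : ∀ d, ABOut.th θ d = 0 →
      (TPS.zer (ABOut.th θ) (ABOut.gser k)).co d = Iota217.iota (Q d) := by
    intro d hd
    rw [← gser_co (ABOut.TW k) Iota217.iota Q d, ← hnpos,
      ← TPS.zer_mul_neg (ABOut.th θ) (ABOut.gser k), TPS.co_mul, Finset.sum_eq_single (d, 0)]
    · rw [TPS.wt_zero_right, TPS.neg_co_zero, mul_one, one_mul]
    · rintro ⟨a, b⟩ hab hne
      rw [HasAntidiagonal.mem_antidiagonal] at hab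
      simp only at hab
      by_cases hb : b = 0
      · subst hb
        rw [add_zero] at hab
        exact absurd (by rw [hab]) hne
      · by_cases ha : ABOut.th θ a = 0
        · have h2 : ABOut.th θ b = 0 := by
            have := congrArg (ABOut.th θ) hab
            rw [map_add, ha, zero_add, hd] at this
            exact this
          rw [(TPS.in1_neg (ABOut.th θ) (ABOut.gser k)).supp b hb (by rw [h2]; exact lt_irrefl 0)]
          simp
        · by_cases ha0 : a = 0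
          · subst ha0; exact absurd (map_zero _) ha
          · rw [(TPS.in1_zer (ABOut.th θ) (ABOut.gser k)).supp a ha0 ha]
            simp
    · intro h
      exact absurd (by rw [HasAntidiagonal.mem_antidiagonal]; simp) h
  -- closure
  rw [mem_closure_iff_coeff]
  intro S n
  set Z : AddSubmonoid (I →₀ ℕ) := AddMonoidHom.mker (ABOut.th θ) with hZ
  have hmemZ : ∀ d, d ∈ Z ↔ ABOut.th θ d = 0 := fun d => by rw [hZ, AddMonoidHom.mem_mker]
  have hcZ : ∀ b, cL b ∈ Z := fun b => (hmemZ _).2 (hc b).2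
  have hsymZ : ∀ d ∈ Z, ∀ e ∈ Z, kkN k d e = kkN k e d := by
    intro d hd e he
    have := hsym d e ((hmemZ d).1 hd) ((hmemZ e).1 he)
    rw [kk_eq, kk_eq] at this
    exact_mod_cast this
  have hc0 : ∀ b, ∀ m m' : ℕ, m • cL b = m' • cL b → m = m' :=
    fun b m m' h => TPS.nsmul_inj (hc b).1 h
  have hQc : ∀ d ∈ Z, ∀ n, coeff n (Q d) =
      ((fib (kkN k) cL pL (PhiAll (fun b => par k (cL b))) d n).ncard : ℤ) := by
    intro d hd n
    rw [hcount d ((hmemZ d).1 hd) n]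
    congr 2
    ext s
    simp only [SM, fib, PhiAll, OddOk, Rel, cls, sA, sC, Set.mem_ofPred_eq]
    constructor
    · rintro ⟨h1, h2, h3⟩
      exact ⟨h1, h2, by rw [h2]; exact h3⟩
    · rintro ⟨h1, h2, h3⟩
      exact ⟨h1, h2, by rw [h2] at h3; exact h3⟩
  obtain ⟨l, hlnd, hl⟩ := num_trunc (κ := kkN k) (T := ABOut.TW k) (ι := Iota217.iota)
    (oL := fun b => par k (cL b)) (pL := pL) (isForm_TW k) hιv
    Finsupp.degree hcZ hsymZ hc0 (finite_letters hfin) hQc
    (S.sup Finsupp.degree) n.toNat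
  refine ⟨(l.map fun b => Eser (kkN k) (ABOut.TW k) Iota217.iota (par k (cL b)) (pL b)
    (cL b)).prod, ?_, ?_⟩
  · apply Submonoid.list_prod_mem
    intro x hx
    rw [List.mem_map] at hx
    obtain ⟨b, _, rfl⟩ := hx
    apply Submonoid.subset_closure
    exact ⟨cL b, pL b, (hc b).1, (hc b).2, Eser_eq_letter k (hc b).1 _⟩
  · intro d hdS j hj
    by_cases hd : ABOut.th θ d = 0
    · obtain ⟨r, hr⟩ := hl d ((hmemZ d).2 hd) (Finset.le_sup (f := Finsupp.degree) hdS)
      rw [hzer d hd]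
      have h1 : HahnSeries.coeff (Iota217.iota (X ^ n.toNat * r)) j = 0 := by
        apply Iota217.coeff_iota_X_pow_mul
        omega
      rw [← hr] at h1
      rw [HahnSeries.coeff_sub, sub_eq_zero] at h1
      exact h1.symm
    · have h1 := prod_off (κ := kkN k) (T := ABOut.TW k) (ι := Iota217.iota)
        (oL := fun b => par k (cL b)) (pL := pL) (isForm_TW k) hιv hcZ hsymZ hc0 l hlnd
        (d := d) (fun h => hd ((hmemZ d).1 h))
      rw [h1]
      have hd0 : d ≠ 0 := by rintro rfl; exact hd (map_zero _)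
      rw [(TPS.in1_zer (ABOut.th θ) (ABOut.gser k)).supp d hd0 hd]

/-- **NUM**: numeric Theorems A + B + HILB give `ABOut`. -/
theorem abOut_of
    (h : ∀ (I : Type) [Fintype I] [DecidableEq I] (k : I → I → ℕ) (θ : I → ℤ),
      (∀ d e : I →₀ ℕ, ABOut.th θ d = 0 → ABOut.th θ e = 0 →
        ABOut.kk k d e = ABOut.kk k e d) →
      ∃ H P Q : (I →₀ ℕ) → PowerSeries ℤ, HILB H ∧ THA k θ H P Q ∧ THB k θ Q) : ABOut := by
  intro I _ _ k θ hsym
  obtain ⟨H, P, Q, hH, hA, hB⟩ := h I k θ hsym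
  exact num_closure k θ hsym hH hA hB

end bind

end Crest.Agent.R059.Num469
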