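import Crest.Agent.R059.NumGen_469

set_option autoImplicit false

/-!
Row 59 (S0081), leaf NUM, part 3: one letter type gives a ray series; a finite list of letter types
gives the product of the ray series.
-/

namespace Crest.Agent.R059.Num469

open Finset PowerSeries HasAntidiagonal

section ray

variable {M : Type*} [AddCommMonoid M] (κ : M →+ M →+ ℕ)

open Classical in
/-- coefficients of the ray series `∑_m e_o(m) (q^p y^c)^m` -/
noncomputable def rayF (o : Bool) (p : ℕ) (c d : M) : PowerSeries ℤ :=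
  if h : ∃ m : ℕ, m • c = d then
    X ^ (p * h.choose + κ c c * h.choose.choose 2) * ee o h.choose else 0

theorem rayF_smul (o : Bool) (p : ℕ) {c : M} (hc : ∀ m m' : ℕ, m • c = m' • c → m = m') (m : ℕ) :
    rayF κ o p c (m • c) = X ^ (p * m + κ c c * m.choose 2) * ee o m := by
  have h : ∃ m' : ℕ, m' • c = m • c := ⟨m, rfl⟩
  have h' : h.choose = m := hc _ _ h.choose_spec
  rw [rayF, dif_pos h, h']

theorem rayF_off (o : Bool) (p : ℕ) {c d : M} (h : ¬ ∃ m : ℕ, m • c = d) :
    rayF κ o p c d = 0 := by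
  rw [rayF, dif_neg h]

end ray

section letters

variable {M : Type*} [AddCommMonoid M] (κ : M →+ M →+ ℕ)
variable {Λ : Type*} [DecidableEq Λ] (cL : Λ → M) (pL : Λ → ℕ) (oL : Λ → Bool)

/-- no letter of an odd type is repeated -/
def OddOk (s : Multiset (Λ × ℕ)) : Prop := ∀ ℓ, oL ℓ.1 = true → s.count ℓ ≤ 1

/-- multisets of letters of the types in `l` -/
def Phi (l : List Λ) : Set (Multiset (Λ × ℕ)) := {s | (∀ ℓ ∈ s, ℓ.1 ∈ l) ∧ OddOk oL s}

/-- multisets of letters of type `b` -/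
def Phi1 (b : Λ) : Set (Multiset (Λ × ℕ)) := {s | (∀ ℓ ∈ s, ℓ.1 = b) ∧ OddOk oL s}

theorem isSum_cons {b : Λ} {l : List Λ} (hb : b ∉ l) :
    IsSum (Phi1 oL b) (Phi oL l) (Phi oL (b :: l)) := by
  classical
  refine ⟨fun s => ⟨fun hs => ?_, ?_⟩, ?_⟩
  · refine ⟨s.filter (fun ℓ => ℓ.1 = b), ⟨fun ℓ hℓ => (Multiset.mem_filter.1 hℓ).2, fun ℓ hℓ => ?_⟩,
      s.filter (fun ℓ => ¬ ℓ.1 = b), ⟨fun ℓ hℓ => ?_, fun ℓ hℓ => ?_⟩,
      Multiset.filter_add_not _ s⟩
    · exact (Multiset.count_le_of_le _ (Multiset.filter_le _ _)).trans (hs.2 ℓ hℓ)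
    · rw [Multiset.mem_filter] at hℓ
      have := hs.1 ℓ hℓ.1
      rw [List.mem_cons] at this
      exact this.resolve_left hℓ.2
    · exact (Multiset.count_le_of_le _ (Multiset.filter_le _ _)).trans (hs.2 ℓ hℓ)
  · rintro ⟨s₁, h₁, s₂, h₂, rfl⟩
    refine ⟨fun ℓ hℓ => ?_, fun ℓ hℓ => ?_⟩
    · rw [Multiset.mem_add] at hℓ
      rw [List.mem_cons]
      exact hℓ.imp (h₁.1 ℓ) (h₂.1 ℓ)
    · rw [Multiset.count_add]
      by_cases hm : ℓ ∈ s₁
      · have e := h₁.1 ℓ hm
        have : ℓ ∉ s₂ := fun h => hb (e ▸ h₂.1 ℓ h)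
        rw [Multiset.count_eq_zero_of_notMem this, add_zero]
        exact h₁.2 ℓ hℓ
      · rw [Multiset.count_eq_zero_of_notMem hm, zero_add]
        exact h₂.2 ℓ hℓ
  · intro s₁ h₁ s₂ h₂ t₁ k₁ t₂ k₂ h
    have key : ∀ u₁ ∈ Phi1 oL b, ∀ u₂ ∈ Phi oL l,
        (u₁ + u₂).filter (fun ℓ => ℓ.1 = b) = u₁ ∧ (u₁ + u₂).filter (fun ℓ => ¬ ℓ.1 = b) = u₂ := by
      intro u₁ hu₁ u₂ hu₂
      rw [Multiset.filter_add, Multiset.filter_add]
      constructor
      · rw [Multiset.filter_eq_self.2 hu₁.1, Multiset.filter_eq_nil.2, add_zero]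
        intro ℓ hℓ he
        exact hb (he ▸ hu₂.1 ℓ hℓ)
      · rw [Multiset.filter_eq_nil.2, zero_add, Multiset.filter_eq_self.2]
        · intro ℓ hℓ he
          exact hb (he ▸ hu₂.1 ℓ hℓ)
        · intro ℓ hℓ he
          exact he (hu₁.1 ℓ hℓ)
    have a := key s₁ h₁ s₂ h₂
    have b' := key t₁ k₁ t₂ k₂
    rw [h] at a
    exact ⟨a.1.symm.trans b'.1, a.2.symm.trans b'.2⟩

/-! ### one letter type -/

/-- the multiset of letters of type `b` with given values -/
def emb (b : Λ) (t : Multiset ℕ) : Multiset (Λ × ℕ) := t.map fun a => (b, a)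

omit [DecidableEq Λ] in
theorem emb_injective (b : Λ) : Function.Injective (emb b) :=
  Multiset.map_injective (fun a a' h => by simpa using h)

omit [DecidableEq Λ] in
theorem cls_emb (b : Λ) (t : Multiset ℕ) : cls cL (emb b t) = Multiset.card t • cL b := by
  simp [cls, emb, Multiset.map_map]

omit [DecidableEq Λ] in
theorem sA_emb (b : Λ) (t : Multiset ℕ) :
    sA pL (emb b t) = Multiset.card t * pL b + t.sum := by
  unfold sA emb
  rw [Multiset.map_map]
  simp only [Function.comp_def]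
  rw [Multiset.sum_map_add]
  simp

omit [DecidableEq Λ] in
theorem sC_emb (b : Λ) (t : Multiset ℕ) :
    sC κ cL (emb b t) = Multiset.card t * κ (cL b) (cL b) := by
  simp [sC, emb, Multiset.map_map]

theorem two_choose (m : ℕ) : 2 * m.choose 2 + m = m * m := by
  induction m with
  | zero => rfl
  | succ m ih =>
    rw [Nat.choose_succ_succ' m 1, Nat.choose_one_right]
    ring_nf
    ring_nf at ih
    omega

omit [DecidableEq Λ] in
theorem rel_emb (b : Λ) (t : Multiset ℕ) (n : ℕ) :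
    Rel κ cL pL (emb b t) n ↔
      n = (pL b * Multiset.card t + κ (cL b) (cL b) * (Multiset.card t).choose 2) + t.sum := by
  unfold Rel
  rw [cls_emb, sA_emb, sC_emb]
  simp only [map_nsmul, AddMonoidHom.smul_apply, smul_eq_mul]
  have h := two_choose (Multiset.card t)
  set m := Multiset.card t
  set k := κ (cL b) (cL b)
  have h2 : m * (m * k) = 2 * (k * m.choose 2) + m * k := by
    rw [← mul_assoc, ← h]; ring
  rw [h2]
  constructor
  · intro h3
    have : m * pL b = pL b * m := mul_comm _ _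
    omega
  · intro h3
    have : m * pL b = pL b * m := mul_comm _ _
    omega

theorem mem_Phi1_iff (b : Λ) (s : Multiset (Λ × ℕ)) :
    s ∈ Phi1 oL b ↔ ∃ t : Multiset ℕ, (oL b = true → t.Nodup) ∧ emb b t = s := by
  constructor
  · rintro ⟨h1, h2⟩
    have e : emb b (s.map Prod.snd) = s := by
      unfold emb
      rw [Multiset.map_map]
      conv_rhs => rw [← Multiset.map_id s]
      apply Multiset.map_congr rfl
      rintro ⟨x, a⟩ hℓ
      have := h1 _ hℓ
      simp only at this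
      simp [this]
    refine ⟨s.map Prod.snd, fun ho => ?_, e⟩
    rw [Multiset.nodup_iff_count_le_one]
    intro a
    have := h2 (b, a) ho
    rw [← e] at this
    unfold emb at this
    rwa [Multiset.count_map_eq_count' _ _ (fun a a' h => by simpa using h)] at this
  · rintro ⟨t, ht, rfl⟩
    refine ⟨fun ℓ hℓ => ?_, fun ℓ hℓ => ?_⟩
    · unfold emb at hℓ
      rw [Multiset.mem_map] at hℓ
      obtain ⟨a, _, rfl⟩ := hℓ
      rfl
    · by_cases hm : ℓ ∈ emb b t
      · unfold emb at hm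
        rw [Multiset.mem_map] at hm
        obtain ⟨a, _, rfl⟩ := hm
        unfold emb
        rw [Multiset.count_map_eq_count' _ _ (fun a a' h => by simpa using h)]
        exact Multiset.nodup_iff_count_le_one.1 (ht hℓ) a
      · rw [Multiset.count_eq_zero_of_notMem hm]; exact Nat.zero_le _

variable (hc0 : ∀ b, ∀ m m' : ℕ, m • cL b = m' • cL b → m = m')

include hc0 in
theorem fib_Phi1 (b : Λ) (m n : ℕ) :
    fib κ cL pL (Phi1 oL b) (m • cL b) n =
      if pL b * m + κ (cL b) (cL b) * m.choose 2 ≤ n then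
        emb b '' MS (oL b) m (n - (pL b * m + κ (cL b) (cL b) * m.choose 2)) else ∅ := by
  ext s
  constructor
  · rintro ⟨hs, hd, hn⟩
    obtain ⟨t, ht, rfl⟩ := (mem_Phi1_iff oL b s).1 hs
    rw [cls_emb] at hd
    have hm := hc0 b _ _ hd
    rw [rel_emb, hm] at hn
    rw [if_pos (by omega)]
    exact ⟨t, ⟨ht, hm, by omega⟩, rfl⟩
  · intro h
    split_ifs at h with hle
    · obtain ⟨t, ⟨ht, hm, hsum⟩, rfl⟩ := h
      refine ⟨(mem_Phi1_iff oL b _).2 ⟨t, ht, rfl⟩, by rw [cls_emb, hm], ?_⟩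
      rw [rel_emb, hm, hsum]
      omega
    · exact absurd h (Set.notMem_empty _)

theorem fib_Phi1_off (b : Λ) {d : M} (hd : ¬ ∃ m : ℕ, m • cL b = d) (n : ℕ) :
    fib κ cL pL (Phi1 oL b) d n = ∅ := by
  rw [Set.eq_empty_iff_forall_notMem]
  rintro s ⟨hs, hd', _⟩
  obtain ⟨t, ht, rfl⟩ := (mem_Phi1_iff oL b s).1 hs
  rw [cls_emb] at hd'
  exact hd ⟨_, hd'⟩

include hc0 in
theorem fib_Phi1_finite (b : Λ) (d : M) (n : ℕ) : (fib κ cL pL (Phi1 oL b) d n).Finite := by
  by_cases h : ∃ m : ℕ, m • cL b = d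
  · obtain ⟨m, rfl⟩ := h
    rw [fib_Phi1 κ cL pL oL hc0]
    split_ifs
    · exact (ms_finite _ _ _).image _
    · exact Set.finite_empty
  · rw [fib_Phi1_off κ cL pL oL b h]
    exact Set.finite_empty

include hc0 in
theorem cser_Phi1 (b : Λ) (d : M) :
    cser κ cL pL (Phi1 oL b) d = rayF κ (oL b) (pL b) (cL b) d := by
  by_cases h : ∃ m : ℕ, m • cL b = d
  · obtain ⟨m, rfl⟩ := h
    rw [rayF_smul κ _ _ (hc0 b)]
    ext n
    rw [cser, coeff_mk, fib_Phi1 κ cL pL oL hc0, coeff_X_pow_mul']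
    split_ifs
    · rw [Set.ncard_image_of_injective _ (emb_injective b), ms_ncard]
    · simp
  · rw [rayF_off κ _ _ h]
    ext n
    rw [cser, coeff_mk, fib_Phi1_off κ cL pL oL b h]
    simp

/-! ### lists of letter types -/

theorem fib_nil (d : M) (n : ℕ) [Decidable (d = 0 ∧ n = 0)] :
    fib κ cL pL (Phi oL []) d n = if d = 0 ∧ n = 0 then {0} else ∅ := by
  ext s
  constructor
  · rintro ⟨hs, hd, hn⟩
    have h0 : s = 0 := by
      rw [Multiset.eq_zero_iff_forall_notMem]
      intro ℓ hℓ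
      exact absurd (hs.1 ℓ hℓ) (by simp)
    subst h0
    have e : cls cL (0 : Multiset (Λ × ℕ)) = 0 := by simp [cls]
    unfold Rel at hn
    rw [e] at hd hn
    simp [sA, sC] at hn
    simp [← hd, hn]
  · intro h
    split_ifs at h with h0
    · rw [Set.mem_singleton_iff] at h
      subst h
      obtain ⟨rfl, rfl⟩ := h0
      refine ⟨⟨by simp, fun ℓ _ => by simp⟩, by simp [cls], ?_⟩
      unfold Rel
      simp [sA, sC, cls]
    · exact absurd h (Set.notMem_empty _)

variable {K : Type*} [CommRing K] {T : Tw M K} {ι : PowerSeries ℤ →+* K} [HasAntidiagonal M]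

include hc0 in
theorem fib_Phi_finite (Z : AddSubmonoid M) (hc : ∀ b, cL b ∈ Z)
    (hsym : ∀ d ∈ Z, ∀ e ∈ Z, κ d e = κ e d) (l : List Λ) (hl : l.Nodup) (d : M) (n : ℕ) :
    (fib κ cL pL (Phi oL l) d n).Finite := by
  classical
  induction l generalizing d n with
  | nil => rw [fib_nil]; split_ifs <;> simp
  | cons b l ih =>
    rw [List.nodup_cons] at hl
    exact (fib_sum hc hsym (isSum_cons oL hl.1) (fib_Phi1_finite κ cL pL oL hc0 b)
      (ih hl.2) d n).1

include hc0 in
/-- **the counting series of multisets of letters is the product of the ray series.** -/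
theorem gser_cser (hT : IsForm T κ) (hι : ι X = T.v) (Z : AddSubmonoid M) (hc : ∀ b, cL b ∈ Z)
    (hsym : ∀ d ∈ Z, ∀ e ∈ Z, κ d e = κ e d) (l : List Λ) (hl : l.Nodup) :
    gser T ι (cser κ cL pL (Phi oL l)) =
      (l.map fun b => gser T ι (rayF κ (oL b) (pL b) (cL b))).prod := by
  classical
  induction l with
  | nil =>
    rw [List.map_nil, List.prod_nil]
    ext d
    rw [gser_co, TPS.co_one]
    have : cser κ cL pL (Phi oL []) d = if d = 0 then 1 else 0 := by
      ext n
      rw [cser, coeff_mk, fib_nil]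
      by_cases hd : d = 0
      · by_cases hn : n = 0
        · simp [hd, hn]
        · simp [hd, hn, coeff_one]
      · simp [hd]
    rw [this]
    split_ifs <;> simp
  | cons b l ih =>
    rw [List.nodup_cons] at hl
    rw [List.map_cons, List.prod_cons, ← ih hl.2, gser_mul hT hι]
    congr 1
    ext d
    rw [cser_sum hc hsym (isSum_cons oL hl.1) (fib_Phi1_finite κ cL pL oL hc0 b)
      (fib_Phi_finite κ cL pL oL hc0 Z hc hsym l hl.2)]
    simp only [cser_Phi1 κ cL pL oL hc0]

end letters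

end Crest.Agent.R059.Num469
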