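import Mathlib

/-!
# Sign-symmetric functions on words (row 59, Theorem B, HALF 2, leaf (d))

Letters `Lt` with a linear order, exchange signs `ε : Lt → Lt → K` (`ε a b = ε b a`, `ε a b * ε a b = 1`).
`Sym ε c` : `c : (Fin s → Lt) → K` satisfies `c (w ∘ swap j (j+1)) = ε (w j) (w (j+1)) * c w`.

* `Sym.eq_zero_of_repeat` (d1): `c w = 0` if a letter `l` with `ε l l ≠ 1` occurs twice in `w`;
* `Sym.ext_sorted` (d1): `c` is determined by its values at monotone words;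
* `cphi`, `existsUnique_cphi` (d2): for `φ` of degree `s` with `φ ≤ 1` on odd letters there is exactly one
  `Sym` function supported on the words of content `φ` with value `1` at the monotone words of content `φ`;
* `symEquiv`, `finrank_symSub` (d3): the space of `Sym` functions supported on words with `Q (cont w)` is
  `{φ // Q φ ∧ deg φ = s ∧ φ ≤ 1 on odd letters} → K`.
-/

set_option autoImplicit false

namespace Crest.Agent.R059.Orb152

open Finset

section basics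

variable {Lt : Type*} {s : ℕ}

/-- the adjacent transposition `(j, j+1)` of `Fin s` -/
def adj (j : ℕ) (h : j + 1 < s) : Equiv.Perm (Fin s) :=
  Equiv.swap ⟨j, Nat.lt_of_succ_lt h⟩ ⟨j + 1, h⟩

/-- content of a word -/
noncomputable def cont (w : Fin s → Lt) : Lt →₀ ℕ := ∑ i, Finsupp.single (w i) 1

theorem cont_comp (w : Fin s → Lt) (σ : Equiv.Perm (Fin s)) : cont (w ∘ σ) = cont w := by
  unfold cont
  exact Equiv.sum_comp σ fun i => Finsupp.single (w i) 1

theorem cont_apply [DecidableEq Lt] (w : Fin s → Lt) (l : Lt) :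
    cont w l = (univ.filter fun i => w i = l).card := by
  unfold cont
  rw [Finsupp.finsetSum_apply, Finset.card_filter]
  exact Finset.sum_congr rfl fun i _ => by rw [Finsupp.single_apply]

theorem cont_sum {M : Type*} [AddCommMonoid M] (w : Fin s → Lt) (f : Lt → M) :
    ((cont w).sum fun l k => k • f l) = ∑ i, f (w i) := by
  have h := Finsupp.sum_finsetSum_index (s := (univ : Finset (Fin s)))
    (g := fun i => Finsupp.single (w i) (1 : ℕ)) (h := fun l k => k • f l)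
    (fun l => zero_smul _ _) (fun l a b => add_smul _ _ _)
  unfold cont
  rw [← h]
  exact Finset.sum_congr rfl fun i _ => by
    rw [Finsupp.sum_single_index (h := fun l k => k • f l) (zero_smul _ _), one_smul]

theorem cont_deg (w : Fin s → Lt) : ((cont w).sum fun _ k => k) = s := by
  have h := cont_sum w fun _ => (1 : ℕ)
  simpa using h

theorem toMultiset_cont (w : Fin s → Lt) :
    Finsupp.toMultiset (cont w) = (List.ofFn w : Multiset Lt) := by
  unfold cont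
  rw [map_sum]
  simp only [Finsupp.toMultiset_single, one_smul]
  rw [Finset.sum_eq_multiset_sum, ← Fin.univ_val_map]
  have : (fun x => ({w x} : Multiset Lt)) = (fun a => ({a} : Multiset Lt)) ∘ w := rfl
  rw [this, ← Multiset.map_map, Multiset.sum_map_singleton]

theorem exists_word (φ : Lt →₀ ℕ) (h : (φ.sum fun _ k => k) = s) : ∃ w : Fin s → Lt, cont w = φ := by
  classical
  obtain ⟨L, hL⟩ : ∃ L : List Lt, (L : Multiset Lt) = Finsupp.toMultiset φ := ⟨_, Multiset.coe_toList _⟩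
  have hlen : L.length = s := by
    rw [← Multiset.coe_card, hL, Finsupp.card_toMultiset]
    exact h
  subst hlen
  refine ⟨fun i => L.get i, ?_⟩
  apply (Multiset.toFinsupp (α := Lt)).symm.injective
  change Finsupp.toMultiset _ = Finsupp.toMultiset _
  rw [toMultiset_cont, ← hL]
  simp

theorem eq_of_cont_eq [LinearOrder Lt] {w w' : Fin s → Lt} (hw : Monotone w) (hw' : Monotone w')
    (h : cont w = cont w') : w = w' := by
  have h1 : (List.ofFn w).Perm (List.ofFn w') := by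
    rw [← Multiset.coe_eq_coe, ← toMultiset_cont, ← toMultiset_cont, h]
  have h2 := List.Perm.eq_of_sortedLE (List.sortedLE_ofFn_iff.2 hw) (List.sortedLE_ofFn_iff.2 hw') h1
  exact List.ofFn_injective h2

theorem exists_mono_word [LinearOrder Lt] (φ : Lt →₀ ℕ) (h : (φ.sum fun _ k => k) = s) :
    ∃ w : Fin s → Lt, Monotone w ∧ cont w = φ := by
  obtain ⟨w, hw⟩ := exists_word φ h
  exact ⟨w ∘ Tuple.sort w, Tuple.monotone_sort w, by rw [cont_comp, hw]⟩

theorem exists_ne_of_one_lt_cont {w : Fin s → Lt} {l : Lt} (h : 1 < cont w l) :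
    ∃ i j : Fin s, i < j ∧ w i = l ∧ w j = l := by
  classical
  rw [cont_apply, Finset.one_lt_card] at h
  obtain ⟨a, ha, b, hb, hab⟩ := h
  rw [mem_filter] at ha hb
  rcases lt_or_gt_of_ne hab with h1 | h1
  · exact ⟨a, b, h1, ha.2, hb.2⟩
  · exact ⟨b, a, h1, hb.2, ha.2⟩

theorem one_lt_cont {w : Fin s → Lt} {i j : Fin s} (hij : i ≠ j) (h : w i = w j) :
    1 < cont w (w i) := by
  classical
  rw [cont_apply, Finset.one_lt_card]
  exact ⟨i, by simp, j, by simp [h], hij⟩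

end basics

section sym

variable {Lt : Type*} {s : ℕ} {K : Type*} [Field K]

/-- sign-symmetric function on words of length `s` -/
def Sym (ε : Lt → Lt → K) (c : (Fin s → Lt) → K) : Prop :=
  ∀ (j : ℕ) (h : j + 1 < s) (w : Fin s → Lt),
    c (w ∘ adj j h) = ε (w ⟨j, Nat.lt_of_succ_lt h⟩) (w ⟨j + 1, h⟩) * c w

theorem closure_adj (s : ℕ) :
    Submonoid.closure {σ : Equiv.Perm (Fin s) | ∃ (j : ℕ) (h : j + 1 < s), σ = adj j h} = ⊤ := by
  rcases s with _ | n
  · exact Subsingleton.elim _ _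
  · rw [eq_top_iff, ← Equiv.Perm.mclosure_swap_castSucc_succ n]
    refine Submonoid.closure_mono ?_
    rintro _ ⟨i, rfl⟩
    exact ⟨i.1, Nat.succ_lt_succ i.2, rfl⟩

/-- the sign picked up under a permutation depends on the word only, not on the function -/
theorem exists_unit {ε : Lt → Lt → K} (hsq : ∀ a b, ε a b * ε a b = 1) (σ : Equiv.Perm (Fin s)) :
    ∀ w : Fin s → Lt, ∃ u : K, u * u = 1 ∧ ∀ c : (Fin s → Lt) → K, Sym ε c → c (w ∘ σ) = u * c w := by
  have hσ : σ ∈ Submonoid.closure {σ : Equiv.Perm (Fin s) | ∃ (j : ℕ) (h : j + 1 < s), σ = adj j h} := by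
    rw [closure_adj]; trivial
  induction hσ using Submonoid.closure_induction with
  | mem τ hτ =>
    obtain ⟨j, h, rfl⟩ := hτ
    exact fun w => ⟨_, hsq _ _, fun c hc => hc j h w⟩
  | one => exact fun w => ⟨1, by ring, fun c _ => by simp⟩
  | mul a b _ _ ha hb =>
    intro w
    obtain ⟨u, hu, h1⟩ := ha w
    obtain ⟨v, hv, h2⟩ := hb (w ∘ a)
    refine ⟨v * u, by linear_combination (v * v) * hu + hv, fun c hc => ?_⟩
    have e : w ∘ (a * b : Equiv.Perm (Fin s)) = (w ∘ a) ∘ b := rfl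
    rw [e, h2 c hc, h1 c hc, mul_assoc]

namespace Sym

variable {ε : Lt → Lt → K} {c c' : (Fin s → Lt) → K}

theorem comp_eq_zero_iff (hsq : ∀ a b, ε a b * ε a b = 1) (hc : Sym ε c) (w : Fin s → Lt)
    (σ : Equiv.Perm (Fin s)) : c (w ∘ σ) = 0 ↔ c w = 0 := by
  obtain ⟨u, hu, h⟩ := exists_unit hsq σ w
  rw [h c hc, mul_eq_zero, or_iff_right]
  rintro rfl
  simp at hu

theorem zero : Sym ε (0 : (Fin s → Lt) → K) := fun j h w => by simp

theorem add (hc : Sym ε c) (hc' : Sym ε c') : Sym ε (c + c') := fun j h w => by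
  rw [Pi.add_apply, hc, hc', Pi.add_apply, mul_add]

theorem smul (a : K) (hc : Sym ε c) : Sym ε (a • c) := fun j h w => by
  rw [Pi.smul_apply, hc, Pi.smul_apply, smul_eq_mul, smul_eq_mul, mul_left_comm]

theorem sub (hc : Sym ε c) (hc' : Sym ε c') : Sym ε (c - c') := fun j h w => by
  rw [Pi.sub_apply, hc, hc', Pi.sub_apply, mul_sub]

/-- (d1) `c` vanishes at words with a repeated odd letter -/
theorem eq_zero_of_repeat [LinearOrder Lt] (hsq : ∀ a b, ε a b * ε a b = 1) (hc : Sym ε c)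
    {w : Fin s → Lt} {l : Lt} (hl : ε l l ≠ 1) (h : 1 < cont w l) : c w = 0 := by
  rw [← comp_eq_zero_iff hsq hc w (Tuple.sort w)]
  have hm := Tuple.monotone_sort w
  rw [← cont_comp w (Tuple.sort w)] at h
  generalize w ∘ Tuple.sort w = v at hm h
  obtain ⟨i, j, hij, hi, hj⟩ := exists_ne_of_one_lt_cont h
  have hlt : i.1 + 1 < s := lt_of_le_of_lt (Nat.succ_le_of_lt hij) j.2
  have h1 : v ⟨i.1 + 1, hlt⟩ = l := by
    refine le_antisymm ?_ ?_
    · rw [← hj]; exact hm (Fin.le_def.2 (Nat.succ_le_of_lt hij))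
    · rw [← hi]; exact hm (Fin.le_def.2 (Nat.le_succ _))
  have h2 : v ⟨i.1, Nat.lt_of_succ_lt hlt⟩ = l := hi
  have h3 := hc i.1 hlt v
  have h4 : v ∘ adj i.1 hlt = v := by
    funext x
    simp only [Function.comp_apply, adj, Equiv.swap_apply_def]
    split_ifs with e1 e2
    · rw [e1, h1, h2]
    · rw [e2, h1, h2]
    · rfl
  rw [h4, h1, h2] at h3
  have h5 : (1 - ε l l) * c v = 0 := by linear_combination h3
  rcases mul_eq_zero.1 h5 with h6 | h6
  · exact absurd (sub_eq_zero.1 h6).symm hl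
  · exact h6

theorem eq_zero_of_sorted [LinearOrder Lt] (hsq : ∀ a b, ε a b * ε a b = 1) (hc : Sym ε c)
    (h : ∀ w, Monotone w → c w = 0) : c = 0 := by
  funext w
  exact (comp_eq_zero_iff hsq hc w (Tuple.sort w)).1 (h _ (Tuple.monotone_sort w))

/-- (d1) `c` is determined by its values at monotone words -/
theorem ext_sorted [LinearOrder Lt] (hsq : ∀ a b, ε a b * ε a b = 1) (hc : Sym ε c) (hc' : Sym ε c')
    (h : ∀ w, Monotone w → c w = c' w) : c = c' := by
  rw [← sub_eq_zero]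
  exact eq_zero_of_sorted hsq (hc.sub hc') fun w hw => by rw [Pi.sub_apply, h w hw, sub_self]

end Sym

section inv

variable [LinearOrder Lt]

/-- the sign of the sorting of `w` -/
def isg (ε : Lt → Lt → K) (w : Fin s → Lt) : K :=
  ∏ p ∈ (univ : Finset (Fin s × Fin s)).filter (fun p => p.1 < p.2),
    if w p.2 < w p.1 then ε (w p.1) (w p.2) else 1

theorem isg_mono (ε : Lt → Lt → K) {w : Fin s → Lt} (hw : Monotone w) : isg ε w = 1 := by
  unfold isg
  refine Finset.prod_eq_one fun p hp => ?_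
  rw [if_neg]
  exact not_lt.2 (hw (mem_filter.1 hp).2.le)

theorem isg_sq {ε : Lt → Lt → K} (hsq : ∀ a b, ε a b * ε a b = 1) (w : Fin s → Lt) :
    isg ε w * isg ε w = 1 := by
  unfold isg
  rw [← Finset.prod_mul_distrib]
  refine Finset.prod_eq_one fun p _ => ?_
  split_ifs
  · exact hsq _ _
  · ring

theorem adj_lt {j : ℕ} (h : j + 1 < s) {a b : Fin s} (hab : a < b)
    (hne : ¬ (a = ⟨j, Nat.lt_of_succ_lt h⟩ ∧ b = ⟨j + 1, h⟩)) : adj j h a < adj j h b := by
  unfold adj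
  rw [Equiv.swap_apply_def, Equiv.swap_apply_def]
  simp only [Fin.ext_iff, Fin.lt_def] at *
  split_ifs <;> simp_all <;> omega

theorem isg_adj {ε : Lt → Lt → K} (hsymm : ∀ a b, ε a b = ε b a) (hsq : ∀ a b, ε a b * ε a b = 1)
    (j : ℕ) (h : j + 1 < s) (w : Fin s → Lt)
    (hw : w ⟨j, Nat.lt_of_succ_lt h⟩ = w ⟨j + 1, h⟩ →
      ε (w ⟨j, Nat.lt_of_succ_lt h⟩) (w ⟨j + 1, h⟩) = 1) :
    isg ε (w ∘ adj j h) = ε (w ⟨j, Nat.lt_of_succ_lt h⟩) (w ⟨j + 1, h⟩) * isg ε w := by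
  set a0 : Fin s := ⟨j, Nat.lt_of_succ_lt h⟩ with ha0
  set b0 : Fin s := ⟨j + 1, h⟩ with hb0
  have hlt : a0 < b0 := Fin.lt_def.2 (Nat.lt_succ_self j)
  have hmem : (a0, b0) ∈ (univ : Finset (Fin s × Fin s)).filter (fun p => p.1 < p.2) := by
    simp [hlt]
  have h1 : ∀ v : Fin s → Lt, isg ε v = (if v b0 < v a0 then ε (v a0) (v b0) else 1) *
      ∏ p ∈ ((univ : Finset (Fin s × Fin s)).filter (fun p => p.1 < p.2)).erase (a0, b0),
        if v p.2 < v p.1 then ε (v p.1) (v p.2) else 1 := fun v => by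
    unfold isg
    rw [Finset.mul_prod_erase _ (fun p => if v p.2 < v p.1 then ε (v p.1) (v p.2) else 1) hmem]
  have hA : adj j h a0 = b0 := Equiv.swap_apply_left _ _
  have hB : adj j h b0 = a0 := Equiv.swap_apply_right _ _
  have hinv : ∀ x, adj j h (adj j h x) = x := fun x => by
    unfold adj; exact Equiv.swap_apply_self _ _ _
  have h2 : ∏ p ∈ ((univ : Finset (Fin s × Fin s)).filter (fun p => p.1 < p.2)).erase (a0, b0),
        (if (w ∘ adj j h) p.2 < (w ∘ adj j h) p.1 then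
          ε ((w ∘ adj j h) p.1) ((w ∘ adj j h) p.2) else 1) =
      ∏ p ∈ ((univ : Finset (Fin s × Fin s)).filter (fun p => p.1 < p.2)).erase (a0, b0),
        if w p.2 < w p.1 then ε (w p.1) (w p.2) else 1 := by
    have hmap : ∀ p ∈ ((univ : Finset (Fin s × Fin s)).filter (fun p => p.1 < p.2)).erase (a0, b0),
        (adj j h p.1, adj j h p.2) ∈
          ((univ : Finset (Fin s × Fin s)).filter (fun p => p.1 < p.2)).erase (a0, b0) := by
      intro p hp
      rw [mem_erase, mem_filter] at hp ⊢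
      obtain ⟨hp1, -, hp2⟩ := hp
      have hp3 : ¬ (p.1 = a0 ∧ p.2 = b0) := fun hh => hp1 (Prod.ext hh.1 hh.2)
      refine ⟨fun hh => ?_, mem_univ _, adj_lt h hp2 hp3⟩
      rw [Prod.mk.injEq] at hh
      have e1 : p.1 = b0 := by rw [← hinv p.1, hh.1, hA]
      have e2 : p.2 = a0 := by rw [← hinv p.2, hh.2, hB]
      rw [e1, e2] at hp2
      exact absurd hp2 (not_lt.2 hlt.le)
    refine Finset.prod_nbij' (fun p => (adj j h p.1, adj j h p.2)) (fun p => (adj j h p.1, adj j h p.2))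
      hmap hmap (fun p _ => by simp [hinv]) (fun p _ => by simp [hinv]) (fun p _ => rfl)
  rw [h1 (w ∘ adj j h), h1 w, h2, ← mul_assoc]
  congr 1
  simp only [Function.comp_apply, hA, hB]
  rcases lt_trichotomy (w a0) (w b0) with h3 | h3 | h3
  · rw [if_pos h3, if_neg (not_lt.2 h3.le), mul_one, hsymm]
  · rw [h3, if_neg (lt_irrefl _), mul_one]
    rw [h3] at hw
    exact (hw rfl).symm
  · rw [if_neg (not_lt.2 h3.le), if_pos h3, hsq]

/-- the admissible contents: degree `s` and at most one copy of every odd letter -/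
def Adm (ε : Lt → Lt → K) (s : ℕ) (φ : Lt →₀ ℕ) : Prop :=
  (φ.sum fun _ k => k) = s ∧ ∀ l, ε l l ≠ 1 → φ l ≤ 1

/-- the sign-symmetric function with prescribed values at the monotone words -/
noncomputable def ofVal (ε : Lt → Lt → K) (f : (Lt →₀ ℕ) → K) (w : Fin s → Lt) : K := by
  classical
  exact if (∀ l, ε l l ≠ 1 → cont w l ≤ 1) then f (cont w) * isg ε w else 0

theorem ofVal_sym {ε : Lt → Lt → K} (hsymm : ∀ a b, ε a b = ε b a) (hsq : ∀ a b, ε a b * ε a b = 1)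
    (f : (Lt →₀ ℕ) → K) : Sym ε (ofVal (s := s) ε f) := by
  intro j h w
  unfold ofVal
  rw [cont_comp]
  split_ifs with hl
  · rw [isg_adj hsymm hsq j h w]
    · ring
    · intro hw
      by_contra hne
      rw [← hw] at hne
      have h2 : (⟨j, Nat.lt_of_succ_lt h⟩ : Fin s) ≠ ⟨j + 1, h⟩ := fun hh => by
        simp [Fin.ext_iff] at hh
      exact absurd (hl _ hne) (not_le.2 (one_lt_cont h2 hw))
  · ring

theorem ofVal_mono {ε : Lt → Lt → K} (f : (Lt →₀ ℕ) → K) {w : Fin s → Lt} (hw : Monotone w)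
    (ha : ∀ l, ε l l ≠ 1 → cont w l ≤ 1) : ofVal ε f w = f (cont w) := by
  unfold ofVal
  rw [if_pos ha, isg_mono ε hw, mul_one]

theorem ofVal_eq_zero {ε : Lt → Lt → K} (f : (Lt →₀ ℕ) → K) {w : Fin s → Lt}
    (hw : f (cont w) = 0) : ofVal ε f w = 0 := by
  unfold ofVal
  rw [hw, zero_mul, ite_self]

/-- (d2) the basic function of content `φ` -/
noncomputable def cphi (ε : Lt → Lt → K) (s : ℕ) (φ : Lt →₀ ℕ) : (Fin s → Lt) → K := by
  classical
  exact ofVal ε fun ψ => if ψ = φ then 1 else 0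

theorem cphi_sym {ε : Lt → Lt → K} (hsymm : ∀ a b, ε a b = ε b a) (hsq : ∀ a b, ε a b * ε a b = 1)
    (φ : Lt →₀ ℕ) : Sym ε (cphi ε s φ) := ofVal_sym hsymm hsq _

theorem cphi_of_ne {ε : Lt → Lt → K} {φ : Lt →₀ ℕ} {w : Fin s → Lt} (h : cont w ≠ φ) :
    cphi ε s φ w = 0 := ofVal_eq_zero _ (if_neg h)

theorem cphi_mono {ε : Lt → Lt → K} {φ : Lt →₀ ℕ} (hφ : ∀ l, ε l l ≠ 1 → φ l ≤ 1) {w : Fin s → Lt}
    (hw : Monotone w) (h : cont w = φ) : cphi ε s φ w = 1 := by
  unfold cphi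
  rw [ofVal_mono _ hw (by rw [h]; exact hφ), if_pos h]

/-- (d2) existence and uniqueness -/
theorem existsUnique_cphi {ε : Lt → Lt → K} (hsymm : ∀ a b, ε a b = ε b a)
    (hsq : ∀ a b, ε a b * ε a b = 1) {φ : Lt →₀ ℕ} (hφ : ∀ l, ε l l ≠ 1 → φ l ≤ 1) :
    ∃! c : (Fin s → Lt) → K, Sym ε c ∧ (∀ w, cont w ≠ φ → c w = 0) ∧
      ∀ w, Monotone w → cont w = φ → c w = 1 := by
  refine ⟨cphi ε s φ, ⟨cphi_sym hsymm hsq φ, fun w hw => cphi_of_ne hw,
    fun w hw h => cphi_mono hφ hw h⟩, ?_⟩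
  rintro c ⟨h1, h2, h3⟩
  refine h1.ext_sorted hsq (cphi_sym hsymm hsq φ) fun w hw => ?_
  by_cases h : cont w = φ
  · rw [h3 w hw h, cphi_mono hφ hw h]
  · rw [h2 w h, cphi_of_ne h]

/-- (d3) the space of sign-symmetric functions supported on the words whose content satisfies `Q` -/
def symSub (ε : Lt → Lt → K) (s : ℕ) (Q : (Lt →₀ ℕ) → Prop) : Submodule K ((Fin s → Lt) → K) where
  carrier := {c | Sym ε c ∧ ∀ w, ¬ Q (cont w) → c w = 0}
  zero_mem' := ⟨Sym.zero, fun _ _ => rfl⟩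
  add_mem' := fun ha hb => ⟨ha.1.add hb.1, fun w hw => by
    rw [Pi.add_apply, ha.2 w hw, hb.2 w hw, add_zero]⟩
  smul_mem' := fun a c hc => ⟨hc.1.smul a, fun w hw => by
    rw [Pi.smul_apply, hc.2 w hw, smul_zero]⟩

omit [LinearOrder Lt] in
theorem mem_symSub {ε : Lt → Lt → K} {Q : (Lt →₀ ℕ) → Prop} {c : (Fin s → Lt) → K} :
    c ∈ symSub ε s Q ↔ Sym ε c ∧ ∀ w, ¬ Q (cont w) → c w = 0 := Iff.rfl

/-- the monotone word of content `φ` -/
noncomputable def srt (s : ℕ) (φ : Lt →₀ ℕ) (h : (φ.sum fun _ k => k) = s) : Fin s → Lt :=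
  (exists_mono_word φ h).choose

theorem srt_mono (φ : Lt →₀ ℕ) (h : (φ.sum fun _ k => k) = s) : Monotone (srt s φ h) :=
  (exists_mono_word φ h).choose_spec.1

theorem cont_srt (φ : Lt →₀ ℕ) (h : (φ.sum fun _ k => k) = s) : cont (srt s φ h) = φ :=
  (exists_mono_word φ h).choose_spec.2

/-- (d3) evaluation at the monotone words is a linear equivalence -/
noncomputable def symEquiv {ε : Lt → Lt → K} (hsymm : ∀ a b, ε a b = ε b a)
    (hsq : ∀ a b, ε a b * ε a b = 1) (s : ℕ) (Q : (Lt →₀ ℕ) → Prop) :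
    symSub ε s Q ≃ₗ[K] ({φ : Lt →₀ ℕ // Q φ ∧ Adm ε s φ} → K) :=
  LinearEquiv.ofBijective
    { toFun := fun c φ => c.1 (srt s φ.1 φ.2.2.1)
      map_add' := fun _ _ => rfl
      map_smul' := fun _ _ => rfl }
    (by
      classical
      constructor
      · intro c c' hcc
        refine Subtype.ext (Sym.ext_sorted hsq c.2.1 c'.2.1 fun w hw => ?_)
        by_cases hQ : Q (cont w)
        · by_cases ha : ∀ l, ε l l ≠ 1 → cont w l ≤ 1
          · have h1 := congrFun hcc ⟨cont w, hQ, cont_deg w, ha⟩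
            have h2 : srt s (cont w) (cont_deg w) = w :=
              eq_of_cont_eq (srt_mono _ _) hw (cont_srt _ _)
            change c.1 (srt s (cont w) (cont_deg w)) = c'.1 (srt s (cont w) (cont_deg w)) at h1
            rwa [h2] at h1
          · push Not at ha
            obtain ⟨l, hl, h1⟩ := ha
            rw [c.2.1.eq_zero_of_repeat hsq hl h1, c'.2.1.eq_zero_of_repeat hsq hl h1]
        · rw [c.2.2 w hQ, c'.2.2 w hQ]
      · intro f
        refine ⟨⟨ofVal ε fun ψ => if h : Q ψ ∧ Adm ε s ψ then f ⟨ψ, h⟩ else 0,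
          ofVal_sym hsymm hsq _, fun w hw => ofVal_eq_zero _ (dif_neg fun h => hw h.1)⟩, ?_⟩
        funext φ
        have h1 : ∀ l, ε l l ≠ 1 → cont (srt s φ.1 φ.2.2.1) l ≤ 1 := by
          rw [cont_srt]; exact φ.2.2.2
        have key : ofVal ε (fun ψ => if h : Q ψ ∧ Adm ε s ψ then f ⟨ψ, h⟩ else 0)
            (srt s φ.1 φ.2.2.1) = f φ := by
          rw [ofVal_mono _ (srt_mono φ.1 φ.2.2.1) h1]
          simp only [cont_srt]
          rw [dif_pos φ.2]
        exact key)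

theorem symEquiv_apply {ε : Lt → Lt → K} (hsymm : ∀ a b, ε a b = ε b a)
    (hsq : ∀ a b, ε a b * ε a b = 1) (Q : (Lt →₀ ℕ) → Prop) (c : symSub ε s Q)
    (φ : {φ : Lt →₀ ℕ // Q φ ∧ Adm ε s φ}) :
    symEquiv hsymm hsq s Q c φ = c.1 (srt s φ.1 φ.2.2.1) := rfl

/-- (d3) the dimension count -/
theorem finrank_symSub {ε : Lt → Lt → K} (hsymm : ∀ a b, ε a b = ε b a)
    (hsq : ∀ a b, ε a b * ε a b = 1) (s : ℕ) (Q : (Lt →₀ ℕ) → Prop)
    [Finite {φ : Lt →₀ ℕ // Q φ ∧ Adm ε s φ}] :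
    Module.finrank K (symSub ε s Q) = Nat.card {φ : Lt →₀ ℕ // Q φ ∧ Adm ε s φ} := by
  classical
  have := Fintype.ofFinite {φ : Lt →₀ ℕ // Q φ ∧ Adm ε s φ}
  rw [(symEquiv hsymm hsq s Q).finrank_eq, Module.finrank_fintype_fun_eq_card, Nat.card_eq_fintype_card]

theorem finite_symSub {ε : Lt → Lt → K} (hsymm : ∀ a b, ε a b = ε b a)
    (hsq : ∀ a b, ε a b * ε a b = 1) (s : ℕ) (Q : (Lt →₀ ℕ) → Prop)
    [Finite {φ : Lt →₀ ℕ // Q φ ∧ Adm ε s φ}] : Module.Finite K (symSub ε s Q) :=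
  Module.Finite.equiv (symEquiv hsymm hsq s Q).symm

omit [LinearOrder Lt] in
/-- all lengths together: contents with at most one copy of every odd letter -/
def sigmaEquiv (ε : Lt → Lt → K) (Q : (Lt →₀ ℕ) → Prop) (N : ℕ)
    (hN : ∀ φ, Q φ → (∀ l, ε l l ≠ 1 → φ l ≤ 1) → (φ.sum fun _ k => k) ≤ N) :
    {φ : Lt →₀ ℕ // Q φ ∧ ∀ l, ε l l ≠ 1 → φ l ≤ 1} ≃
      Σ s : Fin (N + 1), {φ : Lt →₀ ℕ // Q φ ∧ Adm ε s.1 φ} where
  toFun φ := ⟨⟨φ.1.sum fun _ k => k, Nat.lt_succ_of_le (hN φ.1 φ.2.1 φ.2.2)⟩, ⟨φ.1, φ.2.1, rfl, φ.2.2⟩⟩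
  invFun x := ⟨x.2.1, x.2.2.1, x.2.2.2.2⟩
  left_inv φ := rfl
  right_inv := by
    rintro ⟨⟨s, hs⟩, ⟨φ, h⟩⟩
    obtain rfl : (φ.sum fun _ k => k) = s := h.2.1
    rfl

/-- the count for all lengths together -/
theorem sum_finrank_symSub {ε : Lt → Lt → K} (hsymm : ∀ a b, ε a b = ε b a)
    (hsq : ∀ a b, ε a b * ε a b = 1) (Q : (Lt →₀ ℕ) → Prop) (N : ℕ)
    (hN : ∀ φ, Q φ → (∀ l, ε l l ≠ 1 → φ l ≤ 1) → (φ.sum fun _ k => k) ≤ N)
    [Finite {φ : Lt →₀ ℕ // Q φ ∧ ∀ l, ε l l ≠ 1 → φ l ≤ 1}] :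
    ∑ s ∈ Finset.range (N + 1), Module.finrank K (symSub ε s Q) =
      Nat.card {φ : Lt →₀ ℕ // Q φ ∧ ∀ l, ε l l ≠ 1 → φ l ≤ 1} := by
  have hf : Finite (Σ s : Fin (N + 1), {φ : Lt →₀ ℕ // Q φ ∧ Adm ε s.1 φ}) :=
    Finite.of_equiv _ (sigmaEquiv ε Q N hN)
  have hfs : ∀ s : Fin (N + 1), Finite {φ : Lt →₀ ℕ // Q φ ∧ Adm ε s.1 φ} := fun s =>
    Finite.of_injective (Sigma.mk (β := fun s : Fin (N + 1) => {φ : Lt →₀ ℕ // Q φ ∧ Adm ε s.1 φ}) s)
      sigma_mk_injective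
  rw [Nat.card_congr (sigmaEquiv ε Q N hN), Nat.card_sigma, Finset.sum_range]
  exact Finset.sum_congr rfl fun s _ => finrank_symSub hsymm hsq s.1 Q

omit [LinearOrder Lt] in
/-- words graded by a sum over the letters -/
theorem mem_symSub_graded {M : Type*} [AddCommMonoid M] {ε : Lt → Lt → K} (g : Lt → M) (m : M)
    {c : (Fin s → Lt) → K} :
    c ∈ symSub ε s (fun φ => (φ.sum fun l k => k • g l) = m) ↔
      Sym ε c ∧ ∀ w : Fin s → Lt, ∑ i, g (w i) ≠ m → c w = 0 := by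
  rw [mem_symSub]
  refine and_congr_right fun _ => forall_congr' fun w => ?_
  rw [cont_sum]

end inv

end sym

end Crest.Agent.R059.Orb152
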