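import Mathlib

/-!
# Row 59, Theorem B, sign part: orbits of labelled partitions <-> multisets of letters

`V` a finite set of particles with colours `c : V → I`, `Λ` the letters with types `cl : Λ → (I →₀ ℕ)`.
A labelled configuration is a finite set of pairs (block, letter).
-/

set_option autoImplicit false
set_option linter.unusedSectionVars false
set_option linter.deprecated false

open Finset

namespace Crest.Agent.R059.Orb602

/-! ## Matching fibres -/

theorem exists_equiv {A B T : Type*} [Fintype A] [Fintype B] [DecidableEq T] (f : A → T) (g : B → T)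
    (h : ∀ t, (univ.filter (fun a => f a = t)).card = (univ.filter (fun b => g b = t)).card) :
    ∃ e : A ≃ B, ∀ a, g (e a) = f a := by
  have : ∀ t, Nonempty ({a // f a = t} ≃ {b // g b = t}) := fun t =>
    Fintype.card_eq.1 (by rw [Fintype.card_subtype, Fintype.card_subtype]; exact h t)
  exact ⟨Equiv.ofFiberEquiv (fun t => (this t).some), fun a => Equiv.ofFiberEquiv_map _ a⟩

variable {V I Λ : Type*} [Fintype V] [DecidableEq V] [DecidableEq I]

/-- colour type of a set of particles -/
noncomputable def ty (c : V → I) (Y : Finset V) : I →₀ ℕ := ∑ v ∈ Y, Finsupp.single (c v) 1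

omit [Fintype V] [DecidableEq V] in
theorem ty_apply (c : V → I) (Y : Finset V) (i : I) :
    ty c Y i = (Y.filter (fun v => c v = i)).card := by
  unfold ty
  rw [Finsupp.finset_sum_apply, Finset.card_filter]
  refine Finset.sum_congr rfl fun v _ => ?_
  by_cases h : c v = i
  · simp [h]
  · simp [h]

omit [Fintype V] [DecidableEq V] in
theorem ty_empty (c : V → I) : ty c ∅ = 0 := by simp [ty]

omit [Fintype V] in
theorem ty_union (c : V → I) {A B : Finset V} (h : Disjoint A B) :
    ty c (A ∪ B) = ty c A + ty c B := by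
  simp [ty, Finset.sum_union h]

omit [Fintype V] [DecidableEq V] in
theorem ty_map (c : V → I) (g : Equiv.Perm V) (hg : ∀ v, c (g v) = c v) (Y : Finset V) :
    ty c (Y.map g.toEmbedding) = ty c Y := by
  simp [ty, Finset.sum_map, hg]

omit [Fintype V] [DecidableEq V] in
/-- the number of particles is determined by the type -/
theorem card_eq_of_ty (c : V → I) {Y Y' : Finset V} (h : ty c Y = ty c Y') : Y.card = Y'.card := by
  have key : ∀ Z : Finset V, (ty c Z).sum (fun _ n => n) = Z.card := by
    intro Z
    classical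
    unfold ty
    rw [← Finsupp.sum_finset_sum_index (by simp) (by simp)]
    simp
  rw [← key Y, ← key Y', h]

omit [Fintype V] [DecidableEq V] in
theorem ty_ne_zero (c : V → I) {Y : Finset V} (h : Y.Nonempty) : ty c Y ≠ 0 := by
  intro h0
  have := card_eq_of_ty c (Y := Y) (Y' := ∅) (by rw [h0, ty_empty])
  simp at this
  exact h.ne_empty this

omit [Fintype V] [DecidableEq V] in
/-- colour preserving bijection between two blocks of the same type -/
theorem exists_blockEquiv (c : V → I) {Y Y' : Finset V} (h : ty c Y = ty c Y') :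
    ∃ e : {v // v ∈ Y} ≃ {v // v ∈ Y'}, ∀ v, c (e v : V) = c v := by
  classical
  refine exists_equiv (fun v : {v // v ∈ Y} => c v) (fun v : {v // v ∈ Y'} => c v) fun i => ?_
  have key : ∀ Z : Finset V, (univ.filter (fun a : {v // v ∈ Z} => c a = i)).card = ty c Z i := by
    intro Z
    rw [ty_apply, ← Fintype.card_subtype, ← Fintype.card_coe]
    exact Fintype.card_congr
      ⟨fun a => ⟨a.1.1, Finset.mem_filter.2 ⟨a.1.2, a.2⟩⟩,
        fun a => ⟨⟨a.1, (Finset.mem_filter.1 a.2).1⟩, (Finset.mem_filter.1 a.2).2⟩,
        fun _ => rfl, fun _ => rfl⟩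
  rw [key, key, h]

/-- two blocks of the same type are conjugate under the colour preserving permutations -/
theorem exists_perm_map (c : V → I) {Y Y' : Finset V} (h : ty c Y = ty c Y') :
    ∃ g : Equiv.Perm V, (∀ v, c (g v) = c v) ∧ Y.map g.toEmbedding = Y' := by
  classical
  obtain ⟨g, hg⟩ := exists_equiv (fun v : V => (decide (v ∈ Y), c v))
    (fun v : V => (decide (v ∈ Y'), c v)) (by
      rintro ⟨b, i⟩
      have hY : ∀ Z : Finset V, (univ.filter (fun v : V => (decide (v ∈ Z), c v) = (true, i))).card
          = ty c Z i := by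
        intro Z
        rw [ty_apply]
        congr 1
        ext v
        simp
      have hn : ∀ Z : Finset V, (univ.filter (fun v : V => (decide (v ∈ Z), c v) = (false, i))).card
          = ty c univ i - ty c Z i := by
        intro Z
        rw [ty_apply, ty_apply, ← Finset.card_sdiff_of_subset (Finset.filter_subset_filter _ (Finset.subset_univ _))]
        congr 1
        ext v
        simp only [Prod.mk.injEq, decide_eq_false_iff_not, mem_filter, mem_univ, true_and,
          mem_sdiff, not_and]
        tauto
      cases b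
      · rw [hn, hn, h]
      · rw [hY, hY, h])
  refine ⟨g, fun v => (Prod.mk.injEq _ _ _ _ ▸ hg v).2, ?_⟩
  ext v
  rw [Finset.mem_map_equiv]
  have := (Prod.mk.injEq _ _ _ _ ▸ hg (g.symm v)).1
  simpa [iff_comm] using this

/-! ## Labelled configurations -/

/-- a labelled configuration of type `univ` -/
structure IsCfg (c : V → I) (cl : Λ → (I →₀ ℕ)) (S : Finset (Finset V × Λ)) : Prop where
  ne : ∀ p ∈ S, p.1.Nonempty
  disj : ∀ p ∈ S, ∀ q ∈ S, p ≠ q → Disjoint p.1 q.1
  cover : ∀ v : V, ∃ p ∈ S, v ∈ p.1
  type : ∀ p ∈ S, ty c p.1 = cl p.2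

/-- the action of a permutation -/
def act [DecidableEq Λ] (g : Equiv.Perm V) (S : Finset (Finset V × Λ)) : Finset (Finset V × Λ) :=
  S.image (fun p => (p.1.map g.toEmbedding, p.2))

/-- the multiset of letters of a configuration -/
def letters (S : Finset (Finset V × Λ)) : Multiset Λ := S.val.map Prod.snd

omit [Fintype V] [DecidableEq V] [DecidableEq I] in
theorem actFun_injective (g : Equiv.Perm V) :
    Function.Injective (fun p : Finset V × Λ => (p.1.map g.toEmbedding, p.2)) := by
  rintro ⟨a, b⟩ ⟨a', b'⟩ h
  simp only [Prod.mk.injEq, Finset.map_inj] at h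
  exact Prod.ext h.1 h.2

section

variable [DecidableEq Λ]

omit [Fintype V] [DecidableEq I] in
theorem mem_act {g : Equiv.Perm V} {S : Finset (Finset V × Λ)} {p : Finset V × Λ} :
    p ∈ act g S ↔ ∃ q ∈ S, q.1.map g.toEmbedding = p.1 ∧ q.2 = p.2 := by
  simp only [act, Finset.mem_image]
  constructor
  · rintro ⟨q, hq, rfl⟩
    exact ⟨q, hq, rfl, rfl⟩
  · rintro ⟨q, hq, h1, h2⟩
    exact ⟨q, hq, Prod.ext h1 h2⟩

omit [Fintype V] [DecidableEq I] in
theorem mem_act_of_mem {g : Equiv.Perm V} {S : Finset (Finset V × Λ)} {p : Finset V × Λ}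
    (hp : p ∈ S) : (p.1.map g.toEmbedding, p.2) ∈ act g S :=
  mem_act.2 ⟨p, hp, rfl, rfl⟩

omit [Fintype V] [DecidableEq V] [DecidableEq I] [DecidableEq Λ] in
theorem map_mul (g h : Equiv.Perm V) (Y : Finset V) :
    Y.map (g * h).toEmbedding = (Y.map h.toEmbedding).map g.toEmbedding := by
  rw [Finset.map_map]
  rfl

omit [Fintype V] [DecidableEq V] [DecidableEq I] [DecidableEq Λ] in
theorem map_one (Y : Finset V) : Y.map (1 : Equiv.Perm V).toEmbedding = Y := by
  ext v
  rw [Finset.mem_map_equiv]
  rfl

omit [Fintype V] [DecidableEq V] [DecidableEq I] [DecidableEq Λ] in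
theorem map_inv_eq (g : Equiv.Perm V) {Y Z : Finset V} (h : Y.map g.toEmbedding = Z) :
    Z.map (g⁻¹).toEmbedding = Y := by
  rw [← h, ← map_mul, inv_mul_cancel, map_one]

omit [Fintype V] [DecidableEq I] in
theorem act_mul (g h : Equiv.Perm V) (S : Finset (Finset V × Λ)) :
    act (g * h) S = act g (act h S) := by
  unfold act
  rw [Finset.image_image]
  congr 1
  funext p
  simp [map_mul]

omit [Fintype V] [DecidableEq I] in
theorem act_one (S : Finset (Finset V × Λ)) : act 1 S = S := by
  unfold act
  simp only [map_one, Prod.mk.eta, Finset.image_id']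

omit [Fintype V] [DecidableEq I] in
theorem act_inv_act (g : Equiv.Perm V) (S : Finset (Finset V × Λ)) : act g⁻¹ (act g S) = S := by
  rw [← act_mul, inv_mul_cancel, act_one]

omit [Fintype V] [DecidableEq I] in
theorem act_act_inv (g : Equiv.Perm V) (S : Finset (Finset V × Λ)) : act g (act g⁻¹ S) = S := by
  rw [← act_mul, mul_inv_cancel, act_one]

omit [Fintype V] [DecidableEq I] in
/-- (O1) -/
theorem letters_act (g : Equiv.Perm V) (S : Finset (Finset V × Λ)) :
    letters (act g S) = letters S := by
  unfold letters act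
  rw [Finset.image_val_of_injOn (fun a _ b _ h => actFun_injective g h), Multiset.map_map]
  rfl

omit [Fintype V] in
theorem isCfg_act {c : V → I} {cl : Λ → (I →₀ ℕ)} {S : Finset (Finset V × Λ)} (hS : IsCfg c cl S)
    {g : Equiv.Perm V} (hg : ∀ v, c (g v) = c v) : IsCfg c cl (act g S) where
  ne := by
    intro p hp
    obtain ⟨q, hq, h1, -⟩ := mem_act.1 hp
    rw [← h1]
    exact (hS.ne q hq).map
  disj := by
    intro p hp q hq hpq
    obtain ⟨p', hp', h1, h2⟩ := mem_act.1 hp
    obtain ⟨q', hq', h3, h4⟩ := mem_act.1 hq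
    rw [← h1, ← h3, Finset.disjoint_map]
    refine hS.disj p' hp' q' hq' ?_
    rintro rfl
    exact hpq (Prod.ext (h1.symm.trans h3) (h2.symm.trans h4))
  cover := by
    intro v
    obtain ⟨p, hp, hv⟩ := hS.cover (g.symm v)
    exact ⟨_, mem_act_of_mem hp, Finset.mem_map_equiv.2 hv⟩
  type := by
    intro p hp
    obtain ⟨q, hq, h1, h2⟩ := mem_act.1 hp
    rw [← h1, ← h2, ty_map c g hg, hS.type q hq]

end

section

variable {c : V → I} {cl : Λ → (I →₀ ℕ)} {S S' : Finset (Finset V × Λ)}

omit [Fintype V] [DecidableEq V] in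
theorem IsCfg.eq_of_mem (hS : IsCfg c cl S) {p q : Finset V × Λ} (hp : p ∈ S) (hq : q ∈ S) {v : V}
    (h1 : v ∈ p.1) (h2 : v ∈ q.1) : p = q := by
  by_contra h
  exact Finset.disjoint_left.1 (hS.disj p hp q hq h) h1 h2

omit [Fintype V] [DecidableEq V] in
/-- the block determines the letter -/
theorem IsCfg.eq_of_fst (hS : IsCfg c cl S) {p q : Finset V × Λ} (hp : p ∈ S) (hq : q ∈ S)
    (h : p.1 = q.1) : p = q := by
  obtain ⟨v, hv⟩ := hS.ne p hp
  exact hS.eq_of_mem hp hq hv (h ▸ hv)

/-- the block of a particle -/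
noncomputable def IsCfg.blk (hS : IsCfg c cl S) (v : V) : {p // p ∈ S} :=
  ⟨(hS.cover v).choose, (hS.cover v).choose_spec.1⟩

omit [Fintype V] [DecidableEq V] in
theorem IsCfg.mem_blk (hS : IsCfg c cl S) (v : V) : v ∈ (hS.blk v).1.1 :=
  (hS.cover v).choose_spec.2

omit [Fintype V] [DecidableEq V] in
theorem IsCfg.blk_eq_iff (hS : IsCfg c cl S) (v : V) (p : {p // p ∈ S}) :
    hS.blk v = p ↔ v ∈ p.1.1 := by
  constructor
  · rintro rfl
    exact hS.mem_blk v
  · intro h
    exact Subtype.ext (hS.eq_of_mem (hS.blk v).2 p.2 (hS.mem_blk v) h)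

theorem IsCfg.sum_letters (hS : IsCfg c cl S) : ((letters S).map cl).sum = ty c univ := by
  have h1 : ((letters S).map cl).sum = ∑ p ∈ S, ty c p.1 := by
    unfold letters
    rw [Multiset.map_map, Finset.sum_eq_multiset_sum]
    congr 1
    refine Multiset.map_congr rfl fun p hp => ?_
    exact (hS.type p hp).symm
  rw [h1]
  unfold ty
  rw [← Finset.sum_biUnion]
  · congr 1
    ext v
    simp only [mem_biUnion, mem_univ, iff_true]
    obtain ⟨p, hp, hv⟩ := hS.cover v
    exact ⟨p, hp, hv⟩
  · intro p hp q hq hpq
    exact hS.disj p hp q hq hpq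

theorem IsCfg.cl_ne_zero (hS : IsCfg c cl S) {l : Λ} (hl : l ∈ letters S) : cl l ≠ 0 := by
  obtain ⟨p, hp, rfl⟩ := Multiset.mem_map.1 hl
  rw [← hS.type p hp]
  exact ty_ne_zero c (hS.ne p hp)

variable [DecidableEq Λ]

/-- (O2) equal letters: same orbit -/
theorem IsCfg.exists_act_eq (hS : IsCfg c cl S) (hS' : IsCfg c cl S')
    (h : letters S = letters S') : ∃ g : Equiv.Perm V, (∀ v, c (g v) = c v) ∧ act g S = S' := by
  classical
  -- match the blocks
  obtain ⟨e, he⟩ := exists_equiv (fun p : {p // p ∈ S} => p.1.2) (fun p : {p // p ∈ S'} => p.1.2) (by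
    intro l
    have key : ∀ R : Finset (Finset V × Λ), (univ.filter (fun p : {p // p ∈ R} => p.1.2 = l)).card
        = (letters R).count l := by
      intro R
      unfold letters
      rw [Multiset.count_map, ← Fintype.card_subtype]
      have : Multiset.card (R.val.filter (fun a => l = a.2)) = (R.filter (fun a => a.2 = l)).card := by
        rw [Finset.card_def, Finset.filter_val]
        congr 1
        exact Multiset.filter_congr fun x _ => eq_comm
      rw [this, ← Fintype.card_coe]
      exact Fintype.card_congr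
        ⟨fun a => ⟨a.1.1, Finset.mem_filter.2 ⟨a.1.2, a.2⟩⟩,
          fun a => ⟨⟨a.1, (Finset.mem_filter.1 a.2).1⟩, (Finset.mem_filter.1 a.2).2⟩,
          fun _ => rfl, fun _ => rfl⟩
    rw [key, key, h])
  -- match the particles
  obtain ⟨g, hg⟩ := exists_equiv (fun v : V => (e (hS.blk v), c v)) (fun v : V => (hS'.blk v, c v)) (by
    rintro ⟨q, i⟩
    have h1 : (univ.filter (fun v : V => (e (hS.blk v), c v) = (q, i))).card
        = cl (e.symm q).1.2 i := by
      rw [← hS.type _ (e.symm q).2, ty_apply]
      refine congrArg Finset.card (Finset.ext fun v => ?_)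
      simp only [Prod.mk.injEq, mem_filter, mem_univ, true_and]
      rw [← hS.blk_eq_iff, Equiv.eq_symm_apply]
    have h2 : (univ.filter (fun v : V => (hS'.blk v, c v) = (q, i))).card = cl q.1.2 i := by
      rw [← hS'.type _ q.2, ty_apply]
      refine congrArg Finset.card (Finset.ext fun v => ?_)
      simp only [Prod.mk.injEq, mem_filter, mem_univ, true_and]
      rw [← hS'.blk_eq_iff]
    rw [h1, h2]
    have := he (e.symm q)
    rw [Equiv.apply_symm_apply] at this
    rw [this])
  have hg1 : ∀ v, hS'.blk (g v) = e (hS.blk v) := fun v => (Prod.mk.injEq _ _ _ _ ▸ hg v).1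
  have hg2 : ∀ v, c (g v) = c v := fun v => (Prod.mk.injEq _ _ _ _ ▸ hg v).2
  refine ⟨g, hg2, ?_⟩
  have hblock : ∀ p : {p // p ∈ S}, p.1.1.map g.toEmbedding = (e p).1.1 := by
    intro p
    ext v
    rw [Finset.mem_map_equiv, ← hS.blk_eq_iff, ← hS'.blk_eq_iff]
    have := hg1 (g.symm v)
    rw [Equiv.apply_symm_apply] at this
    rw [this, EmbeddingLike.apply_eq_iff_eq]
  ext q
  rw [mem_act]
  constructor
  · rintro ⟨p, hp, h1, h2⟩
    have : q = (e ⟨p, hp⟩).1 := by
      refine Prod.ext ?_ ?_
      · rw [← h1]; exact hblock ⟨p, hp⟩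
      · rw [← h2]; exact (he ⟨p, hp⟩).symm
    rw [this]
    exact (e ⟨p, hp⟩).2
  · intro hq
    refine ⟨(e.symm ⟨q, hq⟩).1, (e.symm ⟨q, hq⟩).2, ?_, ?_⟩
    · rw [hblock, Equiv.apply_symm_apply]
    · have := he (e.symm ⟨q, hq⟩)
      rw [Equiv.apply_symm_apply] at this
      exact this.symm

omit [DecidableEq Λ] in
/-- (O3) every multiset of letters of the right type occurs -/
theorem exists_cfg [Fintype I] (c : V → I) (cl : Λ → (I →₀ ℕ)) (s : Multiset Λ)
    (hs : (s.map cl).sum = ty c univ) (h0 : ∀ l ∈ s, cl l ≠ 0) :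
    ∃ S : Finset (Finset V × Λ), IsCfg c cl S ∧ letters S = s := by
  classical
  obtain ⟨L, rfl⟩ := Quot.exists_rep s
  change ((L : Multiset Λ).map cl).sum = ty c univ at hs
  change ∀ l ∈ (L : Multiset Λ), cl l ≠ 0 at h0
  obtain ⟨e, he⟩ := exists_equiv (fun v : V => c v)
    (fun t : (Σ j : Fin L.length, Σ i : I, Fin (cl (L.get j) i)) => t.2.1) (by
      intro i
      have h1 : (univ.filter (fun v : V => c v = i)).card = ty c univ i := (ty_apply c univ i).symm
      rw [h1, ← hs]
      have h2 : (((L : Multiset Λ).map cl).sum) i = ∑ j : Fin L.length, cl (L.get j) i := by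
        rw [Multiset.map_coe, Multiset.sum_coe]
        conv_lhs => rw [← List.map_get_finRange L]
        rw [List.map_map, ← List.sum_ofFn, List.ofFn_eq_map]
        induction (List.finRange L.length) with
        | nil => simp
        | cons a l ih => simp [ih]
      rw [h2, ← Fintype.card_subtype]
      have h3 : Fintype.card {t : (Σ j : Fin L.length, Σ i : I, Fin (cl (L.get j) i)) // t.2.1 = i}
          = Fintype.card (Σ j : Fin L.length, Fin (cl (L.get j) i)) := by
        refine Fintype.card_congr ⟨fun t => ⟨t.1.1, t.1.2.2.cast (by rw [t.2])⟩,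
          fun t => ⟨⟨t.1, i, t.2⟩, rfl⟩,
          ?_, ?_⟩
        · rintro ⟨⟨j, i', k⟩, h⟩
          change i' = i at h
          subst h
          rfl
        · rintro ⟨j, k⟩
          rfl
      rw [h3, Fintype.card_sigma]
      simp)
  have hblk : ∀ j : Fin L.length, ty c (univ.filter (fun v => (e v).1 = j)) = cl (L.get j) := by
    intro j
    ext i
    rw [ty_apply, Finset.filter_filter]
    have : (univ.filter (fun v => (e v).1 = j ∧ c v = i)).card
        = Fintype.card (Fin (cl (L.get j) i)) := by
      rw [← Fintype.card_subtype]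
      refine Fintype.card_congr ?_
      refine (Equiv.subtypeEquiv e (q := fun t => t.1 = j ∧ t.2.1 = i) ?_).trans ?_
      · intro v
        rw [← he v]
      · refine ⟨fun t => t.1.2.2.cast (by
            obtain ⟨⟨j', i', k⟩, h, h'⟩ := t
            change j' = j at h
            change i' = i at h'
            subst h
            subst h'
            rfl), fun k => ⟨⟨j, i, k⟩, rfl, rfl⟩, ?_, ?_⟩
        · rintro ⟨⟨j', i', k⟩, h, h'⟩
          change j' = j at h
          change i' = i at h'
          subst h
          subst h'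
          rfl
        · intro k
          rfl
    rw [this, Fintype.card_fin]
  have hne : ∀ j : Fin L.length, (univ.filter (fun v => (e v).1 = j)).Nonempty := by
    intro j
    by_contra h
    rw [Finset.not_nonempty_iff_eq_empty] at h
    have := hblk j
    rw [h, ty_empty] at this
    exact h0 (L.get j) (by simp) this.symm
  have hinj : Function.Injective
      (fun j : Fin L.length => (univ.filter (fun v => (e v).1 = j), L.get j)) := by
    intro j j' h
    obtain ⟨v, hv⟩ := hne j
    have h1 : univ.filter (fun v => (e v).1 = j) = univ.filter (fun v => (e v).1 = j') :=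
      (Prod.mk.injEq _ _ _ _ ▸ h).1
    have h2 := hv
    rw [h1] at h2
    rw [Finset.mem_filter] at hv h2
    exact hv.2.symm.trans h2.2
  refine ⟨univ.image (fun j : Fin L.length => (univ.filter (fun v => (e v).1 = j), L.get j)),
    ⟨?_, ?_, ?_, ?_⟩, ?_⟩
  · intro p hp
    obtain ⟨j, -, rfl⟩ := Finset.mem_image.1 hp
    exact hne j
  · intro p hp q hq hpq
    obtain ⟨j, -, rfl⟩ := Finset.mem_image.1 hp
    obtain ⟨j', -, rfl⟩ := Finset.mem_image.1 hq
    have hjj : j ≠ j' := by
      rintro rfl
      exact hpq rfl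
    rw [Finset.disjoint_left]
    intro v h1 h2
    rw [Finset.mem_filter] at h1 h2
    exact hjj (h1.2.symm.trans h2.2)
  · intro v
    exact ⟨_, Finset.mem_image.2 ⟨(e v).1, mem_univ _, rfl⟩, by simp⟩
  · intro p hp
    obtain ⟨j, -, rfl⟩ := Finset.mem_image.1 hp
    exact hblk j
  · unfold letters
    rw [Finset.image_val_of_injOn (fun a _ b _ h => hinj h), Multiset.map_map]
    change Multiset.map (fun j : Fin L.length => L.get j) (univ : Finset (Fin L.length)).val = L
    have : (univ : Finset (Fin L.length)).val = (List.finRange L.length : Multiset _) := rfl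
    rw [this, Multiset.map_coe, List.map_get_finRange]

end

/-! ## Block swaps -/

section Swap

variable {Y Y' : Finset V}

/-- the function exchanging `Y` and `Y'` along `e` -/
def swapFun (e : {v // v ∈ Y} ≃ {v // v ∈ Y'}) (v : V) : V :=
  if h : v ∈ Y then (e ⟨v, h⟩ : V) else if h' : v ∈ Y' then (e.symm ⟨v, h'⟩ : V) else v

omit [Fintype V] in
theorem swapFun_of_mem (e : {v // v ∈ Y} ≃ {v // v ∈ Y'}) {v : V} (h : v ∈ Y) :
    swapFun e v = e ⟨v, h⟩ := by
  simp [swapFun, h]

omit [Fintype V] in
theorem swapFun_of_mem' (hd : Disjoint Y Y') (e : {v // v ∈ Y} ≃ {v // v ∈ Y'}) {v : V}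
    (h : v ∈ Y') : swapFun e v = e.symm ⟨v, h⟩ := by
  have : v ∉ Y := fun hv => Finset.disjoint_left.1 hd hv h
  simp [swapFun, h, this]

omit [Fintype V] in
theorem swapFun_of_not (e : {v // v ∈ Y} ≃ {v // v ∈ Y'}) {v : V} (h : v ∉ Y) (h' : v ∉ Y') :
    swapFun e v = v := by
  simp [swapFun, h, h']

omit [Fintype V] in
theorem swapFun_involutive (hd : Disjoint Y Y') (e : {v // v ∈ Y} ≃ {v // v ∈ Y'}) :
    Function.Involutive (swapFun e) := by
  intro v
  by_cases h : v ∈ Y
  · rw [swapFun_of_mem e h, swapFun_of_mem' hd e (e ⟨v, h⟩).2]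
    simp
  · by_cases h' : v ∈ Y'
    · rw [swapFun_of_mem' hd e h', swapFun_of_mem e (e.symm ⟨v, h'⟩).2]
      simp
    · rw [swapFun_of_not e h h', swapFun_of_not e h h']

/-- (O5) the permutation exchanging the disjoint blocks `Y` and `Y'` along `e` -/
def swapE (hd : Disjoint Y Y') (e : {v // v ∈ Y} ≃ {v // v ∈ Y'}) : Equiv.Perm V :=
  (swapFun_involutive hd e).toPerm

omit [Fintype V] in
theorem swapE_apply (hd : Disjoint Y Y') (e : {v // v ∈ Y} ≃ {v // v ∈ Y'}) (v : V) :
    swapE hd e v = swapFun e v := rfl

omit [Fintype V] in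
theorem swapE_of_mem (hd : Disjoint Y Y') (e : {v // v ∈ Y} ≃ {v // v ∈ Y'}) {v : V} (h : v ∈ Y) :
    swapE hd e v = e ⟨v, h⟩ := swapFun_of_mem e h

omit [Fintype V] in
theorem swapE_of_mem' (hd : Disjoint Y Y') (e : {v // v ∈ Y} ≃ {v // v ∈ Y'}) {v : V}
    (h : v ∈ Y') : swapE hd e v = e.symm ⟨v, h⟩ := swapFun_of_mem' hd e h

omit [Fintype V] in
theorem swapE_of_not (hd : Disjoint Y Y') (e : {v // v ∈ Y} ≃ {v // v ∈ Y'}) {v : V} (h : v ∉ Y)
    (h' : v ∉ Y') : swapE hd e v = v := swapFun_of_not e h h'

omit [Fintype V] in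
theorem swapE_mul_self (hd : Disjoint Y Y') (e : {v // v ∈ Y} ≃ {v // v ∈ Y'}) :
    swapE hd e * swapE hd e = 1 := by
  ext v
  exact swapFun_involutive hd e v

omit [Fintype V] in
theorem swapE_colour (c : V → I) (hd : Disjoint Y Y') (e : {v // v ∈ Y} ≃ {v // v ∈ Y'})
    (he : ∀ v, c (e v : V) = c v) (v : V) : c (swapE hd e v) = c v := by
  by_cases h : v ∈ Y
  · rw [swapE_of_mem hd e h, he]
  · by_cases h' : v ∈ Y'
    · rw [swapE_of_mem' hd e h']
      have := he (e.symm ⟨v, h'⟩)
      rw [Equiv.apply_symm_apply] at this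
      exact this.symm
    · rw [swapE_of_not hd e h h']

omit [Fintype V] in
theorem map_swapE (hd : Disjoint Y Y') (e : {v // v ∈ Y} ≃ {v // v ∈ Y'}) :
    Y.map (swapE hd e).toEmbedding = Y' := by
  ext v
  rw [Finset.mem_map]
  constructor
  · rintro ⟨w, hw, rfl⟩
    change swapE hd e w ∈ Y'
    rw [swapE_of_mem hd e hw]
    exact (e ⟨w, hw⟩).2
  · intro hv
    refine ⟨(e.symm ⟨v, hv⟩ : V), (e.symm ⟨v, hv⟩).2, ?_⟩
    change swapE hd e _ = v
    rw [swapE_of_mem hd e (e.symm ⟨v, hv⟩).2]
    simp

omit [Fintype V] in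
theorem map_swapE' (hd : Disjoint Y Y') (e : {v // v ∈ Y} ≃ {v // v ∈ Y'}) :
    Y'.map (swapE hd e).toEmbedding = Y := by
  have h : (Y.map (swapE hd e).toEmbedding).map (swapE hd e).toEmbedding = Y := by
    rw [← map_mul, swapE_mul_self, map_one]
  rwa [map_swapE] at h

/-- the sign of a block swap -/
theorem sign_swapE (hd : Disjoint Y Y') (e : {v // v ∈ Y} ≃ {v // v ∈ Y'}) :
    Equiv.Perm.sign (swapE hd e) = (-1) ^ Y.card := by
  rw [Equiv.Perm.sign_of_pow_two_eq_one (by rw [pow_two, swapE_mul_self])]
  congr 1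
  have hcard : Y'.card = Y.card := by
    rw [← Fintype.card_coe Y, ← Fintype.card_coe Y']
    exact (Fintype.card_congr e).symm
  have hfix : Fintype.card (Function.fixedPoints (swapE hd e)) = Fintype.card V - 2 * Y.card := by
    have : Fintype.card (Function.fixedPoints (swapE hd e)) = ((Y ∪ Y')ᶜ : Finset V).card := by
      rw [← Fintype.card_coe]
      refine Fintype.card_congr (Equiv.subtypeEquivRight fun v => ?_)
      rw [Function.mem_fixedPoints, Finset.mem_compl, Finset.mem_union, not_or]
      constructor
      · intro h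
        refine ⟨fun hv => ?_, fun hv => ?_⟩
        · rw [Function.IsFixedPt, swapE_of_mem hd e hv] at h
          exact Finset.disjoint_left.1 hd hv (h ▸ (e ⟨v, hv⟩).2)
        · rw [Function.IsFixedPt, swapE_of_mem' hd e hv] at h
          exact Finset.disjoint_left.1 hd (h ▸ (e.symm ⟨v, hv⟩).2) hv
      · rintro ⟨h, h'⟩
        exact swapE_of_not hd e h h'
    rw [this, Finset.card_compl, Finset.card_union_of_disjoint hd, hcard, two_mul]
  have hle : 2 * Y.card ≤ Fintype.card V := by
    have := Finset.card_le_univ (Y ∪ Y')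
    rw [Finset.card_union_of_disjoint hd, hcard] at this
    omega
  rw [hfix]
  omega

end Swap

/-! ## Induction principles for the stabiliser of a configuration -/

section Stab

variable {c : V → I} {cl : Λ → (I →₀ ℕ)} {S : Finset (Finset V × Λ)}

/-- (O6) a permutation preserving every block is a product of permutations supported in one block -/
theorem IsCfg.block_induction (hS : IsCfg c cl S) (P : Equiv.Perm V → Prop) (h1 : P 1)
    (hmul : ∀ g h, (∀ v, c (g v) = c v) → (∀ v, c (h v) = c v) → P g → P h → P (g * h))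
    (hblock : ∀ p ∈ S, ∀ g : Equiv.Perm V, (∀ v, c (g v) = c v) → (∀ v, v ∉ p.1 → g v = v) → P g)
    (g : Equiv.Perm V) (hg : ∀ v, c (g v) = c v)
    (hgS : ∀ p ∈ S, p.1.map g.toEmbedding = p.1) : P g := by
  classical
  -- induct on the number of blocks on which `g` is not the identity
  have key : ∀ n : ℕ, ∀ g : Equiv.Perm V, (∀ v, c (g v) = c v) →
      (∀ p ∈ S, p.1.map g.toEmbedding = p.1) →
      (S.filter (fun p => ∃ v ∈ p.1, g v ≠ v)).card = n → P g := by
    intro n
    induction n with
    | zero =>
      intro g hg hgS h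
      rw [Finset.card_eq_zero, Finset.filter_eq_empty_iff] at h
      have : g = 1 := by
        ext v
        obtain ⟨p, hp, hv⟩ := hS.cover v
        have := h hp
        push Not at this
        exact this v hv
      rw [this]
      exact h1
    | succ n ih =>
      intro g hg hgS h
      obtain ⟨p, hp⟩ : (S.filter (fun p => ∃ v ∈ p.1, g v ≠ v)).Nonempty := by
        rw [← Finset.card_pos, h]
        omega
      rw [Finset.mem_filter] at hp
      obtain ⟨hpS, hpne⟩ := hp
      have hiff : ∀ v, v ∈ p.1 ↔ g v ∈ p.1 := by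
        intro v
        conv_rhs => rw [← hgS p hpS, Finset.mem_map_equiv]
        simp
      set gp : Equiv.Perm V := Equiv.Perm.ofSubtype (g.subtypePerm (p := fun v => v ∈ p.1)
        (fun v => (hiff v).symm)) with hgp
      have hgp1 : ∀ v, v ∈ p.1 → gp v = g v := by
        intro v hv
        rw [hgp, Equiv.Perm.ofSubtype_apply_of_mem _ hv]
        rfl
      have hgp2 : ∀ v, v ∉ p.1 → gp v = v := by
        intro v hv
        rw [hgp, Equiv.Perm.ofSubtype_apply_of_not_mem _ hv]
      have hgpc : ∀ v, c (gp v) = c v := by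
        intro v
        by_cases hv : v ∈ p.1
        · rw [hgp1 v hv, hg]
        · rw [hgp2 v hv]
      have hgpi : ∀ v, c (gp⁻¹ v) = c v := by
        intro v
        have h := hgpc (gp⁻¹ v)
        have h2 : gp (gp⁻¹ v) = v := gp.apply_symm_apply v
        rw [h2] at h
        exact h.symm
      have hgpi2 : ∀ v, v ∉ p.1 → gp⁻¹ v = v := by
        intro v hv
        rw [Equiv.Perm.inv_eq_iff_eq]
        exact (hgp2 v hv).symm
      have hmapp : p.1.map gp.toEmbedding = p.1 := by
        have : p.1.map gp.toEmbedding = p.1.map g.toEmbedding := by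
          ext v
          simp only [Finset.mem_map]
          constructor
          · rintro ⟨w, hw, rfl⟩
            exact ⟨w, hw, (hgp1 w hw).symm⟩
          · rintro ⟨w, hw, rfl⟩
            exact ⟨w, hw, hgp1 w hw⟩
        rw [this, hgS p hpS]
      have hmapq : ∀ q ∈ S, q ≠ p → q.1.map (gp⁻¹).toEmbedding = q.1 := by
        intro q hq hqp
        ext v
        rw [Finset.mem_map]
        have hdis := hS.disj q hq p hpS hqp
        constructor
        · rintro ⟨w, hw, rfl⟩
          change gp⁻¹ w ∈ q.1
          rw [hgpi2 w (fun h => Finset.disjoint_left.1 hdis hw h)]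
          exact hw
        · intro hv
          exact ⟨v, hv, hgpi2 v (fun h => Finset.disjoint_left.1 hdis hv h)⟩
      have hg' : P (gp⁻¹ * g) := by
        refine ih (gp⁻¹ * g) (fun v => ?_) (fun q hq => ?_) ?_
        · rw [Equiv.Perm.mul_apply, hgpi, hg]
        · rw [map_mul, hgS q hq]
          by_cases hqp : q = p
          · rw [hqp]
            exact map_inv_eq gp hmapp
          · exact hmapq q hq hqp
        · have : S.filter (fun q => ∃ v ∈ q.1, (gp⁻¹ * g) v ≠ v)
              = (S.filter (fun q => ∃ v ∈ q.1, g v ≠ v)).erase p := by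
            ext q
            rw [Finset.mem_erase, Finset.mem_filter, Finset.mem_filter]
            constructor
            · rintro ⟨hq, v, hv, hne⟩
              have hqp : q ≠ p := by
                rintro rfl
                apply hne
                rw [Equiv.Perm.mul_apply, ← hgp1 v hv]
                exact gp.symm_apply_apply v
              refine ⟨hqp, hq, v, hv, fun hgv => hne ?_⟩
              rw [Equiv.Perm.mul_apply, hgv]
              exact hgpi2 v (fun h => Finset.disjoint_left.1 (hS.disj q hq p hpS hqp) hv h)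
            · rintro ⟨hqp, hq, v, hv, hne⟩
              refine ⟨hq, v, hv, fun hgv => hne ?_⟩
              rw [Equiv.Perm.mul_apply, hgpi2] at hgv
              · exact hgv
              · have : g v ∈ q.1 := by
                  have h2 := hgS q hq
                  have h3 : g v ∈ q.1.map g.toEmbedding := Finset.mem_map_of_mem _ hv
                  rwa [h2] at h3
                exact fun h => Finset.disjoint_left.1 (hS.disj q hq p hpS hqp) this h
          rw [this, Finset.card_erase_of_mem (Finset.mem_filter.2 ⟨hpS, hpne⟩), h]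
          rfl
      have := hmul gp (gp⁻¹ * g) hgpc
        (fun v => by rw [Equiv.Perm.mul_apply, hgpi, hg]) (hblock p hpS gp hgpc hgp2) hg'
      rwa [mul_inv_cancel_left] at this
  exact key _ g hg hgS rfl

variable [DecidableEq Λ]

/-- (O4) induction principle for the stabiliser of a configuration: permutations preserving every
block, and one swap for every pair of blocks with equal letters. -/
theorem IsCfg.stab_induction (hS : IsCfg c cl S) (P : Equiv.Perm V → Prop)
    (hmul : ∀ g h, (∀ v, c (g v) = c v) → (∀ v, c (h v) = c v) → P g → P h → P (g * h))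
    (hin : ∀ g : Equiv.Perm V, (∀ v, c (g v) = c v) → (∀ p ∈ S, p.1.map g.toEmbedding = p.1) → P g)
    (hsw : ∀ p ∈ S, ∀ q ∈ S, p ≠ q → p.2 = q.2 → ∃ g : Equiv.Perm V, (∀ v, c (g v) = c v) ∧
      p.1.map g.toEmbedding = q.1 ∧ q.1.map g.toEmbedding = p.1 ∧
      (∀ v, v ∉ p.1 → v ∉ q.1 → g v = v) ∧ P g)
    (g : Equiv.Perm V) (hg : ∀ v, c (g v) = c v) (hgS : act g S = S) : P g := by
  classical
  have key : ∀ n : ℕ, ∀ g : Equiv.Perm V, (∀ v, c (g v) = c v) → act g S = S →
      (S.filter (fun p => p.1.map g.toEmbedding ≠ p.1)).card ≤ n → P g := by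
    intro n
    induction n with
    | zero =>
      intro g hg hgS h
      refine hin g hg fun p hp => ?_
      have h0 := Finset.card_eq_zero.1 (Nat.le_zero.1 h)
      rw [Finset.filter_eq_empty_iff] at h0
      have := h0 hp
      push Not at this
      exact this
    | succ n ih =>
      intro g hg hgS h
      by_cases hne : (S.filter (fun p => p.1.map g.toEmbedding ≠ p.1)).Nonempty
      swap
      · rw [Finset.not_nonempty_iff_eq_empty] at hne
        exact ih g hg hgS (by rw [hne]; simp)
      obtain ⟨p, hp⟩ := hne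
      rw [Finset.mem_filter] at hp
      obtain ⟨hpS, hpne⟩ := hp
      have hqS : (p.1.map g.toEmbedding, p.2) ∈ S := by
        have h := mem_act_of_mem (g := g) hpS
        rwa [hgS] at h
      set q : Finset V × Λ := (p.1.map g.toEmbedding, p.2) with hq
      have hpq : p ≠ q := fun h => hpne (by conv_rhs => rw [h])
      obtain ⟨τ, hτc, hτ1, hτ2, hτ3, hτP⟩ := hsw p hpS q hqS hpq rfl
      have hτi1 : q.1.map (τ⁻¹).toEmbedding = p.1 := map_inv_eq τ hτ1
      have hτi2 : p.1.map (τ⁻¹).toEmbedding = q.1 := map_inv_eq τ hτ2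
      have hτic : ∀ v, c (τ⁻¹ v) = c v := by
        intro v
        have h := hτc (τ⁻¹ v)
        have h2 : τ (τ⁻¹ v) = v := τ.apply_symm_apply v
        rw [h2] at h
        exact h.symm
      have hτr : ∀ r ∈ S, r ≠ p → r ≠ q → r.1.map (τ⁻¹).toEmbedding = r.1 := by
        intro r hr hrp hrq
        refine map_inv_eq τ ?_
        ext v
        rw [Finset.mem_map]
        have h1 := hS.disj r hr p hpS hrp
        have h2 := hS.disj r hr q hqS hrq
        constructor
        · rintro ⟨w, hw, rfl⟩
          change τ w ∈ r.1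
          rw [hτ3 w (fun h => Finset.disjoint_left.1 h1 hw h)
            (fun h => Finset.disjoint_left.1 h2 hw h)]
          exact hw
        · intro hv
          exact ⟨v, hv, hτ3 v (fun h => Finset.disjoint_left.1 h1 hv h)
            (fun h => Finset.disjoint_left.1 h2 hv h)⟩
      have hactτ : act τ⁻¹ S = S := by
        have hsub : act τ⁻¹ S ⊆ S := by
          intro r hr
          obtain ⟨r', hr', h1, h2⟩ := mem_act.1 hr
          by_cases h3 : r' = p
          · have : r = q := by
              refine Prod.ext ?_ ?_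
              · rw [← h1, h3, hτi2]
              · rw [← h2, h3]
            rw [this]; exact hqS
          · by_cases h4 : r' = q
            · have : r = p := by
                refine Prod.ext ?_ ?_
                · rw [← h1, h4, hτi1]
                · rw [← h2, h4]
              rw [this]; exact hpS
            · have : r = r' := Prod.ext (by rw [← h1, hτr r' hr' h3 h4]) h2.symm
              rw [this]; exact hr'
        refine Finset.eq_of_subset_of_card_le hsub ?_
        unfold act
        rw [Finset.card_image_of_injective _ (actFun_injective _)]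
      have hg' : P (τ⁻¹ * g) := by
        refine ih (τ⁻¹ * g) (fun v => by rw [Equiv.Perm.mul_apply, hτic, hg]) ?_ ?_
        · rw [act_mul, hgS, hactτ]
        · have hlt : (S.filter (fun r => r.1.map (τ⁻¹ * g).toEmbedding ≠ r.1)).card
              < (S.filter (fun r => r.1.map g.toEmbedding ≠ r.1)).card := by
            refine Finset.card_lt_card ⟨?_, ?_⟩
            · intro r hr
              rw [Finset.mem_filter] at hr ⊢
              refine ⟨hr.1, fun hfix => hr.2 ?_⟩
              rw [map_mul, hfix]
              refine hτr r hr.1 ?_ ?_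
              · rintro rfl
                exact hpne hfix
              · intro hrq
                have h5 : r.1.map g.toEmbedding = p.1.map g.toEmbedding := by rw [hfix, hrq]
                have h6 : r.1 = p.1 := (Finset.map_injective _) h5
                have h7 : r = p := hS.eq_of_fst hr.1 hpS h6
                exact hpq (h7.symm.trans hrq)
            · intro hsub
              have hp' : p ∈ S.filter (fun r => r.1.map g.toEmbedding ≠ r.1) :=
                Finset.mem_filter.2 ⟨hpS, hpne⟩
              have := (Finset.mem_filter.1 (hsub hp')).2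
              apply this
              rw [map_mul]
              exact hτi1
          omega
      have := hmul τ (τ⁻¹ * g) hτc (fun v => by rw [Equiv.Perm.mul_apply, hτic, hg]) hτP hg'
      rwa [mul_inv_cancel_left] at this
  exact key _ g hg hgS le_rfl

/-- for two blocks of a configuration with equal letters there is a colour preserving swap with sign
`(-1)^|block|` -/
theorem IsCfg.exists_swap (hS : IsCfg c cl S) {p q : Finset V × Λ} (hp : p ∈ S) (hq : q ∈ S)
    (h : p.2 = q.2) :
    ∃ e : {v // v ∈ p.1} ≃ {v // v ∈ q.1}, ∀ v, c (e v : V) = c v :=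
  exists_blockEquiv c (by rw [hS.type p hp, hS.type q hq, h])

/-- a block swap along equal letters stabilises the configuration -/
theorem IsCfg.act_swapE (hS : IsCfg c cl S) {p q : Finset V × Λ} (hp : p ∈ S) (hq : q ∈ S)
    (hd : Disjoint p.1 q.1) (h : p.2 = q.2) (e : {v // v ∈ p.1} ≃ {v // v ∈ q.1}) :
    act (swapE hd e) S = S := by
  have hsub : act (swapE hd e) S ⊆ S := by
    intro r hr
    obtain ⟨r', hr', h1, h2⟩ := mem_act.1 hr
    by_cases h3 : r' = p
    · have : r = q := Prod.ext (by rw [← h1, h3, map_swapE]) (by rw [← h2, h3, h])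
      rw [this]; exact hq
    · by_cases h4 : r' = q
      · have : r = p := Prod.ext (by rw [← h1, h4, map_swapE']) (by rw [← h2, h4, h])
        rw [this]; exact hp
      · have h5 := hS.disj r' hr' p hp h3
        have h6 := hS.disj r' hr' q hq h4
        have hfix : r'.1.map (swapE hd e).toEmbedding = r'.1 := by
          ext v
          rw [Finset.mem_map]
          constructor
          · rintro ⟨w, hw, rfl⟩
            change swapE hd e w ∈ r'.1
            rw [swapE_of_not hd e (fun h => Finset.disjoint_left.1 h5 hw h)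
              (fun h => Finset.disjoint_left.1 h6 hw h)]
            exact hw
          · intro hv
            exact ⟨v, hv, swapE_of_not hd e (fun h => Finset.disjoint_left.1 h5 hv h)
              (fun h => Finset.disjoint_left.1 h6 hv h)⟩
        have : r = r' := Prod.ext (by rw [← h1, hfix]) h2.symm
        rw [this]; exact hr'
  refine Finset.eq_of_subset_of_card_le hsub ?_
  unfold act
  rw [Finset.card_image_of_injective _ (actFun_injective _)]

end Stab

end Crest.Agent.R059.Orb602
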