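import Mathlib
import Crest.Agent.R059.PL7_547
import Crest.Agent.R059.Eng_830
import Crest.Agent.R059.Cnt2_231

/-!
# Row 59, Theorem B, half 2 (helper547): the basis theorem
-/

set_option autoImplicit false
set_option linter.unusedSectionVars false

namespace Crest.Agent.R059.PL547

open MvPolynomial Finset Thin613 Deg359

attribute [local instance] Letters.lo

section basis

variable {I : Type} [Fintype I] [DecidableEq I] {k : I → I → ℕ} {θ : I → ℤ}
  {T : Type} [Fintype T] [LinearOrder T] {cl : T → I → ℕ} {d : I → ℕ} {𝓛 : Letters k θ cl}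

theorem finite_Pl (hcl0 : ∀ t, cl t ≠ 0) : Finite (Pl cl d) := by
  have h : ∀ (m : Pl cl d) (t : T), m.1 t < (∑ i, d i) + 1 := by
    intro m t
    obtain ⟨i, hi⟩ := Function.ne_iff.1 (hcl0 t)
    have h1 : 0 < cl t i := Nat.pos_of_ne_zero hi
    have h2 : m.1 t ≤ m.1 t * cl t i := Nat.le_mul_of_pos_right _ h1
    have h3 : m.1 t * cl t i ≤ ∑ t, m.1 t * cl t i :=
      Finset.single_le_sum (f := fun t => m.1 t * cl t i) (fun _ _ => Nat.zero_le _)
        (Finset.mem_univ t)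
    have h4 := m.2 i
    have h5 : d i ≤ ∑ i, d i :=
      Finset.single_le_sum (f := fun i => d i) (fun _ _ => Nat.zero_le _) (Finset.mem_univ i)
    omega
  refine Finite.of_injective (fun m : Pl cl d => fun t => (⟨m.1 t, h m t⟩ : Fin _)) ?_
  intro m m' hmm
  apply Subtype.ext
  funext t
  have := congrFun hmm t
  simpa using this

variable (k θ cl d) in
/-- the growth data -/
noncomputable def growth : Eng830.Growth ℚ (MvPolynomial (Vt d) ℚ) (Pl cl d) where
  card := Pl.card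
  Gr m g := Gr k θ (colV d) (lab cl d m) g
  mono m := Gr_mono _ _

/-- the index set: places and admissible words -/
abbrev Ix (𝓛 : Letters k θ cl) (d : I → ℕ) : Type :=
  Σ m : Pl cl d, {φ : Wd 𝓛 m.1 // φ.Adm}

variable (hinj : Function.Injective cl) (hcl0 : ∀ t, cl t ≠ 0) (hcl : ∀ t, thc θ (cl t) = 0)
  (hk : ∀ c e : I → ℕ, thc θ c = 0 → thc θ e = 0 → kk k c e = kk k e c)
  (pt : ∀ t, Vt (cl t))

/-- the family -/
noncomputable def family (𝓛 : Letters k θ cl) (d : I → ℕ) :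
    Eng830.Fam (growth k θ cl d) (Ix 𝓛 d) where
  e x := x.2.1.el pt
  k x := x.2.1.tot
  p x := x.1
  mem x m' := el_mem hcl hk pt x.1 m' x.2.1
  memlt x m' hne hc := el_lt hinj hcl0 hcl hk pt x.1 m' hne hc x.2.1

/-- the local data at a place and a level -/
noncomputable def LD (𝓛 : Letters k θ cl) (m : Pl cl d) (g : ℕ) :
    Loc830.Loc ℚ (MvPolynomial (Vt d) ℚ) (Sy k θ (colV d) (lab cl d m)) (GS (colV d))
      {φ : Wd 𝓛 m.1 // φ.tot = g} {φ : {φ : Wd 𝓛 m.1 // φ.tot = g} // φ.1.Adm} :=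
  locD pt (fun t t' => hk _ _ (hcl t) (hcl t')) m g
    (fun φ => by
      have h := Kh_mem hcl hk pt m (w := 1) (fun _ => rfl) (Places494.good_lab hcl m) φ
      have h1 : rename (⇑(1 : Equiv.Perm (Vt d))) (rename (Em cl d m) (φ.Kh pt)) =
          rename (Em cl d m) (φ.Kh pt) := by
        have : (⇑(1 : Equiv.Perm (Vt d))) = id := rfl
        rw [this, rename_id_apply]
      rwa [h1] at h)
    (fun φ => T_Mo m (PLloc830.sym_col hk _) (PLloc830.good_model m.1 hcl) pt φ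
      (PLloc830.inV_lp hcl hk φ))
    (fun w hw hN φ => Kh_lt hcl hk pt m hw (Places494.good_lab hcl m)
      (fun hf => hN (exists_NN hinj pt m hw hf)) φ)
    (indep_eW m g)

theorem P_LD (m : Pl cl d) (g : ℕ) (t : {φ : {φ : Wd 𝓛 m.1 // φ.tot = g} // φ.1.Adm}) :
    Loc830.P (LD hinj hcl hk pt 𝓛 m g) t = t.1.1.el pt := by
  unfold Wd.el
  rw [PLloc830.alt_eq_sum]
  rfl

/-- the index of a local word -/
def ixOf (m : Pl cl d) (g : ℕ) (t : {φ : {φ : Wd 𝓛 m.1 // φ.tot = g} // φ.1.Adm}) : Ix 𝓛 d :=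
  ⟨m, ⟨t.1.1, t.2⟩⟩

theorem ixOf_inj (m : Pl cl d) (g : ℕ) : Function.Injective (ixOf (𝓛 := 𝓛) m g) := by
  intro t t' h
  unfold ixOf at h
  simp only [Sigma.mk.injEq, heq_eq_eq, true_and, Subtype.mk.injEq] at h
  exact Subtype.ext (Subtype.ext h)

theorem mem_range_ixOf (m : Pl cl d) (g : ℕ) (x : Ix 𝓛 d) (h1 : x.1 = m) (h2 : x.2.1.tot = g) :
    x ∈ Set.range (ixOf (𝓛 := 𝓛) m g) := by
  obtain ⟨m', φ, hφ⟩ := x
  change m' = m at h1
  subst h1
  exact ⟨⟨⟨φ, h2⟩, hφ⟩, rfl⟩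

include hinj hcl0 hcl hk in
/-- **independence** -/
theorem indep_basis : LinearIndependent ℚ
    (fun x : Ix 𝓛 d => (J0s k θ (colV d)).mkQ (x.2.1.el pt)) := by
  refine Eng830.ind_quot (family hinj hcl0 hcl hk pt 𝓛 d) (J0s k θ (colV d))
    (fun m g => J0s_le_Gr _ _ (Places494.good_lab hcl m) g) ?_
  intro m g c hc hsum
  have hrange : (c.support : Set (Ix 𝓛 d)) ⊆ Set.range (ixOf (𝓛 := 𝓛) m g) := by
    intro x hx
    exact mem_range_ixOf m g x (hc x hx).1 (hc x hx).2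
  have hmap := Finsupp.mapDomain_comapDomain _ (ixOf_inj (𝓛 := 𝓛) m g) c hrange
  have h0 : c.comapDomain (ixOf m g) (ixOf_inj m g).injOn = 0 := by
    apply Loc830.LI (LD hinj hcl hk pt 𝓛 m g)
    have h1 : ((c.comapDomain (ixOf m g) (ixOf_inj m g).injOn).sum
        fun t x => x • Loc830.P (LD hinj hcl hk pt 𝓛 m g) t) =
        c.sum fun t a => a • (family hinj hcl0 hcl hk pt 𝓛 d).e t := by
      have h2 := Finsupp.sum_mapDomain_index (f := ixOf (𝓛 := 𝓛) m g)
        (s := c.comapDomain (ixOf m g) (ixOf_inj m g).injOn)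
        (h := fun (t : Ix 𝓛 d) (a : ℚ) => a • (family hinj hcl0 hcl hk pt 𝓛 d).e t)
        (fun t => zero_smul ℚ _) (fun t a b => add_smul a b _)
      rw [hmap] at h2
      refine Eq.trans ?_ h2.symm
      refine Finsupp.sum_congr fun t _ => ?_
      rw [P_LD]
      rfl
    rw [h1]
    exact hsum
  rw [← hmap, h0, Finsupp.mapDomain_zero]

include hinj hcl0 hcl hk in
/-- **spanning** -/
theorem span_basis (hT : Places494.AllTypes θ cl d) (hd : thc θ d = 0) :
    Anti (colV d) ≤ J0s k θ (colV d) ⊔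
      Submodule.span ℚ (Set.range fun x : Ix 𝓛 d => x.2.1.el pt) := by
  have := finite_Pl (d := d) hcl0
  have : Fintype (Pl cl d) := Fintype.ofFinite _
  refine Eng830.span_all (family hinj hcl0 hcl hk pt 𝓛 d) (Anti (colV d)) (J0s k θ (colV d))
    (fun x => alt_mem _ _) (fun f _ => Places494.exists_growth_Pl f)
    (fun f hf h => Places494.mem_J0s_of_Pl hT hd hf h) ?_
  intro m g f hf h1 h2
  have hTf := mem_span_eW (𝓛 := 𝓛) hT hcl0 hcl hk m g hf h1 h2
  obtain ⟨h, hh, hB⟩ := Loc830.LS (LD hinj hcl hk pt 𝓛 m g) (h1 m) (fun w _ => hf w w.2) hTf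
  refine ⟨h, ?_, hB⟩
  refine (Submodule.span_mono ?_) hh
  rintro _ ⟨t, rfl⟩
  refine ⟨ixOf m g t, ⟨rfl, t.1.2⟩, ?_⟩
  rw [P_LD]
  rfl

end basis

/-- **Theorem B in basis form** -/
theorem basisThm : Cnt231.BasisThm := by
  intro I _ _ k θ hk
  refine ⟨(exists_letters k θ (T := I → ℕ) (fun c => c)).some, fun d hd => ?_⟩
  obtain ⟨pt⟩ := Cnt231.TT.exists_pt (θ := θ) d
  refine ⟨pt, ?_, ?_⟩
  · exact indep_basis Cnt231.TT.cl_inj Cnt231.TT.cl_ne Cnt231.TT.cl_th hk pt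
  · exact span_basis Cnt231.TT.cl_inj Cnt231.TT.cl_ne Cnt231.TT.cl_th hk pt
      (fun c h0 h1 h2 => Cnt231.TT.all c h0 h1 (fun i => h2 i)) hd

theorem abOut : ABOut := Cnt231.abOut_of_basis basisThm

end Crest.Agent.R059.PL547
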