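import Crest.Agent.R059.Val2_944
import Crest.Agent.R059.PL3_547
import Crest.Agent.R059.PLloc2_830

/-!
# (S1) in the shape of `PL2_547` / `PLloc2_830`: values of the symbol in words of letters
-/

set_option autoImplicit false
set_option linter.unusedSectionVars false

open MvPolynomial Finset

namespace Crest.Agent.R059.PL547

open Crest.Agent.R059.Thin613 Crest.Agent.R059.Val944 Crest.Agent.R059.PLloc830
open Crest.Agent.R059.ThinTens559 (Par arrB thB VB VV)

variable {I : Type} [Fintype I] [DecidableEq I] {k : I → I → ℕ} {θ : I → ℤ}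
  {T : Type} [Fintype T] [LinearOrder T] {cl : T → I → ℕ} {𝓛 : Letters k θ cl} {m : T → ℕ}

/-- the embedding of a block of the model -/
def eS (cl : T → I → ℕ) (m : T → ℕ) (j : Jm m) : Vt (cl j.1) ↪ Sm cl m where
  toFun q := ⟨j, q⟩
  inj' := fun q q' h => eq_of_heq (Sigma.mk.inj h).2

theorem par_blk : Par (blk cl m) (eS cl m) := by
  rintro j ⟨j', q⟩
  constructor
  · intro h
    change j' = j at h
    subst h
    exact ⟨q, rfl⟩
  · rintro ⟨q', h⟩
    change (⟨j, q'⟩ : Sm cl m) = ⟨j', q⟩ at h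
    exact (Sigma.mk.inj h).1.symm

/-- the letters of the blocks -/
def polJ (𝓛 : Letters k θ cl) (m : T → ℕ) (j : Jm m) : 𝓛.L j.1 → MvPolynomial (Vt (cl j.1)) ℚ :=
  𝓛.pol j.1

/-- a word from its letters and exponents -/
def mkW (s : ∀ j : Jm m, 𝓛.L j.1) (a : Jm m → ℕ) : Wd 𝓛 m := fun t r => ⟨s ⟨t, r⟩, a ⟨t, r⟩⟩

theorem mkW_at (s : ∀ j : Jm m, 𝓛.L j.1) (a : Jm m → ℕ) (j : Jm m) :
    (mkW s a).at j = ⟨s j, a j⟩ := rfl

theorem letters_indep (𝓛 : Letters k θ cl) (t : T) :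
    LinearIndependent ℚ fun i =>
      Ideal.Quotient.mk (J0 ℚ (ar k (colV (cl t))) (tw θ (colV (cl t))) univ) (𝓛.pol t i) := by
  rw [linearIndependent_iff]
  intro x hx
  apply 𝓛.indep t x
  change (x.sum fun l a => a • 𝓛.pol t l) ∈ J0 ℚ (ar k (colV (cl t))) (tw θ (colV (cl t))) univ
  rw [← Ideal.Quotient.eq_zero_iff_mem, ← hx, Finsupp.linearCombination_apply, Finsupp.sum,
    Finsupp.sum, map_sum]
  refine Finset.sum_congr rfl fun l _ => ?_
  exact map_smul (Ideal.Quotient.mkₐ ℚ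
    (J0 ℚ (ar k (colV (cl t))) (tw θ (colV (cl t))) univ)).toLinearMap (x l) (𝓛.pol t l)

theorem letters_span (𝓛 : Letters k θ cl) (t : T) :
    VV ℚ (ar k (colV (cl t))) (tw θ (colV (cl t))) (fun _ : Vt (cl t) => ()) ⊓
      Anti (colV (cl t)) ≤ Submodule.span ℚ (Set.range (𝓛.pol t)) ⊔
      (J0 ℚ (ar k (colV (cl t))) (tw θ (colV (cl t))) univ).restrictScalars ℚ := by
  rintro x ⟨h1, h2⟩
  rw [sup_comm]
  exact 𝓛.span t ⟨h2, h1⟩

/-! ### on the model -/

theorem sE_mkW (s : ∀ j : Jm m, 𝓛.L j.1) (a : Jm m → ℕ) :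
    sE (mkW s a) = sym (ar k (colS cl m)) (tw θ (colS cl m)) (blk cl m) (eS cl m) (polJ 𝓛 m) s a :=
  rfl

theorem sE_eq (φ : Wd 𝓛 m) :
    sE φ = sym (ar k (colS cl m)) (tw θ (colS cl m)) (blk cl m) (eS cl m) (polJ 𝓛 m)
      (fun j => (φ.at j).l) (fun j => (φ.at j).a) := rfl

/-- **(S1), span**, on the model -/
theorem top_mem_span (hs : Sym (ar k (colS cl m)) (tw θ (colS cl m)))
    (hb : Good (tw θ (colS cl m)) (blk cl m)) {g : ℤ} {x : MvPolynomial (Sm cl m) ℚ}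
    (hx : x ∈ Anti (colS cl m))
    (h1 : ∀ g' : Sm cl m → Sm cl m, Good (tw θ (colS cl m)) g' →
      ud ℚ (ar k (colS cl m)) (tw θ (colS cl m)) g' ((NF (ar k (colS cl m)) g' : ℤ) + g) x)
    (h2 : ∀ g' : Sm cl m → Sm cl m, Good (tw θ (colS cl m)) g' → Fine g' (blk cl m) →
      ¬ Fine (blk cl m) g' →
      ud ℚ (ar k (colS cl m)) (tw θ (colS cl m)) g' ((NF (ar k (colS cl m)) g' : ℤ) + g - 1) x) :
    Deg359.top ((NF (ar k (colS cl m)) (blk cl m) : ℤ) + g)
      (sh ℚ (ar k (colS cl m)) (tw θ (colS cl m)) (blk cl m) x) ∈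
      Submodule.span ℚ {z | ∃ φ : Wd 𝓛 m, (φ.tot : ℤ) = g ∧ z = sE φ} := by
  have h := span_words hs hb (par_blk (cl := cl) (m := m)) (c := colS cl m)
    (fun a a' d d' ha hd => by simp only [ar, ha, hd]) (fun a a' ha => by simp only [tw, ha])
    (polJ 𝓛 m) (fun j => letters_span 𝓛 j.1) hx h1 h2
  refine Submodule.span_mono ?_ h
  rintro z ⟨s, a, ha, rfl⟩
  exact ⟨mkW s a, ha, (sE_mkW s a).symm⟩

/-- **(S1), independence**, on the model -/
theorem sE_indep : LinearIndependent ℚ (fun φ : Wd 𝓛 m => sE φ) := by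
  have h := indep_words (par_blk (cl := cl) (m := m)) (arr := ar k (colS cl m))
    (th := tw θ (colS cl m)) (polJ 𝓛 m) (fun j => letters_indep 𝓛 j.1)
  have hinj : Function.Injective (fun φ : Wd 𝓛 m =>
      ((fun j => (φ.at j).l, fun j => (φ.at j).a) : (∀ j : Jm m, 𝓛.L j.1) × (Jm m → ℕ))) := by
    intro φ ψ hφ
    funext t r
    have h1 := congrFun (congrArg Prod.fst hφ) ⟨t, r⟩
    have h2 := congrFun (congrArg Prod.snd hφ) ⟨t, r⟩
    exact Al.ext' h1 h2
  have h2 := h.comp _ hinj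
  have h3 : (fun φ : Wd 𝓛 m => sE φ) = (fun φ : (∀ j : Jm m, 𝓛.L j.1) × (Jm m → ℕ) =>
      sym (ar k (colS cl m)) (tw θ (colS cl m)) (blk cl m) (eS cl m) (polJ 𝓛 m) φ.1 φ.2) ∘
      (fun φ : Wd 𝓛 m =>
      ((fun j => (φ.at j).l, fun j => (φ.at j).a) : (∀ j : Jm m, 𝓛.L j.1) × (Jm m → ℕ))) := by
    funext φ
    exact sE_eq φ
  rw [h3]
  exact h2

/-! ### on the standard coloured set -/

section std

variable {d : I → ℕ} (P : Pl cl d)

/-- the embedding of a block of a place -/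
noncomputable def eV (P : Pl cl d) (j : Jm P.1) : Vt (cl j.1) ↪ Vt d :=
  (eS cl P.1 j).trans (Em cl d P).toEmbedding

theorem par_lab : Par (lab cl d P) (eV P) := by
  intro j a
  have h := (par_blk (cl := cl) (m := P.1)) j ((Em cl d P).symm a)
  unfold lab
  rw [h]
  constructor
  · rintro ⟨q, hq⟩
    exact ⟨q, by simp [eV, hq]⟩
  · rintro ⟨q, rfl⟩
    exact ⟨q, by simp [eV]⟩

/-- symbol of a word at the standard labelling of a place -/
noncomputable def sV (φ : Wd 𝓛 P.1) :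
    MvPolynomial (Jm P.1) (MvPolynomial (Vt d) ℚ ⧸ JJ ℚ (ar k (colV d)) (tw θ (colV d))
      (lab cl d P)) :=
  DP _ (ar k (colV d)) (lab cl d P) *
    (C (Ideal.Quotient.mk _ (rename (Em cl d P) φ.lp)) * ∏ j : Jm P.1, X j ^ (φ.at j).a)

theorem sV_eq (φ : Wd 𝓛 P.1) :
    sV P φ = sym (ar k (colV d)) (tw θ (colV d)) (lab cl d P) (eV P) (polJ 𝓛 P.1)
      (fun j => (φ.at j).l) (fun j => (φ.at j).a) := by
  unfold sV sym
  congr 4
  unfold Wd.lp
  rw [map_prod]
  refine Finset.prod_congr rfl fun j _ => ?_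
  rw [rename_rename]
  rfl

theorem colV_eV (j : Jm P.1) : colV d ∘ eV P j = colV (cl j.1) := by
  funext q
  exact Em_col cl d P _

/-- **(S1), span**, at a place of `Vt d` -/
theorem top_mem_span_V (hs : Sym (ar k (colV d)) (tw θ (colV d)))
    (hb : Good (tw θ (colV d)) (lab cl d P)) {g : ℤ} {x : MvPolynomial (Vt d) ℚ}
    (hx : x ∈ Anti (colV d))
    (h1 : ∀ g' : Vt d → Vt d, Good (tw θ (colV d)) g' →
      ud ℚ (ar k (colV d)) (tw θ (colV d)) g' ((NF (ar k (colV d)) g' : ℤ) + g) x)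
    (h2 : ∀ g' : Vt d → Vt d, Good (tw θ (colV d)) g' → Fine g' (lab cl d P) →
      ¬ Fine (lab cl d P) g' →
      ud ℚ (ar k (colV d)) (tw θ (colV d)) g' ((NF (ar k (colV d)) g' : ℤ) + g - 1) x) :
    Deg359.top ((NF (ar k (colV d)) (lab cl d P) : ℤ) + g)
      (sh ℚ (ar k (colV d)) (tw θ (colV d)) (lab cl d P) x) ∈
      Submodule.span ℚ {z | ∃ φ : Wd 𝓛 P.1, (φ.tot : ℤ) = g ∧ z = sV P φ} := by
  have harr : ∀ j : Jm P.1, arrB (ar k (colV d)) (eV P j) = ar k (colV (cl j.1)) := by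
    intro j
    funext q q'
    have h3 := congrFun (colV_eV P j) q
    have h4 := congrFun (colV_eV P j) q'
    simp only [Function.comp_apply] at h3 h4
    simp only [arrB, ar, h3, h4]
  have hth : ∀ j : Jm P.1, thB (tw θ (colV d)) (eV P j) = tw θ (colV (cl j.1)) := by
    intro j
    funext q
    have h3 := congrFun (colV_eV P j) q
    simp only [Function.comp_apply] at h3
    simp only [thB, tw, h3]
  have h := span_words hs hb (par_lab P) (c := colV d)
    (fun a a' d d' ha hd => by simp only [ar, ha, hd]) (fun a a' ha => by simp only [tw, ha])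
    (polJ 𝓛 P.1) (fun j => by
      rw [colV_eV, harr, hth]
      unfold VB
      rw [harr, hth]
      exact letters_span 𝓛 j.1) hx h1 h2
  refine Submodule.span_mono ?_ h
  rintro z ⟨s, a, ha, rfl⟩
  exact ⟨mkW s a, ha, (sV_eq P (mkW s a)).symm⟩

/-- **(S1), independence**, at a place of `Vt d` -/
theorem sV_indep : LinearIndependent ℚ (fun φ : Wd 𝓛 P.1 => sV P φ) := by
  have harr : ∀ j : Jm P.1, arrB (ar k (colV d)) (eV P j) = ar k (colV (cl j.1)) := by
    intro j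
    funext q q'
    have h3 := congrFun (colV_eV P j) q
    have h4 := congrFun (colV_eV P j) q'
    simp only [Function.comp_apply] at h3 h4
    simp only [arrB, ar, h3, h4]
  have hth : ∀ j : Jm P.1, thB (tw θ (colV d)) (eV P j) = tw θ (colV (cl j.1)) := by
    intro j
    funext q
    have h3 := congrFun (colV_eV P j) q
    simp only [Function.comp_apply] at h3
    simp only [thB, tw, h3]
  have h := indep_words (par_lab P) (arr := ar k (colV d))
    (th := tw θ (colV d)) (polJ 𝓛 P.1) (fun j => by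
      rw [harr, hth]
      exact letters_indep 𝓛 j.1)
  have hinj : Function.Injective (fun φ : Wd 𝓛 P.1 =>
      ((fun j => (φ.at j).l, fun j => (φ.at j).a) : (∀ j : Jm P.1, 𝓛.L j.1) × (Jm P.1 → ℕ))) := by
    intro φ ψ hφ
    funext t r
    have h1 := congrFun (congrArg Prod.fst hφ) ⟨t, r⟩
    have h2 := congrFun (congrArg Prod.snd hφ) ⟨t, r⟩
    exact Al.ext' h1 h2
  have h2 := h.comp _ hinj
  have h3 : (fun φ : Wd 𝓛 P.1 => sV P φ) = (fun φ : (∀ j : Jm P.1, 𝓛.L j.1) × (Jm P.1 → ℕ) =>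
      sym (ar k (colV d)) (tw θ (colV d)) (lab cl d P) (eV P) (polJ 𝓛 P.1) φ.1 φ.2) ∘
      (fun φ : Wd 𝓛 P.1 =>
      ((fun j => (φ.at j).l, fun j => (φ.at j).a) : (∀ j : Jm P.1, 𝓛.L j.1) × (Jm P.1 → ℕ))) := by
    funext φ
    exact sV_eq P φ
  rw [h3]
  exact h2

end std

end Crest.Agent.R059.PL547
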