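import Crest.Agent.R059.JDefs_853

set_option autoImplicit false

/-!
Row 59 (S0081), JOINT block (J1): push-forward of twisted power series along a homomorphism of
lattices `φ : M →+ M'` with finite fibres and a cocycle `lam`.
-/

namespace Crest.Agent.R059

open Finset HasAntidiagonal PowerSeries

namespace TPS

variable {M M' : Type*} [AddCommMonoid M] [AddCommMonoid M'] {R : Type*} [CommRing R]

/-- data for a push-forward `X_m ↦ lam m • X_{φ m}`. -/
structure PushData (T : Tw M R) (T' : Tw M' R) where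
  /-- the map of lattices -/
  φ : M →+ M'
  /-- the fibres -/
  fib : M' → Finset M
  mem_fib : ∀ m' m, m ∈ fib m' ↔ φ m = m'
  /-- the cocycle -/
  lam : M → R
  lam_zero : lam 0 = 1
  lam_mul : ∀ a b, lam a * lam b * wt T' (φ a) (φ b) = wt T a b * lam (a + b)

variable {T : Tw M R} {T' : Tw M' R}

/-- push-forward as a map. -/
def pushFun (D : PushData T T') (f : TPS T) : TPS T' :=
  ⟨fun m' => ∑ m ∈ D.fib m', D.lam m * f.co m⟩

theorem co_pushFun (D : PushData T T') (f : TPS T) (m' : M') :
    (pushFun D f).co m' = ∑ m ∈ D.fib m', D.lam m * f.co m := rfl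

theorem pushFun_one (D : PushData T T') : pushFun D (1 : TPS T) = 1 := by
  classical
  ext m'
  rw [co_pushFun, co_one]
  by_cases h : m' = 0
  · subst h
    rw [if_pos rfl, Finset.sum_eq_single 0]
    · rw [D.lam_zero, co_one_zero, one_mul]
    · intro b _ hb
      rw [co_one_ne hb, mul_zero]
    · intro h0
      exact absurd ((D.mem_fib 0 0).2 (map_zero _)) h0
  · rw [if_neg h]
    refine Finset.sum_eq_zero fun m hm => ?_
    rw [D.mem_fib] at hm
    have : m ≠ 0 := by
      rintro rfl
      exact h (by rw [← hm, map_zero])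
    rw [co_one_ne this, mul_zero]

variable [HasAntidiagonal M] [HasAntidiagonal M']

theorem pushFun_mul (D : PushData T T') (f g : TPS T) :
    pushFun D (f * g) = pushFun D f * pushFun D g := by
  classical
  ext m'
  rw [co_pushFun, co_mul]
  simp only [co_mul, co_pushFun, Finset.mul_sum, Finset.sum_mul, Finset.sum_sigma']
  apply Finset.sum_nbij' (fun x => ⟨(D.φ x.2.1, D.φ x.2.2), ⟨x.2.2, x.2.1⟩⟩)
    (fun y => ⟨y.2.2 + y.2.1, (y.2.2, y.2.1)⟩)
  · rintro ⟨m, ⟨a, b⟩⟩ hx
    simp only [mem_sigma, HasAntidiagonal.mem_antidiagonal, D.mem_fib] at hx ⊢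
    obtain ⟨h1, h2⟩ := hx
    subst h2
    exact ⟨by rw [← map_add]; exact h1, trivial, trivial⟩
  · rintro ⟨⟨a', b'⟩, ⟨b, a⟩⟩ hx
    simp only [mem_sigma, HasAntidiagonal.mem_antidiagonal, D.mem_fib] at hx ⊢
    obtain ⟨h1, h2, h3⟩ := hx
    exact ⟨by rw [map_add, h2, h3]; exact h1, trivial⟩
  · rintro ⟨m, ⟨a, b⟩⟩ hx
    simp only [mem_sigma, HasAntidiagonal.mem_antidiagonal] at hx
    obtain ⟨h1, h2⟩ := hx
    subst h2
    rfl
  · rintro ⟨⟨a', b'⟩, ⟨b, a⟩⟩ hx
    simp only [mem_sigma, HasAntidiagonal.mem_antidiagonal, D.mem_fib] at hx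
    obtain ⟨h1, h2, h3⟩ := hx
    subst h2
    subst h3
    rfl
  · rintro ⟨m, ⟨a, b⟩⟩ hx
    simp only [mem_sigma, HasAntidiagonal.mem_antidiagonal] at hx
    obtain ⟨h1, h2⟩ := hx
    subst h2
    simp only
    have h := D.lam_mul a b
    linear_combination (- (f.co a * g.co b)) * h

/-- push-forward as a ring homomorphism. -/
noncomputable def push (D : PushData T T') : TPS T →+* TPS T' where
  toFun := pushFun D
  map_one' := pushFun_one D
  map_mul' := pushFun_mul D
  map_zero' := by
    ext m'; rw [co_pushFun]; simp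
  map_add' f g := by
    ext m'
    rw [co_add, co_pushFun, co_pushFun, co_pushFun, ← Finset.sum_add_distrib]
    exact Finset.sum_congr rfl fun m _ => by rw [co_add, mul_add]

theorem co_push (D : PushData T T') (f : TPS T) (m' : M') :
    (push D f).co m' = ∑ m ∈ D.fib m', D.lam m * f.co m := rfl

theorem exists_of_co_push_ne {D : PushData T T'} {f : TPS T} {m' : M'}
    (h : (push D f).co m' ≠ 0) : ∃ m, D.φ m = m' ∧ f.co m ≠ 0 := by
  rw [co_push] at h
  obtain ⟨m, hm, hne⟩ := Finset.exists_ne_zero_of_sum_ne_zero h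
  exact ⟨m, (D.mem_fib _ _).1 hm, fun h0 => hne (by rw [h0, mul_zero])⟩

theorem co_push_zero {D : PushData T T'} (hφ : ∀ m, D.φ m = 0 → m = 0) (f : TPS T) :
    (push D f).co 0 = f.co 0 := by
  rw [co_push, Finset.sum_eq_single 0]
  · rw [D.lam_zero, one_mul]
  · intro b hb hb0
    exact absurd (hφ b ((D.mem_fib _ _).1 hb)) hb0
  · intro h0
    exact absurd ((D.mem_fib 0 0).2 (map_zero _)) h0

theorem In1.push {D : PushData T T'} (hφ : ∀ m, D.φ m = 0 → m = 0) {P : M → Prop}
    {P' : M' → Prop} (hP : ∀ m, P m → P' (D.φ m)) {f : TPS T} (hf : In1 P f) :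
    In1 P' (TPS.push D f) := by
  refine ⟨by rw [co_push_zero hφ, hf.one], fun d' hd' hPd' => ?_⟩
  by_contra hne
  obtain ⟨m, hm, hfm⟩ := exists_of_co_push_ne hne
  rcases hf.eq_zero_or hfm with h | h
  · exact hd' (by rw [← hm, h, map_zero])
  · exact hPd' (hm ▸ hP m h)

theorem continuous_push [TopologicalSpace R] [IsTopologicalRing R] (D : PushData T T') :
    Continuous (push D : TPS T → TPS T') := by
  rw [continuous_iff_co]
  intro d
  simp only [co_push]
  exact continuous_finsetSum _ fun m _ => continuous_const.mul (continuous_co m)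

omit [HasAntidiagonal M] [HasAntidiagonal M'] in
theorem co_ray_nsmul {c : M} (hc : Function.Injective (fun k : ℕ => k • c)) (e : ℕ → R) (k : ℕ) :
    (ray T c e).co (k • c) = e k := by
  have h := hc.extend_apply e (0 : M → R) k
  exact h

omit [HasAntidiagonal M] [HasAntidiagonal M'] in
theorem co_ray_of_not {c : M} (e : ℕ → R) {d : M} (hd : ∀ k : ℕ, d ≠ k • c) :
    (ray T c e).co d = 0 := by
  have : ¬ ∃ k : ℕ, k • c = d := by rintro ⟨k, hk⟩; exact hd k hk.symm
  simp [ray, Function.extend_apply' _ _ _ this]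

omit [HasAntidiagonal M] [HasAntidiagonal M'] in
theorem ev_eq_ray (c : M) (f : R⟦X⟧) : ev T c f = ray T c (fun k => coeff k f * pw T c k) := rfl

/-- push-forward of a series on a ray. -/
theorem push_ray (D : PushData T T') {c : M} (hc : Function.Injective (fun k : ℕ => k • c))
    (hc' : Function.Injective (fun k : ℕ => k • D.φ c)) (e : ℕ → R) :
    push D (ray T c e) = ray T' (D.φ c) (fun k => D.lam (k • c) * e k) := by
  classical
  ext m'
  by_cases h : ∃ k : ℕ, m' = k • D.φ c
  · obtain ⟨k, rfl⟩ := h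
    rw [co_ray_nsmul hc', co_push, Finset.sum_eq_single (k • c)]
    · rw [co_ray_nsmul hc]
    · intro b hb hbk
      rw [D.mem_fib] at hb
      by_cases h' : ∃ j : ℕ, b = j • c
      · obtain ⟨j, rfl⟩ := h'
        exfalso
        apply hbk
        rw [map_nsmul] at hb
        rw [hc' hb]
      · push Not at h'
        rw [co_ray_of_not _ h', mul_zero]
    · intro h0
      exact absurd ((D.mem_fib _ _).2 (map_nsmul _ _ _)) h0
  · push Not at h
    rw [co_ray_of_not _ h]
    by_contra hne
    obtain ⟨m, hm, hfm⟩ := exists_of_co_push_ne hne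
    by_cases h' : ∃ j : ℕ, m = j • c
    · obtain ⟨j, rfl⟩ := h'
      exact h j (by rw [← hm, map_nsmul])
    · push Not at h'
      exact hfm (co_ray_of_not _ h')

end TPS

end Crest.Agent.R059
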