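import Crest.Agent.R059.TPS_883

set_option autoImplicit false

/-!
Row 59 (S0081), block JOINT (J1, J2).  Ordered products of one-vertex series in the twisted ring of
a quiver, and push-forward of twisted series.
-/

namespace Crest.Agent.R059.Quiver269

open Finset TPS

/-! ### J2: ordered products of one-vertex series -/

section ray

variable {V : Type*} [DecidableEq V] {R : Type*} [CommRing R] {T : Tw (V →₀ ℕ) R}

/-- the series `∑ₙ c n · Y_{n v}`. -/
noncomputable def ray (T : Tw (V →₀ ℕ) R) (v : V) (c : ℕ → R) : TPS T :=
  ⟨fun d => if d = Finsupp.single v (d v) then c (d v) else 0⟩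

theorem co_ray (v : V) (c : ℕ → R) (d : V →₀ ℕ) :
    (ray T v c).co d = if d = Finsupp.single v (d v) then c (d v) else 0 := rfl

theorem co_ray_single (v : V) (c : ℕ → R) (n : ℕ) :
    (ray T v c).co (Finsupp.single v n) = c n := by
  rw [co_ray]; simp

/-- product of a one-vertex series and a series not involving the vertex. -/
theorem co_ray_mul (v : V) (c : ℕ → R) (f : TPS T) (hf : ∀ d, d v ≠ 0 → f.co d = 0)
    (d : V →₀ ℕ) :
    (ray T v c * f).co d =
      wt T (Finsupp.single v (d v)) (d.erase v) * (c (d v) * f.co (d.erase v)) := by
  rw [co_mul, Finset.sum_eq_single (Finsupp.single v (d v), d.erase v)]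
  · simp only
    rw [co_ray_single]
  · rintro ⟨a, b⟩ hp hne
    rw [HasAntidiagonal.mem_antidiagonal] at hp
    simp only at hp
    by_cases ha : a = Finsupp.single v (a v)
    · by_cases hb : b v = 0
      · exfalso
        apply hne
        have hav : a v = d v := by rw [← hp]; simp [hb]
        have h1 : a = Finsupp.single v (d v) := by rw [ha, hav]
        refine Prod.ext h1 ?_
        simp only
        ext w
        by_cases hw : w = v
        · subst hw; simp [hb]
        · rw [Finsupp.erase_ne hw, ← hp]
          have : a w = 0 := by rw [ha]; exact Finsupp.single_eq_of_ne hw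
          simp [this]
      · rw [hf b hb]; ring
    · rw [co_ray, if_neg ha]; ring
  · intro h
    exfalso
    apply h
    rw [HasAntidiagonal.mem_antidiagonal]
    simp only
    exact Finsupp.single_add_erase v d

end ray

end Crest.Agent.R059.Quiver269
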