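import Crest.Agent.R059.Grnd_883

set_option autoImplicit false

/-!
Row 59 (S0081), Step 2, the chain of mutations `u_0, u_1, …, u_{n-1}`: the seeds.

Seed `k` (`0 ≤ k ≤ n`) has the nodes `W_1, …, W_{k-1}, -u_{k-1}, u_k, W_{k+1}, …, W_{n-1}` at the
positions `0, …, n-1` (`W_j = u_j - u_{j-1}`); seed `0` is `u_0, W_1, …, W_{n-1}`.
`uk k m` = the `u`-coordinates of the exponent `m` at seed `k`.
-/

namespace Crest.Agent.R059.Seeds231

open Finset Crest.CombinatoricsR.UnitInterval

variable {n : ℕ}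

/-- basis vector `u_j`, `j : ℕ` (zero if `n ≤ j`). -/
def U (n : ℕ) (j : ℕ) : Fin n → ℤ := fun i => if (i : ℕ) = j then 1 else 0

theorem U_val (c : Fin n) : U n c = Kill59.u c := by
  funext i
  simp only [U, Kill59.u, Pi.single_apply, Fin.ext_iff]

theorem U_val' {j : ℕ} (hj : j < n) : U n j = Kill59.u ⟨j, hj⟩ := U_val ⟨j, hj⟩

/-- the class of the node at position `j` of seed `k`. -/
def cls (k : ℕ) (j : Fin n) : Fin n → ℤ :=
  if (j : ℕ) + 1 < k then U n (j + 1) - U n j
  else if (j : ℕ) + 1 = k then - U n j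
  else if (j : ℕ) = k then U n k
  else U n j - U n (j - 1)

/-- `u`-coordinates of an exponent at seed `k`. -/
noncomputable def uk (k : ℕ) : (Fin n →₀ ℕ) →+ (Fin n → ℤ) where
  toFun m := ∑ j, (m j : ℤ) • cls k j
  map_zero' := by simp
  map_add' a b := by
    simp only [Finsupp.add_apply, Nat.cast_add, add_smul, Finset.sum_add_distrib]

theorem uk_apply (k : ℕ) (m : Fin n →₀ ℕ) : uk k m = ∑ j, (m j : ℤ) • cls k j := rfl

theorem uk_single (k : ℕ) (j : Fin n) (a : ℕ) :
    uk k (Finsupp.single j a) = (a : ℤ) • cls k j := by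
  rw [uk_apply, Finset.sum_eq_single j]
  · simp
  · intro b _ hb; rw [Finsupp.single_apply, if_neg (Ne.symm hb)]; simp
  · simp

theorem cls_self {k : ℕ} (hk : k < n) : cls k (⟨k, hk⟩ : Fin n) = U n k := by
  unfold cls
  simp only
  rw [if_neg (by omega), if_neg (by omega), if_pos trivial]

theorem cls_succ_self {k : ℕ} (hk : k < n) : cls (k + 1) (⟨k, hk⟩ : Fin n) = - U n k := by
  unfold cls
  simp only
  rw [if_neg (by omega), if_pos trivial]

theorem uk_zero_eq (m : Fin n →₀ ℕ) : uk 0 m = uco m := by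
  have key : ∀ m : Fin n →₀ ℕ, (uk 0 m : Fin n → ℤ) = uco m := by
    intro m
    induction m using Finsupp.induction_linear with
    | zero => rw [map_zero, uco_zero]
    | add f g hf hg => rw [map_add, uco_add, hf, hg]
    | single j a =>
      rw [uk_single]
      have h1 : Finsupp.single j a = a • Finsupp.single j 1 := by
        rw [Finsupp.smul_single, smul_eq_mul, mul_one]
      rw [h1, uco_nsmul]
      congr 1
      obtain ⟨j, hj⟩ := j
      cases j with
      | zero =>
        rw [uco_single_zero, ← U_val' hj]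
        unfold cls
        simp only
        rw [if_neg (by omega), if_neg (by omega), if_pos trivial]
      | succ j =>
        rw [uco_single, Kill59.W, ← U_val' hj, ← U_val' (show j < n by omega)]
        unfold cls
        simp only
        rw [if_neg (by omega), if_neg (by omega), if_neg (by omega)]
        rfl
  exact key m

/-! ### the form on the `u_j` -/

theorem s_UU_adj (h : Fin n → ℕ) {i j : ℕ} (hi : i < n) (hj : j < n) (hij : i < j) :
    Kill59.s h (U n i) (U n j) = if j + 1 ≤ h ⟨i, hi⟩ then 1 else 0 := by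
  rw [U_val' hi, U_val' hj, Kill59.s_u_u]
  unfold Kill59.e
  have h1 : (⟨i, hi⟩ : Fin n) < ⟨j, hj⟩ := by simp only [Fin.lt_def]; exact hij
  have h2 : ¬ (⟨j, hj⟩ : Fin n) < ⟨i, hi⟩ := not_lt.mpr h1.le
  simp only [h1, h2, true_and, false_and, if_false]

theorem s_self (h : Fin n → ℕ) (x : Fin n → ℤ) : Kill59.s h x x = 0 := by
  have := Kill59.s_skew h x x; omega

theorem s_neg_right (h : Fin n → ℕ) (x y : Fin n → ℤ) : Kill59.s h x (-y) = - Kill59.s h x y := by
  have h1 := Kill59.s_sub_right h x 0 y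
  have h2 : Kill59.s h x 0 = 0 := by simp [Kill59.s]
  rw [zero_sub, h2, zero_sub] at h1
  exact h1

theorem s_add_right (h : Fin n → ℕ) (x y z : Fin n → ℤ) :
    Kill59.s h x (y + z) = Kill59.s h x y + Kill59.s h x z := by
  rw [Kill59.s_skew, Kill59.s_add_left, Kill59.s_skew h y, Kill59.s_skew h z]; ring

theorem s_smul_right (h : Fin n → ℕ) (k : ℤ) (x z : Fin n → ℤ) :
    Kill59.s h x (k • z) = k * Kill59.s h x z := by
  rw [Kill59.s_skew, Kill59.s_smul_left, Kill59.s_skew h z]; ring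

/-- `[s(u_k, node j)]_+ = 1` at the neighbours of `k` in the chain. -/
theorem s_U_cls_near (h : Fin n → ℕ)
    (hc : ∀ i : Fin n, (i : ℕ) + 1 < n → (i : ℕ) + 2 ≤ h i) {k : ℕ} (hk : k < n) (j : Fin n)
    (hj : (j : ℕ) + 1 = k ∨ (j : ℕ) = k + 1) : Kill59.s h (U n k) (cls k j) = 1 := by
  rcases hj with hj | hj
  · have h1 : cls k j = - U n j := by
      unfold cls
      rw [if_neg (by omega), if_pos hj]
    rw [h1, s_neg_right, Kill59.s_skew, neg_neg, s_UU_adj h j.2 hk (by omega)]
    rw [if_pos]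
    have := hc j (by omega)
    have h2 : (⟨(j : ℕ), j.2⟩ : Fin n) = j := rfl
    rw [h2]; omega
  · have h1 : cls k j = U n j - U n (j - 1) := by
      unfold cls
      rw [if_neg (by omega), if_neg (by omega), if_neg (by omega)]
    have h2 : (j : ℕ) - 1 = k := by omega
    rw [h1, h2, Kill59.s_sub_right, s_self, s_UU_adj h hk j.2 (by omega), sub_zero, if_pos]
    have h3 := hc ⟨k, hk⟩ (by have := j.2; simp only; omega)
    simp only at h3
    omega

/-- `s(u_k, node j) ≤ 0` at the other positions. -/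
theorem s_U_cls_far (h : Fin n → ℕ) (hh : IsHessenberg h) {k : ℕ} (hk : k < n) (j : Fin n)
    (hj1 : (j : ℕ) + 1 ≠ k) (hj2 : (j : ℕ) ≠ k + 1) : Kill59.s h (U n k) (cls k j) ≤ 0 := by
  rcases lt_trichotomy (j : ℕ) k with hjk | hjk | hjk
  · have h1 : cls k j = U n (j + 1) - U n j := by
      unfold cls
      rw [if_pos (by omega)]
    rw [h1, Kill59.s_sub_right, Kill59.s_skew h _ (U n (j + 1)), Kill59.s_skew h _ (U n j),
      s_UU_adj h (show (j : ℕ) + 1 < n by omega) hk (by omega), s_UU_adj h j.2 hk hjk]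
    have h2 : h ⟨(j : ℕ), j.2⟩ ≤ h ⟨(j : ℕ) + 1, by omega⟩ := hh.1 (by simp [Fin.le_def])
    split_ifs <;> omega
  · have h1 : cls k j = U n k := by
      unfold cls
      rw [if_neg (by omega), if_neg (by omega), if_pos hjk]
    rw [h1, s_self]
  · have h1 : cls k j = U n j - U n (j - 1) := by
      unfold cls
      rw [if_neg (by omega), if_neg (by omega), if_neg (by omega)]
    rw [h1, Kill59.s_sub_right, s_UU_adj h hk j.2 hjk,
      s_UU_adj h hk (show (j : ℕ) - 1 < n by have := j.2; omega) (by omega)]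
    split_ifs <;> omega

/-- **the mutation rule for the classes.** -/
theorem cls_succ (h : Fin n → ℕ) (hh : IsHessenberg h)
    (hc : ∀ i : Fin n, (i : ℕ) + 1 < n → (i : ℕ) + 2 ≤ h i) {k : ℕ} (hk : k < n) (j : Fin n)
    (hj : (j : ℕ) ≠ k) :
    cls (k + 1) j = cls k j + ((Kill59.s h (U n k) (cls k j)).toNat : ℤ) • U n k := by
  by_cases hj1 : (j : ℕ) + 1 = k ∨ (j : ℕ) = k + 1
  · rw [s_U_cls_near h hc hk j hj1]
    have h0 : (((1 : ℤ).toNat : ℕ) : ℤ) = 1 := rfl
    rw [h0, one_smul]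
    unfold cls
    rcases hj1 with hj1 | hj1
    · rw [if_pos (by omega), if_neg (by omega), if_pos hj1, hj1]; abel
    · have h2 : (j : ℕ) - 1 = k := by omega
      rw [if_neg (by omega), if_neg (by omega), if_pos hj1, if_neg (by omega), if_neg (by omega),
        if_neg (by omega), h2, hj1]
      abel
  · push Not at hj1
    have h1 := s_U_cls_far h hh hk j hj1.1 hj1.2
    rw [Int.toNat_of_nonpos h1, Nat.cast_zero, zero_smul, add_zero]
    unfold cls
    rcases lt_trichotomy (j : ℕ) k with hjk | hjk | hjk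
    · rw [if_pos (by omega), if_pos (by omega)]
    · exact absurd hjk hj
    · rw [if_neg (by omega), if_neg (by omega), if_neg (by omega), if_neg (by omega),
        if_neg (by omega), if_neg (by omega)]

/-! ### the degree -/

/-- the degree `u_j ↦ 1`. -/
def dg (x : Fin n → ℤ) : ℤ := ∑ i, x i

theorem dg_add (x y : Fin n → ℤ) : dg (x + y) = dg x + dg y := by
  simp [dg, Finset.sum_add_distrib]

theorem dg_neg (x : Fin n → ℤ) : dg (-x) = - dg x := by
  simp [dg]

theorem dg_sub (x y : Fin n → ℤ) : dg (x - y) = dg x - dg y := by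
  simp [dg]

theorem dg_smul (k : ℤ) (x : Fin n → ℤ) : dg (k • x) = k * dg x := by
  simp [dg, Finset.mul_sum]

theorem dg_U {j : ℕ} (hj : j < n) : dg (U n j) = 1 := by
  unfold dg U
  rw [Finset.sum_eq_single (⟨j, hj⟩ : Fin n)]
  · simp
  · intro b _ hb
    rw [if_neg]
    intro h1; exact hb (Fin.ext h1)
  · simp

/-- the degree of an exponent at seed `k`. -/
noncomputable def xk (k : ℕ) : (Fin n →₀ ℕ) →+ ℤ where
  toFun m := dg (uk k m)
  map_zero' := by simp [dg]
  map_add' a b := by rw [map_add, dg_add]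

theorem xk_apply (k : ℕ) (m : Fin n →₀ ℕ) : xk k m = dg (uk k m) := rfl

theorem dg_cls {k : ℕ} (hk : k ≤ n) (j : Fin n) :
    dg (cls k j) = if (j : ℕ) = k then 1 else if (j : ℕ) + 1 = k then -1 else 0 := by
  have hjn := j.2
  unfold cls
  by_cases h1 : (j : ℕ) + 1 < k
  · rw [if_pos h1, if_neg (by omega), if_neg (by omega), dg_sub, dg_U hjn]
    by_cases h2 : (j : ℕ) + 1 < n
    · rw [dg_U h2]; ring
    · exact absurd hk (by omega)
  · rw [if_neg h1]
    by_cases h2 : (j : ℕ) + 1 = k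
    · rw [if_pos h2, if_neg (by omega), if_pos h2, dg_neg, dg_U hjn]
    · rw [if_neg h2]
      by_cases h3 : (j : ℕ) = k
      · rw [if_pos h3, if_pos h3, ← h3, dg_U hjn]
      · rw [if_neg h3, if_neg h3, if_neg h2, dg_sub, dg_U hjn, dg_U (by omega)]; ring

/-- at the last seed all degrees are `≤ 0`. -/
theorem xk_last (m : Fin n →₀ ℕ) : xk n m ≤ 0 := by
  rw [xk_apply, uk_apply]
  have h1 : dg (∑ j, (m j : ℤ) • cls n j) = ∑ j, (m j : ℤ) * dg (cls n j) := by
    unfold dg
    simp only [Finset.sum_apply, Pi.smul_apply, smul_eq_mul, Finset.mul_sum]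
    rw [Finset.sum_comm]
  rw [h1]
  refine Finset.sum_nonpos fun j _ => ?_
  rw [dg_cls le_rfl, if_neg (by have := j.2; omega)]
  split_ifs
  · have : (0 : ℤ) ≤ (m j : ℤ) := Int.natCast_nonneg _
    linarith
  · simp

/-- at seed `0` the degree is the coefficient of the first node. -/
theorem xk_zero (hn : 0 < n) (m : Fin n →₀ ℕ) : xk 0 m = m ⟨0, hn⟩ := by
  rw [xk_apply, uk_apply]
  have h1 : dg (∑ j, (m j : ℤ) • cls 0 j) = ∑ j, (m j : ℤ) * dg (cls 0 j) := by
    unfold dg
    simp only [Finset.sum_apply, Pi.smul_apply, smul_eq_mul, Finset.mul_sum]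
    rw [Finset.sum_comm]
  rw [h1, Finset.sum_eq_single (⟨0, hn⟩ : Fin n)]
  · rw [dg_cls (Nat.zero_le _), if_pos rfl, mul_one]
  · intro b _ hb
    rw [dg_cls (Nat.zero_le _), if_neg (fun h => hb (Fin.ext h)), if_neg (by omega), mul_zero]
  · simp

/-! ### the exponents of the `u_j` at seed `k` -/

/-- exponent of `u_j` at seed `k ≤ j`. -/
noncomputable def uv (n k j : ℕ) : Fin n →₀ ℕ :=
  Finsupp.equivFunOnFinite.symm (fun i : Fin n => if k ≤ (i : ℕ) ∧ (i : ℕ) ≤ j then (1 : ℕ) else 0)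

theorem uv_apply (k j : ℕ) (i : Fin n) : uv n k j i = if k ≤ (i : ℕ) ∧ (i : ℕ) ≤ j then 1 else 0 :=
  rfl

theorem uv_zero (j : Fin n) : uv n 0 j = ux j := by
  ext i
  rw [uv_apply, ux_apply]
  simp only [Nat.zero_le, true_and, Fin.le_def]

theorem uv_self {k : ℕ} (hk : k < n) : uv n k k = Finsupp.single (⟨k, hk⟩ : Fin n) 1 := by
  ext i
  rw [uv_apply, Finsupp.single_apply]
  simp only [Fin.ext_iff]
  by_cases h : k = (i : ℕ)
  · rw [if_pos (by omega), if_pos h]
  · rw [if_neg (by omega), if_neg h]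

theorem uv_succ {k j : ℕ} (hkj : k ≤ j) (hj : j + 1 < n) :
    uv n k (j + 1) = uv n k j + Finsupp.single (⟨j + 1, hj⟩ : Fin n) 1 := by
  ext i
  rw [Finsupp.add_apply, uv_apply, uv_apply, Finsupp.single_apply]
  simp only [Fin.ext_iff]
  split_ifs <;> omega

theorem uk_uv {k : ℕ} (hk : k < n) : ∀ j : ℕ, k ≤ j → j < n → uk k (uv n k j) = U n j := by
  intro j hkj
  induction j, hkj using Nat.le_induction with
  | base =>
    intro _
    rw [uv_self hk, uk_single, cls_self hk]; simp
  | succ j hkj ih =>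
    intro hj
    rw [uv_succ hkj hj, map_add, ih (by omega), uk_single]
    unfold cls
    simp only
    rw [if_neg (by omega), if_neg (by omega), if_neg (by omega)]
    simp

theorem xk_uv {k j : ℕ} (hk : k < n) (hkj : k ≤ j) (hj : j < n) : xk k (uv n k j) = 1 := by
  rw [xk_apply, uk_uv hk j hkj hj, dg_U hj]

end Crest.Agent.R059.Seeds231
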