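import Mathlib

/-!
# Signed count of the `χ`-isotypic part of a signed permutation module (row 59, Theorem B, last step)

`G` is a finite group acting linearly on `V` (`ρ`), `f : T → V` is a family of vectors which is permuted
by `G` up to signs: `ρ g (f t) = ε g t • f (g • t)`.  `J` is a `ρ`-stable subspace modulo which `f` is
linearly independent and spans.  `alt = ∑ g, χ g • ρ g`.  Then the vectors `alt (f (r φ))`, where `r`
picks one point of every orbit all of whose stabilisers act with sign `χ`, are linearly independent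
modulo `J` and span `range alt` modulo `J.map alt`.
-/

set_option autoImplicit false
set_option linter.unusedSectionVars false

namespace Crest.Agent.R059.SgnCount289

variable {K V T G Φ : Type*} [Field K] [AddCommGroup V] [Module K V]
  [Group G] [Fintype G] [MulAction G T]

/-- the (unnormalised) projector on the `χ`-isotypic part -/
def alt (ρ : G → V →ₗ[K] V) (χ : G → K) : V →ₗ[K] V := ∑ g, χ g • ρ g

theorem alt_apply (ρ : G → V →ₗ[K] V) (χ : G → K) (v : V) :
    alt ρ χ v = ∑ g, χ g • ρ g v := by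
  simp [alt, LinearMap.sum_apply]

/-- a family permuted up to signs -/
structure Sgn (ρ : G → V →ₗ[K] V) (χ : G → K) (f : T → V) (ε : G → T → K) : Prop where
  rho_mul : ∀ g h v, ρ (g * h) v = ρ g (ρ h v)
  chi_mul : ∀ g h, χ (g * h) = χ g * χ h
  chi_sq : ∀ g, χ g * χ g = 1
  eps_sq : ∀ g t, ε g t * ε g t = 1
  act : ∀ g t, ρ g (f t) = ε g t • f (g • t)

variable {ρ : G → V →ₗ[K] V} {χ : G → K} {f : T → V} {ε : G → T → K}

/-- `alt` of a `ρ`-stable subspace -/
theorem map_alt_le {J : Submodule K V} (hJ : ∀ g, J.map (ρ g) ≤ J) : J.map (alt ρ χ) ≤ J := by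
  rintro _ ⟨v, hv, rfl⟩
  rw [alt_apply]
  exact Submodule.sum_mem _ fun g _ => J.smul_mem _ (hJ g ⟨v, hv, rfl⟩)

namespace Sgn

theorem chi_one (S : Sgn ρ χ f ε) : χ 1 = 1 := by
  have h1 := S.chi_mul 1 1
  have h2 := S.chi_sq 1
  rw [mul_one] at h1
  rw [← h1] at h2
  exact h2

theorem alt_rho (S : Sgn ρ χ f ε) (h : G) (v : V) : alt ρ χ (ρ h v) = χ h • alt ρ χ v := by
  rw [alt_apply, alt_apply, Finset.smul_sum]
  refine Fintype.sum_equiv (Equiv.mulRight h) _ _ fun g => ?_
  rw [Equiv.coe_mulRight, S.rho_mul, S.chi_mul, smul_smul]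
  congr 1
  calc χ g = χ g * (χ h * χ h) := by rw [S.chi_sq, mul_one]
    _ = χ h * (χ g * χ h) := by ring

theorem rho_alt (S : Sgn ρ χ f ε) (h : G) (v : V) : ρ h (alt ρ χ v) = χ h • alt ρ χ v := by
  rw [alt_apply, map_sum, Finset.smul_sum]
  refine Fintype.sum_equiv (Equiv.mulLeft h) _ _ fun g => ?_
  rw [map_smul, Equiv.coe_mulLeft, S.rho_mul, S.chi_mul, smul_smul]
  congr 1
  rw [← mul_assoc, S.chi_sq, one_mul]

theorem alt_of_iso (S : Sgn ρ χ f ε) {v : V} (hv : ∀ g, ρ g v = χ g • v) :
    alt ρ χ v = (Fintype.card G : K) • v := by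
  rw [alt_apply]
  have : ∀ g, χ g • ρ g v = v := fun g => by rw [hv, smul_smul, S.chi_sq, one_smul]
  rw [Finset.sum_congr rfl fun g _ => this g, Finset.sum_const, Finset.card_univ, Nat.cast_smul_eq_nsmul]

theorem iso_iff [CharZero K] (S : Sgn ρ χ f ε) (v : V) :
    v ∈ LinearMap.range (alt ρ χ) ↔ ∀ g, ρ g v = χ g • v := by
  constructor
  · rintro ⟨w, rfl⟩ g
    exact S.rho_alt g w
  · intro hv
    have hc : (Fintype.card G : K) ≠ 0 := by
      exact_mod_cast Fintype.card_ne_zero
    refine ⟨(Fintype.card G : K)⁻¹ • v, ?_⟩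
    rw [map_smul, S.alt_of_iso hv, smul_smul, inv_mul_cancel₀ hc, one_smul]

theorem f_smul (S : Sgn ρ χ f ε) (g : G) (t : T) : f (g • t) = ε g t • ρ g (f t) := by
  rw [S.act, smul_smul, S.eps_sq, one_smul]

theorem alt_smul (S : Sgn ρ χ f ε) (g : G) (t : T) :
    alt ρ χ (f (g • t)) = (ε g t * χ g) • alt ρ χ (f t) := by
  rw [S.f_smul, map_smul, S.alt_rho, smul_smul]

/-- an orbit with a bad stabiliser gives zero -/
theorem alt_eq_zero (S : Sgn ρ χ f ε) {g : G} {t : T} (hg : g • t = t) (hb : ε g t * χ g ≠ 1) :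
    alt ρ χ (f t) = 0 := by
  have h := S.alt_smul g t
  rw [hg] at h
  have h2 : (1 - ε g t * χ g) • alt ρ χ (f t) = 0 := by
    rw [sub_smul, one_smul, ← h, sub_self]
  rcases smul_eq_zero.1 h2 with h3 | h3
  · exact absurd (sub_eq_zero.1 h3).symm hb
  · exact h3

theorem alt_f (S : Sgn ρ χ f ε) (t : T) :
    alt ρ χ (f t) = ∑ g, (χ g * ε g t) • f (g • t) := by
  rw [alt_apply]
  exact Finset.sum_congr rfl fun g _ => by rw [S.act, smul_smul]

/-- **Independence**: one symmetrised vector for every good orbit, modulo `J`. -/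
theorem indep [CharZero K] (S : Sgn ρ χ f ε) {J : Submodule K V}
    (hf : LinearIndependent K fun t => J.mkQ (f t)) (r : Φ → T)
    (good : ∀ φ g, g • r φ = r φ → ε g (r φ) * χ g = 1)
    (dist : ∀ φ ψ (g : G), g • r φ = r ψ → φ = ψ) :
    LinearIndependent K fun φ => J.mkQ (alt ρ χ (f (r φ))) := by
  classical
  rw [linearIndependent_iff'] at hf ⊢
  have hf' := hf
  -- the coefficient function
  intro s c hc ψ hψ
  have key : ∀ φ, J.mkQ (alt ρ χ (f (r φ)))
      = Finsupp.linearCombination K (fun t => J.mkQ (f t))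
          (∑ g : G, Finsupp.single (g • r φ) (χ g * ε g (r φ))) := by
    intro φ
    rw [S.alt_f, map_sum, map_sum]
    exact Finset.sum_congr rfl fun g _ => by
      rw [Finsupp.linearCombination_single, map_smul]
  simp only [key] at hc
  have hc2 : Finsupp.linearCombination K (fun t => J.mkQ (f t))
      (∑ φ ∈ s, c φ • ∑ g : G, Finsupp.single (g • r φ) (χ g * ε g (r φ))) = 0 := by
    rw [map_sum]
    rw [← hc]
    exact Finset.sum_congr rfl fun φ _ => by rw [map_smul]
  have hinj : LinearIndependent K fun t => J.mkQ (f t) := by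
    rw [linearIndependent_iff']; exact hf'
  have hz := (linearIndependent_iff.1 hinj) _ hc2
  have h1 := congrArg (fun x : T →₀ K => x (r ψ)) hz
  simp only [Finsupp.coe_zero, Pi.zero_apply, Finsupp.coe_finsetSum, Finset.sum_apply,
    Finsupp.smul_apply, smul_eq_mul] at h1
  rw [Finset.sum_eq_single ψ] at h1
  · rcases mul_eq_zero.1 h1 with h2 | h2
    · exact h2
    · exfalso
      have h3 : ∀ g : G, (Finsupp.single (g • r ψ) (χ g * ε g (r ψ)) : T →₀ K) (r ψ)
          = if g • r ψ = r ψ then 1 else 0 := by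
        intro g
        rw [Finsupp.single_apply]
        split_ifs with h
        · rw [mul_comm]; exact good ψ g h
        · rfl
      rw [Finset.sum_congr rfl fun g _ => h3 g, Finset.sum_ite, Finset.sum_const_zero, add_zero,
        Finset.sum_const, nsmul_eq_mul, mul_one] at h2
      have h4 : (Finset.univ.filter fun g : G => g • r ψ = r ψ).card ≠ 0 := by
        rw [Finset.card_ne_zero]
        exact ⟨1, by simp⟩
      exact h4 (by exact_mod_cast h2)
  · intro φ _ hne
    rw [Finset.sum_eq_zero, mul_zero]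
    intro g _
    rw [Finsupp.single_apply, if_neg]
    intro h
    exact hne (dist φ ψ g h)
  · intro h
    exact absurd hψ h

/-- **Spanning**: every vector of `J' ⊔ span f` has its symmetrisation in
`J'.map alt ⊔ span (alt f r)`. -/
theorem span (S : Sgn ρ χ f ε) {J' : Submodule K V} (r : Φ → T)
    (cover : ∀ t, (∃ φ, ∃ g : G, g • r φ = t) ∨ ∃ g : G, g • t = t ∧ ε g t * χ g ≠ 1)
    {v : V} (hv : v ∈ J' ⊔ Submodule.span K (Set.range f)) :
    alt ρ χ v ∈ J'.map (alt ρ χ) ⊔ Submodule.span K (Set.range fun φ => alt ρ χ (f (r φ))) := by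
  have h1 : alt ρ χ v ∈ (J' ⊔ Submodule.span K (Set.range f)).map (alt ρ χ) := ⟨v, hv, rfl⟩
  rw [Submodule.map_sup, Submodule.map_span] at h1
  have h2 : Submodule.span K (alt ρ χ '' Set.range f)
      ≤ Submodule.span K (Set.range fun φ => alt ρ χ (f (r φ))) := by
    rw [Submodule.span_le]
    rintro _ ⟨_, ⟨t, rfl⟩, rfl⟩
    rcases cover t with ⟨φ, g, rfl⟩ | ⟨g, hg, hb⟩
    · rw [S.alt_smul]
      exact Submodule.smul_mem _ _ (Submodule.subset_span ⟨φ, rfl⟩)
    · rw [S.alt_eq_zero hg hb]
      exact Submodule.zero_mem _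
  exact (sup_le_sup le_rfl h2 :) h1

/-- **Count** (form with a finite dimensional subspace `W` containing all `f t`): if `f` spans `W` modulo
`J ⊓ W` and is independent modulo `J`, then
`dim alt(W) = dim alt(J ⊓ W) + #(good orbits)`. -/
theorem finrank_map [CharZero K] [Fintype Φ] (S : Sgn ρ χ f ε) {J W : Submodule K V}
    [FiniteDimensional K W] (hJ : ∀ g, J.map (ρ g) ≤ J)
    (hW : W ≤ (J ⊓ W) ⊔ Submodule.span K (Set.range f)) (hfW : ∀ t, f t ∈ W)
    (hf : LinearIndependent K fun t => J.mkQ (f t)) (r : Φ → T)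
    (good : ∀ φ g, g • r φ = r φ → ε g (r φ) * χ g = 1)
    (dist : ∀ φ ψ (g : G), g • r φ = r ψ → φ = ψ)
    (cover : ∀ t, (∃ φ, ∃ g : G, g • r φ = t) ∨ ∃ g : G, g • t = t ∧ ε g t * χ g ≠ 1) :
    Module.finrank K (W.map (alt ρ χ))
      = Module.finrank K ((J ⊓ W).map (alt ρ χ)) + Fintype.card Φ := by
  classical
  set P : Φ → V := fun φ => alt ρ χ (f (r φ)) with hP
  have hind : LinearIndependent K fun φ => J.mkQ (P φ) := S.indep hf r good dist
  have hind' : LinearIndependent K P := LinearIndependent.of_comp J.mkQ hind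
  have hle : (J ⊓ W).map (alt ρ χ) ≤ J :=
    (Submodule.map_mono inf_le_left).trans (map_alt_le hJ)
  have hsup : W.map (alt ρ χ) = (J ⊓ W).map (alt ρ χ) ⊔ Submodule.span K (Set.range P) := by
    apply le_antisymm
    · rintro _ ⟨v, hv, rfl⟩
      exact S.span r cover (hW hv)
    · refine sup_le (Submodule.map_mono inf_le_right) ?_
      rw [Submodule.span_le]
      rintro _ ⟨φ, rfl⟩
      exact ⟨f (r φ), hfW _, rfl⟩
  have hdisj : (J ⊓ W).map (alt ρ χ) ⊓ Submodule.span K (Set.range P) = ⊥ := by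
    rw [eq_bot_iff]
    rintro x ⟨hx1, hx2⟩
    have hxJ : x ∈ J := hle hx1
    rw [Submodule.mem_bot]
    obtain ⟨l, rfl⟩ := (Finsupp.mem_span_range_iff_exists_finsupp).1 hx2
    have h0 : Finsupp.linearCombination K (fun φ => J.mkQ (P φ)) l = 0 := by
      rw [Finsupp.linearCombination_apply]
      have : J.mkQ (l.sum fun i a => a • P i) = 0 := by
        rw [Submodule.mkQ_apply, Submodule.Quotient.mk_eq_zero]
        exact hxJ
      rw [Finsupp.sum, map_sum] at this
      rw [Finsupp.sum]
      simpa only [map_smul] using this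
    have hl := (linearIndependent_iff.1 hind) l h0
    rw [hl]
    simp
  have : FiniteDimensional K ((J ⊓ W).map (alt ρ χ)) := by
    have : FiniteDimensional K (J ⊓ W : Submodule K V) :=
      Submodule.finiteDimensional_of_le inf_le_right
    infer_instance
  have : FiniteDimensional K (Submodule.span K (Set.range P)) :=
    FiniteDimensional.span_of_finite K (Set.finite_range P)
  have h1 := Submodule.finrank_sup_add_finrank_inf_eq ((J ⊓ W).map (alt ρ χ))
    (Submodule.span K (Set.range P))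
  rw [← hsup, hdisj, finrank_bot, add_zero, finrank_span_eq_card hind'] at h1
  exact h1

end Sgn

/-- restriction of a spanning statement to one degree: `π` is the projection on degree `n`. -/
theorem span_part {J : Submodule K V} (π : V →ₗ[K] V)
    (hJ : J.map π ≤ J) (d : T → ℕ) (n : ℕ)
    (hf : ∀ t, π (f t) = if d t = n then f t else 0)
    (hspan : ∀ v : V, v ∈ J ⊔ Submodule.span K (Set.range f)) :
    LinearMap.range π ≤ (J ⊓ LinearMap.range π)
      ⊔ Submodule.span K (Set.range fun t : {t : T // d t = n} => f t) := by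
  rintro _ ⟨v, rfl⟩
  have h1 : π v ∈ (J ⊔ Submodule.span K (Set.range f)).map π := ⟨v, hspan v, rfl⟩
  rw [Submodule.map_sup, Submodule.map_span] at h1
  have h2 : J.map π ≤ J ⊓ LinearMap.range π := by
    rintro _ ⟨w, hw, rfl⟩
    exact ⟨hJ ⟨w, hw, rfl⟩, ⟨w, rfl⟩⟩
  have h3 : Submodule.span K (π '' Set.range f)
      ≤ Submodule.span K (Set.range fun t : {t : T // d t = n} => f t) := by
    rw [Submodule.span_le]
    rintro _ ⟨_, ⟨t, rfl⟩, rfl⟩
    rw [hf]
    split_ifs with h
    · exact Submodule.subset_span ⟨⟨t, h⟩, rfl⟩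
    · exact Submodule.zero_mem _
  exact (sup_le_sup h2 h3 :) h1

end Crest.Agent.R059.SgnCount289
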