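/-
Row 59, TEAM THIN, leaf T4 TENSOR (helper151, second to helper559).
Multi-block operators `EXT` on one polynomial ring; independence of products of families which are
independent modulo block ideals, and the description of the elements which satisfy slotwise
conditions.  Mathlib only.
-/
import Mathlib

set_option autoImplicit false
set_option linter.unusedSectionVars false

namespace Crest.Agent.R059.Tens151

open MvPolynomial Finset

variable {P : Type*} {F : Type*} [Field F] {L : Type*}

/-- polynomials in the variables of `S`, as a subspace -/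
noncomputable def RS (F : Type*) [Field F] (S : Set P) : Submodule F (MvPolynomial P F) :=
  Subalgebra.toSubmodule (supported F S)

theorem mem_RS {S : Set P} {p : MvPolynomial P F} : p ∈ RS F S ↔ ↑p.vars ⊆ S := by
  unfold RS
  rw [Subalgebra.mem_toSubmodule, mem_supported]

theorem mul_mem_RS {S : Set P} {p q : MvPolynomial P F} (hp : p ∈ RS F S) (hq : q ∈ RS F S) :
    p * q ∈ RS F S := Subalgebra.mul_mem _ hp hq

theorem one_mem_RS (S : Set P) : (1 : MvPolynomial P F) ∈ RS F S := Subalgebra.one_mem _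

theorem C_mem_RS (S : Set P) (c : F) : (C c : MvPolynomial P F) ∈ RS F S :=
  Subalgebra.algebraMap_mem (supported F S) c

theorem prod_mem_RS {ι : Type*} {S : Set P} (s : Finset ι) (p : ι → MvPolynomial P F)
    (h : ∀ i ∈ s, p i ∈ RS F S) : ∏ i ∈ s, p i ∈ RS F S := Subalgebra.prod_mem _ h

theorem RS_mono {S T : Set P} (h : S ⊆ T) : RS F S ≤ RS F T := by
  intro p hp
  rw [mem_RS] at hp ⊢
  exact hp.trans h

theorem monomial_mem_RS {S : Set P} {d : P →₀ ℕ} (h : ∀ a, d a ≠ 0 → a ∈ S) (c : F) :
    monomial d c ∈ RS F S := by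
  rw [mem_RS]
  intro a ha
  rw [Finset.mem_coe, mem_vars_iff_mem_support] at ha
  obtain ⟨e, he, hae⟩ := ha
  have : e = d := by
    classical
    by_contra hne
    rw [mem_support_iff, coeff_monomial, if_neg (Ne.symm hne)] at he
    exact he rfl
  subst this
  exact h a (Finsupp.mem_support_iff.1 hae)

theorem supp_of_mem_RS {S : Set P} {p : MvPolynomial P F} (hp : p ∈ RS F S) {d : P →₀ ℕ}
    (hd : d ∈ p.support) {a : P} (ha : d a ≠ 0) : a ∈ S := by
  rw [mem_RS] at hp
  exact hp ((mem_vars_iff_mem_support (p := p) a).2 ⟨d, hd, Finsupp.mem_support_iff.2 ha⟩)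

open scoped Classical in
/-- the part of an exponent in the block `l` -/
noncomputable def part (f : P → L) (l : L) (d : P →₀ ℕ) : P →₀ ℕ := d.filter fun a => f a = l

open scoped Classical in
theorem part_apply (f : P → L) (l : L) (d : P →₀ ℕ) (a : P) :
    part f l d a = if f a = l then d a else 0 := by
  unfold part
  rw [Finsupp.filter_apply]

theorem part_mem (f : P → L) (l : L) (d : P →₀ ℕ) (c : F) :
    monomial (part f l d) c ∈ RS F (f ⁻¹' {l}) := by
  classical
  refine monomial_mem_RS (fun a ha => ?_) c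
  by_contra hcon
  apply ha
  rw [part_apply, if_neg]
  simpa using hcon

theorem sum_part [Fintype L] (f : P → L) (d : P →₀ ℕ) : ∑ l, part f l d = d := by
  classical
  ext a
  rw [Finsupp.finsetSum_apply]
  simp [part_apply]

theorem prod_part [Fintype L] (f : P → L) (d : P →₀ ℕ) :
    ∏ l, (monomial (part f l d) (1 : F)) = monomial d 1 := by
  rw [← monomial_sum_one, sum_part]

/-- a linear statement about all polynomials can be tested on monomials -/
theorem lin_mem {M : Type*} [AddCommGroup M] [Module F M] (A : MvPolynomial P F →ₗ[F] M)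
    (N : Submodule F M) (h : ∀ d, A (monomial d 1) ∈ N) (G : MvPolynomial P F) : A G ∈ N := by
  rw [G.as_sum, map_sum]
  refine N.sum_mem fun d _ => ?_
  have : (monomial d (coeff d G) : MvPolynomial P F) = coeff d G • monomial d 1 := by
    rw [smul_monomial, smul_eq_mul, mul_one]
  rw [this, map_smul]
  exact N.smul_mem _ (h d)

theorem lin_mem_RS {M : Type*} [AddCommGroup M] [Module F M] {S : Set P}
    (A : MvPolynomial P F →ₗ[F] M) (N : Submodule F M)
    (h : ∀ d : P →₀ ℕ, (∀ a, d a ≠ 0 → a ∈ S) → A (monomial d 1) ∈ N) {G : MvPolynomial P F}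
    (hG : G ∈ RS F S) : A G ∈ N := by
  rw [G.as_sum, map_sum]
  refine N.sum_mem fun d hd => ?_
  have : (monomial d (coeff d G) : MvPolynomial P F) = coeff d G • monomial d 1 := by
    rw [smul_monomial, smul_eq_mul, mul_one]
  rw [this, map_smul]
  exact N.smul_mem _ (h d fun a ha => supp_of_mem_RS hG hd ha)

section EXT

variable [Fintype L]

/-- the operator which acts by `φ l` on the polynomials in the variables of the block `l` -/
noncomputable def EXT (f : P → L) (φ : L → MvPolynomial P F →ₗ[F] MvPolynomial P F) :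
    MvPolynomial P F →ₗ[F] MvPolynomial P F :=
  (basisMonomials P F).constr F fun d => ∏ l, φ l (monomial (part f l d) 1)

theorem EXT_monomial (f : P → L) (φ : L → MvPolynomial P F →ₗ[F] MvPolynomial P F)
    (d : P →₀ ℕ) (c : F) :
    EXT f φ (monomial d c) = c • ∏ l, φ l (monomial (part f l d) 1) := by
  have h1 : (monomial d c : MvPolynomial P F) = c • basisMonomials P F d := by
    rw [coe_basisMonomials, smul_monomial, smul_eq_mul, mul_one]
  rw [h1, map_smul]
  unfold EXT
  rw [Module.Basis.constr_basis]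

/-- **(M1)** -/
theorem EXT_prod (f : P → L) (φ : L → MvPolynomial P F →ₗ[F] MvPolynomial P F)
    (r : L → MvPolynomial P F) (hr : ∀ l, r l ∈ RS F (f ⁻¹' {l})) :
    EXT f φ (∏ l, r l) = ∏ l, φ l (r l) := by
  classical
  have h1 : ∏ l, r l = ∑ D ∈ Fintype.piFinset (fun l => (r l).support),
      ∏ l, monomial (D l) (coeff (D l) (r l)) := by
    rw [← Finset.prod_univ_sum (fun l => (r l).support) (fun l d => monomial d (coeff d (r l)))]
    exact Finset.prod_congr rfl fun l _ => (r l).as_sum
  have h2 : ∏ l, φ l (r l) = ∑ D ∈ Fintype.piFinset (fun l => (r l).support),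
      ∏ l, coeff (D l) (r l) • φ l (monomial (D l) 1) := by
    rw [← Finset.prod_univ_sum (fun l => (r l).support)
      (fun l d => coeff d (r l) • φ l (monomial d 1))]
    refine Finset.prod_congr rfl fun l _ => ?_
    conv_lhs => rw [(r l).as_sum, map_sum]
    refine Finset.sum_congr rfl fun d _ => ?_
    rw [← map_smul, smul_monomial, smul_eq_mul, mul_one]
  rw [h1, h2, map_sum]
  refine Finset.sum_congr rfl fun D hD => ?_
  rw [Fintype.mem_piFinset] at hD
  have h3 : ∏ l, (monomial (D l) (coeff (D l) (r l)) : MvPolynomial P F) =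
      monomial (∑ l, D l) (∏ l, coeff (D l) (r l)) := (monomial_sum_prod _ _ _).symm
  have h4 : ∀ l, part f l (∑ l', D l') = D l := by
    intro l
    ext a
    rw [part_apply, Finsupp.finsetSum_apply]
    by_cases h : f a = l
    · rw [if_pos h, Finset.sum_eq_single l]
      · intro l' _ hne
        by_contra hcon
        have := supp_of_mem_RS (hr l') (hD l') hcon
        apply hne
        rw [← h]
        simpa using this.symm
      · intro h; exact absurd (Finset.mem_univ l) h
    · rw [if_neg h]
      by_contra hcon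
      have := supp_of_mem_RS (hr l) (hD l) (fun h0 => hcon h0.symm)
      exact h (by simpa using this)
  rw [h3, EXT_monomial, Finset.prod_smul]
  simp only [h4]


theorem EXT_id (f : P → L) (G : MvPolynomial P F) : EXT f (fun _ => LinearMap.id) G = G := by
  have h : EXT f (fun _ => (LinearMap.id : MvPolynomial P F →ₗ[F] MvPolynomial P F)) =
      LinearMap.id := by
    refine (basisMonomials P F).ext fun d => ?_
    rw [coe_basisMonomials, EXT_monomial, one_smul]
    simp only [LinearMap.id_coe, id_eq]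
    exact prod_part f d
  rw [h]; rfl

/-- composition on monomials -/
theorem EXT_comp (f : P → L) (φ φ' : L → MvPolynomial P F →ₗ[F] MvPolynomial P F)
    (h : ∀ l d, φ' l (monomial (part f l d) 1) ∈ RS F (f ⁻¹' {l})) (G : MvPolynomial P F) :
    EXT f φ (EXT f φ' G) = EXT f (fun l => (φ l).comp (φ' l)) G := by
  have : (EXT f φ).comp (EXT f φ') = EXT f (fun l => (φ l).comp (φ' l)) := by
    refine (basisMonomials P F).ext fun d => ?_
    rw [coe_basisMonomials, LinearMap.comp_apply, EXT_monomial, one_smul, EXT_monomial, one_smul,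
      EXT_prod f φ _ (fun l => h l d)]
    rfl
  rw [← this]; rfl

/-- an element of the block `l₀` times a monomial in the other variables -/
theorem mul_monomial_eq [DecidableEq L] (f : P → L) (l₀ : L) (w : MvPolynomial P F)
    {d : P →₀ ℕ} (hd : ∀ a, d a ≠ 0 → a ∈ (f ⁻¹' {l₀})ᶜ) :
    w * monomial d 1 = ∏ l, Function.update (fun l => (monomial (part f l d) (1 : F) :
      MvPolynomial P F)) l₀ w l := by
  have h0 : part f l₀ d = 0 := by
    classical
    ext a
    rw [part_apply, Finsupp.coe_zero, Pi.zero_apply]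
    split_ifs with h
    · by_contra hne
      exact hd a hne (by simpa using h)
    · rfl
  rw [Finset.prod_update_of_mem (Finset.mem_univ l₀), ← prod_part f d]
  congr 1
  rw [← Finset.prod_erase_mul _ _ (Finset.mem_univ l₀), h0]
  have h1 : (monomial (0 : P →₀ ℕ) (1 : F) : MvPolynomial P F) = 1 := rfl
  rw [h1, mul_one]
  refine Finset.prod_congr ?_ fun _ _ => rfl
  ext l; simp

end EXT

/-! ### ideals generated inside a block -/

/-- `I` is generated by polynomials in the variables of `S` -/
def GenIn (S : Set P) (I : Ideal (MvPolynomial P F)) : Prop :=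
  ∃ s : Set (MvPolynomial P F), (∀ x ∈ s, x ∈ RS F S) ∧ I = Ideal.span s

theorem GenIn.iSup {κ : Type*} {S : Set P} {I : κ → Ideal (MvPolynomial P F)}
    (h : ∀ k, ∃ T ⊆ S, GenIn T (I k)) : GenIn S (⨆ k, I k) := by
  choose T hT s hs hI using h
  refine ⟨⋃ k, s k, ?_, ?_⟩
  · intro x hx
    obtain ⟨k, hk⟩ := Set.mem_iUnion.1 hx
    exact RS_mono (hT k) (hs k x hk)
  · rw [Ideal.span_iUnion]
    exact iSup_congr hI

section block

variable [Fintype L]

theorem GenIn.le_span {f : P → L} {l : L} {I : Ideal (MvPolynomial P F)}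
    (h : GenIn (f ⁻¹' {l}) I) {x : MvPolynomial P F} (hx : x ∈ I) :
    x ∈ Submodule.span F {y : MvPolynomial P F | ∃ r : L → MvPolynomial P F,
      (∀ l', r l' ∈ RS F (f ⁻¹' {l'})) ∧ r l ∈ I ∧ y = ∏ l', r l'} := by
  classical
  obtain ⟨s, hs, rfl⟩ := h
  set N := Submodule.span F {y : MvPolynomial P F | ∃ r : L → MvPolynomial P F,
      (∀ l', r l' ∈ RS F (f ⁻¹' {l'})) ∧ r l ∈ Ideal.span s ∧ y = ∏ l', r l'} with hN
  have hcl : ∀ p : MvPolynomial P F, ∀ x ∈ N, p * x ∈ N := by
    intro p x hx
    refine lin_mem (LinearMap.mulRight F x) N (fun d => ?_) p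
    rw [LinearMap.mulRight_apply]
    refine Submodule.span_induction (p := fun x _ => monomial d 1 * x ∈ N) ?_ ?_ ?_ ?_ hx
    · rintro y ⟨r, hr, hrl, rfl⟩
      refine Submodule.subset_span ⟨fun l' => monomial (part f l' d) 1 * r l',
        fun l' => mul_mem_RS (part_mem f l' d 1) (hr l'), Ideal.mul_mem_left _ _ hrl, ?_⟩
      rw [← prod_part f d, ← Finset.prod_mul_distrib]
    · rw [mul_zero]; exact N.zero_mem
    · intro y z _ _ hy hz
      rw [mul_add]; exact N.add_mem hy hz
    · intro c y _ hy
      rw [mul_smul_comm]; exact N.smul_mem c hy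
  refine Submodule.span_induction (p := fun x _ => x ∈ N) ?_ ?_ ?_ ?_ hx
  · intro g hg
    refine Submodule.subset_span ⟨Function.update (fun _ => 1) l g, fun l' => ?_, ?_, ?_⟩
    · by_cases h : l' = l
      · subst h; rw [Function.update_self]; exact hs g hg
      · rw [Function.update_of_ne h]; exact one_mem_RS _
    · rw [Function.update_self]; exact Ideal.subset_span hg
    · rw [Finset.prod_update_of_mem (Finset.mem_univ l)]; simp
  · exact N.zero_mem
  · intro y z _ _ hy hz; exact N.add_mem hy hz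
  · intro c y _ hy
    rw [smul_eq_mul]; exact hcl c y hy

theorem EXT_gen {f : P → L} {l : L} {I : Ideal (MvPolynomial P F)}
    (h : GenIn (f ⁻¹' {l}) I) (φ : L → MvPolynomial P F →ₗ[F] MvPolynomial P F)
    (N : Submodule F (MvPolynomial P F))
    (hN : ∀ r : L → MvPolynomial P F, (∀ l', r l' ∈ RS F (f ⁻¹' {l'})) → r l ∈ I →
      ∏ l', φ l' (r l') ∈ N) {x : MvPolynomial P F} (hx : x ∈ I) : EXT f φ x ∈ N := by
  refine Submodule.span_induction (p := fun x _ => EXT f φ x ∈ N) ?_ ?_ ?_ ?_ (h.le_span hx)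
  · rintro y ⟨r, hr, hrl, rfl⟩
    rw [EXT_prod f φ r hr]
    exact hN r hr hrl
  · rw [map_zero]; exact N.zero_mem
  · intro y z _ _ hy hz; rw [map_add]; exact N.add_mem hy hz
  · intro c y _ hy; rw [map_smul]; exact N.smul_mem c hy

theorem EXT_kill {f : P → L} {l : L} {I : Ideal (MvPolynomial P F)}
    (h : GenIn (f ⁻¹' {l}) I) (φ : L → MvPolynomial P F →ₗ[F] MvPolynomial P F)
    (hk : ∀ r ∈ RS F (f ⁻¹' {l}), r ∈ I → φ l r = 0) {x : MvPolynomial P F} (hx : x ∈ I) :
    EXT f φ x = 0 := by
  have := EXT_gen h φ ⊥ (fun _ hr hrl => by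
    rw [Submodule.mem_bot]
    exact Finset.prod_eq_zero (Finset.mem_univ l) (hk _ (hr l) hrl)) hx
  rwa [Submodule.mem_bot] at this

theorem EXT_mem {f : P → L} {l : L} {I : Ideal (MvPolynomial P F)}
    (h : GenIn (f ⁻¹' {l}) I) (φ : L → MvPolynomial P F →ₗ[F] MvPolynomial P F)
    (hk : ∀ r ∈ RS F (f ⁻¹' {l}), r ∈ I → φ l r ∈ I) {x : MvPolynomial P F} (hx : x ∈ I) :
    EXT f φ x ∈ I :=
  EXT_gen h φ (I.restrictScalars F) (fun _ hr hrl =>
    Ideal.mem_of_dvd I (Finset.dvd_prod_of_mem _ (Finset.mem_univ l)) (hk _ (hr l) hrl)) hx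

/-- linear functional dual to a member of an independent family -/
theorem exists_dual {M : Type*} [AddCommGroup M] [Module F M] {ι : Type*} {v : ι → M}
    (hv : LinearIndependent F v) (i : ι) :
    ∃ ψ : M →ₗ[F] F, ψ (v i) = 1 ∧ ∀ j, j ≠ i → ψ (v j) = 0 := by
  have h1 : v i ∉ Submodule.span F (v '' {j | j ≠ i}) :=
    hv.notMem_span_image (by simp)
  obtain ⟨g, hg, hg'⟩ := Submodule.exists_dual_map_eq_bot_of_notMem h1 inferInstance
  refine ⟨(g (v i))⁻¹ • g, ?_, fun j hj => ?_⟩
  · rw [LinearMap.smul_apply, smul_eq_mul, inv_mul_cancel₀ hg]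
  · have h2 : g (v j) ∈ Submodule.map g (Submodule.span F (v '' {j | j ≠ i})) :=
      Submodule.mem_map_of_mem (Submodule.subset_span ⟨j, hj, rfl⟩)
    rw [hg', Submodule.mem_bot] at h2
    rw [LinearMap.smul_apply, h2, smul_zero]

/-- **(a) independence of products.** -/
theorem indep (f : P → L) (J : L → Ideal (MvPolynomial P F))
    (hJ : ∀ l, GenIn (f ⁻¹' {l}) (J l)) {ι : L → Type*} (b : ∀ l, ι l → MvPolynomial P F)
    (hb : ∀ l i, b l i ∈ RS F (f ⁻¹' {l}))
    (hind : ∀ l, LinearIndependent F (fun i => Ideal.Quotient.mk (J l) (b l i))) :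
    LinearIndependent F (fun i : (∀ l, ι l) =>
      Ideal.Quotient.mk (⨆ l, J l) (∏ l, b l (i l))) := by
  classical
  rw [linearIndependent_iff']
  intro s g hg i₀ hi₀
  choose ψ hψ1 hψ0 using fun l => exists_dual (hind l) (i₀ l)
  let φ : L → MvPolynomial P F →ₗ[F] MvPolynomial P F := fun l =>
    (Algebra.linearMap F (MvPolynomial P F)).comp
      ((ψ l).comp (Ideal.Quotient.mkₐ F (J l)).toLinearMap)
  have hφ : ∀ l x, φ l x = C (ψ l (Ideal.Quotient.mk (J l) x)) := fun l x => rfl
  have hx : ∑ i ∈ s, g i • ∏ l, b l (i l) ∈ ⨆ l, J l := by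
    rw [← Ideal.Quotient.eq_zero_iff_mem]
    rw [← hg]
    change (Ideal.Quotient.mkₐ F (⨆ l, J l)) (∑ i ∈ s, g i • ∏ l, b l (i l)) = _
    rw [map_sum]
    refine Finset.sum_congr rfl fun i _ => ?_
    rw [map_smul]
    rfl
  have hkill : ∀ x ∈ ⨆ l, J l, EXT f φ x = 0 := by
    intro x hx
    refine Submodule.iSup_induction J (motive := fun x => EXT f φ x = 0) hx ?_ (map_zero _) ?_
    · intro l y hy
      refine EXT_kill (hJ l) φ (fun r _ hrJ => ?_) hy
      rw [hφ, Ideal.Quotient.eq_zero_iff_mem.2 hrJ, map_zero, C_0]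
    · intro y z hy hz; rw [map_add, hy, hz, add_zero]
  have h1 := hkill _ hx
  rw [map_sum] at h1
  have h2 : ∀ i ∈ s, EXT f φ (g i • ∏ l, b l (i l)) = if i = i₀ then C (g i₀) else 0 := by
    intro i _
    rw [map_smul, EXT_prod f φ _ (fun l => hb l (i l))]
    split_ifs with h
    · subst h
      simp only [hφ, hψ1, C_1, Finset.prod_const_one]
      rw [smul_eq_C_mul, mul_one]
    · obtain ⟨l, hl⟩ := Function.ne_iff.1 h
      rw [Finset.prod_eq_zero (Finset.mem_univ l), smul_zero]
      rw [hφ, hψ0 l _ hl, C_0]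
  rw [Finset.sum_congr rfl h2, Finset.sum_ite_eq' s i₀ (fun _ => (C (g i₀) : MvPolynomial P F)),
    if_pos hi₀] at h1
  exact C_injective P F (by rw [h1, C_0])

/-- a projection onto a subspace -/
theorem exists_proj {M : Type*} [AddCommGroup M] [Module F M] (W : Submodule F M) :
    ∃ p : M →ₗ[F] M, (∀ x, p x ∈ W) ∧ ∀ x ∈ W, p x = x := by
  obtain ⟨g, hg⟩ := LinearMap.exists_leftInverse_of_injective W.subtype W.ker_subtype
  refine ⟨W.subtype.comp g, fun x => (g x).2, fun x hx => ?_⟩
  have := LinearMap.congr_fun hg ⟨x, hx⟩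
  rw [LinearMap.comp_apply] at this
  rw [LinearMap.comp_apply]
  have h2 : W.subtype ⟨x, hx⟩ = x := rfl
  rw [h2] at this
  rw [this]; rfl

/-- **(b) slotwise conditions.** -/
theorem slot_prod (f : P → L) (J : L → Ideal (MvPolynomial P F))
    (hJ : ∀ l, GenIn (f ⁻¹' {l}) (J l)) (W : L → Submodule F (MvPolynomial P F))
    (hW : ∀ l, W l ≤ RS F (f ⁻¹' {l}))
    (hJW : ∀ l x, x ∈ J l → x ∈ RS F (f ⁻¹' {l}) → x ∈ W l)
    (G : MvPolynomial P F)
    (hG : ∀ l, ∃ G' ∈ W l * RS F (f ⁻¹' {l})ᶜ, G - G' ∈ ⨆ l, J l) :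
    ∃ G' ∈ Submodule.span F {y : MvPolynomial P F | ∃ w : L → MvPolynomial P F,
      (∀ l, w l ∈ W l) ∧ y = ∏ l, w l}, G - G' ∈ ⨆ l, J l := by
  classical
  choose p hp hp' using fun l => exists_proj (W l)
  let φ : Finset L → L → MvPolynomial P F →ₗ[F] MvPolynomial P F :=
    fun S l => if l ∈ S then p l else LinearMap.id
  -- the one block operator
  have hfix : ∀ l₀, ∀ x ∈ W l₀ * RS F (f ⁻¹' {l₀})ᶜ, EXT f (φ {l₀}) x = x := by
    intro l₀ x hx
    refine Submodule.mul_induction_on hx ?_ ?_
    · intro w hw s hs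
      have := lin_mem_RS ((EXT f (φ {l₀})).comp (LinearMap.mulLeft F w) - LinearMap.mulLeft F w)
        ⊥ (fun d hd => ?_) hs
      · rw [Submodule.mem_bot, LinearMap.sub_apply, LinearMap.comp_apply,
          LinearMap.mulLeft_apply, sub_eq_zero] at this
        exact this
      · rw [Submodule.mem_bot, LinearMap.sub_apply, LinearMap.comp_apply,
          LinearMap.mulLeft_apply, sub_eq_zero, mul_monomial_eq f l₀ w hd,
          EXT_prod f _ _ (fun l => ?_)]
        · refine Finset.prod_congr rfl fun l _ => ?_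
          by_cases h : l = l₀
          · subst h
            rw [Function.update_self]
            simp only [φ, Finset.mem_singleton, if_true]
            exact hp' l w hw
          · rw [Function.update_of_ne h]
            simp only [φ, Finset.mem_singleton, if_neg h, LinearMap.id_coe, id_eq]
        · by_cases h : l = l₀
          · subst h; rw [Function.update_self]; exact hW l hw
          · rw [Function.update_of_ne h]; exact part_mem f l d 1
    · intro y z hy hz; rw [map_add, hy, hz]
  have hpres : ∀ l₀, ∀ x ∈ ⨆ l, J l, EXT f (φ {l₀}) x ∈ ⨆ l, J l := by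
    intro l₀ x hx
    refine Submodule.iSup_induction J (motive := fun x => EXT f (φ {l₀}) x ∈ ⨆ l, J l) hx
      ?_ ?_ ?_
    · intro l y hy
      refine (le_iSup J l) (EXT_mem (hJ l) _ (fun r hr hrJ => ?_) hy)
      by_cases h : l = l₀
      · subst h
        simp only [φ, Finset.mem_singleton, if_true]
        rw [hp' l r (hJW l r hrJ hr)]
        exact hrJ
      · simp only [φ, Finset.mem_singleton, if_neg h, LinearMap.id_coe, id_eq]
        exact hrJ
    · rw [map_zero]; exact Ideal.zero_mem _
    · intro y z hy hz; rw [map_add]; exact Ideal.add_mem _ hy hz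
  have hone : ∀ l₀, G - EXT f (φ {l₀}) G ∈ ⨆ l, J l := by
    intro l₀
    obtain ⟨G', hG', hd⟩ := hG l₀
    have h1 := hpres l₀ _ hd
    rw [map_sub, hfix l₀ G' hG'] at h1
    have h2 : G - EXT f (φ {l₀}) G = (G - G') - (EXT f (φ {l₀}) G - G') := by ring
    rw [h2]
    exact Ideal.sub_mem _ hd h1
  have hall : ∀ S : Finset L, G - EXT f (φ S) G ∈ ⨆ l, J l := by
    intro S
    induction S using Finset.induction_on with
    | empty =>
      have : φ ∅ = fun _ => LinearMap.id := by
        funext l; simp [φ]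
      rw [this, EXT_id, sub_self]
      exact Ideal.zero_mem _
    | insert l₀ S hl₀ ih =>
      have hcomp : EXT f (φ (insert l₀ S)) G = EXT f (φ {l₀}) (EXT f (φ S) G) := by
        rw [EXT_comp f (φ {l₀}) (φ S)]
        · congr 1
          congr 1
          funext l
          by_cases h : l = l₀
          · subst h
            simp only [φ, Finset.mem_insert_self, if_true, Finset.mem_singleton, if_neg hl₀]
            rfl
          · simp only [φ, Finset.mem_insert, h, false_or, Finset.mem_singleton, if_false]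
            rfl
        · intro l d
          simp only [φ]
          split_ifs
          · exact hW l (hp l _)
          · exact part_mem f l d 1
      rw [hcomp]
      have h2 : G - EXT f (φ {l₀}) (EXT f (φ S) G) =
          (G - EXT f (φ {l₀}) G) + EXT f (φ {l₀}) (G - EXT f (φ S) G) := by
        rw [map_sub]; ring
      rw [h2]
      exact Ideal.add_mem _ (hone l₀) (hpres l₀ _ ih)
  refine ⟨EXT f (φ Finset.univ) G, ?_, hall Finset.univ⟩
  refine lin_mem _ _ (fun d => ?_) G
  rw [EXT_monomial, one_smul]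
  refine Submodule.subset_span ⟨fun l => φ Finset.univ l (monomial (part f l d) 1),
    fun l => ?_, rfl⟩
  simp only [φ, Finset.mem_univ, if_true]
  exact hp l _

theorem prod_mem_prod' {κ : Type*} (s : Finset κ) (W : κ → Submodule F (MvPolynomial P F))
    (w : κ → MvPolynomial P F) (h : ∀ l ∈ s, w l ∈ W l) : ∏ l ∈ s, w l ∈ ∏ l ∈ s, W l := by
  classical
  induction s using Finset.induction_on with
  | empty => simp only [Finset.prod_empty]; exact Submodule.one_le.1 le_rfl
  | insert l s hl ih =>
    rw [Finset.prod_insert hl, Finset.prod_insert hl]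
    exact Submodule.mul_mem_mul (h l (Finset.mem_insert_self l s))
      (ih fun l' hl' => h l' (Finset.mem_insert_of_mem hl'))

/-- products of elements of the `W l` in terms of families spanning `W l` modulo `J l` -/
theorem span_prod (J : L → Ideal (MvPolynomial P F)) (W : L → Submodule F (MvPolynomial P F))
    {ι : L → Type*} (b : ∀ l, ι l → MvPolynomial P F)
    (hWb : ∀ l, ∀ w ∈ W l, ∃ w' ∈ Submodule.span F (Set.range (b l)), w - w' ∈ J l)
    {G : MvPolynomial P F}
    (hG : G ∈ Submodule.span F {y : MvPolynomial P F | ∃ w : L → MvPolynomial P F,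
      (∀ l, w l ∈ W l) ∧ y = ∏ l, w l}) :
    ∃ G' ∈ Submodule.span F (Set.range fun i : (∀ l, ι l) => ∏ l, b l (i l)),
      G - G' ∈ ⨆ l, J l := by
  classical
  refine Submodule.span_induction (p := fun G _ => ∃ G' ∈ Submodule.span F
      (Set.range fun i : (∀ l, ι l) => ∏ l, b l (i l)), G - G' ∈ ⨆ l, J l) ?_ ?_ ?_ ?_ hG
  · rintro y ⟨w, hw, rfl⟩
    choose w' hw' hd using fun l => hWb l (w l) (hw l)
    refine ⟨∏ l, w' l, ?_, ?_⟩
    · have h1 : ∏ l, w' l ∈ ∏ l, Submodule.span F (Set.range (b l)) :=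
        prod_mem_prod' Finset.univ (fun l => Submodule.span F (Set.range (b l))) w'
          (fun l _ => hw' l)
      rw [Submodule.prod_span] at h1
      refine Submodule.span_mono ?_ h1
      intro z hz
      rw [Set.mem_fintype_prod] at hz
      obtain ⟨g, hg, rfl⟩ := hz
      choose i hi using hg
      exact ⟨i, by simp only [hi]⟩
    · rw [← Ideal.Quotient.mk_eq_mk_iff_sub_mem, map_prod, map_prod]
      refine Finset.prod_congr rfl fun l _ => ?_
      rw [Ideal.Quotient.mk_eq_mk_iff_sub_mem]
      exact (le_iSup J l) (hd l)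
  · exact ⟨0, Submodule.zero_mem _, by rw [sub_zero]; exact Ideal.zero_mem _⟩
  · rintro y z _ _ ⟨y', hy', hy⟩ ⟨z', hz', hz⟩
    refine ⟨y' + z', Submodule.add_mem _ hy' hz', ?_⟩
    rw [add_sub_add_comm]
    exact Ideal.add_mem _ hy hz
  · rintro c y _ ⟨y', hy', hy⟩
    refine ⟨c • y', Submodule.smul_mem _ c hy', ?_⟩
    rw [← smul_sub, smul_eq_C_mul]
    exact Ideal.mul_mem_left _ _ hy

end block

/-! ### the slot lemma -/

section slot

open scoped Classical in
/-- the two block labelling of a set of variables -/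
noncomputable def two (Y : Set P) (a : P) : Bool := decide (a ∈ Y)

theorem two_true (Y : Set P) : two Y ⁻¹' {true} = Y := by
  ext a; simp [two]

theorem two_false (Y : Set P) : two Y ⁻¹' {false} = Yᶜ := by
  ext a; simp [two]

/-- two block form of `EXT_prod` -/
theorem EXT_two (Y : Set P) (φ : Bool → MvPolynomial P F →ₗ[F] MvPolynomial P F)
    {r s : MvPolynomial P F} (hr : r ∈ RS F Y) (hs : s ∈ RS F Yᶜ) :
    EXT (two Y) φ (r * s) = φ true r * φ false s := by
  have h := EXT_prod (two Y) φ (fun b => if b = true then r else s) (fun b => by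
    cases b
    · rw [two_false]; simpa using hs
    · rw [two_true]; simpa using hr)
  rw [Fintype.prod_bool, Fintype.prod_bool] at h
  simpa using h

theorem two_split (Y : Set P) (d : P →₀ ℕ) :
    (monomial d 1 : MvPolynomial P F) =
      monomial (part (two Y) true d) 1 * monomial (part (two Y) false d) 1 := by
  rw [← prod_part (two Y) d, Fintype.prod_bool]

theorem part_true_mem (Y : Set P) (d : P →₀ ℕ) (c : F) :
    monomial (part (two Y) true d) c ∈ RS F Y := by
  have := part_mem (two Y) true d c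
  rwa [two_true] at this

theorem part_false_mem (Y : Set P) (d : P →₀ ℕ) (c : F) :
    monomial (part (two Y) false d) c ∈ RS F Yᶜ := by
  have := part_mem (two Y) false d c
  rwa [two_false] at this

/-- **The slot lemma**: conditions on the variables of `Y` only. -/
theorem slot {κ : Type*} (Y : Set P) (Λ : κ → MvPolynomial P F →ₗ[F] MvPolynomial P F)
    (hΛ : ∀ j, ∀ r ∈ RS F Y, ∀ s ∈ RS F Yᶜ, Λ j (r * s) = Λ j r * s)
    (hΛ' : ∀ j, ∀ r ∈ RS F Y, Λ j r ∈ RS F Y)
    (N : κ → Ideal (MvPolynomial P F)) (hN : ∀ j, GenIn Y (N j))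
    (JC : Ideal (MvPolynomial P F)) (hJC : GenIn Yᶜ JC)
    (W : Submodule F (MvPolynomial P F))
    (hW : ∀ w ∈ RS F Y, (∀ j, Λ j w ∈ N j) → w ∈ W)
    {G : MvPolynomial P F} (hG : ∀ j, ∃ n ∈ N j, Λ j G - n ∈ JC) :
    ∃ G' ∈ W * RS F Yᶜ, G - G' ∈ JC := by
  classical
  -- projections and a complement of `JC` in the variables outside `Y`
  let T := RS F Yᶜ
  obtain ⟨π, hπ⟩ := LinearMap.exists_leftInverse_of_injective T.subtype T.ker_subtype
  have hπ' : ∀ x (hx : x ∈ T), π x = ⟨x, hx⟩ := fun x hx =>
    LinearMap.congr_fun hπ ⟨x, hx⟩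
  let q : T →ₗ[F] (MvPolynomial P F ⧸ JC) := (Ideal.Quotient.mkₐ F JC).toLinearMap.comp T.subtype
  have hq : ∀ x : T, q x = Ideal.Quotient.mk JC (x : MvPolynomial P F) := fun x => rfl
  obtain ⟨g, hg⟩ := LinearMap.exists_rightInverse_of_surjective q.rangeRestrict
    q.range_rangeRestrict
  have hg' : ∀ z, q (g z) = z := by
    intro z
    have := LinearMap.congr_fun hg z
    exact congrArg Subtype.val this
  let B := Module.Basis.ofVectorSpace F (LinearMap.range q)
  -- coordinates
  let γ : Module.Basis.ofVectorSpaceIndex F (LinearMap.range q) → MvPolynomial P F →ₗ[F] F :=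
    fun k => (B.coord k).comp (q.rangeRestrict.comp π)
  let c : Module.Basis.ofVectorSpaceIndex F (LinearMap.range q) → MvPolynomial P F :=
    fun k => (g (B k) : MvPolynomial P F)
  let e : MvPolynomial P F →ₗ[F] MvPolynomial P F :=
    T.subtype.comp (g.comp (q.rangeRestrict.comp π))
  have hγJ : ∀ k, ∀ x ∈ T, x ∈ JC → γ k x = 0 := by
    intro k x hx hxJ
    have h1 : q.rangeRestrict (π x) = 0 := by
      rw [hπ' x hx]
      apply Subtype.ext
      change q ⟨x, hx⟩ = 0
      rw [hq, Ideal.Quotient.eq_zero_iff_mem]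
      exact hxJ
    change B.coord k (q.rangeRestrict (π x)) = 0
    rw [h1, map_zero]
  have heT : ∀ x, e x ∈ T := fun x => (g (q.rangeRestrict (π x))).2
  have hesub : ∀ x ∈ T, x - e x ∈ JC := by
    intro x hx
    rw [← Ideal.Quotient.mk_eq_mk_iff_sub_mem]
    have h1 := hg' (q.rangeRestrict (π x))
    rw [hq] at h1
    change _ = Ideal.Quotient.mk JC (g (q.rangeRestrict (π x)) : MvPolynomial P F)
    rw [h1, hπ' x hx]
    rfl
  have hesum : ∀ x, e x = ∑ k ∈ (B.repr (q.rangeRestrict (π x))).support, γ k x • c k := by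
    intro x
    have h1 : g (q.rangeRestrict (π x)) =
        ∑ k ∈ (B.repr (q.rangeRestrict (π x))).support, γ k x • g (B k) := by
      conv_lhs => rw [← B.linearCombination_repr (q.rangeRestrict (π x))]
      rw [Finsupp.linearCombination_apply, Finsupp.sum, map_sum]
      refine Finset.sum_congr rfl fun k _ => ?_
      rw [map_smul]
      rfl
    change ((g (q.rangeRestrict (π x)) : T) : MvPolynomial P F) = _
    rw [h1]
    rw [Submodule.coe_sum]
    rfl
  -- the operators
  let Γ : Module.Basis.ofVectorSpaceIndex F (LinearMap.range q) →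
      MvPolynomial P F →ₗ[F] MvPolynomial P F := fun k =>
    EXT (two Y) (fun b => if b = true then LinearMap.id else
      (Algebra.linearMap F (MvPolynomial P F)).comp (γ k))
  let E : MvPolynomial P F →ₗ[F] MvPolynomial P F :=
    EXT (two Y) (fun b => if b = true then LinearMap.id else e)
  have hΓ : ∀ k, ∀ r ∈ RS F Y, ∀ s ∈ T, Γ k (r * s) = r * C (γ k s) := by
    intro k r hr s hs
    rw [EXT_two Y _ hr hs]
    rfl
  have hE : ∀ r ∈ RS F Y, ∀ s ∈ T, E (r * s) = r * e s := by
    intro r hr s hs
    rw [EXT_two Y _ hr hs]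
    rfl
  -- the expansion of `E G`
  have hexp : ∀ G : MvPolynomial P F, ∃ K : Finset _, (∀ k ∉ K, Γ k G = 0) ∧
      E G = ∑ k ∈ K, Γ k G * c k := by
    intro G
    refine MvPolynomial.induction_on' G (fun d a => ?_) (fun G₁ G₂ h₁ h₂ => ?_)
    · have hd : (monomial d a : MvPolynomial P F) =
          monomial (part (two Y) true d) a * monomial (part (two Y) false d) 1 := by
        have h1 : (monomial d a : MvPolynomial P F) = C a * monomial d 1 := by
          rw [C_mul_monomial, mul_one]
        rw [h1, two_split Y d, ← mul_assoc, C_mul_monomial, mul_one]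
      rw [hd]
      refine ⟨(B.repr (q.rangeRestrict (π (monomial (part (two Y) false d) 1)))).support,
        fun k hk => ?_, ?_⟩
      · rw [hΓ k _ (part_true_mem Y d a) _ (part_false_mem Y d 1)]
        have h2 : γ k (monomial (part (two Y) false d) 1) = 0 := Finsupp.notMem_support_iff.1 hk
        rw [h2, C_0, mul_zero]
      · rw [hE _ (part_true_mem Y d a) _ (part_false_mem Y d 1), hesum, Finset.mul_sum]
        refine Finset.sum_congr rfl fun k _ => ?_
        rw [hΓ k _ (part_true_mem Y d a) _ (part_false_mem Y d 1), smul_eq_C_mul, mul_assoc]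
    · obtain ⟨K₁, hK₁, hE₁⟩ := h₁
      obtain ⟨K₂, hK₂, hE₂⟩ := h₂
      refine ⟨K₁ ∪ K₂, fun k hk => ?_, ?_⟩
      · rw [Finset.mem_union, not_or] at hk
        rw [map_add, hK₁ k hk.1, hK₂ k hk.2, add_zero]
      · rw [map_add, hE₁, hE₂]
        simp only [map_add, add_mul, Finset.sum_add_distrib]
        congr 1
        · refine Finset.sum_subset Finset.subset_union_left fun k _ hk => ?_
          rw [hK₁ k hk, zero_mul]
        · refine Finset.sum_subset Finset.subset_union_right fun k _ hk => ?_
          rw [hK₂ k hk, zero_mul]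
  -- `G ≡ E G`
  have hGE : G - E G ∈ JC := by
    have := lin_mem (LinearMap.id - E) (JC.restrictScalars F) (fun d => ?_) G
    · exact this
    · rw [LinearMap.sub_apply, LinearMap.id_apply, two_split Y d,
        hE _ (part_true_mem Y d 1) _ (part_false_mem Y d 1), ← mul_sub]
      exact Ideal.mul_mem_left _ _ (hesub _ (part_false_mem Y d 1))
  -- `Γ k G` satisfies the conditions
  have hΓY : ∀ k, Γ k G ∈ RS F Y := by
    intro k
    refine lin_mem (Γ k) (RS F Y) (fun d => ?_) G
    rw [two_split Y d, hΓ k _ (part_true_mem Y d 1) _ (part_false_mem Y d 1)]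
    exact mul_mem_RS (part_true_mem Y d 1) (C_mem_RS Y _)
  have hcomm : ∀ j k, Λ j (Γ k G) = Γ k (Λ j G) := by
    intro j k
    have := lin_mem ((Λ j).comp (Γ k) - (Γ k).comp (Λ j)) ⊥ (fun d => ?_) G
    · rw [Submodule.mem_bot, LinearMap.sub_apply, sub_eq_zero] at this
      exact this
    · rw [Submodule.mem_bot, LinearMap.sub_apply, sub_eq_zero, LinearMap.comp_apply,
        LinearMap.comp_apply, two_split Y d,
        hΓ k _ (part_true_mem Y d 1) _ (part_false_mem Y d 1),
        hΛ j _ (part_true_mem Y d 1) _ (part_false_mem Y d 1),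
        hΓ k _ (hΛ' j _ (part_true_mem Y d 1)) _ (part_false_mem Y d 1),
        mul_comm _ (C _), ← smul_eq_C_mul, map_smul, smul_eq_C_mul, mul_comm]
  have hGN : ∀ k, Γ k G ∈ W := by
    intro k
    refine hW _ (hΓY k) fun j => ?_
    rw [hcomm]
    obtain ⟨n, hn, hc⟩ := hG j
    have h1 : Λ j G = n + (Λ j G - n) := by ring
    rw [h1, map_add]
    refine Ideal.add_mem _ ?_ ?_
    · refine EXT_mem (f := two Y) (l := true) (by rw [two_true]; exact hN j) _
        (fun r _ hr => ?_) hn
      simpa using hr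
    · have h2 : Γ k (Λ j G - n) = 0 := by
        refine EXT_kill (f := two Y) (l := false) (by rw [two_false]; exact hJC) _
          (fun r hr hrJ => ?_) hc
        rw [two_false] at hr
        have h3 := hγJ k r hr hrJ
        change C (γ k r) = 0
        rw [h3, C_0]
      rw [h2]; exact Ideal.zero_mem _
  refine ⟨E G, ?_, hGE⟩
  obtain ⟨K, _, hK⟩ := hexp G
  rw [hK]
  exact Submodule.sum_mem _ fun k _ => Submodule.mul_mem_mul (hGN k) (g (B k)).2

end slot

end Crest.Agent.R059.Tens151
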