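import Mathlib

/-!
# Blockwise tensor calculus in one polynomial ring (row 59, Theorem B, file TENS)

`b : P → L` is a labelling (`L` finite), the blocks are the fibres, `R = MvPolynomial P F`
is the tensor product of the rings of the blocks.  `mm b e` is the tensor product of the
operators `e l`.  All statements needed about `V_b = ⨂_l V_{A_l}` are proved with it.
-/

set_option autoImplicit false
set_option linter.unusedSectionVars false

open MvPolynomial Finset

namespace Crest.Agent.R059.Tens944

variable {P L F : Type*} [Fintype L] [DecidableEq L] [Field F]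

/-- the part of the exponent `m` in the block `l` -/
noncomputable def bp (b : P → L) (l : L) (m : P →₀ ℕ) : P →₀ ℕ := m.filter (fun a => b a = l)

omit [Fintype L] in
theorem bp_apply (b : P → L) (l : L) (m : P →₀ ℕ) (a : P) :
    bp b l m a = if b a = l then m a else 0 := by
  classical
  rw [bp, Finsupp.filter_apply]

omit [Fintype L] in
theorem bp_add (b : P → L) (l : L) (m n : P →₀ ℕ) : bp b l (m + n) = bp b l m + bp b l n := by
  ext a
  simp only [bp_apply, Finsupp.add_apply]
  split_ifs <;> simp

theorem sum_bp (b : P → L) (m : P →₀ ℕ) : ∑ l, bp b l m = m := by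
  ext a
  rw [Finsupp.finset_sum_apply]
  simp only [bp_apply]
  rw [Finset.sum_ite_eq]
  simp

omit [Fintype L] in
theorem bp_bp (b : P → L) (l l' : L) (m : P →₀ ℕ) :
    bp b l (bp b l' m) = if l' = l then bp b l m else 0 := by
  ext a
  by_cases h : l' = l
  · subst h
    simp only [bp_apply, if_true]
    split_ifs <;> rfl
  · simp only [bp_apply, h, if_false, Finsupp.coe_zero, Pi.zero_apply]
    split_ifs with h1 h2
    · exact absurd (h2.symm.trans h1) h
    · rfl
    · rfl

omit [Fintype L] in
theorem bp_zero (b : P → L) (l : L) : bp b l (0 : P →₀ ℕ) = 0 := by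
  ext a; simp [bp_apply]

/-- polynomials in the variables of the block `l` -/
def RB (F : Type*) [Field F] (b : P → L) (l : L) : Submodule F (MvPolynomial P F) where
  carrier := {G | ∀ m, coeff m G ≠ 0 → bp b l m = m}
  zero_mem' := by intro m h; simp at h
  add_mem' := by
    intro G H hG hH m hm
    rw [coeff_add] at hm
    by_cases h : coeff m G = 0
    · exact hH m (by intro h'; rw [h, h'] at hm; simp at hm)
    · exact hG m h
  smul_mem' := by
    intro c G hG m hm
    rw [coeff_smul] at hm
    exact hG m (by intro h'; rw [h'] at hm; simp at hm)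

omit [Fintype L] in
theorem mem_RB {b : P → L} {l : L} {G : MvPolynomial P F} :
    G ∈ RB F b l ↔ ∀ m, coeff m G ≠ 0 → bp b l m = m := Iff.rfl

/-- polynomials in the variables outside the block `l` -/
def RO (F : Type*) [Field F] (b : P → L) (l : L) : Submodule F (MvPolynomial P F) where
  carrier := {G | ∀ m, coeff m G ≠ 0 → bp b l m = 0}
  zero_mem' := by intro m h; simp at h
  add_mem' := by
    intro G H hG hH m hm
    rw [coeff_add] at hm
    by_cases h : coeff m G = 0
    · exact hH m (by intro h'; rw [h, h'] at hm; simp at hm)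
    · exact hG m h
  smul_mem' := by
    intro c G hG m hm
    rw [coeff_smul] at hm
    exact hG m (by intro h'; rw [h'] at hm; simp at hm)

omit [Fintype L] in
theorem mem_RO {b : P → L} {l : L} {G : MvPolynomial P F} :
    G ∈ RO F b l ↔ ∀ m, coeff m G ≠ 0 → bp b l m = 0 := Iff.rfl

omit [Fintype L] in
theorem monomial_mem_RB (b : P → L) (l : L) (m : P →₀ ℕ) (c : F) (h : bp b l m = m) :
    monomial m c ∈ RB F b l := by
  classical
  intro m' hm'
  rw [coeff_monomial] at hm'
  split_ifs at hm' with h1
  · rw [← h1]; exact h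
  · exact absurd rfl hm'

omit [Fintype L] in
theorem monomial_mem_RO (b : P → L) (l : L) (m : P →₀ ℕ) (c : F) (h : bp b l m = 0) :
    monomial m c ∈ RO F b l := by
  classical
  intro m' hm'
  rw [coeff_monomial] at hm'
  split_ifs at hm' with h1
  · rw [← h1]; exact h
  · exact absurd rfl hm'

omit [Fintype L] in
theorem C_mem_RB (b : P → L) (l : L) (c : F) : (C c : MvPolynomial P F) ∈ RB F b l :=
  monomial_mem_RB b l 0 c (bp_zero b l)

omit [Fintype L] in
theorem C_mem_RO (b : P → L) (l : L) (c : F) : (C c : MvPolynomial P F) ∈ RO F b l :=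
  monomial_mem_RO b l 0 c (bp_zero b l)

omit [Fintype L] in
theorem mul_mem_RB {b : P → L} {l : L} {G H : MvPolynomial P F} (hG : G ∈ RB F b l)
    (hH : H ∈ RB F b l) : G * H ∈ RB F b l := by
  classical
  intro m hm
  rw [coeff_mul] at hm
  obtain ⟨x, hx, hne⟩ := Finset.exists_ne_zero_of_sum_ne_zero hm
  rw [Finset.HasAntidiagonal.mem_antidiagonal] at hx
  have h1 := hG x.1 (left_ne_zero_of_mul hne)
  have h2 := hH x.2 (right_ne_zero_of_mul hne)
  rw [← hx, bp_add, h1, h2]

omit [Fintype L] in
theorem mul_mem_RO {b : P → L} {l : L} {G H : MvPolynomial P F} (hG : G ∈ RO F b l)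
    (hH : H ∈ RO F b l) : G * H ∈ RO F b l := by
  classical
  intro m hm
  rw [coeff_mul] at hm
  obtain ⟨x, hx, hne⟩ := Finset.exists_ne_zero_of_sum_ne_zero hm
  rw [Finset.HasAntidiagonal.mem_antidiagonal] at hx
  have h1 := hG x.1 (left_ne_zero_of_mul hne)
  have h2 := hH x.2 (right_ne_zero_of_mul hne)
  rw [← hx, bp_add, h1, h2]
  exact add_zero 0

omit [Fintype L] in
theorem RB_le_RO {b : P → L} {l l' : L} (h : l' ≠ l) : RB F b l' ≤ RO F b l := by
  intro G hG m hm
  have h1 := hG m hm
  rw [← h1, bp_bp, if_neg h]

omit [Fintype L] in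
theorem one_mem_RO (b : P → L) (l : L) : (1 : MvPolynomial P F) ∈ RO F b l := C_mem_RO b l 1

omit [Fintype L] in
theorem one_mem_RB (b : P → L) (l : L) : (1 : MvPolynomial P F) ∈ RB F b l := C_mem_RB b l 1

theorem prod_mem_RO {b : P → L} {l : L} {g : L → MvPolynomial P F} (s : Finset L)
    (hg : ∀ l' ∈ s, g l' ∈ RO F b l) : ∏ l' ∈ s, g l' ∈ RO F b l := by
  induction s using Finset.induction_on with
  | empty => simpa using one_mem_RO b l
  | insert a s ha ih =>
      rw [Finset.prod_insert ha]
      exact mul_mem_RO (hg a (Finset.mem_insert_self a s))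
        (ih (fun l' h => hg l' (Finset.mem_insert_of_mem h)))

theorem monomial_eq_prod (b : P → L) (m : P →₀ ℕ) :
    (monomial m (1 : F)) = ∏ l, monomial (bp b l m) (1 : F) := by
  have h : ∀ s : Finset L, ∏ l ∈ s, monomial (bp b l m) (1 : F)
      = monomial (∑ l ∈ s, bp b l m) (1 : F) := by
    intro s
    induction s using Finset.induction_on with
    | empty => simp
    | insert a s ha ih =>
        rw [Finset.prod_insert ha, Finset.sum_insert ha, ih, monomial_mul, one_mul]
  rw [h, sum_bp]

/-! ### the tensor product of operators -/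

/-- tensor product of the operators `e l` -/
noncomputable def mm (b : P → L) (e : L → (MvPolynomial P F →ₗ[F] MvPolynomial P F)) :
    MvPolynomial P F →ₗ[F] MvPolynomial P F :=
  (basisMonomials P F).constr F (fun m => ∏ l, e l (monomial (bp b l m) 1))

theorem mm_monomial (b : P → L) (e : L → (MvPolynomial P F →ₗ[F] MvPolynomial P F))
    (m : P →₀ ℕ) (c : F) :
    mm b e (monomial m c) = c • ∏ l, e l (monomial (bp b l m) 1) := by
  have h : (monomial m c : MvPolynomial P F) = c • (basisMonomials P F) m := by
    rw [coe_basisMonomials, smul_monomial, smul_eq_mul, mul_one]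
  rw [h, map_smul, mm, Module.Basis.constr_basis]

/-- polynomial as a sum of monomials, each scaled from coefficient one -/
theorem as_sum' (G : MvPolynomial P F) :
    G = ∑ m ∈ G.support, coeff m G • monomial m (1 : F) := by
  conv_lhs => rw [G.as_sum]
  apply Finset.sum_congr rfl
  intro m _
  rw [smul_monomial, smul_eq_mul, mul_one]

theorem mm_prod (b : P → L) (e : L → (MvPolynomial P F →ₗ[F] MvPolynomial P F))
    (g : L → MvPolynomial P F) (hg : ∀ l, g l ∈ RB F b l) :
    mm b e (∏ l, g l) = ∏ l, e l (g l) := by
  classical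
  have h1 : ∏ l, g l = ∑ p ∈ Fintype.piFinset (fun l => (g l).support),
      (∏ l, coeff (p l) (g l)) • monomial (∑ l, p l) (1 : F) := by
    conv_lhs =>
      enter [2, l]
      rw [as_sum' (g l)]
    rw [Finset.prod_univ_sum]
    apply Finset.sum_congr rfl
    intro p _
    rw [Finset.prod_smul]
    congr 1
    have h : ∀ s : Finset L, ∏ l ∈ s, monomial (p l) (1 : F)
        = monomial (∑ l ∈ s, p l) (1 : F) := by
      intro s
      induction s using Finset.induction_on with
      | empty => simp
      | insert a s ha ih =>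
          rw [Finset.prod_insert ha, Finset.sum_insert ha, ih, monomial_mul, one_mul]
    exact h _
  have h2 : ∏ l, e l (g l) = ∑ p ∈ Fintype.piFinset (fun l => (g l).support),
      (∏ l, coeff (p l) (g l)) • ∏ l, e l (monomial (p l) (1 : F)) := by
    conv_lhs =>
      enter [2, l]
      rw [as_sum' (g l), map_sum]
    rw [Finset.prod_univ_sum]
    apply Finset.sum_congr rfl
    intro p _
    rw [← Finset.prod_smul]
    apply Finset.prod_congr rfl
    intro l _
    rw [map_smul]
  rw [h1, h2, map_sum]
  apply Finset.sum_congr rfl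
  intro p hp
  rw [map_smul, mm_monomial, one_smul]
  congr 1
  apply Finset.prod_congr rfl
  intro l _
  congr 2
  rw [Fintype.mem_piFinset] at hp
  have h3 : ∀ l', bp b l' (p l') = p l' := by
    intro l'
    have := hp l'
    rw [mem_support_iff] at this
    exact hg l' _ this
  have h4 : ∀ s : Finset L, bp b l (∑ l' ∈ s, p l') = ∑ l' ∈ s, bp b l (p l') := by
    intro s
    induction s using Finset.induction_on with
    | empty => simp [bp_zero]
    | insert a s ha ih => rw [Finset.sum_insert ha, Finset.sum_insert ha, bp_add, ih]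
  rw [h4]
  have h5 : ∀ l', bp b l (p l') = if l' = l then p l else 0 := by
    intro l'
    rw [← h3 l', bp_bp]
    split_ifs with h
    · subst h; rw [h3]
    · rfl
  rw [Finset.sum_congr rfl (fun l' _ => h5 l')]
  simp

/-- two linear maps which agree on all blockwise products agree -/
theorem ext_prod {M : Type*} [AddCommGroup M] [Module F M] (b : P → L)
    (f g : MvPolynomial P F →ₗ[F] M)
    (h : ∀ x : L → MvPolynomial P F, (∀ l, x l ∈ RB F b l) → f (∏ l, x l) = g (∏ l, x l)) :
    f = g := by
  apply (basisMonomials P F).ext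
  intro m
  rw [coe_basisMonomials]
  show f (monomial m 1) = g (monomial m 1)
  rw [monomial_eq_prod b m]
  apply h
  intro l
  apply monomial_mem_RB
  rw [bp_bp, if_pos rfl]

theorem mm_comp (b : P → L) (e e' : L → (MvPolynomial P F →ₗ[F] MvPolynomial P F))
    (h : ∀ l, ∀ G ∈ RB F b l, e' l G ∈ RB F b l) :
    (mm b e).comp (mm b e') = mm b (fun l => (e l).comp (e' l)) := by
  apply ext_prod b
  intro x hx
  rw [LinearMap.comp_apply, mm_prod b e' x hx, mm_prod b _ x hx, mm_prod b e _ (fun l => h l _ (hx l))]
  rfl

theorem mm_id (b : P → L) : mm b (fun _ => LinearMap.id) = (LinearMap.id : MvPolynomial P F →ₗ[F] _) := by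
  apply ext_prod b
  intro x hx
  rw [mm_prod b _ x hx]
  rfl

/-! ### the extension of a subspace of a block ring to `R` -/

/-- `I · R_{Y^c}` for the block `Y` with label `l` -/
noncomputable def exI (b : P → L) (l : L) (I : Submodule F (MvPolynomial P F)) :
    Submodule F (MvPolynomial P F) :=
  Submodule.span F {x | ∃ i ∈ I, ∃ g ∈ RO F b l, x = i * g}

theorem mul_mem_exI {b : P → L} {l : L} {I : Submodule F (MvPolynomial P F)}
    {i g : MvPolynomial P F} (hi : i ∈ I) (hg : g ∈ RO F b l) : i * g ∈ exI b l I :=
  Submodule.subset_span ⟨i, hi, g, hg, rfl⟩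

theorem le_exI (b : P → L) (l : L) (I : Submodule F (MvPolynomial P F)) : I ≤ exI b l I := by
  intro i hi
  have := mul_mem_exI (b := b) (l := l) hi (one_mem_RO b l)
  rwa [mul_one] at this

theorem exI_mono {b : P → L} {l : L} {I I' : Submodule F (MvPolynomial P F)} (h : I ≤ I') :
    exI b l I ≤ exI b l I' := by
  apply Submodule.span_mono
  rintro x ⟨i, hi, g, hg, rfl⟩
  exact ⟨i, h hi, g, hg, rfl⟩

/-- to prove `exI b l I ≤ T` it is enough to treat products with a monomial off the block -/
theorem exI_le {b : P → L} {l : L} {I T : Submodule F (MvPolynomial P F)}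
    (h : ∀ i ∈ I, ∀ n : P →₀ ℕ, bp b l n = 0 → i * monomial n 1 ∈ T) : exI b l I ≤ T := by
  apply Submodule.span_le.mpr
  rintro x ⟨i, hi, g, hg, rfl⟩
  rw [as_sum' g, Finset.mul_sum]
  apply Submodule.sum_mem
  intro n hn
  rw [mul_smul_comm]
  apply Submodule.smul_mem
  apply h i hi
  exact hg n (by rwa [mem_support_iff] at hn)

/-- product form of `i * x^n` with `i` in the block `l` and `n` off the block -/
theorem mul_monomial_eq (b : P → L) (l : L) (i : MvPolynomial P F) (n : P →₀ ℕ)
    (hn : bp b l n = 0) :
    i * monomial n 1 = ∏ l', Function.update (fun l' => monomial (bp b l' n) (1 : F)) l i l' := by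
  classical
  rw [Finset.prod_update_of_mem (Finset.mem_univ l)]
  congr 1
  rw [monomial_eq_prod b n]
  rw [← Finset.prod_sdiff (Finset.subset_univ ({l} : Finset L)), Finset.prod_singleton, hn]
  simp

theorem update_mem (b : P → L) (l : L) {i : MvPolynomial P F} (n : P →₀ ℕ)
    (hi : i ∈ RB F b l) (l' : L) :
    Function.update (fun l' => monomial (bp b l' n) (1 : F)) l i l' ∈ RB F b l' := by
  classical
  by_cases h : l' = l
  · subst h; rw [Function.update_self]; exact hi
  · rw [Function.update_of_ne h]
    apply monomial_mem_RB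
    rw [bp_bp, if_pos rfl]

theorem mm_mul_monomial (b : P → L) (e : L → (MvPolynomial P F →ₗ[F] MvPolynomial P F)) (l : L)
    (i : MvPolynomial P F) (hi : i ∈ RB F b l) (n : P →₀ ℕ) (hn : bp b l n = 0) :
    mm b e (i * monomial n 1)
      = e l i * ∏ l' ∈ Finset.univ \ {l}, e l' (monomial (bp b l' n) (1 : F)) := by
  classical
  rw [mul_monomial_eq b l i n hn, mm_prod b e _ (update_mem b l n hi)]
  rw [← Finset.prod_sdiff (Finset.subset_univ ({l} : Finset L)), Finset.prod_singleton,
    Function.update_self, mul_comm]
  congr 1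
  apply Finset.prod_congr rfl
  intro l' hl'
  rw [Finset.mem_sdiff, Finset.mem_singleton] at hl'
  rw [Function.update_of_ne hl'.2]

theorem mm_kill {b : P → L} (e : L → (MvPolynomial P F →ₗ[F] MvPolynomial P F)) {l : L}
    {I : Submodule F (MvPolynomial P F)} (hI : I ≤ RB F b l) (h : ∀ i ∈ I, e l i = 0)
    {G : MvPolynomial P F} (hG : G ∈ exI b l I) : mm b e G = 0 := by
  have : exI b l I ≤ LinearMap.ker (mm b e) := by
    apply exI_le
    intro i hi n hn
    rw [LinearMap.mem_ker, mm_mul_monomial b e l i (hI hi) n hn, h i hi, zero_mul]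
  exact this hG

/-- the ideal-like subspace `J = Σ_l I_l · R_{Y_l^c}` -/
noncomputable def JJ (b : P → L) (I : L → Submodule F (MvPolynomial P F)) : Submodule F (MvPolynomial P F) :=
  ⨆ l, exI b l (I l)

theorem exI_le_JJ (b : P → L) (I : L → Submodule F (MvPolynomial P F)) (l : L) :
    exI b l (I l) ≤ JJ b I := le_iSup (fun l => exI b l (I l)) l

/-- separating functional for a family which is independent modulo `I` -/
theorem exists_dual {V : Type*} [AddCommGroup V] [Module F V] {ι : Type*} (I : Submodule F V)
    (x : ι → V) (hx : LinearIndependent F (fun i => I.mkQ (x i))) (i : ι) :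
    ∃ f : V →ₗ[F] F, (∀ v ∈ I, f v = 0) ∧ f (x i) = 1 ∧ ∀ j, j ≠ i → f (x j) = 0 := by
  classical
  obtain ⟨g, hg⟩ := LinearMap.exists_extend ((Finsupp.lapply i).comp hx.repr)
  have key : ∀ j, (g.comp I.mkQ) (x j) = (Finsupp.single j (1 : F)) i := by
    intro j
    have hmem : I.mkQ (x j) ∈ Submodule.span F (Set.range fun i => I.mkQ (x i)) :=
      Submodule.subset_span ⟨j, rfl⟩
    have h1 : g (I.mkQ (x j)) = ((Finsupp.lapply i).comp hx.repr) ⟨I.mkQ (x j), hmem⟩ := by
      rw [← hg]; rfl
    rw [LinearMap.comp_apply, h1, LinearMap.comp_apply, hx.repr_eq_single j ⟨_, hmem⟩ rfl,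
      Finsupp.lapply_apply]
  refine ⟨g.comp I.mkQ, ?_, ?_, ?_⟩
  · intro v hv
    rw [LinearMap.comp_apply]
    have : I.mkQ v = 0 := by rwa [Submodule.mkQ_apply, Submodule.Quotient.mk_eq_zero]
    rw [this, map_zero]
  · rw [key i, Finsupp.single_eq_same]
  · intro j hj
    rw [key j, Finsupp.single_eq_of_ne (Ne.symm hj)]

/-- scalars as a linear map into `R` -/
noncomputable def Cl : F →ₗ[F] MvPolynomial P F := Algebra.linearMap F (MvPolynomial P F)

theorem Cl_apply (c : F) : (Cl c : MvPolynomial P F) = C c := rfl

/-- (T3) independence of blockwise products modulo `J` -/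
theorem indep (b : P → L) (I : L → Submodule F (MvPolynomial P F)) (hI : ∀ l, I l ≤ RB F b l)
    {ι : L → Type*} (x : ∀ l, ι l → MvPolynomial P F) (hx : ∀ l i, x l i ∈ RB F b l)
    (hind : ∀ l, LinearIndependent F (fun i => (I l).mkQ (x l i))) :
    LinearIndependent F (fun φ : (∀ l, ι l) => (JJ b I).mkQ (∏ l, x l (φ l))) := by
  classical
  rw [linearIndependent_iff']
  intro s c hc ψ hψ
  choose lam hlam0 hlam1 hlam2 using fun l i => exists_dual (I l) (x l) (hind l) i
  set Λ : MvPolynomial P F →ₗ[F] MvPolynomial P F :=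
    mm b (fun l => Cl.comp (lam l (ψ l))) with hΛ
  have hJ : JJ b I ≤ LinearMap.ker Λ := by
    apply iSup_le
    intro l G hG
    rw [LinearMap.mem_ker]
    apply mm_kill _ (hI l) _ hG
    intro i hi
    rw [LinearMap.comp_apply, hlam0 l (ψ l) i hi, map_zero]
  have h1 : ∑ φ ∈ s, c φ • ∏ l, x l (φ l) ∈ JJ b I := by
    rw [← Submodule.Quotient.mk_eq_zero, ← Submodule.mkQ_apply, map_sum]
    rw [← hc]
    apply Finset.sum_congr rfl
    intro φ _
    rw [map_smul]
  have h2 := hJ h1
  rw [LinearMap.mem_ker, map_sum] at h2
  have h3 : ∀ φ ∈ s, Λ (c φ • ∏ l, x l (φ l)) = if φ = ψ then C (c φ) else 0 := by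
    intro φ _
    rw [map_smul, hΛ, mm_prod b _ _ (fun l => hx l (φ l))]
    simp only [LinearMap.comp_apply, Cl_apply]
    split_ifs with h
    · subst h
      simp [hlam1, MvPolynomial.smul_eq_C_mul]
    · have : ∃ l, φ l ≠ ψ l := by
        by_contra hcon
        push Not at hcon
        exact h (funext hcon)
      obtain ⟨l, hl⟩ := this
      rw [Finset.prod_eq_zero (Finset.mem_univ l) (by rw [hlam2 l (ψ l) _ hl, map_zero]),
        smul_zero]
  rw [Finset.sum_congr rfl h3, Finset.sum_ite_eq' s ψ, if_pos hψ] at h2
  exact (C_injective P F) (by rw [h2, map_zero])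

/-! ### the transfer theorem -/

/-- the coefficient functional is a blockwise product -/
theorem coeff_eq_mm (b : P → L) (n : P →₀ ℕ) (G : MvPolynomial P F) :
    C (coeff n G) = mm b (fun l => Cl.comp (lcoeff F (bp b l n))) G := by
  classical
  have h : (Cl.comp (lcoeff F n) : MvPolynomial P F →ₗ[F] MvPolynomial P F)
      = mm b (fun l => Cl.comp (lcoeff F (bp b l n))) := by
    apply (basisMonomials P F).ext
    intro m
    rw [coe_basisMonomials]
    show _ = mm b _ (monomial m 1)
    rw [mm_monomial, one_smul]
    show C (coeff n (monomial m 1)) = ∏ l, C (coeff (bp b l n) (monomial (bp b l m) 1))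
    rw [coeff_monomial]
    split_ifs with hmn
    · subst hmn
      simp [coeff_monomial]
    · have : ∃ l, bp b l m ≠ bp b l n := by
        by_contra hcon
        push Not at hcon
        apply hmn
        rw [← sum_bp b m, ← sum_bp b n]
        exact Finset.sum_congr rfl (fun l _ => hcon l)
      obtain ⟨l, hl⟩ := this
      rw [Finset.prod_eq_zero (Finset.mem_univ l) (by rw [coeff_monomial, if_neg hl, map_zero]),
        map_zero]
  rw [← h]
  rfl

theorem mm_apply_block (b : P → L) (e : L → (MvPolynomial P F →ₗ[F] MvPolynomial P F)) (l : L)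
    (i : MvPolynomial P F) (hi : i ∈ RB F b l) :
    mm b e i = e l i * ∏ l' ∈ Finset.univ \ {l}, e l' 1 := by
  have h := mm_mul_monomial b e l i hi 0 (bp_zero b l)
  simp only [bp_zero] at h
  rw [show (monomial 0 (1 : F) : MvPolynomial P F) = 1 from rfl, mul_one] at h
  exact h

theorem range_mm_le (b : P → L) (e : L → (MvPolynomial P F →ₗ[F] MvPolynomial P F))
    (T : Submodule F (MvPolynomial P F))
    (h : ∀ x : L → MvPolynomial P F, (∀ l, x l ∈ RB F b l) → ∏ l, e l (x l) ∈ T)
    (G : MvPolynomial P F) : mm b e G ∈ T := by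
  rw [as_sum' G, map_sum]
  apply Submodule.sum_mem
  intro m _
  rw [map_smul]
  apply Submodule.smul_mem
  rw [mm_monomial, one_smul]
  apply h
  intro l
  apply monomial_mem_RB
  rw [bp_bp, if_pos rfl]

/-- adapted projections for `I ≤ W` -/
theorem exists_proj {V : Type*} [AddCommGroup V] [Module F V] (I W : Submodule F V) (hIW : I ≤ W) :
    ∃ e : Fin 3 → (V →ₗ[F] V), (∀ v, ∑ j, e j v = v) ∧ (∀ v, e 0 v ∈ I) ∧ (∀ v, e 1 v ∈ W) ∧
      (∀ v ∈ I, e 1 v = 0) ∧ (∀ v ∈ W, e 2 v = 0) ∧
      (∀ U : Submodule F V, W ≤ U → ∀ j, ∀ v ∈ U, e j v ∈ U) := by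
  obtain ⟨p, hp⟩ := LinearMap.exists_leftInverse_of_injective I.subtype (Submodule.ker_subtype I)
  obtain ⟨w, hw⟩ := LinearMap.exists_leftInverse_of_injective W.subtype (Submodule.ker_subtype W)
  set pI : V →ₗ[F] V := I.subtype.comp p with hpI
  set pW : V →ₗ[F] V := W.subtype.comp w with hpW
  have hI1 : ∀ v, pI v ∈ I := fun v => (p v).2
  have hW1 : ∀ v, pW v ∈ W := fun v => (w v).2
  have hI2 : ∀ v ∈ I, pI v = v := by
    intro v hv
    have := LinearMap.congr_fun hp ⟨v, hv⟩
    rw [LinearMap.comp_apply, LinearMap.id_apply] at this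
    rw [hpI, LinearMap.comp_apply]
    have h2 : p v = ⟨v, hv⟩ := this
    rw [h2]; rfl
  have hW2 : ∀ v ∈ W, pW v = v := by
    intro v hv
    have := LinearMap.congr_fun hw ⟨v, hv⟩
    rw [LinearMap.comp_apply, LinearMap.id_apply] at this
    rw [hpW, LinearMap.comp_apply]
    have h2 : w v = ⟨v, hv⟩ := this
    rw [h2]; rfl
  refine ⟨![pI.comp pW, pW - pI.comp pW, LinearMap.id - pW], ?_, ?_, ?_, ?_, ?_, ?_⟩
  · intro v
    simp [Fin.sum_univ_three]
  · intro v
    exact hI1 _
  · intro v
    show pW v - pI (pW v) ∈ W
    exact Submodule.sub_mem _ (hW1 v) (hIW (hI1 _))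
  · intro v hv
    show pW v - pI (pW v) = 0
    rw [hW2 v (hIW hv), hI2 v hv, sub_self]
  · intro v hv
    show v - pW v = 0
    rw [hW2 v hv, sub_self]
  · intro U hU j v hv
    fin_cases j
    · exact hU (hIW (hI1 _))
    · exact hU (Submodule.sub_mem _ (hW1 v) (hIW (hI1 _)))
    · exact Submodule.sub_mem _ hv (hU (hW1 v))

/-- (T4) transfer of blockwise conditions: if `t` satisfies modulo `J` the conditions which define
the spaces `W l` in every block, then `t` is modulo `J` a combination of products of elements
of the `W l`. -/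
theorem transfer (b : P → L) (I W : L → Submodule F (MvPolynomial P F))
    (hIW : ∀ l, I l ≤ W l) (hW : ∀ l, W l ≤ RB F b l)
    {κ : L → Type*} (φ : ∀ l, κ l → (MvPolynomial P F →ₗ[F] MvPolynomial P F))
    (I' : ∀ l, κ l → Submodule F (MvPolynomial P F))
    (hI' : ∀ l k, I' l k ≤ RB F b l)
    (hφ : ∀ l k, ∀ G ∈ RB F b l, ∀ g ∈ RO F b l, φ l k (G * g) = φ l k G * g)
    (hφB : ∀ l k, ∀ G ∈ RB F b l, φ l k G ∈ RB F b l)
    (hWφ : ∀ l, ∀ x ∈ RB F b l, (∀ k, φ l k x ∈ I' l k) → x ∈ W l)
    (t : MvPolynomial P F)
    (ht : ∀ l k, φ l k t ∈ exI b l (I' l k) ⊔ ⨆ l' : L, ⨆ _ : l' ≠ l, exI b l' (I l')) :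
    t ∈ JJ b I ⊔ Submodule.span F {y | ∃ w : L → MvPolynomial P F, (∀ l, w l ∈ W l) ∧
      y = ∏ l, w l} := by
  classical
  choose e he hI0 hW1 hI1 hW2 hU using fun l => exists_proj (I l) (W l) (hIW l)
  have hIRB : ∀ l, I l ≤ RB F b l := fun l => (hIW l).trans (hW l)
  have heB : ∀ l j, ∀ v ∈ RB F b l, e l j v ∈ RB F b l := fun l j v hv => hU l _ (hW l) j v hv
  -- decomposition
  have hdec : t = ∑ τ ∈ Fintype.piFinset (fun _ : L => (Finset.univ : Finset (Fin 3))),
      mm b (fun l => e l (τ l)) t := by
    have : (LinearMap.id : MvPolynomial P F →ₗ[F] MvPolynomial P F)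
        = ∑ τ ∈ Fintype.piFinset (fun _ : L => (Finset.univ : Finset (Fin 3))),
          mm b (fun l => e l (τ l)) := by
      apply ext_prod b
      intro x hx
      rw [LinearMap.id_apply, LinearMap.sum_apply]
      rw [Finset.sum_congr rfl (fun τ _ => mm_prod b (fun l => e l (τ l)) x hx)]
      rw [← Finset.prod_univ_sum (t := fun _ : L => (Finset.univ : Finset (Fin 3)))
        (f := fun l j => e l j (x l))]
      apply Finset.prod_congr rfl
      intro l _
      exact (he l (x l)).symm
    conv_lhs => rw [← LinearMap.id_apply (R := F) t, this, LinearMap.sum_apply]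
  rw [hdec]
  apply Submodule.sum_mem
  intro τ _
  by_cases h0 : ∃ l, τ l = 0
  · -- a factor in `I`
    obtain ⟨l, hl⟩ := h0
    apply Submodule.mem_sup_left
    apply exI_le_JJ b I l
    apply range_mm_le
    intro x hx
    rw [← Finset.prod_sdiff (Finset.subset_univ ({l} : Finset L)), Finset.prod_singleton,
      mul_comm]
    apply mul_mem_exI
    · rw [hl]; exact hI0 l _
    · apply prod_mem_RO
      intro l' hl'
      rw [Finset.mem_sdiff, Finset.mem_singleton] at hl'
      exact RB_le_RO hl'.2 (heB l' _ _ (hx l'))
  push Not at h0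
  by_cases h2 : ∃ l, τ l = 2
  · -- a factor in `C`: the term vanishes
    obtain ⟨l, hl⟩ := h2
    have hz : mm b (fun l => e l (τ l)) t = 0 := by
      ext n
      rw [coeff_zero]
      apply C_injective P F
      rw [map_zero, coeff_eq_mm b]
      rw [← LinearMap.comp_apply, mm_comp b _ _ (fun l' G hG => heB l' _ G hG)]
      -- the contraction onto the block `l`
      set ee : L → (MvPolynomial P F →ₗ[F] MvPolynomial P F) :=
        fun l' => (Cl.comp (lcoeff F (bp b l' n))).comp (e l' (τ l')) with hee
      set ek : L → (MvPolynomial P F →ₗ[F] MvPolynomial P F) :=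
        Function.update ee l LinearMap.id with hek
      have heeC : ∀ l' G, ∃ c : F, ee l' G = C c := fun l' G => ⟨_, rfl⟩
      have hekB : ∀ l', ∀ G ∈ RB F b l', ek l' G ∈ RB F b l' := by
        intro l' G hG
        by_cases h : l' = l
        · subst h; rw [hek, Function.update_self]; exact hG
        · rw [hek, Function.update_of_ne h]
          obtain ⟨c, hc⟩ := heeC l' G
          rw [hc]; exact C_mem_RB b l' c
      have hcomp : mm b ee
          = (mm b (Function.update (fun _ => LinearMap.id) l (ee l))).comp (mm b ek) := by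
        rw [mm_comp b _ _ hekB]
        congr 1
        funext l'
        by_cases h : l' = l
        · subst h
          rw [Function.update_self, hek, Function.update_self, LinearMap.comp_id]
        · rw [Function.update_of_ne h, hek, Function.update_of_ne h, LinearMap.id_comp]
      -- value of the contraction on blockwise products
      have hval : ∀ x : MvPolynomial P F, x ∈ RB F b l → ∀ m : P →₀ ℕ, bp b l m = 0 →
          ∃ c : F, mm b ek (x * monomial m 1) = x * C c ∧
            ∀ y ∈ RB F b l, mm b ek (y * monomial m 1) = y * C c := by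
        intro x hx m hm
        have hc : ∃ c : F, ∏ l' ∈ Finset.univ \ {l}, ek l' (monomial (bp b l' m) (1 : F))
            = C c := by
          have : ∀ l' ∈ Finset.univ \ {l}, ∃ c : F, ek l' (monomial (bp b l' m) (1 : F)) = C c := by
            intro l' hl'
            rw [Finset.mem_sdiff, Finset.mem_singleton] at hl'
            rw [hek, Function.update_of_ne hl'.2]
            exact heeC l' _
          choose! c hc using this
          refine ⟨∏ l' ∈ Finset.univ \ {l}, c l', ?_⟩
          rw [map_prod]
          exact Finset.prod_congr rfl hc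
        obtain ⟨c, hc⟩ := hc
        refine ⟨c, ?_, ?_⟩
        · rw [mm_mul_monomial b ek l x hx m hm, hc, hek, Function.update_self, LinearMap.id_apply]
        · intro y hy
          rw [mm_mul_monomial b ek l y hy m hm, hc, hek, Function.update_self, LinearMap.id_apply]
      have hrange : ∀ G, mm b ek G ∈ RB F b l := by
        intro G
        apply range_mm_le
        intro x hx
        rw [← Finset.prod_sdiff (Finset.subset_univ ({l} : Finset L)), Finset.prod_singleton]
        apply mul_mem_RB
        · have : ∀ l' ∈ Finset.univ \ {l}, ∃ c : F, ek l' (x l') = C c := by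
            intro l' hl'
            rw [Finset.mem_sdiff, Finset.mem_singleton] at hl'
            rw [hek, Function.update_of_ne hl'.2]
            exact heeC l' _
          choose! c hc using this
          rw [Finset.prod_congr rfl hc, ← map_prod]
          exact C_mem_RB b l _
        · exact hekB l _ (hx l)
      have hcomm : ∀ k G, φ l k (mm b ek G) = mm b ek (φ l k G) := by
        intro k G
        have : (φ l k).comp (mm b ek) = (mm b ek).comp (φ l k) := by
          apply (basisMonomials P F).ext
          intro m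
          rw [coe_basisMonomials]
          show φ l k (mm b ek (monomial m 1)) = mm b ek (φ l k (monomial m 1))
          have hm0 : (monomial m (1 : F)) = monomial (bp b l m) 1 * monomial (m - bp b l m) 1 := by
            have h9 : bp b l m + (m - bp b l m) = m := by
              ext a
              rw [Finsupp.add_apply, Finsupp.tsub_apply, bp_apply]
              split_ifs <;> omega
            rw [monomial_mul, one_mul, h9]
          have hm1 : bp b l (m - bp b l m) = 0 := by
            ext a
            rw [bp_apply, Finsupp.tsub_apply, bp_apply]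
            split_ifs <;> simp
          have hxm : monomial (bp b l m) (1 : F) ∈ RB F b l :=
            monomial_mem_RB _ _ _ _ (by rw [bp_bp, if_pos rfl])
          obtain ⟨c, hc1, hc2⟩ := hval _ hxm _ hm1
          rw [hm0, hc1, hφ l k _ hxm _ (C_mem_RO b l c),
            hφ l k _ hxm _ (monomial_mem_RO b l _ _ hm1), hc2 _ (hφB l k _ hxm)]
        exact LinearMap.congr_fun this G
      have hkt : mm b ek t ∈ W l := by
        apply hWφ l _ (hrange t)
        intro k
        rw [hcomm k t]
        have h3 : exI b l (I' l k) ⊔ ⨆ l' : L, ⨆ _ : l' ≠ l, exI b l' (I l')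
            ≤ (I' l k).comap (mm b ek) := by
          apply sup_le
          · apply exI_le
            intro i hi m hm
            rw [Submodule.mem_comap]
            obtain ⟨c, hc1, -⟩ := hval i (hI' l k hi) m hm
            rw [hc1, mul_comm, ← MvPolynomial.smul_eq_C_mul]
            exact Submodule.smul_mem _ _ hi
          · apply iSup_le
            intro l'
            apply iSup_le
            intro hne G hG
            rw [Submodule.mem_comap]
            rw [mm_kill ek (hIRB l') _ hG]
            · exact Submodule.zero_mem _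
            · intro i hi
              rw [hek, Function.update_of_ne hne, hee]
              show Cl (lcoeff F (bp b l' n) (e l' (τ l') i)) = 0
              have : e l' (τ l') i = 0 := by
                have h4 : τ l' = 1 ∨ τ l' = 2 := by
                  have := h0 l'
                  generalize τ l' = a at this
                  fin_cases a
                  · exact absurd rfl this
                  · left; rfl
                  · right; rfl
                rcases h4 with h4 | h4
                · rw [h4]; exact hI1 l' i hi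
                · rw [h4]; exact hW2 l' i (hIW l' hi)
              rw [this, map_zero, map_zero]
        exact h3 (ht l k)
      show mm b ee t = 0
      rw [hcomp, LinearMap.comp_apply, mm_apply_block b _ l _ (hrange t), Function.update_self]
      have : ee l (mm b ek t) = 0 := by
        rw [hee]
        show Cl (lcoeff F (bp b l n) (e l (τ l) (mm b ek t))) = 0
        rw [hl, hW2 l _ hkt, map_zero, map_zero]
      rw [this, zero_mul]
    rw [hz]
    exact Submodule.zero_mem _
  · push Not at h2
    have h1 : ∀ l, τ l = 1 := by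
      intro l
      have ha := h0 l
      have hb := h2 l
      generalize τ l = a at ha hb
      fin_cases a
      · exact absurd rfl ha
      · rfl
      · exact absurd rfl hb
    apply Submodule.mem_sup_right
    apply range_mm_le
    intro x hx
    apply Submodule.subset_span
    refine ⟨fun l => e l (τ l) (x l), ?_, rfl⟩
    intro l
    show e l (τ l) (x l) ∈ W l
    rw [h1 l]
    exact hW1 l _

end Crest.Agent.R059.Tens944
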