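import Mathlib
import Crest.Agent.R059.Thin0_613
import Crest.Agent.R059.Thin4_613
import Crest.Agent.R059.Thin4b_613
import Crest.Agent.R059.NoPole_359

/-!
# Row 59, Theorem B (thin form), leaf AB5/AB6, part 1: preparations

Relabelling invariance of `ud`, `JJ`, `N2`, `nb`; `JJ` is killed by the shift; the number
`AL f = NR (f a < f b)`, and the count for merging two labels.
-/

set_option autoImplicit false
set_option linter.unusedSectionVars false

namespace Crest.Agent.R059.ThinB359

open MvPolynomial Finset
open Crest.Agent.R059.Thin613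
open Crest.Agent.R059.Deg359 (TD_zero TD_X TD_C TD_one)
open Crest.Agent.R059.Shift359

variable {P : Type*} [Fintype P] [DecidableEq P]
variable {F : Type*} [CommRing F]
variable {V : Type*} [AddCommGroup V] [LinearOrder V] [IsOrderedAddMonoid V]
variable {L : Type*} {L' : Type*}

/-! ### bridge between `sh` and `Esh` -/

theorem sh_eq_Esh (arr : P → P → ℕ) (th : P → V) (f : P → L) (x : MvPolynomial P F) :
    sh F arr th f x = Esh f (JJ F arr th f) x := by
  rw [sh_eq, Esh_apply]
  rfl

theorem ud_iff_Esh (arr : P → P → ℕ) (th : P → V) (f : P → L) (m : ℤ) (x : MvPolynomial P F) :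
    ud F arr th f m x ↔ Deg359.TD m (Esh f (JJ F arr th f) x) := by
  unfold ud
  rw [sh_eq_Esh]

theorem ud_iff (arr : P → P → ℕ) (th : P → V) (f : P → L) (m : ℤ) (x : MvPolynomial P F) :
    ud F arr th f m x ↔
      ∀ α : L →₀ ℕ, m < ((α.degree : ℕ) : ℤ) → coeff α (sft f x) ∈ JJ F arr th f := by
  rw [ud_iff_Esh]
  constructor
  · intro h α hα
    have h1 := h.coeff_eq_zero hα
    rw [coeff_Esh] at h1
    exact Ideal.Quotient.eq_zero_iff_mem.mp h1
  · intro h α hα
    by_contra hc
    apply hα
    rw [coeff_Esh]
    exact Ideal.Quotient.eq_zero_iff_mem.mpr (h α (not_le.mp hc))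

theorem ud_mono {arr : P → P → ℕ} {th : P → V} {f : P → L} {m n : ℤ} {x : MvPolynomial P F}
    (h : ud F arr th f m x) (hmn : m ≤ n) : ud F arr th f n x := by
  rw [ud_iff_Esh] at h ⊢
  exact h.mono hmn

theorem ud_add {arr : P → P → ℕ} {th : P → V} {f : P → L} {m : ℤ} {x y : MvPolynomial P F}
    (hx : ud F arr th f m x) (hy : ud F arr th f m y) : ud F arr th f m (x + y) := by
  rw [ud_iff_Esh] at hx hy ⊢
  rw [map_add]
  exact hx.add hy

theorem ud_zero (arr : P → P → ℕ) (th : P → V) (f : P → L) (m : ℤ) :
    ud F arr th f m 0 := by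
  rw [ud_iff_Esh, map_zero]
  exact TD_zero m

theorem ud_mul {arr : P → P → ℕ} {th : P → V} {f : P → L} {m n : ℤ} {x y : MvPolynomial P F}
    (hx : ud F arr th f m x) (hy : ud F arr th f n y) : ud F arr th f (m + n) (x * y) := by
  rw [ud_iff_Esh] at hx hy ⊢
  rw [map_mul]
  exact hx.mul hy

theorem ud_C (arr : P → P → ℕ) (th : P → V) (f : P → L) (r : F) :
    ud F arr th f 0 (C r) := by
  rw [ud_iff_Esh, Esh_C]
  exact TD_C _

theorem ud_X (arr : P → P → ℕ) (th : P → V) (f : P → L) (a : P) :
    ud F arr th f 1 (X a) := by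
  rw [ud_iff_Esh, Esh_X]
  exact ((TD_C _).mono (by norm_num)).add (TD_X _)

theorem ud_smul {arr : P → P → ℕ} {th : P → V} {f : P → L} {m : ℤ} {x : MvPolynomial P F}
    (r : F) (hx : ud F arr th f m x) : ud F arr th f m (r • x) := by
  rw [MvPolynomial.smul_eq_C_mul]
  have := ud_mul (ud_C arr th f r) hx
  rwa [zero_add] at this

theorem ud_prod_pow {arr : P → P → ℕ} {th : P → V} {f : P → L} {ι : Type*} (s : Finset ι)
    (a : ι → P) (n : ι → ℕ) :
    ud F arr th f (∑ i ∈ s, (n i : ℤ)) (∏ i ∈ s, X (a i) ^ n i) := by
  rw [ud_iff_Esh, map_prod]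
  refine Deg359.TD.prod s _ _ fun i _ => ?_
  rw [map_pow]
  have h := (ud_iff_Esh arr th f 1 (X (a i))).mp (ud_X (F := F) arr th f (a i))
  have := h.pow (n i)
  rwa [mul_one] at this

/-! ### `JJ` is killed by the shift -/

theorem sft_KK (arr : P → P → ℕ) (f : P → L) {S T : Finset P} {l : L}
    (hS : ∀ a ∈ S, f a = l) (hT : ∀ a ∈ T, f a = l) :
    sft f (KK F arr S T) = C (KK F arr S T) := by
  unfold KK
  rw [map_prod, map_prod]
  refine Finset.prod_congr rfl fun a ha => ?_
  rw [map_prod, map_prod]
  refine Finset.prod_congr rfl fun b hb => ?_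
  rw [map_pow, sft_sub_eq f (by rw [hS a ha, hT b hb]), map_pow]

theorem Kill_JJ (arr : P → P → ℕ) (th : P → V) (f : P → L) :
    Kill f (JJ F arr th f) := by
  apply Kill_of_le_ker
  rw [JJ_le_iff]
  intro l T hT hw
  rw [RingHom.mem_ker, Esh_apply, sft_KK arr f (l := l) (fun a ha => by simpa using hT ha)
    (fun a ha => by simpa using (Finset.mem_sdiff.mp ha).1), map_C,
    Ideal.Quotient.eq_zero_iff_mem.mpr (KK_mem_JJ arr f l hT hw), C_0]

theorem ud_of_mem_JJ {arr : P → P → ℕ} {th : P → V} {f : P → L} {x : MvPolynomial P F}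
    (hx : x ∈ JJ F arr th f) (m : ℤ) : ud F arr th f m x := by
  rw [ud_iff_Esh, Kill_JJ arr th f x hx]
  exact TD_zero m

theorem mem_JJ_of_ud_neg {arr : P → P → ℕ} {th : P → V} {f : P → L} {x : MvPolynomial P F}
    {m : ℤ} (hm : m < 0) (hx : ud F arr th f m x) : x ∈ JJ F arr th f := by
  rw [ud_iff_Esh] at hx
  exact mem_of_Esh_TD_neg f _ hm hx

/-! ### injective relabelling -/

theorem fib_comp_injective (f : P → L) {g : L → L'} (hg : Function.Injective g) (l : L) :
    fib (g ∘ f) (g l) = fib f l := by
  ext a
  simp only [mem_fib, Function.comp_apply]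
  exact ⟨fun h => hg h, fun h => by rw [h]⟩

theorem Good_comp {th : P → V} {f : P → L} (g : L → L') (hf : Good th f) : Good th (g ∘ f) := by
  classical
  intro l'
  have h : wt th (fib (g ∘ f) l')
      = ∑ m ∈ univ.image f, wt th ((fib (g ∘ f) l').filter fun a => f a = m) :=
    wt_eq_sum_image th f _
  rw [h]
  refine Finset.sum_eq_zero fun m _ => ?_
  by_cases hm : g m = l'
  · have : (fib (g ∘ f) l').filter (fun a => f a = m) = fib f m := by
      ext a
      simp only [Finset.mem_filter, mem_fib, Function.comp_apply]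
      constructor
      · rintro ⟨_, h⟩
        exact h
      · intro h
        exact ⟨by rw [h, hm], h⟩
    rw [this]
    exact hf m
  · have : (fib (g ∘ f) l').filter (fun a => f a = m) = ∅ := by
      rw [Finset.filter_eq_empty_iff]
      intro a ha h
      simp only [mem_fib, Function.comp_apply] at ha
      exact hm (by rw [← h, ha])
    rw [this, wt_empty]

theorem Good_of_comp_injective {th : P → V} {f : P → L} {g : L → L'}
    (hg : Function.Injective g) (h : Good th (g ∘ f)) : Good th f := by
  intro l
  rw [← fib_comp_injective f hg]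
  exact h (g l)

theorem JJ_comp_injective (arr : P → P → ℕ) {th : P → V} {f : P → L} {g : L → L'}
    (hg : Function.Injective g) (hf : Good th f) :
    JJ F arr th (g ∘ f) = JJ F arr th f := by
  apply le_antisymm (JJ_le_of_refine arr f g hf)
  rw [JJ_le_iff]
  intro l T hT hw
  rw [← fib_comp_injective f hg] at hT ⊢
  exact KK_mem_JJ arr (g ∘ f) (g l) hT hw

theorem ud_comp_injective (arr : P → P → ℕ) {th : P → V} {f : P → L} {g : L → L'}
    (hg : Function.Injective g) (hf : Good th f) (m : ℤ) (x : MvPolynomial P F) :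
    ud F arr th (g ∘ f) m x ↔ ud F arr th f m x := by
  rw [ud_iff, ud_iff, JJ_comp_injective arr hg hf]
  constructor
  · intro h α hα
    have h1 := h (α.mapDomain g) (by rwa [Finsupp.degree_mapDomain])
    rwa [← rename_sft, coeff_rename_mapDomain g hg] at h1
  · intro h α hα
    rw [← rename_sft]
    by_cases h0 : coeff α (MvPolynomial.rename g (sft f x)) = 0
    · rw [h0]
      exact Ideal.zero_mem _
    · obtain ⟨β, hβ, _⟩ := coeff_rename_ne_zero g _ α h0
      rw [← hβ, coeff_rename_mapDomain g hg]
      apply h
      rwa [← hβ, Finsupp.degree_mapDomain] at hα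

/-! ### number of blocks -/

open scoped Classical in
/-- number of blocks of a labelling -/
noncomputable def nb (f : P → L) : ℕ := (univ.image f).card

theorem nb_comp_injective (f : P → L) {g : L → L'} (hg : Function.Injective g) :
    nb (g ∘ f) = nb f := by
  classical
  unfold nb
  rw [← Finset.card_image_of_injective (univ.image f) hg, Finset.image_image]

theorem nb_comp_le (f : P → L) (g : L → L') : nb (g ∘ f) ≤ nb f := by
  classical
  unfold nb
  rw [← Finset.image_image]
  exact Finset.card_image_le

theorem nb_le_card (f : P → L) : nb f ≤ Fintype.card P := by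
  classical
  unfold nb
  exact Finset.card_image_le

theorem nb_surj {s : ℕ} {b : P → Fin s} (hb : Function.Surjective b) : nb b = s := by
  classical
  unfold nb
  have h : ∀ (inst : DecidableEq (Fin s)), (@Finset.image _ _ inst b univ).card = s := by
    intro inst
    rw [Finset.image_univ_of_surjective hb, Finset.card_univ, Fintype.card_fin]
  exact h _

/-- a coarsening with the same number of blocks is a relabelling -/
theorem eq_of_nb_le {f : P → L} {g : L → L'} (h : nb f ≤ nb (g ∘ f)) {a b : P}
    (hab : g (f a) = g (f b)) : f a = f b := by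
  classical
  unfold nb at h
  rw [← Finset.image_image] at h
  have h1 : ((univ.image f).image g).card = (univ.image f).card :=
    le_antisymm Finset.card_image_le h
  have h2 := Finset.card_image_iff.mp h1
  exact h2 (Finset.mem_coe.mpr (Finset.mem_image_of_mem _ (Finset.mem_univ a)))
    (Finset.mem_coe.mpr (Finset.mem_image_of_mem _ (Finset.mem_univ b))) hab

/-! ### arrows -/

theorem N2_comp_injective (arr : P → P → ℕ) (f : P → L) {g : L → L'}
    (hg : Function.Injective g) : N2 arr (g ∘ f) = N2 arr f := by
  rw [N2_eq, N2_eq]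
  congr 1
  funext a b
  simp only [Function.comp_apply, ne_eq, hg.eq_iff]

/-- number of arrows between blocks, in increasing order -/
noncomputable def AL (arr : P → P → ℕ) [LinearOrder L'] (f : P → L') : ℕ :=
  NR arr (fun a b => f a < f b)

theorem N2_eq_two_mul (arr : P → P → ℕ) {th : P → V} (hs : Sym arr th) [LinearOrder L']
    {f : P → L'} (hf : Good th f) : N2 arr f = 2 * AL arr f := by
  have h1 : N2 arr f = NR arr (fun a b => f a < f b) + NR arr (fun a b => f b < f a) := by
    rw [N2_eq]
    refine NR_add arr _ _ _ (fun a b => ?_) (fun a b => ?_)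
    · exact ne_iff_lt_or_gt
    · rintro ⟨h1, h2⟩
      exact absurd h1 (not_lt.mpr h2.le)
  have h2 : NR arr (fun a b => f b < f a) = NR arr (fun a b => f a < f b) := by
    have h3 := NR_swap arr (fun a b => f a < f b)
    have h4 := NR_symm arr hs hf (fun l l' => l < l') (fun l h => lt_irrefl l h)
    rw [h3, ← h4]
  rw [h1, h2]
  unfold AL
  ring

/-- `AL` does not depend on the order of the labels -/
theorem AL_comp_injective (arr : P → P → ℕ) {th : P → V} (hs : Sym arr th)
    {L L' : Type*} [LinearOrder L] [LinearOrder L'] {f : P → L} {g : L → L'}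
    (hg : Function.Injective g) (hf : Good th f) : AL arr (g ∘ f) = AL arr f := by
  have h1 := N2_eq_two_mul arr hs (Good_comp g hf)
  have h2 := N2_eq_two_mul arr hs hf
  have h3 := N2_comp_injective arr f hg
  omega

/-- number of arrows between two blocks -/
noncomputable def pij (arr : P → P → ℕ) (f : P → L) (i j : L) : ℕ :=
  NR arr (fun a b => f a = i ∧ f b = j)

/-- merging two labels -/
theorem N2_merge (arr : P → P → ℕ) {th : P → V} (hs : Sym arr th) [DecidableEq L]
    {f : P → L} (hf : Good th f) {i j : L} (hij : i ≠ j) :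
    N2 arr f = N2 arr (NoPole359.mrg i j ∘ f) + 2 * pij arr f i j := by
  have hsym : NR arr (fun a b => f a = j ∧ f b = i) = pij arr f i j := by
    have h3 := NR_swap arr (fun a b => f a = i ∧ f b = j)
    have h4 := NR_symm arr hs hf (fun l l' => l = i ∧ l' = j)
      (fun l h => hij (h.1.symm.trans h.2))
    unfold pij
    rw [h4, ← h3]
    congr 1
    funext a b
    exact propext and_comm
  have h1 : N2 arr f = NR arr (fun a b => (NoPole359.mrg i j ∘ f) a ≠ (NoPole359.mrg i j ∘ f) b)
      + NR arr (fun a b => (f a = i ∧ f b = j) ∨ (f a = j ∧ f b = i)) := by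
    rw [N2_eq]
    refine NR_add arr _ _ _ (fun a b => ?_) (fun a b => ?_)
    · simp only [Function.comp_apply, NoPole359.mrg]
      by_cases ha : f a = j
      · by_cases hb : f b = j
        · simp [ha, hb, hij.symm]
        · rw [if_pos ha, if_neg hb, ha]
          constructor
          · intro h
            by_cases hi : f b = i
            · exact Or.inr (Or.inr ⟨rfl, hi⟩)
            · exact Or.inl (fun hc => hi hc.symm)
          · rintro (h | ⟨h, _⟩ | ⟨_, h⟩)
            · exact fun hc => hb hc.symm
            · exact absurd h hij.symm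
            · intro hc
              exact hb hc.symm
      · by_cases hb : f b = j
        · rw [if_neg ha, if_pos hb, hb]
          constructor
          · intro h
            by_cases hi : f a = i
            · exact Or.inr (Or.inl ⟨hi, rfl⟩)
            · exact Or.inl hi
          · rintro (h | ⟨_, _⟩ | ⟨h, _⟩)
            · exact ha
            · exact ha
            · exact ha
        · rw [if_neg ha, if_neg hb]
          constructor
          · intro h
            exact Or.inl h
          · rintro (h | ⟨_, h⟩ | ⟨h, _⟩)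
            · exact h
            · exact absurd h hb
            · exact absurd h ha
    · simp only [Function.comp_apply, NoPole359.mrg]
      rintro ⟨h, ⟨h1, h2⟩ | ⟨h1, h2⟩⟩
      · rw [h1, h2, if_neg hij, if_pos rfl] at h
        exact h rfl
      · rw [h1, h2, if_neg hij, if_pos rfl] at h
        exact h rfl
  have h2 : NR arr (fun a b => (f a = i ∧ f b = j) ∨ (f a = j ∧ f b = i))
      = pij arr f i j + NR arr (fun a b => f a = j ∧ f b = i) := by
    refine NR_add arr _ _ _ (fun a b => Iff.rfl) (fun a b => ?_)
    rintro ⟨⟨h1, _⟩, h2, _⟩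
    exact hij (h1.symm.trans h2)
  rw [h1, h2, hsym, N2_eq]
  ring

end Crest.Agent.R059.ThinB359
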