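import Mathlib
import Crest.Agent.R059.ThinB1_359

/-!
# Row 59, Theorem B (thin form), leaf AB6: the growth filtration and its symbols

* `GG arr th k s` : the growth filtration (`k s : ℤ`);
* `Vt arr th b` : lifts of the space of values `V_b`;
* `symbol_exists` : the symbol of `x ∈ GG k s` at a surjective good `b : P → Fin s` is
  `∏_{i<j} (X j - X i)^{pij} * t`, `t` homogeneous of degree `k` with coefficients in `V_b`;
* `mem_pred` : if all symbols vanish then `x ∈ GG k (s-1)`;
* `GG_neg`, `GG_bot`, `exists_mem_GG`, ... : the ends of the filtration.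
-/

set_option autoImplicit false
set_option linter.unusedSectionVars false

namespace Crest.Agent.R059.ThinB359

open MvPolynomial Finset
open Crest.Agent.R059.Thin613
open Crest.Agent.R059.Deg359 (TD_zero TD_X TD_C TD_one)
open Crest.Agent.R059.Shift359

variable {P : Type*} [Fintype P] [DecidableEq P]
variable {F : Type*}
variable {V : Type*} [AddCommGroup V] [LinearOrder V] [IsOrderedAddMonoid V]
variable {L : Type*} {L' : Type*}

section defs

variable [CommRing F]

/-- the growth filtration -/
noncomputable def GG (F : Type*) [CommRing F] (arr : P → P → ℕ) (th : P → V) (k s : ℤ) :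
    Submodule F (MvPolynomial P F) where
  carrier := {x | ∀ f : P → ℕ, Good th f →
    ud F arr th f (k + (AL arr f : ℤ) - if s < (nb f : ℤ) then 1 else 0) x}
  add_mem' := fun hx hy f hf => ud_add (hx f hf) (hy f hf)
  zero_mem' := fun _ _ => ud_zero _ _ _ _
  smul_mem' := fun r _ hx f hf => ud_smul r (hx f hf)

theorem mem_GG {arr : P → P → ℕ} {th : P → V} {k s : ℤ} {x : MvPolynomial P F} :
    x ∈ GG F arr th k s ↔ ∀ f : P → ℕ, Good th f →
      ud F arr th f (k + (AL arr f : ℤ) - if s < (nb f : ℤ) then 1 else 0) x := Iff.rfl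

/-- lifts of the values `V_b` -/
noncomputable def Vt (F : Type*) [CommRing F] (arr : P → P → ℕ) (th : P → V) [LinearOrder L]
    (b : P → L) : Submodule F (MvPolynomial P F) where
  carrier := {w | ud F arr th b 0 w ∧ ∀ (f : P → ℕ) (g : ℕ → L), Good th f → b = g ∘ f →
    nb b < nb f → ud F arr th f ((AL arr f : ℤ) - (AL arr b : ℤ) - 1) w}
  add_mem' := fun hx hy => ⟨ud_add hx.1 hy.1, fun f g hf hb hn =>
    ud_add (hx.2 f g hf hb hn) (hy.2 f g hf hb hn)⟩
  zero_mem' := ⟨ud_zero _ _ _ _, fun _ _ _ _ _ => ud_zero _ _ _ _⟩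
  smul_mem' := fun r _ hx => ⟨ud_smul r hx.1, fun f g hf hb hn => ud_smul r (hx.2 f g hf hb hn)⟩

theorem mem_Vt {arr : P → P → ℕ} {th : P → V} [LinearOrder L] {b : P → L}
    {w : MvPolynomial P F} : w ∈ Vt F arr th b ↔ (ud F arr th b 0 w ∧
      ∀ (f : P → ℕ) (g : ℕ → L), Good th f → b = g ∘ f →
        nb b < nb f → ud F arr th f ((AL arr f : ℤ) - (AL arr b : ℤ) - 1) w) := Iff.rfl

/-- the space of values `V_b` -/
noncomputable def VV (F : Type*) [CommRing F] (arr : P → P → ℕ) (th : P → V) [LinearOrder L]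
    (b : P → L) : Submodule F (MvPolynomial P F ⧸ JJ F arr th b) :=
  (Vt F arr th b).map (Ideal.Quotient.mkₐ F (JJ F arr th b)).toLinearMap

theorem JJ_le_Vt {arr : P → P → ℕ} {th : P → V} [LinearOrder L] {b : P → L}
    {w : MvPolynomial P F} (hw : w ∈ JJ F arr th b) : w ∈ Vt F arr th b := by
  refine ⟨ud_of_mem_JJ hw 0, fun f g hf hb _ => ?_⟩
  apply ud_of_mem_JJ
  subst hb
  exact JJ_le_of_refine arr f g hf hw

/-- a coefficient in `V_b` has a lift in `Vt b` -/
theorem mem_VV_iff {arr : P → P → ℕ} {th : P → V} [LinearOrder L] {b : P → L}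
    {w : MvPolynomial P F} :
    Ideal.Quotient.mk (JJ F arr th b) w ∈ VV F arr th b ↔ w ∈ Vt F arr th b := by
  constructor
  · rintro ⟨v, hv, hvw⟩
    have h1 : w - v ∈ JJ F arr th b := by
      rw [← Ideal.Quotient.eq_zero_iff_mem, map_sub, sub_eq_zero]
      exact hvw.symm
    have h2 := (Vt F arr th b).add_mem (JJ_le_Vt h1) hv
    rwa [sub_add_cancel] at h2
  · intro hw
    exact ⟨w, hw, rfl⟩

theorem GG_mono {arr : P → P → ℕ} {th : P → V} {k s k' s' : ℤ}
    (h : k < k' ∨ (k = k' ∧ s ≤ s')) : GG F arr th k s ≤ GG F arr th k' s' := by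
  intro x hx f hf
  refine ud_mono (hx f hf) ?_
  rcases h with h | ⟨h, h'⟩
  · split_ifs <;> omega
  · subst h
    split_ifs <;> omega

/-- degree bound at an arbitrary good labelling with labels that embed into `ℕ` -/
theorem ud_of_mem_GG {arr : P → P → ℕ} {th : P → V} (hs : Sym arr th) [LinearOrder L]
    {k s : ℤ} {x : MvPolynomial P F} (hx : x ∈ GG F arr th k s) {f : P → L} (hf : Good th f)
    {e : L → ℕ} (he : Function.Injective e) :
    ud F arr th f (k + (AL arr f : ℤ) - if s < (nb f : ℤ) then 1 else 0) x := by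
  have h1 := hx (e ∘ f) (Good_comp e hf)
  rw [nb_comp_injective f he, AL_comp_injective arr hs he hf,
    ud_comp_injective arr he hf] at h1
  exact h1

end defs

/-! ### sums over ordered pairs of labels -/

/-- ordered pairs of labels -/
def prs (s : ℕ) : Finset (Fin s × Fin s) := univ.filter fun x => x.1 < x.2

theorem mem_prs {s : ℕ} (x : Fin s × Fin s) : x ∈ prs s ↔ x.1 < x.2 := by
  simp [prs]

theorem sum_pij {s : ℕ} (arr : P → P → ℕ) (b : P → Fin s) :
    ∑ x ∈ prs s, pij arr b x.1 x.2 = AL arr b := by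
  classical
  have hAL : AL arr b
      = ∑ x ∈ (univ : Finset (P × P)).filter (fun x => b x.1 < b x.2), arr x.1 x.2 := by
    unfold AL NR
    refine Finset.sum_congr ?_ fun _ _ => rfl
    ext x
    simp
  rw [hAL, ← Finset.sum_fiberwise_of_maps_to
    (s := (univ : Finset (P × P)).filter (fun x => b x.1 < b x.2))
    (t := prs s) (g := fun x => (b x.1, b x.2))]
  · refine Finset.sum_congr rfl fun y hy => ?_
    unfold pij NR
    refine Finset.sum_congr ?_ fun _ _ => rfl
    ext x
    simp only [Finset.mem_filter, Finset.mem_univ, true_and, Prod.ext_iff]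
    constructor
    · rintro ⟨h1, h2⟩
      refine ⟨?_, h1, h2⟩
      rw [h1, h2]
      exact (mem_prs y).mp hy
    · rintro ⟨_, h⟩
      exact h
  · rintro x hx
    simp only [Finset.mem_filter, Finset.mem_univ, true_and] at hx
    exact (mem_prs _).mpr hx

theorem prod_pij {s : ℕ} {A : Type*} [CommRing A] (arr : P → P → ℕ) (b : P → Fin s)
    (u : Fin s → A) :
    ∏ x ∈ (univ : Finset (P × P)).filter (fun x => b x.1 < b x.2),
        (u (b x.2) - u (b x.1)) ^ arr x.1 x.2
      = ∏ x ∈ prs s, (u x.2 - u x.1) ^ pij arr b x.1 x.2 := by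
  classical
  rw [← Finset.prod_fiberwise_of_maps_to
    (s := (univ : Finset (P × P)).filter (fun x => b x.1 < b x.2))
    (t := prs s) (g := fun x => (b x.1, b x.2))]
  · refine Finset.prod_congr rfl fun y hy => ?_
    unfold pij NR
    rw [← Finset.prod_pow_eq_pow_sum]
    have h : ((univ : Finset (P × P)).filter (fun x => b x.1 < b x.2)).filter
        (fun x => (b x.1, b x.2) = y)
        = (univ : Finset (P × P)).filter (fun x => b x.1 = y.1 ∧ b x.2 = y.2) := by
      ext x
      simp only [Finset.mem_filter, Finset.mem_univ, true_and, Prod.ext_iff]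
      constructor
      · rintro ⟨_, h⟩
        exact h
      · rintro ⟨h1, h2⟩
        refine ⟨?_, h1, h2⟩
        rw [h1, h2]
        exact (mem_prs y).mp hy
    rw [h]
    refine Finset.prod_congr ?_ fun x hx => ?_
    · ext x
      simp
    · simp only [Finset.mem_filter, Finset.mem_univ, true_and] at hx
      rw [hx.1, hx.2]
  · rintro x hx
    simp only [Finset.mem_filter, Finset.mem_univ, true_and] at hx
    exact (mem_prs _).mpr hx

/-- the product of the differences -/
noncomputable def PD {s : ℕ} (A : Type*) [CommRing A] (arr : P → P → ℕ) (b : P → Fin s) :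
    MvPolynomial (Fin s) A :=
  ∏ x ∈ prs s, (X x.2 - X x.1) ^ pij arr b x.1 x.2

/-! ### the symbol -/

section symbol

variable [Field F]

/-- the symbol of `x` at `b` -/
noncomputable def symb (F : Type*) [CommRing F] (arr : P → P → ℕ) (th : P → V) {s : ℕ}
    (b : P → Fin s) (k : ℤ) (x : MvPolynomial P F) :
    MvPolynomial (Fin s) (MvPolynomial P F ⧸ JJ F arr th b) :=
  Deg359.top (k + (AL arr b : ℤ)) (sh F arr th b x)

theorem ud_b {arr : P → P → ℕ} {th : P → V} (hs : Sym arr th) {s : ℕ} {b : P → Fin s}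
    (hb : nb b ≤ s) (hg : Good th b) {k : ℤ} {x : MvPolynomial P F}
    (hx : x ∈ GG F arr th k s) : ud F arr th b (k + (AL arr b : ℤ)) x := by
  have h := ud_of_mem_GG hs hx hg (e := Fin.val) Fin.val_injective
  rwa [if_neg (by omega), sub_zero] at h

/-- no poles and values -/
theorem symbol_exists {arr : P → P → ℕ} {th : P → V} (hs : Sym arr th) {s : ℕ} {b : P → Fin s}
    (hb : Function.Surjective b) (hg : Good th b) {k : ℤ} {x : MvPolynomial P F}
    (hx : x ∈ GG F arr th k s) :
    ∃ t : MvPolynomial (Fin s) (MvPolynomial P F ⧸ JJ F arr th b),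
      symb F arr th b k x = PD _ arr b * t ∧ Deg359.Hom k t ∧
        ∀ α, coeff α t ∈ VV F arr th b := by
  classical
  have hud : Deg359.TD (k + (AL arr b : ℤ)) (Esh b (JJ F arr th b) x) := by
    rw [← ud_iff_Esh]
    exact ud_b hs (nb_surj hb).le hg hx
  have hT : symb F arr th b k x
      = Deg359.top (k + (AL arr b : ℤ)) (Esh b (JJ F arr th b) x) := by
    unfold symb
    rw [sh_eq_Esh]
  have hTH : Deg359.Hom (k + (AL arr b : ℤ)) (symb F arr th b k x) := by
    rw [hT]
    exact Deg359.top_hom _ _
  -- divisibility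
  have hdvd : ∀ y ∈ prs s, (X y.2 - X y.1) ^ pij arr b y.1 y.2 ∣ symb F arr th b k x := by
    intro y hy
    have hij : y.1 ≠ y.2 := ne_of_lt ((mem_prs y).mp hy)
    have hg' : Good th (NoPole359.mrg y.1 y.2 ∘ b) := Good_comp _ hg
    have hnb : nb (NoPole359.mrg y.1 y.2 ∘ b) ≤ s := by
      have := nb_comp_le b (NoPole359.mrg y.1 y.2)
      rwa [nb_surj hb] at this
    have h1 := (ud_iff_Esh _ _ _ _ _).mp (ud_b hs hnb hg' hx)
    have h2 := N2_merge arr hs hg hij
    rw [N2_eq_two_mul arr hs hg, N2_eq_two_mul arr hs hg'] at h2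
    refine NoPole359.dvd_of_merge (M := k + (AL arr (NoPole359.mrg y.1 y.2 ∘ b) : ℤ)) hTH ?_ ?_
    · intro α hα
      rw [hT]
      exact coarsen_zero_top b (NoPole359.mrg y.1 y.2) (JJ_le_of_refine arr b _ hg)
        (Kill_JJ arr th b) h1 hud α hα
    · omega
  obtain ⟨t, ht⟩ := NoPole359.prod_dvd (prs s) (fun y => pij arr b y.1 y.2)
    (fun y hy => ne_of_lt ((mem_prs y).mp hy))
    (fun y hy hc => absurd ((mem_prs _).mp hc) (not_lt.mpr ((mem_prs y).mp hy).le)) hdvd
  refine ⟨t, ht, ?_, ?_⟩
  · have h3 := NoPole359.Hom_of_prod_mul (prs s) (fun y => pij arr b y.1 y.2)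
      (fun y hy => ne_of_lt ((mem_prs y).mp hy)) (t := t) (m := k + (AL arr b : ℤ))
      (by rw [← ht]; exact hTH)
    have h4 : (∑ y ∈ prs s, (pij arr b y.1 y.2 : ℤ)) = (AL arr b : ℤ) := by
      rw [← sum_pij arr b]
      push_cast
      rfl
    rwa [h4, add_sub_cancel_right] at h3
  · intro α
    refine NoPole359.coeff_mem_of_mul (VV F arr th b) (prs s)
      (fun y => pij arr b y.1 y.2) (fun y hy => ne_of_lt ((mem_prs y).mp hy)) (t := t) ?_ α
    intro β
    rw [← ht, hT, Deg359.coeff_top]
    split_ifs with hβ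
    · rw [coeff_Esh, mem_VV_iff]
      refine ⟨?_, ?_⟩
      · rw [ud_iff_Esh]
        exact (refine_TD_self b _ hud β).mono (by omega)
      · intro f g hf hbg hn
        rw [ud_iff_Esh]
        have h5 := hx f hf
        rw [nb_surj hb] at hn
        rw [if_pos (by exact_mod_cast hn), ud_iff_Esh] at h5
        subst hbg
        exact (refine_TD f g _ h5 β).mono (by omega)
    · exact Submodule.zero_mem _

/-- uniqueness of the quotient -/
theorem PD_mul_cancel {s : ℕ} {A : Type*} [CommRing A] (arr : P → P → ℕ) (b : P → Fin s)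
    {t t' : MvPolynomial (Fin s) A} (h : PD A arr b * t = PD A arr b * t') : t = t' :=
  NoPole359.prod_left_cancel (prs s) (fun y => pij arr b y.1 y.2)
    (fun y hy => ne_of_lt ((mem_prs y).mp hy)) h

end symbol

/-! ### kernel of the symbol map and the ends of the filtration -/

section kernel

variable [CommRing F]

/-- a labelling with `s` blocks comes from a surjective labelling by `Fin s` -/
theorem exists_surj (f : P → ℕ) {s : ℕ} (hf : nb f = s) :
    ∃ (b : P → Fin s) (g : Fin s → ℕ), Function.Surjective b ∧ Function.Injective g ∧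
      f = g ∘ b := by
  classical
  have hf' : (univ.image f).card = s := by
    rw [← hf]
    unfold nb
    congr!
  let e := (univ.image f).equivFinOfCardEq hf'
  refine ⟨fun a => e ⟨f a, Finset.mem_image_of_mem _ (Finset.mem_univ a)⟩,
    fun i => (e.symm i : ℕ), ?_, ?_, ?_⟩
  · intro i
    obtain ⟨a, _, ha⟩ := Finset.mem_image.mp (e.symm i).2
    refine ⟨a, ?_⟩
    have : (⟨f a, Finset.mem_image_of_mem _ (Finset.mem_univ a)⟩ :
        {x // x ∈ univ.image f}) = e.symm i := Subtype.ext ha
    simp only [this, Equiv.apply_symm_apply]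
  · intro i j hij
    exact e.symm.injective (Subtype.ext hij)
  · funext a
    simp

/-- kernel of the symbol map -/
theorem mem_pred {arr : P → P → ℕ} {th : P → V} (hs : Sym arr th) {s : ℕ} {k : ℤ}
    {x : MvPolynomial P F} (hx : x ∈ GG F arr th k s)
    (h : ∀ b : P → Fin s, Function.Surjective b → Good th b → symb F arr th b k x = 0) :
    x ∈ GG F arr th k (s - 1) := by
  intro f hf
  by_cases hn : nb f = s
  · obtain ⟨b, g, hb, hg, hfb⟩ := exists_surj f hn
    subst hfb
    have hgb : Good th b := Good_of_comp_injective hg hf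
    rw [ud_comp_injective arr hg hgb, AL_comp_injective arr hs hg hgb,
      if_pos (by rw [hn]; omega), ud_iff_Esh]
    have h1 : Deg359.TD (k + (AL arr b : ℤ)) (Esh b (JJ F arr th b) x) := by
      rw [← ud_iff_Esh]
      have h2 := ud_of_mem_GG hs hx hgb (e := Fin.val) Fin.val_injective
      rwa [if_neg (by rw [nb_surj hb]; omega), sub_zero] at h2
    refine h1.of_top_eq_zero ?_
    have h3 := h b hb hgb
    unfold symb at h3
    rwa [sh_eq_Esh] at h3
  · refine ud_mono (hx f hf) ?_
    split_ifs <;> omega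

theorem symb_eq_zero_of_mem {arr : P → P → ℕ} {th : P → V} (hs : Sym arr th) {s : ℕ} {k : ℤ}
    {x : MvPolynomial P F} (hx : x ∈ GG F arr th k (s - 1)) {b : P → Fin s}
    (hb : Function.Surjective b) (hg : Good th b) : symb F arr th b k x = 0 := by
  unfold symb
  rw [sh_eq_Esh]
  have h := ud_of_mem_GG hs hx hg (e := Fin.val) Fin.val_injective
  rw [nb_surj hb, if_pos (by omega), ud_iff_Esh] at h
  exact Deg359.top_eq_zero_of_TD h (by omega)

/-- `GG k (-1) = GG (k-1) s` for `s ≥ card P` -/
theorem GG_neg_one (arr : P → P → ℕ) (th : P → V) (k : ℤ) {s : ℤ}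
    (hs : (Fintype.card P : ℤ) ≤ s) : GG F arr th k (-1) = GG F arr th (k - 1) s := by
  ext x
  rw [mem_GG, mem_GG]
  refine forall_congr' fun f => forall_congr' fun _ => ?_
  have h1 := nb_le_card f
  rw [if_pos (by omega), if_neg (by omega)]
  have e : k + (AL arr f : ℤ) - 1 = k - 1 + (AL arr f : ℤ) - 0 := by ring
  rw [e]

theorem wt_fib_const (th : P → V) (hP : wt th univ = 0) (c : L) :
    Good th (fun _ : P => c) := by
  intro l
  by_cases h : c = l
  · have : fib (fun _ : P => c) l = univ := by
      ext a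
      simp [h]
    rw [this, hP]
  · have : fib (fun _ : P => c) l = ∅ := by
      ext a
      simp [h]
    rw [this, wt_empty]

theorem JJ_const (arr : P → P → ℕ) (th : P → V) (c : L) :
    JJ F arr th (fun _ : P => c) = J0 F arr th univ := by
  apply le_antisymm
  · rw [JJ_le_iff]
    intro l T hT hw
    by_cases h : c = l
    · have : fib (fun _ : P => c) l = univ := by
        ext a
        simp [h]
      rw [this]
      exact KK_mem_J0 arr (Finset.subset_univ T) hw
    · have : fib (fun _ : P => c) l = ∅ := by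
        ext a
        simp [h]
      rw [this, Finset.subset_empty] at hT
      rw [hT, wt_empty] at hw
      exact absurd hw (lt_irrefl _)
  · unfold J0
    rw [Ideal.span_le]
    rintro q ⟨T, _, hw, rfl⟩
    have h := KK_mem_JJ (F := F) arr (th := th) (fun _ : P => c) c (T := T)
      (by intro a _; simp) hw
    have h2 : fib (fun _ : P => c) c = univ := by
      ext a
      simp
    rwa [h2] at h

/-- negative growth means zero in the quotient -/
theorem GG_neg {arr : P → P → ℕ} {th : P → V} (hP : wt th univ = 0) {k s : ℤ} (hk : k < 0) :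
    (GG F arr th k s : Set (MvPolynomial P F)) = (J0 F arr th univ : Set (MvPolynomial P F)) := by
  ext x
  rw [SetLike.mem_coe, SetLike.mem_coe]
  constructor
  · intro hx
    have h1 := hx (fun _ => 0) (wt_fib_const th hP 0)
    have h2 : AL arr (fun _ : P => (0 : ℕ)) = 0 := by
      unfold AL NR
      simp
    rw [h2] at h1
    have h3 := mem_JJ_of_ud_neg (by split_ifs <;> omega) h1
    rwa [JJ_const] at h3
  · intro hx f hf
    apply ud_of_mem_JJ
    have h1 : JJ F arr th ((fun _ => 0 : ℕ → ℕ) ∘ f) ≤ JJ F arr th f := JJ_le_of_refine arr f _ hf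
    apply h1
    rw [show ((fun _ => 0 : ℕ → ℕ) ∘ f) = fun _ : P => (0 : ℕ) from rfl, JJ_const]
    exact hx

/-- the filtration is exhaustive -/
theorem mem_GG_of_totalDegree (arr : P → P → ℕ) (th : P → V) {k : ℤ} (s : ℤ)
    {x : MvPolynomial P F} (h : (x.totalDegree : ℤ) < k) : x ∈ GG F arr th k s := by
  classical
  intro f hf
  have h1 : ud F arr th f (x.totalDegree : ℤ) x := by
    conv_rhs => rw [x.as_sum]
    have h2 : ∀ t : Finset (P →₀ ℕ), t ⊆ x.support →
        ud F arr th f (x.totalDegree : ℤ) (∑ v ∈ t, monomial v (coeff v x)) := by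
      intro t
      induction t using Finset.induction_on with
      | empty =>
        intro _
        simpa using ud_zero arr th f _
      | insert a t ha ih =>
        intro ht
        rw [Finset.sum_insert ha]
        refine ud_add ?_ (ih fun v hv => ht (Finset.mem_insert_of_mem hv))
        rw [monomial_eq, Finsupp.prod]
        have h3 := ud_mul (ud_C arr th f (coeff a x))
          (ud_prod_pow (F := F) (arr := arr) (th := th) (f := f) a.support id a)
        refine ud_mono h3 ?_
        have h4 := le_totalDegree (ht (Finset.mem_insert_self a t))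
        rw [Finsupp.sum] at h4
        rw [zero_add]
        exact_mod_cast h4
    exact h2 _ subset_rfl
  refine ud_mono h1 ?_
  split_ifs <;> omega

end kernel

end Crest.Agent.R059.ThinB359
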