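import Mathlib
import Crest.Agent.R059.ThinB2_359

/-!
# Row 59, Theorem B (thin form), leaf AB5/AB6: surjectivity of the symbol map

For `w ∈ Vt b`, a section `a` of `b : P → Fin s`, `α : Fin s →₀ ℕ`:
`ons b w a α = KL b * (w * ∏ l, X (a l) ^ α l)` lies in `GG |α| s`, its symbol at `b` is
`PD * monomial α (mk w)`, and its symbol at every `b'` which is not a relabelling of `b` is zero.
-/

set_option autoImplicit false
set_option linter.unusedSectionVars false

namespace Crest.Agent.R059.ThinB359

open MvPolynomial Finset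
open Crest.Agent.R059.Thin613
open Crest.Agent.R059.Deg359 (TD_zero TD_X TD_C TD_one)
open Crest.Agent.R059.Shift359

variable {P : Type*} [Fintype P] [DecidableEq P]
variable {F : Type*} [CommRing F]
variable {V : Type*} [AddCommGroup V] [LinearOrder V] [IsOrderedAddMonoid V]
variable {L : Type*} {L' : Type*}

/-- the preimage of a monomial symbol -/
noncomputable def ons (arr : P → P → ℕ) {s : ℕ} (b : P → Fin s) (w : MvPolynomial P F)
    (a : Fin s → P) (α : Fin s →₀ ℕ) : MvPolynomial P F :=
  KL F arr b * (w * ∏ l, X (a l) ^ α l)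

/-- if `(f,b)` has at most `s` blocks then it is a relabelling of `b` -/
theorem pair_relabel {s : ℕ} {b : P → Fin s} (hb : Function.Surjective b) {f : P → L}
    (hn : nb (fun a => (f a, b a)) ≤ s) :
    ∃ h : Fin s → L × Fin s, Function.Injective h ∧ (fun a => (f a, b a)) = h ∘ b := by
  choose a ha using hb
  have hb : Function.Surjective b := fun l => ⟨a l, ha l⟩
  refine ⟨fun l => (f (a l), l), ?_, ?_⟩
  · intro l l' h
    exact congrArg Prod.snd h
  · have h1 : nb (fun a => (f a, b a)) ≤ nb (Prod.snd ∘ fun a => (f a, b a)) := by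
      have h2 : (Prod.snd ∘ fun a => (f a, b a)) = b := rfl
      rw [h2, nb_surj hb]
      exact hn
    funext c
    have h3 := eq_of_nb_le (f := fun a => (f a, b a)) (g := Prod.snd) h1 (a := c)
      (b := a (b c)) (by simp [ha])
    have h4 : f c = f (a (b c)) := congrArg Prod.fst h3
    simp only [Function.comp_apply, Prod.mk.injEq, and_true]
    exact h4

theorem ud_ons {arr : P → P → ℕ} {th : P → V} (hs : Sym arr th) {s : ℕ} {b : P → Fin s}
    (hb : Function.Surjective b) (hg : Good th b) {w : MvPolynomial P F}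
    (hw : w ∈ Vt F arr th b) (a : Fin s → P) (α : Fin s →₀ ℕ)
    [LinearOrder L] {f : P → L} (hf : Good th f) {e : L → ℕ} (he : Function.Injective e) :
    ud F arr th f (((α.degree : ℕ) : ℤ) + (AL arr f : ℤ)
      - if (s : ℤ) < (nb (fun a => (f a, b a)) : ℤ) then 1 else 0) (ons arr b w a α) := by
  classical
  by_cases hρ : Good th (fun a => (f a, b a))
  · -- the degree of `w` at the common refinement
    let enc : L × Fin s → ℕ := fun p => Nat.pair (e p.1) p.2.val
    have henc : Function.Injective enc := by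
      intro p q hpq
      have h1 := Nat.pair_eq_pair.mp hpq
      exact Prod.ext (he h1.1) (Fin.val_injective h1.2)
    have hgρ : Good th (enc ∘ fun a => (f a, b a)) := Good_comp enc hρ
    have hw1 : ud F arr th (fun a => (f a, b a))
        ((AL arr (enc ∘ fun a => (f a, b a)) : ℤ) - (AL arr b : ℤ)
          - if (s : ℤ) < (nb (fun a => (f a, b a)) : ℤ) then 1 else 0) w := by
      by_cases hn : s < nb (fun a => (f a, b a))
      · rw [if_pos (by exact_mod_cast hn)]
        have hne : Nonempty P := by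
          by_contra hc
          rw [not_nonempty_iff] at hc
          have := nb_le_card (fun a => (f a, b a))
          rw [Fintype.card_eq_zero] at this
          omega
        obtain ⟨a₀⟩ := hne
        let g : ℕ → Fin s := fun n => if h : (Nat.unpair n).2 < s then ⟨(Nat.unpair n).2, h⟩
          else b a₀
        have hgb : b = g ∘ (enc ∘ fun a => (f a, b a)) := by
          funext c
          simp only [g, enc, Function.comp_apply, Nat.unpair_pair, Fin.is_lt, dif_pos, Fin.eta]
        have h1 := hw.2 (enc ∘ fun a => (f a, b a)) g hgρ hgb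
          (by rw [nb_comp_injective _ henc, nb_surj hb]; exact hn)
        rwa [ud_comp_injective arr henc hρ] at h1
      · rw [if_neg (by exact_mod_cast hn)]
        obtain ⟨h, hh, hρh⟩ := pair_relabel hb (f := f) (not_lt.mp hn)
        rw [hρh, ud_comp_injective arr hh hg]
        have h2 : AL arr (enc ∘ h ∘ b) = AL arr b :=
          AL_comp_injective arr hs (g := enc ∘ h) (henc.comp hh) hg
        rw [h2]
        exact ud_mono hw.1 (by omega)
    -- the degree of the monomial part
    have hX : ud F arr th (fun a => (f a, b a)) ((α.degree : ℕ) : ℤ)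
        (∏ l, (X (a l) : MvPolynomial P F) ^ α l) := by
      have h3 := ud_prod_pow (F := F) (arr := arr) (th := th) (f := fun a => (f a, b a))
        (univ : Finset (Fin s)) a α
      rw [Finsupp.degree_eq_sum]
      push_cast
      exact h3
    have h4 := ud_KL_mul arr (f := f) (f' := b) hρ (ud_mul hw1 hX)
    have h5 := N2_identity arr hs (f := f) (f' := b) hρ
    have h6 : N2 arr (fun a => (f a, b a)) = 2 * AL arr (enc ∘ fun a => (f a, b a)) := by
      rw [← N2_eq_two_mul arr hs hgρ, N2_comp_injective arr _ henc]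
    rw [h6, N2_eq_two_mul arr hs hf, N2_eq_two_mul arr hs hg] at h5
    refine ud_mono h4 ?_
    omega
  · apply ud_of_mem_JJ
    exact Ideal.mul_mem_right _ _ (KL_mem_JJ_of_not_good arr hf hg hρ)

/-- ONTO, part 1: membership -/
theorem ons_mem {arr : P → P → ℕ} {th : P → V} (hs : Sym arr th) {s : ℕ} {b : P → Fin s}
    (hb : Function.Surjective b) (hg : Good th b) {w : MvPolynomial P F}
    (hw : w ∈ Vt F arr th b) (a : Fin s → P) (α : Fin s →₀ ℕ) :
    ons arr b w a α ∈ GG F arr th ((α.degree : ℕ) : ℤ) s := by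
  intro f hf
  refine ud_mono (ud_ons hs hb hg hw a α hf (e := id) Function.injective_id) ?_
  have h1 : nb f ≤ nb (fun a => (f a, b a)) := nb_comp_le (fun a => (f a, b a)) Prod.fst
  split_ifs <;> omega

theorem TD_Esh_KL (arr : P → P → ℕ) {s : ℕ} (b : P → Fin s)
    (J : Ideal (MvPolynomial P F)) :
    Deg359.TD (AL arr b : ℤ) (Esh b J (KL F arr b)) ∧
      Deg359.top (AL arr b : ℤ) (Esh b J (KL F arr b)) = PD _ arr b := by
  classical
  have hAL : (AL arr b : ℤ)
      = ∑ x ∈ (univ : Finset (P × P)).filter (fun x => b x.1 < b x.2),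
        ((arr x.1 x.2 : ℕ) : ℤ) * 1 := by
    unfold AL NR
    push_cast
    rw [Finset.sum_congr rfl (fun x _ => mul_one _)]
  have hKL : Esh b J (KL F arr b)
      = ∏ x ∈ (univ : Finset (P × P)).filter (fun x => b x.1 < b x.2),
        (Esh b J (X x.2 - X x.1)) ^ arr x.1 x.2 := by
    rw [KL_eq_KR]
    unfold KR
    rw [map_prod]
    refine Finset.prod_congr ?_ fun x _ => map_pow _ _ _
    ext x
    simp
  constructor
  · rw [hAL, hKL]
    exact Deg359.TD.prod _ _ _ fun x _ => (TD_Esh_sub b J x.1 x.2).pow _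
  · rw [hAL, hKL, Deg359.top_prod _ _ _ fun x _ => (TD_Esh_sub b J x.1 x.2).pow _]
    unfold PD
    rw [← prod_pij arr b (fun l => X l)]
    refine Finset.prod_congr rfl fun x _ => ?_
    rw [Deg359.top_pow (TD_Esh_sub b J x.1 x.2), top_Esh_sub]

/-- ONTO, part 2: the symbol at `b` -/
theorem symb_ons {arr : P → P → ℕ} {th : P → V} {s : ℕ} {b : P → Fin s}
    {w : MvPolynomial P F} (hw : w ∈ Vt F arr th b) (a : Fin s → P) (ha : ∀ l, b (a l) = l)
    (α : Fin s →₀ ℕ) :
    symb F arr th b ((α.degree : ℕ) : ℤ) (ons arr b w a α)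
      = PD _ arr b * monomial α (Ideal.Quotient.mk (JJ F arr th b) w) := by
  classical
  unfold symb
  rw [sh_eq_Esh]
  unfold ons
  rw [map_mul, map_mul, map_prod]
  have h1 : Esh b (JJ F arr th b) w = C (Ideal.Quotient.mk _ w) :=
    Esh_eq_C_of_TD _ _ ((ud_iff_Esh _ _ _ _ _).mp hw.1)
  have h2 := TD_Esh_KL (F := F) arr b (JJ F arr th b)
  have hX : ∀ l, Deg359.TD 1 (Esh b (JJ F arr th b) (X (a l))) ∧
      Deg359.top 1 (Esh b (JJ F arr th b) (X (a l))) = X l := by
    intro l
    rw [Esh_X, ha l]
    constructor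
    · exact ((TD_C _).mono (by norm_num)).add (TD_X _)
    · apply Deg359.top_eq_of (Deg359.Hom_X l)
      rw [add_sub_cancel_right]
      exact (TD_C _).mono (by norm_num)
  have hdeg : ((α.degree : ℕ) : ℤ) = ∑ l ∈ (univ : Finset (Fin s)), ((α l : ℕ) : ℤ) * 1 := by
    rw [Finsupp.degree_eq_sum]
    push_cast
    simp
  have hpr : ∏ l, Esh b (JJ F arr th b) (X (a l) ^ α l)
      = ∏ l, Esh b (JJ F arr th b) (X (a l)) ^ α l :=
    Finset.prod_congr rfl fun l _ => map_pow _ _ _
  have h3 : Deg359.TD ((α.degree : ℕ) : ℤ) (∏ l, Esh b (JJ F arr th b) (X (a l)) ^ α l) := by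
    rw [hdeg]
    exact Deg359.TD.prod _ _ _ fun l _ => (hX l).1.pow _
  have h4 : Deg359.top ((α.degree : ℕ) : ℤ) (∏ l, Esh b (JJ F arr th b) (X (a l)) ^ α l)
      = ∏ l, X l ^ α l := by
    rw [hdeg, Deg359.top_prod _ _ _ fun l _ => (hX l).1.pow _]
    refine Finset.prod_congr rfl fun l _ => ?_
    rw [Deg359.top_pow (hX l).1, (hX l).2]
  rw [hpr, h1]
  have h5 : Deg359.TD (0 + ((α.degree : ℕ) : ℤ)) (C (Ideal.Quotient.mk (JJ F arr th b) w)
      * ∏ l, Esh b (JJ F arr th b) (X (a l)) ^ α l) := (TD_C _).mul h3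
  have e : ((α.degree : ℕ) : ℤ) + (AL arr b : ℤ) = (AL arr b : ℤ) + (0 + ((α.degree : ℕ) : ℤ)) := by
    ring
  rw [e, Deg359.top_mul h2.1 h5, h2.2, Deg359.top_mul (TD_C _) h3, h4,
    Deg359.top_of_Hom (Deg359.Hom_C _), monomial_eq, Finsupp.prod_fintype _ _ (by simp)]

/-- ONTO, part 3: the symbol elsewhere -/
theorem symb_ons_eq_zero {arr : P → P → ℕ} {th : P → V} (hs : Sym arr th) {s : ℕ}
    {b b' : P → Fin s} (hb : Function.Surjective b) (hg : Good th b)
    (hb' : Function.Surjective b') (hg' : Good th b')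
    (hne : ∀ σ : Equiv.Perm (Fin s), b' ≠ σ ∘ b) {w : MvPolynomial P F}
    (hw : w ∈ Vt F arr th b) (a : Fin s → P) (α : Fin s →₀ ℕ) :
    symb F arr th b' ((α.degree : ℕ) : ℤ) (ons arr b w a α) = 0 := by
  have hn : s < nb (fun a => (b' a, b a)) := by
    by_contra hc
    obtain ⟨h, hh, hρh⟩ := pair_relabel hb (f := b') (not_lt.mp hc)
    have h1 : b' = (Prod.fst ∘ h) ∘ b := by
      funext c
      have := congrFun hρh c
      simp only [Function.comp_apply] at this ⊢
      rw [← this]
    have h2 : Function.Surjective (Prod.fst ∘ h) := by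
      rw [h1] at hb'
      exact Function.Surjective.of_comp hb'
    have h3 : Function.Bijective (Prod.fst ∘ h) := Finite.surjective_iff_bijective.mp h2
    exact hne (Equiv.ofBijective _ h3) h1
  have h4 := ud_ons hs hb hg hw a α hg' (e := Fin.val) Fin.val_injective
  rw [if_pos (by exact_mod_cast hn), ud_iff_Esh] at h4
  unfold symb
  rw [sh_eq_Esh]
  exact Deg359.top_eq_zero_of_TD h4 (by omega)

/-! ### coefficients of the symbol, relabelling, homogeneity -/

theorem coeff_symb (arr : P → P → ℕ) (th : P → V) {s : ℕ} (b : P → Fin s) (k : ℤ)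
    (x : MvPolynomial P F) (α : Fin s →₀ ℕ) :
    coeff α (symb F arr th b k x) = if ((α.degree : ℕ) : ℤ) = k + (AL arr b : ℤ)
      then Ideal.Quotient.mk (JJ F arr th b) (coeff α (sft b x)) else 0 := by
  unfold symb
  rw [sh_eq_Esh, Deg359.coeff_top, coeff_Esh]

theorem coeff_sft_comp_injective {f : P → L} {g : L → L'} (hg : Function.Injective g)
    (x : MvPolynomial P F) (α : L →₀ ℕ) :
    coeff (α.mapDomain g) (sft (g ∘ f) x) = coeff α (sft f x) := by
  rw [← rename_sft, coeff_rename_mapDomain g hg]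

/-- shift and permutation of the particles -/
theorem sft_rename (g : Equiv.Perm P) (f : P → L) (x : MvPolynomial P F) :
    sft f (rename g x) = MvPolynomial.map (rename g : MvPolynomial P F →ₐ[F] _).toRingHom
      (sft (f ∘ g) x) := by
  have h : (sft (F := F) f).comp (rename g : MvPolynomial P F →ₐ[F] _).toRingHom
      = (MvPolynomial.map (rename g : MvPolynomial P F →ₐ[F] _).toRingHom).comp
        (sft (f ∘ g)) := by
    apply MvPolynomial.ringHom_ext
    · intro r
      simp
    · intro a
      simp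
  exact RingHom.congr_fun h x

/-- coefficients of the shift of a homogeneous polynomial -/
theorem coeff_sft_isHomogeneous (f : P → L) {n : ℕ} {x : MvPolynomial P F}
    (hx : x.IsHomogeneous n) (α : L →₀ ℕ) (hα : α.degree ≤ n) :
    (coeff α (sft f x)).IsHomogeneous (n - α.degree) := by
  have h0 : Deg359.Hom (n : ℤ) x := by
    intro β hβ
    have h1 := hx hβ
    rw [Finsupp.degree_eq_weight_one]
    exact_mod_cast h1
  have h2 := JH_sft f h0 α
  intro β hβ
  have h3 := h2 β hβ
  have h5 : β.degree = n - α.degree := by omega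
  rw [← h5, Finsupp.degree_eq_weight_one]
  rfl

theorem coeff_sft_eq_zero (f : P → L) {n : ℕ} {x : MvPolynomial P F}
    (hx : x.IsHomogeneous n) (α : L →₀ ℕ) (hα : n < α.degree) :
    coeff α (sft f x) = 0 := by
  have h0 : Deg359.Hom (n : ℤ) x := by
    intro β hβ
    have h1 := hx hβ
    rw [Finsupp.degree_eq_weight_one]
    exact_mod_cast h1
  exact Deg359.eq_zero_of_TD (m := (n : ℤ) - ((α.degree : ℕ) : ℤ)) (by omega)
    (JH_sft f h0 α).td

end Crest.Agent.R059.ThinB359
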