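import Crest.Agent.R059.ThinA_313

/-!
# Row 59, Theorem A thin model: the alternating part, one step of the filtration (helper313)
-/

set_option autoImplicit false
set_option linter.unusedSectionVars false

namespace Crest.Agent.R059.ThinA

open MvPolynomial Finset Module

section perm

variable {ι I : Type*} [Fintype ι] [DecidableEq ι] [DecidableEq I]

/-- colour preserving permutations -/
def Gc (c : ι → I) : Subgroup (Equiv.Perm ι) where
  carrier := {σ | ∀ v, c (σ v) = c v}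
  mul_mem' := by
    intro a b ha hb v
    rw [Equiv.Perm.mul_apply, ha, hb]
  one_mem' := fun _ => rfl
  inv_mem' := by
    intro a ha v
    have := ha (a⁻¹ v)
    rw [← Equiv.Perm.mul_apply, mul_inv_cancel, Equiv.Perm.one_apply] at this
    exact this.symm

lemma mem_Gc {c : ι → I} {σ : Equiv.Perm ι} : σ ∈ Gc c ↔ ∀ v, c (σ v) = c v := Iff.rfl

instance (c : ι → I) : DecidablePred (· ∈ Gc c) := fun σ =>
  inferInstanceAs (Decidable (∀ v, c (σ v) = c v))

/-- the sign as a rational number -/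
def sgq (σ : Equiv.Perm ι) : ℚ := ((Equiv.Perm.sign σ : ℤ) : ℚ)

lemma sgq_mul (σ τ : Equiv.Perm ι) : sgq (σ * τ) = sgq σ * sgq τ := by
  simp [sgq]

lemma sgq_mul_self (σ : Equiv.Perm ι) : sgq σ * sgq σ = 1 := by
  rcases Int.units_eq_one_or (Equiv.Perm.sign σ) with h | h <;> simp [sgq, h]

lemma sgq_inv (σ : Equiv.Perm ι) : sgq σ⁻¹ = sgq σ := by
  simp [sgq]

/-- alternating polynomials -/
def alt (c : ι → I) : Submodule ℚ (MvPolynomial ι ℚ) where
  carrier := {f | ∀ σ ∈ Gc c, rename σ f = sgq σ • f}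
  add_mem' := by
    intro f g hf hg σ hσ
    rw [map_add, hf σ hσ, hg σ hσ, smul_add]
  zero_mem' := by intro σ _; simp
  smul_mem' := by
    intro r f hf σ hσ
    rw [map_smul, hf σ hσ, smul_comm]

lemma mem_alt {c : ι → I} {f : MvPolynomial ι ℚ} :
    f ∈ alt c ↔ ∀ σ ∈ Gc c, rename σ f = sgq σ • f := Iff.rfl

/-- antisymmetrising projector -/
noncomputable def pr (c : ι → I) : MvPolynomial ι ℚ →ₗ[ℚ] MvPolynomial ι ℚ :=
  (Fintype.card (Gc c) : ℚ)⁻¹ • ∑ σ : Gc c, sgq (σ : Equiv.Perm ι) •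
    (rename (σ : Equiv.Perm ι)).toLinearMap

lemma pr_apply (c : ι → I) (f : MvPolynomial ι ℚ) :
    pr c f = (Fintype.card (Gc c) : ℚ)⁻¹ • ∑ σ : Gc c, sgq (σ : Equiv.Perm ι) •
      rename (σ : Equiv.Perm ι) f := by
  simp [pr, LinearMap.sum_apply]

lemma card_ne (c : ι → I) : (Fintype.card (Gc c) : ℚ) ≠ 0 := by
  have : 0 < Fintype.card (Gc c) := Fintype.card_pos
  exact_mod_cast this.ne'

lemma pr_rename (c : ι → I) {τ : Equiv.Perm ι} (hτ : τ ∈ Gc c) (f : MvPolynomial ι ℚ) :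
    pr c (rename τ f) = sgq τ • pr c f := by
  rw [pr_apply, pr_apply, smul_comm (sgq τ)]
  congr 1
  rw [Finset.smul_sum]
  refine Fintype.sum_bijective (fun σ : Gc c => σ * ⟨τ, hτ⟩)
    (Group.mulRight_bijective _) _ _ fun σ => ?_
  rw [rename_rename]
  change _ = sgq τ • sgq ((σ : Equiv.Perm ι) * τ) • rename ((σ : Equiv.Perm ι) * τ) f
  rw [sgq_mul, smul_smul, mul_comm (sgq τ), mul_assoc, sgq_mul_self, mul_one]
  rfl

lemma rename_pr (c : ι → I) {τ : Equiv.Perm ι} (hτ : τ ∈ Gc c) (f : MvPolynomial ι ℚ) :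
    rename τ (pr c f) = sgq τ • pr c f := by
  rw [pr_apply, map_smul, map_sum, smul_comm (sgq τ)]
  congr 1
  rw [Finset.smul_sum]
  refine Fintype.sum_bijective (fun σ : Gc c => (⟨τ, hτ⟩ : Gc c) * σ)
    (Group.mulLeft_bijective _) _ _ fun σ => ?_
  rw [map_smul, rename_rename]
  change _ = sgq τ • sgq (τ * (σ : Equiv.Perm ι)) • rename (τ * (σ : Equiv.Perm ι)) f
  rw [sgq_mul, smul_smul, ← mul_assoc, sgq_mul_self, one_mul]
  rfl

lemma pr_mem (c : ι → I) (f : MvPolynomial ι ℚ) : pr c f ∈ alt c := fun _ hσ =>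
  rename_pr c hσ f

lemma pr_of_mem {c : ι → I} {f : MvPolynomial ι ℚ} (hf : f ∈ alt c) : pr c f = f := by
  rw [pr_apply]
  have : ∀ σ : Gc c, sgq (σ : Equiv.Perm ι) • rename (σ : Equiv.Perm ι) f = f := by
    intro σ
    rw [hf σ σ.2, smul_smul, sgq_mul_self, one_smul]
  rw [Finset.sum_congr rfl fun σ _ => this σ, Finset.sum_const, Finset.card_univ,
    ← Nat.cast_smul_eq_nsmul ℚ, smul_smul, inv_mul_cancel₀ (card_ne c), one_smul]

lemma pr_mul_pr {I' : Type*} [DecidableEq I'] {c : ι → I} {c' : ι → I'} (h : Gc c' ≤ Gc c)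
    (f e : MvPolynomial ι ℚ) (he : ∀ σ ∈ Gc c', rename σ e = e) :
    pr c (pr c' f * e) = pr c (f * e) := by
  rw [pr_apply c' f, smul_mul_assoc, map_smul, Finset.sum_mul, map_sum]
  have : ∀ σ : Gc c', pr c (sgq (σ : Equiv.Perm ι) • rename (σ : Equiv.Perm ι) f * e) =
      pr c (f * e) := by
    intro σ
    have h1 : sgq (σ : Equiv.Perm ι) • rename (σ : Equiv.Perm ι) f * e =
        sgq (σ : Equiv.Perm ι) • rename (σ : Equiv.Perm ι) (f * e) := by
      rw [map_mul, he σ σ.2, smul_mul_assoc]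
    rw [h1, map_smul, pr_rename c (h σ.2), smul_smul, sgq_mul_self, one_smul]
  rw [Finset.sum_congr rfl fun σ _ => this σ, Finset.sum_const, Finset.card_univ,
    ← Nat.cast_smul_eq_nsmul ℚ, smul_smul, inv_mul_cancel₀ (card_ne c'), one_smul]

lemma hc_pr (c : ι → I) (n : ℕ) (f : MvPolynomial ι ℚ) :
    homogeneousComponent n (pr c f) = pr c (homogeneousComponent n f) := by
  rw [pr_apply, pr_apply, map_smul, map_sum]
  congr 1
  refine Finset.sum_congr rfl fun σ _ => ?_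
  rw [map_smul, rename_homogeneousComponent]

lemma hc_mem_alt {c : ι → I} {f : MvPolynomial ι ℚ} (hf : f ∈ alt c) (n : ℕ) :
    homogeneousComponent n f ∈ alt c := by
  intro σ hσ
  rw [rename_homogeneousComponent, hf σ hσ, map_smul]

lemma hc_mul_of_left {e : MvPolynomial ι ℚ} {d : ℕ} (he : e.IsHomogeneous d) (m : ℕ)
    (f : MvPolynomial ι ℚ) :
    homogeneousComponent (m + d) (f * e) = homogeneousComponent m f * e := by
  classical
  conv_lhs => rw [← sum_homogeneousComponent f, Finset.sum_mul, map_sum]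
  have h1 : ∀ i, homogeneousComponent (m + d) (homogeneousComponent i f * e) =
      if i = m then homogeneousComponent m f * e else 0 := by
    intro i
    rw [homogeneousComponent_of_mem
      ((homogeneousComponent_isHomogeneous i f).mul he)]
    by_cases h : i = m
    · subst h; simp
    · rw [if_neg (by omega), if_neg h]
  rw [Finset.sum_congr rfl fun i _ => h1 i, Finset.sum_ite_eq']
  split_ifs with h
  · rfl
  · rw [homogeneousComponent_eq_zero _ _ (by simpa using h), zero_mul]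

lemma hc_mul_of_lt {e : MvPolynomial ι ℚ} {d : ℕ} (he : e.IsHomogeneous d) {n : ℕ} (h : n < d)
    (f : MvPolynomial ι ℚ) :
    homogeneousComponent n (f * e) = 0 := by
  classical
  conv_lhs => rw [← sum_homogeneousComponent f, Finset.sum_mul, map_sum]
  refine Finset.sum_eq_zero fun i _ => ?_
  rw [homogeneousComponent_of_mem ((homogeneousComponent_isHomogeneous i f).mul he),
    if_neg (by omega)]

end perm

section Eperm

variable {ι : Type*} [DecidableEq ι] (a : ι → ι → ℕ)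

/-- total number of arrows -/
def kk (A B : Finset ι) : ℕ := ∑ i ∈ A, ∑ j ∈ B, a i j

lemma E_homogeneous (A B : Finset ι) : (E ℚ a A B).IsHomogeneous (kk a A B) := by
  unfold E kk
  refine IsHomogeneous.prod _ _ _ fun i _ => IsHomogeneous.prod _ _ _ fun j _ => ?_
  have := ((isHomogeneous_X ℚ j).sub (isHomogeneous_X ℚ i)).pow (a i j)
  rwa [one_mul] at this

lemma rename_E {κ : Type*} [DecidableEq κ] (f : ι ↪ κ) (b : κ → κ → ℕ)
    (hab : ∀ i j, b (f i) (f j) = a i j) (A B : Finset ι) :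
    rename f (E ℚ a A B) = E ℚ b (A.map f) (B.map f) := by
  simp [E, map_prod, hab]

end Eperm

section step

variable {ι I : Type*} [Fintype ι] [DecidableEq ι] [DecidableEq I]
variable (a : ι → ι → ℕ) (c : ι → I)
variable {G : Type*} [AddCommGroup G] [LinearOrder G] [IsOrderedAddMonoid G] (θ : ι → G)

lemma rename_E_perm {σ : Equiv.Perm ι} (hσ : ∀ i j, a (σ i) (σ j) = a i j) (A B : Finset ι) :
    rename σ (E ℚ a A B) = E ℚ a (A.map σ.toEmbedding) (B.map σ.toEmbedding) := by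
  have := rename_E a σ.toEmbedding a hσ A B
  simpa using this

lemma map_compl_perm (σ : Equiv.Perm ι) (A : Finset ι) :
    (univ \ A).map σ.toEmbedding = univ \ A.map σ.toEmbedding := by
  ext x
  simp only [mem_map_equiv, mem_sdiff, mem_univ, true_and]

attribute [local instance] MvPolynomial.gradedAlgebra in
/-- the spanned ideal is homogeneous -/
lemma Fid_hc (T : Finset ι) (S : Set (Finset ι)) {f : MvPolynomial ι ℚ} (hf : f ∈ Fid ℚ a T S)
    (n : ℕ) : homogeneousComponent n f ∈ Fid ℚ a T S := by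
  apply homogeneousComponent_mem_of_mem _ hf
  apply Ideal.homogeneous_span
  rintro x ⟨A, _, rfl⟩
  exact ⟨_, E_homogeneous a A (T \ A)⟩

attribute [local instance] MvPolynomial.gradedAlgebra in
lemma Lid_hc (A : Finset ι) {f : MvPolynomial ι ℚ} (hf : f ∈ Lid ℚ a θ A)
    (n : ℕ) : homogeneousComponent n f ∈ Lid ℚ a θ A := by
  apply homogeneousComponent_mem_of_mem _ hf
  apply Ideal.homogeneous_span
  rintro x ⟨B, _, _, _, rfl⟩
  exact ⟨_, E_homogeneous a _ _⟩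

attribute [local instance] MvPolynomial.gradedAlgebra in
lemma Jid_hc (A : Finset ι) {f : MvPolynomial ι ℚ} (hf : f ∈ Jid ℚ a θ A)
    (n : ℕ) : homogeneousComponent n f ∈ Jid ℚ a θ A := by
  apply homogeneousComponent_mem_of_mem _ hf
  apply Ideal.homogeneous_span
  rintro x ⟨B, _, _, _, rfl⟩
  exact ⟨_, E_homogeneous a _ _⟩

lemma Fid_rename {S : Set (Finset ι)} {σ : Equiv.Perm ι} (hσ : ∀ i j, a (σ i) (σ j) = a i j)
    (hS : ∀ A ∈ S, A.map σ.toEmbedding ∈ S) {f : MvPolynomial ι ℚ}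
    (hf : f ∈ Fid ℚ a univ S) : rename σ f ∈ Fid ℚ a univ S := by
  have : Fid ℚ a univ S ≤ (Fid ℚ a univ S).comap (rename σ : MvPolynomial ι ℚ →ₐ[ℚ] _) := by
    rw [Fid, Ideal.span_le]
    rintro x ⟨A, hA, rfl⟩
    change rename σ _ ∈ Fid ℚ a univ S
    rw [rename_E_perm a hσ, map_compl_perm]
    exact E_mem_Fid ℚ a (hS A hA)
  exact this hf

lemma pr_mem_Fid (hac : ∀ σ ∈ Gc c, ∀ i j, a (σ i) (σ j) = a i j) {S : Set (Finset ι)}
    (hS : ∀ σ ∈ Gc c, ∀ A ∈ S, A.map σ.toEmbedding ∈ S) {f : MvPolynomial ι ℚ}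
    (hf : f ∈ Fid ℚ a univ S) : pr c f ∈ Fid ℚ a univ S := by
  rw [pr_apply, MvPolynomial.smul_eq_C_mul]
  apply Ideal.mul_mem_left
  apply Ideal.sum_mem
  intro σ _
  rw [MvPolynomial.smul_eq_C_mul]
  exact Ideal.mul_mem_left _ _ (Fid_rename a (hac σ σ.2) (hS σ σ.2) hf)

/-- refined colour: remembers membership in `A` -/
def rc (A : Finset ι) : ι → I × Prop := fun v => (c v, v ∈ A)

noncomputable instance : DecidableEq (I × Prop) := Classical.decEq _

lemma mem_Gc_rc {A : Finset ι} {σ : Equiv.Perm ι} :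
    σ ∈ Gc (rc c A) ↔ σ ∈ Gc c ∧ A.map σ.toEmbedding = A := by
  rw [mem_Gc, mem_Gc]
  constructor
  · intro h
    refine ⟨fun v => congrArg Prod.fst (h v), ?_⟩
    ext x
    rw [mem_map_equiv]
    have := congrArg Prod.snd (h (σ.symm x))
    simp only [rc, Equiv.apply_symm_apply] at this
    exact (iff_of_eq this).symm
  · rintro ⟨h1, h2⟩ v
    simp only [rc, h1 v, Prod.mk.injEq, true_and]
    rw [eq_iff_iff]
    conv_lhs => rw [← h2, mem_map_equiv]
    simp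

lemma Gc_rc_le (A : Finset ι) : Gc (rc c A) ≤ Gc c := fun _ h => ((mem_Gc_rc c).1 h).1

/-- orbit of `A₀` -/
def orb (A₀ : Finset ι) : Set (Finset ι) := {A | ∃ σ ∈ Gc c, A = A₀.map σ.toEmbedding}

variable {a c θ}

/-- membership criterion -/
theorem pr_mul_mem_iff (hac : ∀ σ ∈ Gc c, ∀ i j, a (σ i) (σ j) = a i j)
    {A₀ : Finset ι} {S : Set (Finset ι)}
    (hS : ∀ σ ∈ Gc c, ∀ A ∈ S, A.map σ.toEmbedding ∈ S)
    (h1 : ∀ A' : Finset ι, Earlier θ A' A₀ → A' ∈ S)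
    (h2 : ∀ A' ∈ S, A' ≠ A₀ ∧ NotLater θ A' A₀)
    (h3 : ∀ A' ∈ orb c A₀, NotLater θ A' A₀)
    {f : MvPolynomial ι ℚ} (hf : f ∈ alt (rc c A₀)) :
    pr c (f * E ℚ a A₀ (univ \ A₀)) ∈ Fid ℚ a univ S ↔
      f ∈ Lid ℚ a θ A₀ ⊔ Jid ℚ a θ (univ \ A₀) := by
  constructor
  · intro h
    -- all terms with `σ A₀ ≠ A₀` lie in the ideal of the other members of the orbit
    apply (colon ℚ a θ (subset_univ A₀) (S := S ∪ {A | A ∈ orb c A₀ ∧ A ≠ A₀})
      (fun A' _ h' => Or.inl (h1 A' h'))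
      (by
        rintro A' (h' | ⟨h', h''⟩)
        · exact ⟨subset_univ _, (h2 A' h').1, (h2 A' h').2⟩
        · exact ⟨subset_univ _, h'', h3 A' h'⟩) f).1
    set F' := Fid ℚ a univ (S ∪ {A | A ∈ orb c A₀ ∧ A ≠ A₀}) with hF'
    have hle : Fid ℚ a univ S ≤ F' := Fid_mono ℚ a Set.subset_union_left
    have hE : (Fintype.card (Gc c) : ℚ) • pr c (f * E ℚ a A₀ (univ \ A₀)) =
        ∑ σ : Gc c, sgq (σ : Equiv.Perm ι) •
          rename (σ : Equiv.Perm ι) (f * E ℚ a A₀ (univ \ A₀)) := by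
      rw [pr_apply, smul_smul, mul_inv_cancel₀ (card_ne c), one_smul]
    have hmem : ∑ σ : Gc c, sgq (σ : Equiv.Perm ι) •
          rename (σ : Equiv.Perm ι) (f * E ℚ a A₀ (univ \ A₀)) ∈ F' := by
      rw [← hE, MvPolynomial.smul_eq_C_mul]
      exact Ideal.mul_mem_left _ _ (hle h)
    rw [← Finset.sum_filter_add_sum_filter_not univ
      (fun σ : Gc c => A₀.map (σ : Equiv.Perm ι).toEmbedding = A₀)] at hmem
    have hother : ∑ σ ∈ (univ : Finset (Gc c)).filter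
        (fun σ : Gc c => ¬ A₀.map (σ : Equiv.Perm ι).toEmbedding = A₀),
        sgq (σ : Equiv.Perm ι) •
          rename (σ : Equiv.Perm ι) (f * E ℚ a A₀ (univ \ A₀)) ∈ F' := by
      apply Ideal.sum_mem
      intro σ hσ
      rw [mem_filter] at hσ
      rw [MvPolynomial.smul_eq_C_mul, map_mul, rename_E_perm a (hac σ σ.2), map_compl_perm]
      apply Ideal.mul_mem_left
      apply Ideal.mul_mem_left
      apply E_mem_Fid
      exact Or.inr ⟨⟨σ, σ.2, rfl⟩, hσ.2⟩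
    have hmain := (Ideal.add_mem_iff_left F' hother).1 hmem
    have hterm : ∀ σ ∈ (univ : Finset (Gc c)).filter
        (fun σ : Gc c => A₀.map (σ : Equiv.Perm ι).toEmbedding = A₀),
        sgq (σ : Equiv.Perm ι) • rename (σ : Equiv.Perm ι) (f * E ℚ a A₀ (univ \ A₀)) =
          f * E ℚ a A₀ (univ \ A₀) := by
      intro σ hσ
      rw [mem_filter] at hσ
      rw [map_mul, rename_E_perm a (hac σ σ.2), map_compl_perm, hσ.2,
        hf σ ((mem_Gc_rc c).2 ⟨σ.2, hσ.2⟩), smul_mul_assoc, smul_smul, sgq_mul_self, one_smul]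
    rw [Finset.sum_congr rfl hterm, Finset.sum_const, ← Nat.cast_smul_eq_nsmul ℚ] at hmain
    have hcard : (((univ : Finset (Gc c)).filter
        (fun σ : Gc c => A₀.map (σ : Equiv.Perm ι).toEmbedding = A₀)).card : ℚ) ≠ 0 := by
      have : (1 : Gc c) ∈ (univ : Finset (Gc c)).filter
          (fun σ : Gc c => A₀.map (σ : Equiv.Perm ι).toEmbedding = A₀) := by
        rw [mem_filter]
        refine ⟨mem_univ _, ?_⟩
        ext x
        simp only [OneMemClass.coe_one, mem_map_equiv]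
        exact Iff.rfl
      exact_mod_cast (Finset.card_pos.2 ⟨_, this⟩).ne'
    have := Ideal.mul_mem_left F' (C ((((univ : Finset (Gc c)).filter
        (fun σ : Gc c => A₀.map (σ : Equiv.Perm ι).toEmbedding = A₀)).card : ℚ)⁻¹)) hmain
    rwa [← MvPolynomial.smul_eq_C_mul, smul_smul, inv_mul_cancel₀ hcard, one_smul] at this
  · intro h
    exact pr_mem_Fid a c hac hS
      (mem_Fid_of_mem ℚ a θ (subset_univ A₀) (fun A' _ h' => h1 A' h') h)

/-- surjectivity criterion -/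
theorem exists_of_mem_Fid (hac : ∀ σ ∈ Gc c, ∀ i j, a (σ i) (σ j) = a i j)
    {A₀ : Finset ι} {S : Set (Finset ι)}
    (hS : ∀ σ ∈ Gc c, ∀ A ∈ S, A.map σ.toEmbedding ∈ S)
    {g : MvPolynomial ι ℚ} (hg : g ∈ Fid ℚ a univ (S ∪ orb c A₀)) :
    ∃ f ∈ alt (rc c A₀), pr c g - pr c (f * E ℚ a A₀ (univ \ A₀)) ∈ Fid ℚ a univ S := by
  have hinv : ∀ σ ∈ Gc (rc c A₀), rename σ (E ℚ a A₀ (univ \ A₀)) = E ℚ a A₀ (univ \ A₀) := by
    intro σ hσ
    obtain ⟨h1, h2⟩ := (mem_Gc_rc c).1 hσ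
    rw [rename_E_perm a (hac σ h1), map_compl_perm, h2]
  refine Submodule.closure_induction (p := fun g _ => ∃ f ∈ alt (rc c A₀),
    pr c g - pr c (f * E ℚ a A₀ (univ \ A₀)) ∈ Fid ℚ a univ S) ?_ ?_ ?_ hg
  · exact ⟨0, Submodule.zero_mem _, by simp⟩
  · rintro x y _ _ ⟨f, hf, hf'⟩ ⟨g, hg, hg'⟩
    refine ⟨f + g, Submodule.add_mem _ hf hg, ?_⟩
    rw [map_add, add_mul, map_add]
    convert Ideal.add_mem _ hf' hg' using 1
    ring
  · rintro p x ⟨A, hA, rfl⟩
    rcases hA with hA | ⟨σ, hσ, rfl⟩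
    · refine ⟨0, Submodule.zero_mem _, ?_⟩
      rw [zero_mul, map_zero, sub_zero]
      exact pr_mem_Fid a c hac hS (Ideal.mul_mem_left _ _ (E_mem_Fid ℚ a hA))
    · refine ⟨sgq σ • pr (rc c A₀) (rename (σ⁻¹ : Equiv.Perm ι) p),
        Submodule.smul_mem _ _ (pr_mem _ _), ?_⟩
      have e1 : p • E ℚ a (A₀.map σ.toEmbedding) (univ \ A₀.map σ.toEmbedding) =
          rename σ (rename (σ⁻¹ : Equiv.Perm ι) p * E ℚ a A₀ (univ \ A₀)) := by
        rw [map_mul, rename_rename, rename_E_perm a (hac σ hσ), map_compl_perm, smul_eq_mul]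
        congr 1
        have : (σ : ι → ι) ∘ (σ⁻¹ : Equiv.Perm ι) = id := by
          ext x; simp
        rw [this, rename_id, AlgHom.id_apply]
      rw [e1, pr_rename c hσ, smul_mul_assoc, map_smul,
        pr_mul_pr (Gc_rc_le c A₀) _ _ hinv, sub_self]
      exact Ideal.zero_mem _

lemma finrank_map_add {V W : Type*} [AddCommGroup V] [Module ℚ V] [AddCommGroup W] [Module ℚ W]
    (X : Submodule ℚ V) [FiniteDimensional ℚ X] (f : V →ₗ[ℚ] W) :
    finrank ℚ (X.map f) + finrank ℚ ↥(X ⊓ LinearMap.ker f) = finrank ℚ X := by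
  have h1 := LinearMap.finrank_range_add_finrank_ker (f.domRestrict X)
  have h2 : LinearMap.range (f.domRestrict X) = X.map f := by
    rw [LinearMap.domRestrict, LinearMap.range_comp, Submodule.range_subtype]
  have h3 : finrank ℚ (LinearMap.ker (f.domRestrict X)) = finrank ℚ ↥(X ⊓ LinearMap.ker f) := by
    have h4 : (LinearMap.ker (f.domRestrict X)).map X.subtype = X ⊓ LinearMap.ker f := by
      ext v
      simp only [Submodule.mem_map, LinearMap.mem_ker, Submodule.mem_inf]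
      constructor
      · rintro ⟨w, hw, rfl⟩
        exact ⟨w.2, hw⟩
      · rintro ⟨hv, hv'⟩
        exact ⟨⟨v, hv⟩, hv', rfl⟩
    rw [← h4]
    exact (LinearEquiv.finrank_eq (Submodule.equivMapOfInjective _
      (Submodule.injective_subtype X) _))
  rw [h2, h3] at h1
  exact h1

instance finite_hom (n : ℕ) : FiniteDimensional ℚ (homogeneousSubmodule ι ℚ n) :=
  Module.Finite.iff_fg.2 (homogeneousSubmodule_fg ι ℚ n)

instance finite_inf_hom (X : Submodule ℚ (MvPolynomial ι ℚ)) (n : ℕ) :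
    FiniteDimensional ℚ ↥(X ⊓ homogeneousSubmodule ι ℚ n) :=
  Submodule.finiteDimensional_of_le inf_le_right

/-- quotient map by an ideal, as a linear map -/
noncomputable abbrev qm (J : Ideal (MvPolynomial ι ℚ)) :
    MvPolynomial ι ℚ →ₗ[ℚ] MvPolynomial ι ℚ ⧸ J :=
  (Ideal.Quotient.mkₐ ℚ J).toLinearMap

lemma mem_ker_qm {J : Ideal (MvPolynomial ι ℚ)} {f : MvPolynomial ι ℚ} :
    f ∈ LinearMap.ker (qm J) ↔ f ∈ J := by
  rw [LinearMap.mem_ker]
  exact Ideal.Quotient.eq_zero_iff_mem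

/-- **one step of the filtration** -/
theorem step (hac : ∀ σ ∈ Gc c, ∀ i j, a (σ i) (σ j) = a i j)
    {A₀ : Finset ι} {S : Set (Finset ι)}
    (hS : ∀ σ ∈ Gc c, ∀ A ∈ S, A.map σ.toEmbedding ∈ S)
    (h1 : ∀ A' : Finset ι, Earlier θ A' A₀ → A' ∈ S)
    (h2 : ∀ A' ∈ S, A' ≠ A₀ ∧ NotLater θ A' A₀)
    (h3 : ∀ A' ∈ orb c A₀, NotLater θ A' A₀) (m : ℕ) :
    finrank ℚ ↥(alt c ⊓ (Fid ℚ a univ (S ∪ orb c A₀)).restrictScalars ℚ ⊓
      homogeneousSubmodule ι ℚ (m + kk a A₀ (univ \ A₀))) =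
    finrank ℚ ↥(alt c ⊓ (Fid ℚ a univ S).restrictScalars ℚ ⊓
      homogeneousSubmodule ι ℚ (m + kk a A₀ (univ \ A₀))) +
    finrank ℚ ↥((alt (rc c A₀) ⊓ homogeneousSubmodule ι ℚ m).map
      (qm (Lid ℚ a θ A₀ ⊔ Jid ℚ a θ (univ \ A₀)))) := by
  set e := kk a A₀ (univ \ A₀) with he
  set E₀ := E ℚ a A₀ (univ \ A₀) with hE₀
  have hE₀h : E₀.IsHomogeneous e := E_homogeneous a _ _
  set F1 := Fid ℚ a univ (S ∪ orb c A₀) with hF1
  set F0 := Fid ℚ a univ S with hF0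
  have hle : F0 ≤ F1 := Fid_mono ℚ a Set.subset_union_left
  have hE₀F : E₀ ∈ F1 := by
    apply E_mem_Fid
    refine Or.inr ⟨1, one_mem _, ?_⟩
    ext x
    simp only [mem_map_equiv]
    exact Iff.rfl
  have hS' : ∀ σ ∈ Gc c, ∀ A ∈ S ∪ orb c A₀, A.map σ.toEmbedding ∈ S ∪ orb c A₀ := by
    rintro σ hσ A (hA | ⟨τ, hτ, rfl⟩)
    · exact Or.inl (hS σ hσ A hA)
    · refine Or.inr ⟨σ * τ, mul_mem hσ hτ, ?_⟩
      rw [Finset.map_map]
      rfl
  set X1 := alt c ⊓ F1.restrictScalars ℚ ⊓ homogeneousSubmodule ι ℚ (m + e) with hX1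
  set X0 := alt c ⊓ F0.restrictScalars ℚ ⊓ homogeneousSubmodule ι ℚ (m + e) with hX0
  set X := alt (rc c A₀) ⊓ homogeneousSubmodule ι ℚ m with hX
  let Φ : MvPolynomial ι ℚ →ₗ[ℚ] MvPolynomial ι ℚ ⧸ F0 :=
    (qm F0) ∘ₗ (pr c) ∘ₗ (LinearMap.mulRight ℚ E₀)
  have hΦ : ∀ f, Φ f = qm F0 (pr c (f * E₀)) := fun f => rfl
  have e1 := finrank_map_add X1 (qm F0)
  have e1' : X1 ⊓ LinearMap.ker (qm F0) = X0 := by
    ext f
    simp only [hX1, hX0, Submodule.mem_inf, mem_ker_qm, Submodule.restrictScalars_mem]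
    constructor
    · rintro ⟨⟨⟨h1, _⟩, h3⟩, h4⟩
      exact ⟨⟨h1, h4⟩, h3⟩
    · rintro ⟨⟨h1, h4⟩, h3⟩
      exact ⟨⟨⟨h1, hle h4⟩, h3⟩, h4⟩
  have e2 := finrank_map_add X Φ
  have e3 := finrank_map_add X (qm (Lid ℚ a θ A₀ ⊔ Jid ℚ a θ (univ \ A₀)))
  have e4 : X ⊓ LinearMap.ker Φ =
      X ⊓ LinearMap.ker (qm (Lid ℚ a θ A₀ ⊔ Jid ℚ a θ (univ \ A₀))) := by
    ext f
    change f ∈ X ∧ f ∈ LinearMap.ker Φ ↔ f ∈ X ∧ f ∈ LinearMap.ker (qm _)
    refine and_congr_right fun hf => ?_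
    rw [mem_ker_qm, LinearMap.mem_ker, hΦ, ← LinearMap.mem_ker, mem_ker_qm]
    exact pr_mul_mem_iff hac hS h1 h2 h3 (Submodule.mem_inf.1 hf).1
  have e5 : X.map Φ = X1.map (qm F0) := by
    apply le_antisymm
    · rintro _ ⟨f, hf, rfl⟩
      obtain ⟨hf1, hf2⟩ := Submodule.mem_inf.1 hf
      refine ⟨pr c (f * E₀), ?_, rfl⟩
      refine Submodule.mem_inf.2 ⟨Submodule.mem_inf.2 ⟨pr_mem c _, ?_⟩, ?_⟩
      · exact pr_mem_Fid a c hac hS' (Ideal.mul_mem_left _ _ hE₀F)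
      · rw [mem_homogeneousSubmodule] at hf2 ⊢
        have h5 : homogeneousComponent (m + e) (pr c (f * E₀)) = pr c (f * E₀) := by
          rw [hc_pr, homogeneousComponent_eq_self (hf2.mul hE₀h)]
        rw [← h5]
        exact homogeneousComponent_isHomogeneous _ _
    · rintro _ ⟨g, hg, rfl⟩
      obtain ⟨hg1, hg2⟩ := Submodule.mem_inf.1 hg
      obtain ⟨hg3, hg4⟩ := Submodule.mem_inf.1 hg1
      obtain ⟨f, hf, hf'⟩ := exists_of_mem_Fid hac hS hg4
      rw [pr_of_mem hg3] at hf'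
      refine ⟨homogeneousComponent m f, Submodule.mem_inf.2 ⟨hc_mem_alt hf m,
        homogeneousComponent_isHomogeneous _ _⟩, ?_⟩
      have h6 := Fid_hc a univ S hf' (m + e)
      rw [map_sub, hc_pr, hc_mul_of_left hE₀h, homogeneousComponent_eq_self hg2] at h6
      rw [hΦ, ← sub_eq_zero, ← map_sub, ← LinearMap.mem_ker, mem_ker_qm, ← neg_mem_iff, neg_sub]
      exact h6
  rw [e1', ← e5] at e1
  rw [e4] at e2
  omega

/-- below the degree of the kernel nothing happens -/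
theorem step_lt (hac : ∀ σ ∈ Gc c, ∀ i j, a (σ i) (σ j) = a i j)
    {A₀ : Finset ι} {S : Set (Finset ι)}
    (hS : ∀ σ ∈ Gc c, ∀ A ∈ S, A.map σ.toEmbedding ∈ S) {n : ℕ}
    (hn : n < kk a A₀ (univ \ A₀)) :
    alt c ⊓ (Fid ℚ a univ (S ∪ orb c A₀)).restrictScalars ℚ ⊓ homogeneousSubmodule ι ℚ n =
    alt c ⊓ (Fid ℚ a univ S).restrictScalars ℚ ⊓ homogeneousSubmodule ι ℚ n := by
  apply le_antisymm
  · intro g hg
    obtain ⟨hg1, hg2⟩ := Submodule.mem_inf.1 hg
    obtain ⟨hg3, hg4⟩ := Submodule.mem_inf.1 hg1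
    obtain ⟨f, hf, hf'⟩ := exists_of_mem_Fid hac hS hg4
    rw [pr_of_mem hg3] at hf'
    have h6 := Fid_hc a univ S hf' n
    rw [map_sub, hc_pr, hc_mul_of_lt (E_homogeneous a _ _) hn, homogeneousComponent_eq_self hg2,
      map_zero, sub_zero] at h6
    exact Submodule.mem_inf.2 ⟨Submodule.mem_inf.2 ⟨hg3, h6⟩, hg2⟩
  · apply inf_le_inf_right
    apply inf_le_inf_left
    exact Fid_mono ℚ a Set.subset_union_left

end step

end Crest.Agent.R059.ThinA
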