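import Crest.Agent.R059.ThinDim1_313

/-!
# Row 59, Theorem A thin model: the two-block quotient (helper313)
-/

set_option autoImplicit false
set_option linter.unusedSectionVars false

namespace Crest.Agent.R059.ThinA

open MvPolynomial Finset Module TensorProduct

section sumtensor

variable {α β : Type*} [Fintype α] [DecidableEq α] [Fintype β] [DecidableEq β]

/-- `P_{α ⊕ β} → P_α ⊗ P_β` -/
noncomputable def toT : MvPolynomial (α ⊕ β) ℚ →ₐ[ℚ] MvPolynomial α ℚ ⊗[ℚ] MvPolynomial β ℚ :=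
  aeval (Sum.elim (fun i => X i ⊗ₜ 1) (fun j => 1 ⊗ₜ X j))

/-- `P_α ⊗ P_β → P_{α ⊕ β}` -/
noncomputable def ofT : MvPolynomial α ℚ ⊗[ℚ] MvPolynomial β ℚ →ₐ[ℚ] MvPolynomial (α ⊕ β) ℚ :=
  Algebra.TensorProduct.productMap (rename Sum.inl) (rename Sum.inr)

lemma ofT_tmul (f : MvPolynomial α ℚ) (g : MvPolynomial β ℚ) :
    ofT (f ⊗ₜ g) = rename Sum.inl f * rename Sum.inr g := by
  simp [ofT]

lemma toT_inl (f : MvPolynomial α ℚ) :
    (toT : MvPolynomial (α ⊕ β) ℚ →ₐ[ℚ] _) (rename Sum.inl f) = f ⊗ₜ 1 := by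
  have : (toT : MvPolynomial (α ⊕ β) ℚ →ₐ[ℚ] _).comp (rename Sum.inl) =
      (Algebra.TensorProduct.includeLeft :
        MvPolynomial α ℚ →ₐ[ℚ] MvPolynomial α ℚ ⊗[ℚ] MvPolynomial β ℚ) := by
    apply MvPolynomial.algHom_ext
    intro i
    simp [toT]
  exact congrArg (fun φ => φ f) this

lemma toT_inr (g : MvPolynomial β ℚ) :
    (toT : MvPolynomial (α ⊕ β) ℚ →ₐ[ℚ] _) (rename Sum.inr g) = 1 ⊗ₜ g := by
  have : (toT : MvPolynomial (α ⊕ β) ℚ →ₐ[ℚ] _).comp (rename Sum.inr) =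
      (Algebra.TensorProduct.includeRight :
        MvPolynomial β ℚ →ₐ[ℚ] MvPolynomial α ℚ ⊗[ℚ] MvPolynomial β ℚ) := by
    apply MvPolynomial.algHom_ext
    intro i
    simp [toT]
  exact congrArg (fun φ => φ g) this

lemma toT_ofT (x : MvPolynomial α ℚ ⊗[ℚ] MvPolynomial β ℚ) : toT (ofT x) = x := by
  induction x with
  | zero => simp
  | add x y hx hy => rw [map_add, map_add, hx, hy]
  | tmul f g => rw [ofT_tmul, map_mul, toT_inl, toT_inr]; simp

lemma ofT_toT (x : MvPolynomial (α ⊕ β) ℚ) : ofT (toT x) = x := by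
  have : (ofT : _ →ₐ[ℚ] MvPolynomial (α ⊕ β) ℚ).comp toT = AlgHom.id ℚ _ := by
    apply MvPolynomial.algHom_ext
    rintro (i | j)
    · simp [toT, ofT_tmul]
    · simp [toT, ofT_tmul]
  exact congrArg (fun φ => φ x) this

/-- the algebra isomorphism -/
noncomputable def eT : MvPolynomial (α ⊕ β) ℚ ≃ₐ[ℚ] MvPolynomial α ℚ ⊗[ℚ] MvPolynomial β ℚ :=
  AlgEquiv.ofAlgHom toT ofT (AlgHom.ext toT_ofT) (AlgHom.ext ofT_toT)

lemma eT_apply (x : MvPolynomial (α ⊕ β) ℚ) : eT x = toT x := rfl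
lemma eT_symm_apply (x : MvPolynomial α ℚ ⊗[ℚ] MvPolynomial β ℚ) : eT.symm x = ofT x := rfl

variable (I₁ : Ideal (MvPolynomial α ℚ)) (I₂ : Ideal (MvPolynomial β ℚ))

/-- `P_{α ⊕ β} → P_α/I₁ ⊗ P_β/I₂` -/
noncomputable def Ψ : MvPolynomial (α ⊕ β) ℚ →ₐ[ℚ]
    (MvPolynomial α ℚ ⧸ I₁) ⊗[ℚ] (MvPolynomial β ℚ ⧸ I₂) :=
  (Algebra.TensorProduct.map (Ideal.Quotient.mkₐ ℚ I₁) (Ideal.Quotient.mkₐ ℚ I₂)).comp toT

lemma Ψ_mul (f : MvPolynomial α ℚ) (g : MvPolynomial β ℚ) :
    Ψ I₁ I₂ (rename Sum.inl f * rename Sum.inr g) = qm I₁ f ⊗ₜ qm I₂ g := by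
  rw [map_mul]
  simp only [Ψ, AlgHom.comp_apply, toT_inl, toT_inr, Algebra.TensorProduct.map_tmul, map_one]
  rw [Algebra.TensorProduct.tmul_mul_tmul, mul_one, one_mul]
  rfl

lemma ker_Ψ (x : MvPolynomial (α ⊕ β) ℚ) :
    Ψ I₁ I₂ x = 0 ↔ x ∈ I₁.map (rename Sum.inl : _ →ₐ[ℚ] MvPolynomial (α ⊕ β) ℚ) ⊔
      I₂.map (rename Sum.inr : _ →ₐ[ℚ] MvPolynomial (α ⊕ β) ℚ) := by
  have h := Algebra.TensorProduct.map_ker (Ideal.Quotient.mkₐ ℚ I₁) (Ideal.Quotient.mkₐ ℚ I₂)
    (Ideal.Quotient.mkₐ_surjective ℚ I₁) (Ideal.Quotient.mkₐ_surjective ℚ I₂)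
  have k1 : RingHom.ker (Ideal.Quotient.mkₐ ℚ I₁) = I₁ :=
    Ideal.ext fun f => Ideal.Quotient.eq_zero_iff_mem
  have k2 : RingHom.ker (Ideal.Quotient.mkₐ ℚ I₂) = I₂ :=
    Ideal.ext fun f => Ideal.Quotient.eq_zero_iff_mem
  rw [k1, k2] at h
  constructor
  · intro hx
    have h1 : toT x ∈ RingHom.ker (Algebra.TensorProduct.map (Ideal.Quotient.mkₐ ℚ I₁)
        (Ideal.Quotient.mkₐ ℚ I₂)) := hx
    rw [h] at h1
    have h2 := Ideal.mem_map_of_mem (ofT : _ →ₐ[ℚ] MvPolynomial (α ⊕ β) ℚ) h1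
    rw [ofT_toT, Ideal.map_sup] at h2
    have h5 : Ideal.map (ofT : _ →ₐ[ℚ] MvPolynomial (α ⊕ β) ℚ)
        (Ideal.map (Algebra.TensorProduct.includeLeft :
          MvPolynomial α ℚ →ₐ[ℚ] MvPolynomial α ℚ ⊗[ℚ] MvPolynomial β ℚ) I₁) ⊔
        Ideal.map (ofT : _ →ₐ[ℚ] MvPolynomial (α ⊕ β) ℚ)
        (Ideal.map (Algebra.TensorProduct.includeRight :
          MvPolynomial β ℚ →ₐ[ℚ] MvPolynomial α ℚ ⊗[ℚ] MvPolynomial β ℚ) I₂) ≤
        I₁.map (rename Sum.inl : _ →ₐ[ℚ] MvPolynomial (α ⊕ β) ℚ) ⊔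
          I₂.map (rename Sum.inr : _ →ₐ[ℚ] MvPolynomial (α ⊕ β) ℚ) := by
      apply sup_le_sup
      · rw [Ideal.map_le_iff_le_comap, Ideal.map_le_iff_le_comap]
        intro f hf
        rw [Ideal.mem_comap, Ideal.mem_comap, Algebra.TensorProduct.includeLeft_apply,
          ofT_tmul, map_one, mul_one]
        exact Ideal.mem_map_of_mem _ hf
      · rw [Ideal.map_le_iff_le_comap, Ideal.map_le_iff_le_comap]
        intro f hf
        rw [Ideal.mem_comap, Ideal.mem_comap, Algebra.TensorProduct.includeRight_apply,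
          ofT_tmul, map_one, one_mul]
        exact Ideal.mem_map_of_mem _ hf
    exact h5 h2
  · intro hx
    have h3 : I₁.map (rename Sum.inl : _ →ₐ[ℚ] MvPolynomial (α ⊕ β) ℚ) ⊔
      I₂.map (rename Sum.inr : _ →ₐ[ℚ] MvPolynomial (α ⊕ β) ℚ) ≤ RingHom.ker (Ψ I₁ I₂) := by
      apply sup_le
      · rw [Ideal.map_le_iff_le_comap]
        intro f hf
        change Ψ I₁ I₂ (rename Sum.inl f) = 0
        have := Ψ_mul I₁ I₂ f 1
        rw [map_one, mul_one] at this
        rw [this]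
        have h4 : qm I₁ f = 0 := Ideal.Quotient.eq_zero_iff_mem.2 hf
        rw [h4, TensorProduct.zero_tmul]
      · rw [Ideal.map_le_iff_le_comap]
        intro f hf
        change Ψ I₁ I₂ (rename Sum.inr f) = 0
        have := Ψ_mul I₁ I₂ 1 f
        rw [map_one, one_mul] at this
        rw [this]
        have h4 : qm I₂ f = 0 := Ideal.Quotient.eq_zero_iff_mem.2 hf
        rw [h4, TensorProduct.tmul_zero]
    exact h3 hx

end sumtensor

section indep

variable {V : Type*} [AddCommGroup V] [Module ℚ V]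

/-- dimension of a sum of subspaces separated by endomorphisms -/
lemma finrank_sup_of_proj (W : ℕ → Submodule ℚ V) (P : ℕ → V →ₗ[ℚ] V)
    [∀ i, FiniteDimensional ℚ (W i)]
    (h1 : ∀ i, ∀ w ∈ W i, P i w = w) (h2 : ∀ i j, i ≠ j → ∀ w ∈ W j, P i w = 0)
    (s : Finset ℕ) : finrank ℚ ↥(s.sup W) = ∑ i ∈ s, finrank ℚ (W i) := by
  classical
  induction s using Finset.induction_on with
  | empty => rw [Finset.sup_empty, finrank_bot, Finset.sum_empty]
  | insert i s hi ih =>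
    rw [Finset.sum_insert hi, Finset.sup_insert, ← ih]
    have hdis : W i ⊓ s.sup W = ⊥ := by
      rw [eq_bot_iff]
      rintro w ⟨hw1, hw2⟩
      have h3 : s.sup W ≤ LinearMap.ker (P i) := by
        apply Finset.sup_le
        intro j hj w hw
        exact h2 i j (fun h => hi (h ▸ hj)) w hw
      have h4 : P i w = 0 := h3 hw2
      rw [h1 i w hw1] at h4
      simpa using h4
    have := Submodule.finrank_sup_add_finrank_inf_eq (W i) (s.sup W)
    rw [hdis, finrank_bot, add_zero] at this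
    exact this

/-- dimension of the image of `A ⊗ B` in `V ⊗ W` -/
lemma finrank_map₂_mk {W : Type*} [AddCommGroup W] [Module ℚ W]
    (A : Submodule ℚ V) (B : Submodule ℚ W) :
    finrank ℚ ↥(Submodule.map₂ (TensorProduct.mk ℚ V W) A B) = finrank ℚ A * finrank ℚ B := by
  have h1 : LinearMap.range (TensorProduct.map A.subtype B.subtype) =
      Submodule.map₂ (TensorProduct.mk ℚ V W) A B := by
    rw [TensorProduct.range_map, Submodule.range_subtype, Submodule.range_subtype]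
  rw [← h1, LinearMap.finrank_range_of_inj
    (TensorProduct.map_injective_of_flat_flat _ _ A.subtype_injective B.subtype_injective),
    Module.finrank_tensorProduct]

end indep

section homog

variable {ι : Type*} [Fintype ι] [DecidableEq ι]

lemma hc_mul (F G : MvPolynomial ι ℚ) (m : ℕ) :
    homogeneousComponent m (F * G) =
      ∑ i ∈ range (m + 1), homogeneousComponent (m - i) F * homogeneousComponent i G := by
  have h1 : ∀ i, homogeneousComponent m (F * homogeneousComponent i G) =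
      if i ≤ m then homogeneousComponent (m - i) F * homogeneousComponent i G else 0 := by
    intro i
    split_ifs with h
    · have := hc_mul_of_left (homogeneousComponent_isHomogeneous i G) (m - i) F
      rwa [Nat.sub_add_cancel h] at this
    · exact hc_mul_of_lt (homogeneousComponent_isHomogeneous i G) (not_le.1 h) F
  conv_lhs => rw [← sum_homogeneousComponent G, Finset.mul_sum, map_sum]
  rw [Finset.sum_congr rfl fun i _ => h1 i, ← Finset.sum_filter]
  have h2 : ∀ i ∈ range (m + 1), i ∉ (range (G.totalDegree + 1)).filter (· ≤ m) →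
      homogeneousComponent (m - i) F * homogeneousComponent i G = 0 := by
    intro i hi hi'
    rw [homogeneousComponent_eq_zero i G, mul_zero]
    by_contra h
    apply hi'
    rw [mem_filter, mem_range]
    rw [mem_range] at hi
    exact ⟨by omega, by omega⟩
  rw [← Finset.sum_subset (fun i hi => ?_) h2]
  rw [mem_filter] at hi
  rw [mem_range]
  omega

/-- the projection onto the degree `p` part of the quotient by a homogeneous ideal -/
noncomputable def hbar (I₁ : Ideal (MvPolynomial ι ℚ))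
    (h : ∀ f ∈ I₁, ∀ n, homogeneousComponent n f ∈ I₁) (p : ℕ) :
    (MvPolynomial ι ℚ ⧸ I₁) →ₗ[ℚ] (MvPolynomial ι ℚ ⧸ I₁) :=
  (Submodule.Quotient.restrictScalarsEquiv ℚ I₁).toLinearMap ∘ₗ
    Submodule.mapQ (I₁.restrictScalars ℚ) (I₁.restrictScalars ℚ) (homogeneousComponent p)
      (fun f hf => h f hf p) ∘ₗ
    (Submodule.Quotient.restrictScalarsEquiv ℚ I₁).symm.toLinearMap

lemma hbar_qm (I₁ : Ideal (MvPolynomial ι ℚ))
    (h : ∀ f ∈ I₁, ∀ n, homogeneousComponent n f ∈ I₁) (p : ℕ) (f : MvPolynomial ι ℚ) :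
    hbar I₁ h p (qm I₁ f) = qm I₁ (homogeneousComponent p f) := rfl

end homog

section two

variable {α β I : Type*} [Fintype α] [DecidableEq α] [Fintype β] [DecidableEq β] [DecidableEq I]
variable (cα : α → I) (cβ : β → I)

/-- the left block -/
abbrev lb : Finset (α ⊕ β) := univ.map Function.Embedding.inl

lemma lb_compl : (univ : Finset (α ⊕ β)) \ lb = univ.map Function.Embedding.inr := by
  ext x
  rcases x with x | x <;> simp

/-- average over the left group -/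
noncomputable def avL : MvPolynomial (α ⊕ β) ℚ →ₗ[ℚ] MvPolynomial (α ⊕ β) ℚ :=
  (Fintype.card (Gc cα) : ℚ)⁻¹ • ∑ σ : Gc cα, sgq (σ : Equiv.Perm α) •
    (rename (Equiv.Perm.sumCongr (σ : Equiv.Perm α) (1 : Equiv.Perm β))).toLinearMap

/-- average over the right group -/
noncomputable def avR : MvPolynomial (α ⊕ β) ℚ →ₗ[ℚ] MvPolynomial (α ⊕ β) ℚ :=
  (Fintype.card (Gc cβ) : ℚ)⁻¹ • ∑ σ : Gc cβ, sgq (σ : Equiv.Perm β) •
    (rename (Equiv.Perm.sumCongr (1 : Equiv.Perm α) (σ : Equiv.Perm β))).toLinearMap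

lemma rename_sumCongr (σ : Equiv.Perm α) (τ : Equiv.Perm β) (f : MvPolynomial α ℚ)
    (g : MvPolynomial β ℚ) :
    rename (Equiv.Perm.sumCongr σ τ) (rename Sum.inl f * rename Sum.inr g) =
      rename Sum.inl (rename σ f) * rename Sum.inr (rename τ g) := by
  rw [map_mul, rename_rename, rename_rename, rename_rename, rename_rename]
  rfl

lemma rename_one {κ : Type*} (f : MvPolynomial κ ℚ) :
    rename (1 : Equiv.Perm κ) f = f := by
  change rename id f = f
  simp

lemma avL_mul (f : MvPolynomial α ℚ) (g : MvPolynomial β ℚ) :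
    avL cα (rename Sum.inl f * rename Sum.inr g) =
      rename Sum.inl (pr cα f) * rename Sum.inr g := by
  simp only [avL, LinearMap.smul_apply, LinearMap.sum_apply, AlgHom.toLinearMap_apply,
    rename_sumCongr, rename_one, pr_apply, map_smul, map_sum, smul_mul_assoc, Finset.sum_mul]

lemma avR_mul (f : MvPolynomial α ℚ) (g : MvPolynomial β ℚ) :
    avR cβ (rename Sum.inl f * rename Sum.inr g) =
      rename Sum.inl f * rename Sum.inr (pr cβ g) := by
  simp only [avR, LinearMap.smul_apply, LinearMap.sum_apply, AlgHom.toLinearMap_apply,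
    rename_sumCongr, rename_one, pr_apply, map_smul, map_sum, mul_smul_comm, Finset.mul_sum]

lemma sgq_sumCongr (σ : Equiv.Perm α) (τ : Equiv.Perm β) :
    sgq (Equiv.Perm.sumCongr σ τ) = sgq σ * sgq τ := by
  simp [sgq, Equiv.Perm.sign_sumCongr]

lemma sumCongr_mem {σ : Equiv.Perm α} {τ : Equiv.Perm β} (hσ : σ ∈ Gc cα) (hτ : τ ∈ Gc cβ) :
    Equiv.Perm.sumCongr σ τ ∈ Gc (rc (Sum.elim cα cβ) lb) := by
  rw [mem_Gc]
  rintro (v | v)
  · have := hσ v
    simp [rc, this]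
  · have := hτ v
    simp [rc, this]

lemma exists_sumCongr {ρ : Equiv.Perm (α ⊕ β)} (hρ : ρ ∈ Gc (rc (Sum.elim cα cβ) lb)) :
    ∃ σ ∈ Gc cα, ∃ τ ∈ Gc cβ, ρ = Equiv.Perm.sumCongr σ τ := by
  have h1 : Set.MapsTo ρ (Set.range Sum.inl) (Set.range Sum.inl) := by
    rintro _ ⟨v, rfl⟩
    have := congrArg Prod.snd (hρ (Sum.inl v))
    simp only [rc, mem_map, mem_univ, true_and, eq_iff_iff] at this
    obtain ⟨w, hw⟩ := this.2 ⟨v, rfl⟩
    exact ⟨w, hw⟩
  obtain ⟨⟨σ, τ⟩, hστ⟩ := Equiv.Perm.mem_sumCongrHom_range_of_perm_mapsTo_inl h1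
  refine ⟨σ, ?_, τ, ?_, hστ.symm⟩
  · intro v
    have := congrArg Prod.fst (hρ (Sum.inl v))
    rw [← hστ] at this
    simpa [rc] using this
  · intro v
    have := congrArg Prod.fst (hρ (Sum.inr v))
    rw [← hστ] at this
    simpa [rc] using this

lemma avL_of_mem {x : MvPolynomial (α ⊕ β) ℚ} (hx : x ∈ alt (rc (Sum.elim cα cβ) lb)) :
    avL cα x = x := by
  have h : ∀ σ : Gc cα, sgq (σ : Equiv.Perm α) •
      rename (Equiv.Perm.sumCongr (σ : Equiv.Perm α) (1 : Equiv.Perm β)) x = x := by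
    intro σ
    rw [hx _ (sumCongr_mem cα cβ σ.2 (one_mem _)), sgq_sumCongr, smul_smul]
    have : sgq (1 : Equiv.Perm β) = 1 := by simp [sgq]
    rw [this, mul_one, sgq_mul_self, one_smul]
  simp only [avL, LinearMap.smul_apply, LinearMap.sum_apply, AlgHom.toLinearMap_apply]
  rw [Finset.sum_congr rfl fun σ _ => h σ, Finset.sum_const, Finset.card_univ,
    ← Nat.cast_smul_eq_nsmul ℚ, smul_smul, inv_mul_cancel₀ (card_ne cα), one_smul]

lemma avR_of_mem {x : MvPolynomial (α ⊕ β) ℚ} (hx : x ∈ alt (rc (Sum.elim cα cβ) lb)) :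
    avR cβ x = x := by
  have h : ∀ σ : Gc cβ, sgq (σ : Equiv.Perm β) •
      rename (Equiv.Perm.sumCongr (1 : Equiv.Perm α) (σ : Equiv.Perm β)) x = x := by
    intro σ
    rw [hx _ (sumCongr_mem cα cβ (one_mem _) σ.2), sgq_sumCongr, smul_smul]
    have : sgq (1 : Equiv.Perm α) = 1 := by simp [sgq]
    rw [this, one_mul, sgq_mul_self, one_smul]
  simp only [avR, LinearMap.smul_apply, LinearMap.sum_apply, AlgHom.toLinearMap_apply]
  rw [Finset.sum_congr rfl fun σ _ => h σ, Finset.sum_const, Finset.card_univ,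
    ← Nat.cast_smul_eq_nsmul ℚ, smul_smul, inv_mul_cancel₀ (card_ne cβ), one_smul]

/-- graded piece of the alternating part modulo an ideal -/
noncomputable def gp {ι : Type*} [Fintype ι] [DecidableEq ι] (c : ι → I)
    (J : Ideal (MvPolynomial ι ℚ)) (p : ℕ) : Submodule ℚ (MvPolynomial ι ℚ ⧸ J) :=
  (alt c ⊓ homogeneousSubmodule ι ℚ p).map (qm J)

instance {ι : Type*} [Fintype ι] [DecidableEq ι] (c : ι → I)
    (J : Ideal (MvPolynomial ι ℚ)) (p : ℕ) : FiniteDimensional ℚ (gp c J p) := by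
  unfold gp
  infer_instance

variable (I₁ : Ideal (MvPolynomial α ℚ)) (I₂ : Ideal (MvPolynomial β ℚ))

/-- the image of `alt' ∩ hom m` in `P_α/I₁ ⊗ P_β/I₂` -/
theorem map_Ψ (m : ℕ) :
    (alt (rc (Sum.elim cα cβ) lb) ⊓ homogeneousSubmodule (α ⊕ β) ℚ m).map
        (Ψ I₁ I₂).toLinearMap =
      (range (m + 1)).sup (fun i => Submodule.map₂ (TensorProduct.mk ℚ _ _)
        (gp cα I₁ (m - i)) (gp cβ I₂ i)) := by
  apply le_antisymm
  · -- general element
    have key : ∀ t : MvPolynomial α ℚ ⊗[ℚ] MvPolynomial β ℚ,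
        Ψ I₁ I₂ (homogeneousComponent m (avL cα (avR cβ (ofT t)))) ∈
        (range (m + 1)).sup (fun i => Submodule.map₂ (TensorProduct.mk ℚ _ _)
          (gp cα I₁ (m - i)) (gp cβ I₂ i)) := by
      intro t
      induction t with
      | zero => simp
      | add x y hx hy =>
        simp only [map_add]
        exact Submodule.add_mem _ hx hy
      | tmul f g =>
        rw [ofT_tmul, avR_mul, avL_mul, hc_mul, map_sum]
        apply Submodule.sum_mem
        intro i hi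
        rw [← rename_homogeneousComponent, ← rename_homogeneousComponent, Ψ_mul]
        refine (Finset.le_sup (f := fun i => Submodule.map₂ (TensorProduct.mk ℚ _ _)
          (gp cα I₁ (m - i)) (gp cβ I₂ i)) hi) ?_
        apply Submodule.apply_mem_map₂
        · exact ⟨_, Submodule.mem_inf.2 ⟨hc_mem_alt (pr_mem cα f) _,
            homogeneousComponent_isHomogeneous _ _⟩, rfl⟩
        · exact ⟨_, Submodule.mem_inf.2 ⟨hc_mem_alt (pr_mem cβ g) _,
            homogeneousComponent_isHomogeneous _ _⟩, rfl⟩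
    rintro _ ⟨x, hx, rfl⟩
    obtain ⟨hx1, hx2⟩ := Submodule.mem_inf.1 hx
    have h := key (toT x)
    rw [ofT_toT, avR_of_mem cα cβ hx1, avL_of_mem cα cβ hx1,
      homogeneousComponent_eq_self hx2] at h
    exact h
  · apply Finset.sup_le
    intro i hi
    rw [mem_range] at hi
    rw [Submodule.map₂_le]
    rintro _ ⟨f, hf, rfl⟩ _ ⟨g, hg, rfl⟩
    obtain ⟨hf1, hf2⟩ := Submodule.mem_inf.1 hf
    obtain ⟨hg1, hg2⟩ := Submodule.mem_inf.1 hg
    refine ⟨rename Sum.inl f * rename Sum.inr g, Submodule.mem_inf.2 ⟨?_, ?_⟩, ?_⟩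
    · intro ρ hρ
      obtain ⟨σ, hσ, τ, hτ, rfl⟩ := exists_sumCongr cα cβ hρ
      rw [rename_sumCongr, hf1 σ hσ, hg1 τ hτ, sgq_sumCongr, map_smul, map_smul,
        smul_mul_assoc, mul_smul_comm, smul_smul]
    · have h1 := (IsHomogeneous.rename_isHomogeneous (f := (Sum.inl : α → α ⊕ β)) hf2).mul
        (IsHomogeneous.rename_isHomogeneous (f := (Sum.inr : β → α ⊕ β)) hg2)
      have h2 : m - i + i = m := by omega
      rw [h2] at h1
      exact h1
    · exact Ψ_mul I₁ I₂ f g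

/-- **dimension of the two-block quotient** -/
theorem finrank_two (h1 : ∀ f ∈ I₁, ∀ n, homogeneousComponent n f ∈ I₁)
    (h2 : ∀ f ∈ I₂, ∀ n, homogeneousComponent n f ∈ I₂) (m : ℕ) :
    finrank ℚ ↥((alt (rc (Sum.elim cα cβ) lb) ⊓ homogeneousSubmodule (α ⊕ β) ℚ m).map
      (qm (I₁.map (rename Sum.inl : _ →ₐ[ℚ] MvPolynomial (α ⊕ β) ℚ) ⊔
        I₂.map (rename Sum.inr : _ →ₐ[ℚ] MvPolynomial (α ⊕ β) ℚ)))) =
    ∑ i ∈ range (m + 1), finrank ℚ (gp cα I₁ (m - i)) * finrank ℚ (gp cβ I₂ i) := by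
  set X := alt (rc (Sum.elim cα cβ) lb) ⊓ homogeneousSubmodule (α ⊕ β) ℚ m with hX
  set J := I₁.map (rename Sum.inl : _ →ₐ[ℚ] MvPolynomial (α ⊕ β) ℚ) ⊔
        I₂.map (rename Sum.inr : _ →ₐ[ℚ] MvPolynomial (α ⊕ β) ℚ) with hJ
  have e1 := finrank_map_add X (qm J)
  have e2 := finrank_map_add X (Ψ I₁ I₂).toLinearMap
  have e3 : X ⊓ LinearMap.ker (Ψ I₁ I₂).toLinearMap = X ⊓ LinearMap.ker (qm J) := by
    ext f
    change f ∈ X ∧ f ∈ LinearMap.ker (Ψ I₁ I₂).toLinearMap ↔ f ∈ X ∧ f ∈ LinearMap.ker (qm J)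
    refine and_congr_right fun _ => ?_
    rw [mem_ker_qm, LinearMap.mem_ker]
    exact ker_Ψ I₁ I₂ f
  rw [e3] at e2
  have e4 : finrank ℚ ↥(X.map (qm J)) = finrank ℚ ↥(X.map (Ψ I₁ I₂).toLinearMap) := by omega
  rw [e4, hX, map_Ψ]
  have hfin : ∀ i, FiniteDimensional ℚ ↥(Submodule.map₂ (TensorProduct.mk ℚ _ _)
        (gp cα I₁ (m - i)) (gp cβ I₂ i)) := fun i => Module.Finite.iff_fg.2
      (Submodule.FG.map₂ _ (Module.Finite.iff_fg.1 inferInstance)
        (Module.Finite.iff_fg.1 inferInstance))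
  rw [finrank_sup_of_proj (fun i => Submodule.map₂ (TensorProduct.mk ℚ _ _)
        (gp cα I₁ (m - i)) (gp cβ I₂ i))
      (fun i => TensorProduct.map LinearMap.id (hbar I₂ h2 i))]
  · refine Finset.sum_congr rfl fun i _ => ?_
    exact finrank_map₂_mk _ _
  · intro i w hw
    have : Submodule.map₂ (TensorProduct.mk ℚ _ _) (gp cα I₁ (m - i)) (gp cβ I₂ i) ≤
        LinearMap.ker (TensorProduct.map LinearMap.id (hbar I₂ h2 i) - LinearMap.id) := by
      rw [Submodule.map₂_le]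
      rintro x _ _ ⟨g, hg, rfl⟩
      rw [LinearMap.mem_ker, LinearMap.sub_apply, TensorProduct.mk_apply, TensorProduct.map_tmul,
        hbar_qm, homogeneousComponent_eq_self (Submodule.mem_inf.1 hg).2]
      simp
    have h3 := this hw
    rw [LinearMap.mem_ker, LinearMap.sub_apply, sub_eq_zero] at h3
    exact h3
  · intro i j hij w hw
    have : Submodule.map₂ (TensorProduct.mk ℚ _ _) (gp cα I₁ (m - j)) (gp cβ I₂ j) ≤
        LinearMap.ker (TensorProduct.map LinearMap.id (hbar I₂ h2 i)) := by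
      rw [Submodule.map₂_le]
      rintro x _ _ ⟨g, hg, rfl⟩
      rw [LinearMap.mem_ker, TensorProduct.mk_apply, TensorProduct.map_tmul,
        hbar_qm, homogeneousComponent_of_mem (Submodule.mem_inf.1 hg).2, if_neg hij,
        map_zero, TensorProduct.tmul_zero]
    exact this hw

end two

end Crest.Agent.R059.ThinA
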