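import Crest.Agent.R059.ThinTr_313
import Crest.Agent.R059.NumOut_469
import Crest.Agent.R059.Hilb2_568

/-!
# Row 59, Theorem A thin model: final numeric form (HILB, THA)
-/

set_option autoImplicit false
set_option linter.unusedSectionVars false

namespace Crest.Agent.R059.ThinFin

open MvPolynomial Finset Module NumA158 ThinA Num469

variable {I : Type} [Fintype I] [DecidableEq I]

/-- particles -/
abbrev V (d : I →₀ ℕ) : Type := Σ i : I, Fin (d i)

/-- arrows between particles -/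
def ar (k : I → I → ℕ) (d : I →₀ ℕ) : V d → V d → ℕ := fun x y => k x.1 y.1

/-- weights of particles -/
def wt (θ : I → ℤ) (d : I →₀ ℕ) : V d → ℤ := fun x => θ x.1

/-- colour -/
abbrev co (d : I →₀ ℕ) : V d → I := Sigma.fst

variable (k : I → I → ℕ) (θ : I → ℤ)

/-- the standard subset of content `e` -/
def std (d e : I →₀ ℕ) : Finset (V d) := univ.filter fun v => (v.2 : ℕ) < e v.1

lemma mem_std {d e : I →₀ ℕ} {v : V d} : v ∈ std d e ↔ (v.2 : ℕ) < e v.1 := by
  simp [std]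

/-- the two block decomposition -/
noncomputable def blk (a b : I →₀ ℕ) : V a ⊕ V b ≃ V (a + b) :=
  (Equiv.sigmaSumDistrib (fun i => Fin (a i)) (fun i => Fin (b i))).symm.trans
    (Equiv.sigmaCongrRight fun i => finSumFinEquiv.trans
      (finCongr (Finsupp.add_apply a b i).symm))

lemma blk_inl (a b : I →₀ ℕ) (x : V a) : (blk a b (Sum.inl x)).1 = x.1 := rfl

lemma blk_inr (a b : I →₀ ℕ) (x : V b) : (blk a b (Sum.inr x)).1 = x.1 := rfl

lemma blk_mem (a b : I →₀ ℕ) (x : V a ⊕ V b) : blk a b x ∈ std (a + b) a ↔ x.isLeft := by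
  rw [mem_std]
  rcases x with ⟨i, j⟩ | ⟨i, j⟩
  · change (j : ℕ) < a i ↔ true = true
    simp
  · change a i + (j : ℕ) < a i ↔ false = true
    simp

/-- content -/
noncomputable def cont {d : I →₀ ℕ} (A : Finset (V d)) : I →₀ ℕ :=
  Finsupp.equivFunOnFinite.symm fun i => (A.filter fun v => v.1 = i).card

lemma cont_apply {d : I →₀ ℕ} (A : Finset (V d)) (i : I) :
    cont A i = (A.filter fun v => v.1 = i).card := rfl

lemma card_fiber {d : I →₀ ℕ} (A : Finset (V d)) (i : I) :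
    cont A i = (univ.filter fun j : Fin (d i) => (⟨i, j⟩ : V d) ∈ A).card := by
  rw [cont_apply]
  refine (Finset.card_bij (fun j _ => (⟨i, j⟩ : V d)) ?_ ?_ ?_).symm
  · intro j hj
    simpa using hj
  · intro j _ j' _ h
    simpa using h
  · rintro ⟨i', j⟩ hj
    simp only [mem_filter] at hj
    obtain ⟨h1, rfl⟩ := hj
    exact ⟨j, by simpa using h1, rfl⟩

lemma cont_le {d : I →₀ ℕ} (A : Finset (V d)) : cont A ≤ d := by
  intro i
  rw [card_fiber]
  exact (Finset.card_le_univ _).trans (by simp)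

lemma cont_std {d e : I →₀ ℕ} (h : e ≤ d) : cont (std d e) = e := by
  ext i
  rw [card_fiber]
  have : (univ.filter fun j : Fin (d i) => (⟨i, j⟩ : V d) ∈ std d e) =
      univ.filter fun j : Fin (d i) => (j : ℕ) < e i := by
    ext j
    simp [mem_std]
  rw [this]
  have h2 := Fin.card_filter_val_lt (n := d i) (m := e i)
  rw [h2]
  exact min_eq_right (h i)

/-- two subsets of the same content are conjugate -/
theorem exists_perm {d : I →₀ ℕ} (A B : Finset (V d)) (h : cont A = cont B) :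
    ∃ σ : Equiv.Perm (V d), (∀ x, (σ x).1 = x.1) ∧ A.map σ.toEmbedding = B := by
  have h1 : ∀ i, ∃ τ : Equiv.Perm (Fin (d i)), ∀ j, (⟨i, τ j⟩ : V d) ∈ B ↔ (⟨i, j⟩ : V d) ∈ A := by
    intro i
    have h2 : (univ.filter fun j : Fin (d i) => (⟨i, j⟩ : V d) ∈ A).card =
        (univ.filter fun j : Fin (d i) => (⟨i, j⟩ : V d) ∈ B).card := by
      rw [← card_fiber, ← card_fiber, h]
    have e : {j : Fin (d i) // (⟨i, j⟩ : V d) ∈ A} ≃ {j : Fin (d i) // (⟨i, j⟩ : V d) ∈ B} := by
      apply Fintype.equivOfCardEq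
      rw [Fintype.card_subtype, Fintype.card_subtype]
      exact h2
    refine ⟨e.extendSubtype, fun j => ?_⟩
    constructor
    · intro hj
      by_contra hj'
      exact e.extendSubtype_not_mem j hj' hj
    · intro hj
      exact e.extendSubtype_mem j hj
  choose τ hτ using h1
  refine ⟨Equiv.Perm.sigmaCongrRight τ, fun _ => rfl, ?_⟩
  ext ⟨i, j⟩
  rw [Finset.mem_map_equiv]
  have := hτ i ((τ i).symm j)
  rw [Equiv.apply_symm_apply] at this
  rw [this]
  rfl

lemma cont_map {d : I →₀ ℕ} (A : Finset (V d)) (σ : Equiv.Perm (V d))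
    (hσ : ∀ x, (σ x).1 = x.1) : cont (A.map σ.toEmbedding) = cont A := by
  ext i
  rw [cont_apply, cont_apply, Finset.filter_map, Finset.card_map]
  congr 1
  ext v
  simp [hσ]

lemma sum_cont {M : Type*} [CommSemiring M] {d : I →₀ ℕ} (A : Finset (V d)) (f : I → M) :
    ∑ v ∈ A, f v.1 = ∑ i, (cont A i : M) * f i := by
  rw [← Finset.sum_fiberwise A (fun v => v.1) (fun v => f v.1)]
  refine Finset.sum_congr rfl fun i _ => ?_
  rw [cont_apply, ← nsmul_eq_mul, ← Finset.sum_const]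
  refine Finset.sum_congr rfl fun v hv => ?_
  rw [(mem_filter.1 hv).2]

lemma cont_univ (d : I →₀ ℕ) : cont (univ : Finset (V d)) = d := by
  ext i
  rw [card_fiber]
  simp

lemma cont_compl {d : I →₀ ℕ} (A : Finset (V d)) : cont (univ \ A) = d - cont A := by
  ext i
  rw [Finsupp.tsub_apply, card_fiber, card_fiber]
  have h := Finset.card_filter_add_card_filter_not (s := (univ : Finset (Fin (d i))))
    (fun j => (⟨i, j⟩ : V d) ∈ A)
  rw [Finset.card_univ, Fintype.card_fin] at h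
  have h2 : (univ.filter fun j : Fin (d i) => (⟨i, j⟩ : V d) ∈ univ \ A) =
      univ.filter fun j : Fin (d i) => ¬ (⟨i, j⟩ : V d) ∈ A := by
    ext j
    simp
  rw [h2]
  omega

lemma arr_eq (d : I →₀ ℕ) (A : Finset (V d)) :
    arr (ar k d) A (univ \ A) = kkN k (cont A) (d - cont A) := by
  have h1 : ∀ i : I, ∑ j ∈ univ \ A, k i j.1 = ∑ j, (cont (univ \ A) j : ℕ) * k i j :=
    fun i => sum_cont (univ \ A) (fun j => k i j)
  have h2 := sum_cont A (fun i => ∑ j, (cont (univ \ A) j : ℕ) * k i j)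
  have h3 : arr (ar k d) A (univ \ A) = ∑ v ∈ A, ∑ j, (cont (univ \ A) j : ℕ) * k v.1 j :=
    Finset.sum_congr rfl fun v _ => h1 v.1
  rw [h3, h2, kkN_apply, cont_compl]
  refine Finset.sum_congr rfl fun i _ => ?_
  rw [Finset.mul_sum]
  refine Finset.sum_congr rfl fun j _ => ?_
  simp only [Nat.cast_id]
  ring

lemma wt_eq (d : I →₀ ℕ) (A : Finset (V d)) : ∑ v ∈ A, wt θ d v = ABOut.th θ (cont A) := by
  have h := sum_cont A θ
  unfold wt
  rw [h, ABOut.th_apply]
  exact Finset.sum_congr rfl fun i _ => mul_comm _ _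

/-- dimension of the alternating polynomials -/
noncomputable def hN (d : I →₀ ℕ) (n : ℕ) : ℕ :=
  finrank ℚ (homogeneousSubmodule (V d) ℚ n ⊓ Alt (co d) : Submodule ℚ (MvPolynomial (V d) ℚ))

/-- dimension of `H / I^>` -/
noncomputable def pN (d : I →₀ ℕ) (n : ℕ) : ℕ := altDim (co d) (Lid ℚ (ar k d) (wt θ d) univ) n

/-- dimension of `H / I^≤` -/
noncomputable def qN (d : I →₀ ℕ) (n : ℕ) : ℕ := altDim (co d) (Jid ℚ (ar k d) (wt θ d) univ) n

/-- **numeric Theorem A** -/
theorem thA (d : I →₀ ℕ) (n : ℕ) :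
    hN d n = ∑ p ∈ antidiagonal d, if kkN k p.1 p.2 ≤ n then
      ∑ i ∈ range (n - kkN k p.1 p.2 + 1),
        pN k θ p.1 (n - kkN k p.1 p.2 - i) * qN k θ p.2 i else 0 := by
  classical
  have ha : ∀ σ ∈ NumA158.col (co d), ∀ x y, ar k d (σ x) (σ y) = ar k d x y := by
    intro σ hσ x y
    unfold ar
    rw [show (σ x).1 = x.1 from hσ x, show (σ y).1 = y.1 from hσ y]
  have hθ : ∀ σ ∈ NumA158.col (co d), ∀ x, wt θ d (σ x) = wt θ d x := by
    intro σ hσ x
    unfold wt
    rw [show (σ x).1 = x.1 from hσ x]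
  have h := finrank_orbits (a := ar k d) (wt θ d) (c := co d) ha hθ n
    ((antidiagonal d).image fun p => std d p.1)
    (by
      intro A
      refine ⟨std d (cont A), ?_, ?_⟩
      · rw [mem_image]
        exact ⟨(cont A, d - cont A), HasAntidiagonal.mem_antidiagonal.2 (add_tsub_cancel_of_le (cont_le A)), rfl⟩
      · exact exists_perm _ _ (cont_std (cont_le A)))
    (by
      intro r hr r' hr' σ hσ h
      rw [mem_image] at hr hr'
      obtain ⟨p, hp, rfl⟩ := hr
      obtain ⟨p', hp', rfl⟩ := hr'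
      have hp1 : p.1 ≤ d := (HasAntidiagonal.mem_antidiagonal.1 hp) ▸ le_self_add
      have hp1' : p'.1 ≤ d := (HasAntidiagonal.mem_antidiagonal.1 hp') ▸ le_self_add
      have h2 := cont_map (std d p.1) σ hσ
      rw [h, cont_std hp1, cont_std hp1'] at h2
      rw [h2])
  unfold hN
  rw [h, Finset.sum_image]
  · refine Finset.sum_congr rfl fun p hp => ?_
    obtain ⟨a, b⟩ := p
    rw [HasAntidiagonal.mem_antidiagonal] at hp
    simp only at hp ⊢
    subst hp
    rw [arr_eq, cont_std le_self_add, add_tsub_cancel_left]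
    refine if_congr Iff.rfl ?_ rfl
    exact altDim_block (blk a b) (co (a + b)) (co a) (co b)
      (by rintro (x | x) (y | y) <;> exact Iff.rfl)
      (ar k (a + b)) (ar k a) (ar k b) (fun _ _ => rfl) (fun _ _ => rfl)
      (wt θ (a + b)) (wt θ a) (wt θ b) (fun _ => rfl) (fun _ => rfl)
      (std (a + b) a) (blk_mem a b) _
  · intro p hp p' hp' h2
    rw [mem_coe, HasAntidiagonal.mem_antidiagonal] at hp hp'
    have hp1 : p.1 ≤ d := hp ▸ le_self_add
    have hp1' : p'.1 ≤ d := hp' ▸ le_self_add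
    have h3 : p.1 = p'.1 := by
      have := congrArg cont h2
      simp only at this
      rwa [cont_std hp1, cont_std hp1'] at this
    have h4 : p.2 = p'.2 := by
      rw [← hp, h3] at hp'
      exact (add_left_cancel hp').symm
    exact Prod.ext h3 h4

/-! ### HILB -/

theorem iso_eq (d : I →₀ ℕ) (n : ℕ) :
    Hilb568.iso (Hilb568.sgK ℚ (⇑d)) n = homogeneousSubmodule (V d) ℚ n ⊓ Alt (co d) := by
  ext f
  rw [Hilb568.mem_iso]
  constructor
  · rintro ⟨h1, h2⟩
    refine ⟨h1, ?_⟩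
    intro σ hσ
    have h3 : ∃ w : Hilb568.Grp (⇑d), Equiv.Perm.sigmaCongrRight w = σ := by
      have hin : ∀ i, Function.Injective fun j : Fin (d i) =>
          (Fin.cast (congrArg d (hσ ⟨i, j⟩)) (σ ⟨i, j⟩).2 : Fin (d i)) := by
        intro i j j' h
        have h4 : σ ⟨i, j⟩ = σ ⟨i, j'⟩ := by
          have e1 : ∀ x : V d, (h : x.1 = i) → x = ⟨i, Fin.cast (congrArg d h) x.2⟩ := by
            rintro ⟨i', x⟩ h
            change i' = i at h
            subst h
            rfl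
          rw [e1 _ (hσ ⟨i, j⟩), e1 _ (hσ ⟨i, j'⟩)]
          exact congrArg (fun x => (⟨i, x⟩ : V d)) h
        have h5 := σ.injective h4
        simpa using h5
      refine ⟨fun i => Equiv.ofBijective _ (Finite.injective_iff_bijective.1 (hin i)), ?_⟩
      ext1 x
      obtain ⟨i, j⟩ := x
      have e1 : ∀ x : V d, (h : x.1 = i) → x = ⟨i, Fin.cast (congrArg d h) x.2⟩ := by
        rintro ⟨i', x⟩ h
        change i' = i at h
        subst h
        rfl
      exact (e1 _ (hσ ⟨i, j⟩)).symm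
    obtain ⟨w, rfl⟩ := h3
    rw [h2 w, Hilb568.sgK_coe, NumA158.sgn, Hilb568.sign_sigmaCongrRight]
  · rintro ⟨h1, h2⟩
    refine ⟨h1, fun w => ?_⟩
    rw [mem_Alt.1 h2 (Equiv.Perm.sigmaCongrRight w) (fun _ => rfl), Hilb568.sgK_coe, NumA158.sgn,
      Hilb568.sign_sigmaCongrRight]

/-- Hilbert series of the alternating polynomials -/
noncomputable def Hs (d : I →₀ ℕ) : PowerSeries ℤ := PowerSeries.mk fun n => (hN d n : ℤ)

/-- Hilbert series of `H / I^>` -/
noncomputable def Ps (d : I →₀ ℕ) : PowerSeries ℤ := PowerSeries.mk fun n => (pN k θ d n : ℤ)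

/-- Hilbert series of `H / I^≤` -/
noncomputable def Qs (d : I →₀ ℕ) : PowerSeries ℤ := PowerSeries.mk fun n => (qN k θ d n : ℤ)

/-- **HILB** -/
theorem hilb : HILB (Hs (I := I)) := by
  intro d
  have h := Hilb568.hilb_alt ℤ (K := ℚ) two_ne_zero (⇑d)
  have h2 : (fun n => ((finrank ℚ (Hilb568.iso (Hilb568.sgK ℚ (⇑d)) n) : ℕ) : ℤ)) =
      fun n => (hN d n : ℤ) := by
    funext n
    exact congrArg (fun S : Submodule ℚ (MvPolynomial (V d) ℚ) => ((finrank ℚ S : ℕ) : ℤ))
      (iso_eq d n)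
  rw [h2] at h
  exact h

lemma Hs_zero : Hs (0 : I →₀ ℕ) = 1 := by
  have h := hilb (0 : I →₀ ℕ)
  simpa [qf] using h

lemma hN_zero (n : ℕ) : hN (0 : I →₀ ℕ) n = if n = 0 then 1 else 0 := by
  have h := congrArg (PowerSeries.coeff n) (Hs_zero (I := I))
  rw [Hs, PowerSeries.coeff_mk, PowerSeries.coeff_one] at h
  split_ifs at h ⊢ <;> exact_mod_cast h

lemma altDim_bot {P C : Type*} [Fintype P] [DecidableEq P] (c : P → C) (n : ℕ) :
    altDim c (⊥ : Ideal (MvPolynomial P ℚ)) n =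
      finrank ℚ (homogeneousSubmodule P ℚ n ⊓ Alt c : Submodule ℚ (MvPolynomial P ℚ)) := by
  have h : homogeneousSubmodule P ℚ n ⊓ Alt c ⊓
      (⊥ : Ideal (MvPolynomial P ℚ)).restrictScalars ℚ = ⊥ := by
    rw [Submodule.restrictScalars_bot, inf_bot_eq]
  unfold altDim
  rw [h, finrank_bot, Nat.sub_zero]

lemma altDim_top {P C : Type*} [Fintype P] [DecidableEq P] (c : P → C) (n : ℕ)
    {J : Ideal (MvPolynomial P ℚ)} (hJ : 1 ∈ J) : altDim c J n = 0 := by
  rw [(Ideal.eq_top_iff_one J).2 hJ]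
  unfold altDim
  rw [Submodule.restrictScalars_top, inf_top_eq, Nat.sub_self]

lemma pN_zero (n : ℕ) : pN k θ 0 n = if n = 0 then 1 else 0 := by
  have h : Lid ℚ (ar k 0) (wt θ 0) univ = ⊥ := by
    rw [Lid, Ideal.span_eq_bot]
    rintro _ ⟨B, _, hB, _⟩
    exfalso
    apply hB
    rw [Finset.eq_empty_iff_forall_notMem]
    rintro ⟨i, j⟩
    exact j.elim0
  rw [pN, h, altDim_bot]
  exact hN_zero n

lemma qN_zero (n : ℕ) : qN k θ 0 n = if n = 0 then 1 else 0 := by
  have h : Jid ℚ (ar k 0) (wt θ 0) univ = ⊥ := by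
    rw [Jid, Ideal.span_eq_bot]
    rintro _ ⟨B, _, hB, _⟩
    exfalso
    apply hB
    rw [Finset.eq_empty_iff_forall_notMem]
    rintro ⟨i, j⟩
    exact j.elim0
  rw [qN, h, altDim_bot]
  exact hN_zero n

lemma univ_ne_empty {d : I →₀ ℕ} (h : d ≠ 0) : (univ : Finset (V d)) ≠ ∅ := by
  intro h2
  apply h
  rw [← cont_univ d, h2]
  ext i
  rw [cont_apply]
  rfl

lemma pN_eq_zero {a : I →₀ ℕ} (ha : a ≠ 0) (hθ : ABOut.th θ a ≤ 0) (n : ℕ) : pN k θ a n = 0 := by
  apply altDim_top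
  apply Ideal.subset_span
  refine ⟨univ, subset_rfl, univ_ne_empty ha, ?_, ?_⟩
  · rw [wt_eq, cont_univ]
    exact hθ
  · rw [Finset.sdiff_self, E_empty_left]

lemma qN_eq_zero {b : I →₀ ℕ} (hθ : 0 < ABOut.th θ b) (n : ℕ) : qN k θ b n = 0 := by
  have hb : b ≠ 0 := by
    rintro rfl
    rw [map_zero] at hθ
    exact lt_irrefl _ hθ
  apply altDim_top
  apply Ideal.subset_span
  refine ⟨univ, subset_rfl, univ_ne_empty hb, ?_, ?_⟩
  · rw [wt_eq, cont_univ]
    exact hθ
  · rw [Finset.sdiff_self, E_empty_right]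

/-- **THA** -/
theorem tha : THA k θ Hs (Ps k θ) (Qs k θ) where
  eq d := by
    ext n
    rw [Hs, PowerSeries.coeff_mk, thA k θ d n, map_sum]
    push_cast
    refine Finset.sum_congr rfl fun p _ => ?_
    rw [PowerSeries.coeff_X_pow_mul']
    refine if_congr Iff.rfl ?_ rfl
    rw [PowerSeries.coeff_mul, ← Finset.Nat.sum_antidiagonal_swap,
      Finset.Nat.sum_antidiagonal_eq_sum_range_succ_mk]
    refine Finset.sum_congr rfl fun i _ => ?_
    simp [Ps, Qs]
  P0 := by
    ext n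
    rw [Ps, PowerSeries.coeff_mk, pN_zero, PowerSeries.coeff_one]
    split_ifs <;> rfl
  Q0 := by
    ext n
    rw [Qs, PowerSeries.coeff_mk, qN_zero, PowerSeries.coeff_one]
    split_ifs <;> rfl
  hP a ha := by
    by_contra h
    rw [not_or, not_lt] at h
    apply ha
    ext n
    rw [Ps, PowerSeries.coeff_mk, pN_eq_zero k θ h.1 h.2 n]
    rfl
  hQ b hb := by
    by_contra h
    rw [not_le] at h
    apply hb
    ext n
    rw [Qs, PowerSeries.coeff_mk, qN_eq_zero k θ h n]
    rfl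

/-- **what is left**: Theorem B in numeric form gives the frozen output of Theorems A + B -/
theorem abOut_of_thB (h : ∀ (I : Type) [Fintype I] [DecidableEq I] (k : I → I → ℕ) (θ : I → ℤ),
    (∀ d e, ABOut.th θ d = 0 → ABOut.th θ e = 0 → ABOut.kk k d e = ABOut.kk k e d) →
    THB k θ (Qs k θ)) : ABOut :=
  abOut_of fun _ _ _ k θ hk => ⟨Hs, Ps k θ, Qs k θ, hilb, tha k θ, h _ k θ hk⟩

end Crest.Agent.R059.ThinFin
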