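import Crest.Agent.R059.ThinDim2_313
import Crest.Agent.R059.NumA2_158

/-!
# Row 59, Theorem A thin model: transport, two blocks, in the language of `NumA2_158`
-/

set_option autoImplicit false
set_option linter.unusedSectionVars false

namespace Crest.Agent.R059.ThinA

open MvPolynomial Finset Module NumA158

section transport

variable {P P' : Type*} [Fintype P] [DecidableEq P] [Fintype P'] [DecidableEq P']
variable {C C' : Type*}

/-- images of the left ideal under an embedding -/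
theorem Lid_map {Γ : Type*} [AddCommGroup Γ] [LinearOrder Γ]
    (a : P → P → ℕ) (a' : P' → P' → ℕ) (θ : P → Γ) (θ' : P' → Γ) (e : P ↪ P')
    (ha : ∀ x y, a' (e x) (e y) = a x y) (hθ : ∀ x, θ' (e x) = θ x) (A : Finset P) :
    (Lid ℚ a θ A).map (rename e : _ →ₐ[ℚ] MvPolynomial P' ℚ) = Lid ℚ a' θ' (A.map e) := by
  unfold Lid
  rw [Ideal.map_span]
  congr 1
  ext f
  constructor
  · rintro ⟨_, ⟨B, hB, hB0, hθB, rfl⟩, rfl⟩
    refine ⟨B.map e, Finset.map_subset_map.2 hB, by simpa using hB0, ?_, ?_⟩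
    · rw [Finset.sum_map, Finset.sum_congr rfl fun x _ => hθ x]
      exact hθB
    · rw [NumA158.rename_E a a' e ha, Finset.map_sdiff]
  · rintro ⟨B, hB, hB0, hθB, rfl⟩
    obtain ⟨B', hB', rfl⟩ := Finset.subset_map_iff.1 hB
    refine ⟨_, ⟨B', hB', by rintro rfl; simp at hB0, ?_, rfl⟩, ?_⟩
    · rw [Finset.sum_map, Finset.sum_congr rfl fun x _ => hθ x] at hθB
      exact hθB
    · rw [NumA158.rename_E a a' e ha, Finset.map_sdiff]

/-- images of the destabilizing ideal under an embedding -/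
theorem Jid_map {Γ : Type*} [AddCommGroup Γ] [LinearOrder Γ]
    (a : P → P → ℕ) (a' : P' → P' → ℕ) (θ : P → Γ) (θ' : P' → Γ) (e : P ↪ P')
    (ha : ∀ x y, a' (e x) (e y) = a x y) (hθ : ∀ x, θ' (e x) = θ x) (A : Finset P) :
    (Jid ℚ a θ A).map (rename e : _ →ₐ[ℚ] MvPolynomial P' ℚ) = Jid ℚ a' θ' (A.map e) := by
  unfold Jid
  rw [Ideal.map_span]
  congr 1
  ext f
  constructor
  · rintro ⟨_, ⟨B, hB, hB0, hθB, rfl⟩, rfl⟩
    refine ⟨B.map e, Finset.map_subset_map.2 hB, by simpa using hB0, ?_, ?_⟩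
    · rw [Finset.sum_map, Finset.sum_congr rfl fun x _ => hθ x]
      exact hθB
    · rw [NumA158.rename_E a a' e ha, Finset.map_sdiff]
  · rintro ⟨B, hB, hB0, hθB, rfl⟩
    obtain ⟨B', hB', rfl⟩ := Finset.subset_map_iff.1 hB
    refine ⟨_, ⟨B', hB', by rintro rfl; simp at hB0, ?_, rfl⟩, ?_⟩
    · rw [Finset.sum_map, Finset.sum_congr rfl fun x _ => hθ x] at hθB
      exact hθB
    · rw [NumA158.rename_E a a' e ha, Finset.map_sdiff]

/-- alternating polynomials under an equivalence which respects the colour classes -/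
theorem rename_mem_Alt (e : P ≃ P') (c : P → C) (c' : P' → C')
    (hc : ∀ x y, c x = c y ↔ c' (e x) = c' (e y)) {f : MvPolynomial P ℚ}
    (hf : f ∈ Alt c) : rename e f ∈ Alt c' := by
  rw [mem_Alt] at hf ⊢
  intro σ hσ
  have h1 := hf ((e.trans σ).trans e.symm) (fun x => by
    rw [hc]
    simp [hσ])
  have h2 : (σ : P' → P') ∘ e = e ∘ ((e.trans σ).trans e.symm) := by
    ext x
    simp
  rw [rename_rename, h2, ← rename_rename, h1, map_smul]
  congr 1
  unfold sgn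
  congr 2
  have : (e.trans σ).trans e.symm = (e.symm.permCongr σ) := by
    ext x
    simp [Equiv.permCongr_apply]
  rw [this, Equiv.Perm.sign_permCongr]

theorem rename_comp_rename {α β γ : Type*} (f : α → β) (g : β → γ) :
    (rename g : MvPolynomial β ℚ →ₐ[ℚ] MvPolynomial γ ℚ).comp (rename f) = rename (g ∘ f) :=
  AlgHom.ext fun p => rename_rename f g p

/-- transport of the alternating dimension -/
theorem altDim_equiv (e : P ≃ P') (c : P → C) (c' : P' → C')
    (hc : ∀ x y, c x = c y ↔ c' (e x) = c' (e y)) (J : Ideal (MvPolynomial P ℚ))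
    (J' : Ideal (MvPolynomial P' ℚ))
    (hJ : J.map (rename e : _ →ₐ[ℚ] MvPolynomial P' ℚ) = J') (n : ℕ) :
    altDim c J n = altDim c' J' n := by
  subst hJ
  have hc' : ∀ x y, c' x = c' y ↔ c (e.symm x) = c (e.symm y) := by
    intro x y
    rw [hc]
    simp
  have hinj : Function.Injective (rename e : MvPolynomial P ℚ →ₐ[ℚ] MvPolynomial P' ℚ).toLinearMap :=
    rename_injective _ e.injective
  have hback : ∀ f : MvPolynomial P' ℚ, rename e (rename e.symm f) = f := by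
    intro f
    rw [rename_rename]
    simp
  have h1 : (homogeneousSubmodule P ℚ n ⊓ Alt c).map (rename e : _ →ₐ[ℚ] _).toLinearMap =
      homogeneousSubmodule P' ℚ n ⊓ Alt c' := by
    ext f
    constructor
    · rintro ⟨g, ⟨hg1, hg2⟩, rfl⟩
      exact ⟨IsHomogeneous.rename_isHomogeneous hg1, rename_mem_Alt e c c' hc hg2⟩
    · rintro ⟨hf1, hf2⟩
      exact ⟨rename e.symm f, ⟨IsHomogeneous.rename_isHomogeneous hf1,
        rename_mem_Alt e.symm c' c hc' hf2⟩, hback f⟩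
  have h2 : (homogeneousSubmodule P ℚ n ⊓ Alt c ⊓ J.restrictScalars ℚ).map
      (rename e : _ →ₐ[ℚ] _).toLinearMap =
      homogeneousSubmodule P' ℚ n ⊓ Alt c' ⊓
        (J.map (rename e : _ →ₐ[ℚ] MvPolynomial P' ℚ)).restrictScalars ℚ := by
    ext f
    constructor
    · rintro ⟨g, ⟨⟨hg1, hg2⟩, hg3⟩, rfl⟩
      exact ⟨⟨IsHomogeneous.rename_isHomogeneous hg1, rename_mem_Alt e c c' hc hg2⟩,
        Ideal.mem_map_of_mem _ hg3⟩
    · rintro ⟨⟨hf1, hf2⟩, hf3⟩
      refine ⟨rename e.symm f, ⟨⟨IsHomogeneous.rename_isHomogeneous hf1,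
        rename_mem_Alt e.symm c' c hc' hf2⟩, ?_⟩, hback f⟩
      have h3 : f ∈ Ideal.map (renameEquiv ℚ e).toRingEquiv J := hf3
      have h4 := (Ideal.mem_map_of_equiv (renameEquiv ℚ e).toRingEquiv f).1 h3
      obtain ⟨g, hg, rfl⟩ := h4
      have : rename e.symm ((renameEquiv ℚ e).toRingEquiv g) = g := by
        change rename e.symm (rename e g) = g
        rw [rename_rename]
        simp
      rw [this]
      exact hg
  unfold altDim
  rw [← h2, ← h1, ← (Submodule.equivMapOfInjective _ hinj _).finrank_eq,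
    ← (Submodule.equivMapOfInjective _ hinj _).finrank_eq]

end transport

section block

variable {α β P I C : Type*} [Fintype α] [DecidableEq α] [Fintype β] [DecidableEq β]
  [Fintype P] [DecidableEq P] [DecidableEq I]

lemma alt_eq_Alt {ι : Type*} [Fintype ι] [DecidableEq ι] (c : ι → I) : alt c = Alt c := rfl

/-- `altDim` as the dimension of a graded piece -/
theorem altDim_eq_gp {ι : Type*} [Fintype ι] [DecidableEq ι] (c : ι → I)
    (J : Ideal (MvPolynomial ι ℚ)) (n : ℕ) : altDim c J n = finrank ℚ (gp c J n) := by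
  have h := finrank_map_add (alt c ⊓ homogeneousSubmodule ι ℚ n) (qm J)
  have h2 : homogeneousSubmodule ι ℚ n ⊓ Alt c ⊓ J.restrictScalars ℚ =
      alt c ⊓ homogeneousSubmodule ι ℚ n ⊓ LinearMap.ker (qm J) := by
    ext f
    simp only [Submodule.mem_inf, mem_ker_qm, Submodule.restrictScalars_mem]
    rw [alt_eq_Alt]
    tauto
  have h3 : homogeneousSubmodule ι ℚ n ⊓ Alt c = alt c ⊓ homogeneousSubmodule ι ℚ n := by
    rw [inf_comm, alt_eq_Alt]
  unfold altDim gp
  rw [h2, h3]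
  omega

/-- **two blocks**: the alternating dimension at a subset `A` of `P`, where `P = α ⊕ β` and
`A = α`. -/
theorem altDim_block {Γ : Type*} [AddCommGroup Γ] [LinearOrder Γ] [IsOrderedAddMonoid Γ]
    (φ : α ⊕ β ≃ P) (c : P → C) (cα : α → I) (cβ : β → I)
    (hc1 : ∀ x y, c (φ x) = c (φ y) ↔ Sum.elim cα cβ x = Sum.elim cα cβ y)
    (a : P → P → ℕ) (aα : α → α → ℕ) (aβ : β → β → ℕ)
    (haα : ∀ x y, a (φ (Sum.inl x)) (φ (Sum.inl y)) = aα x y)
    (haβ : ∀ x y, a (φ (Sum.inr x)) (φ (Sum.inr y)) = aβ x y)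
    (θ : P → Γ) (θα : α → Γ) (θβ : β → Γ)
    (hθα : ∀ x, θ (φ (Sum.inl x)) = θα x) (hθβ : ∀ x, θ (φ (Sum.inr x)) = θβ x)
    (A : Finset P) (hA : ∀ x, φ x ∈ A ↔ x.isLeft) (m : ℕ) :
    altDim (cA c A) (Lid ℚ a θ A ⊔ Jid ℚ a θ (univ \ A)) m =
      ∑ i ∈ range (m + 1), altDim cα (Lid ℚ aα θα univ) (m - i) *
        altDim cβ (Jid ℚ aβ θβ univ) i := by
  have hlb : ∀ x : α ⊕ β, x ∈ (lb : Finset (α ⊕ β)) ↔ x.isLeft := by
    rintro (x | x) <;> simp
  -- colours
  have hc2 : ∀ x y : α ⊕ β, rc (Sum.elim cα cβ) lb x = rc (Sum.elim cα cβ) lb y ↔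
      cA c A (φ x) = cA c A (φ y) := by
    intro x y
    unfold rc cA
    rw [Prod.mk.injEq, Prod.mk.injEq, hc1, eq_iff_iff, decide_eq_decide, hA, hA, hlb, hlb]
  -- the ideals
  have e1 : Lid ℚ a θ A = (Lid ℚ aα θα univ).map
      (rename ((Function.Embedding.inl : α ↪ α ⊕ β).trans φ.toEmbedding) :
        _ →ₐ[ℚ] MvPolynomial P ℚ) := by
    rw [Lid_map aα a θα θ _ haα hθα]
    congr 1
    ext x
    obtain ⟨y, rfl⟩ := φ.surjective x
    rw [hA]
    rcases y with y | y <;> simp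
  have e2 : Jid ℚ a θ (univ \ A) = (Jid ℚ aβ θβ univ).map
      (rename ((Function.Embedding.inr : β ↪ α ⊕ β).trans φ.toEmbedding) :
        _ →ₐ[ℚ] MvPolynomial P ℚ) := by
    rw [Jid_map aβ a θβ θ _ haβ hθβ]
    congr 1
    ext x
    obtain ⟨y, rfl⟩ := φ.surjective x
    rw [mem_sdiff, hA]
    rcases y with y | y <;> simp
  have e3 : ((Lid ℚ aα θα univ).map (rename Sum.inl : _ →ₐ[ℚ] MvPolynomial (α ⊕ β) ℚ) ⊔
      (Jid ℚ aβ θβ univ).map (rename Sum.inr : _ →ₐ[ℚ] MvPolynomial (α ⊕ β) ℚ)).map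
      (rename φ : _ →ₐ[ℚ] MvPolynomial P ℚ) = Lid ℚ a θ A ⊔ Jid ℚ a θ (univ \ A) := by
    rw [e1, e2, Ideal.map_sup, Ideal.map_mapₐ, Ideal.map_mapₐ, rename_comp_rename,
      rename_comp_rename]
    rfl
  rw [← altDim_equiv φ (rc (Sum.elim cα cβ) lb) (cA c A) hc2 _ _ e3, altDim_eq_gp]
  have h := finrank_two cα cβ (Lid ℚ aα θα univ) (Jid ℚ aβ θβ univ)
    (fun f hf n => Lid_hc _ _ _ hf n) (fun f hf n => Jid_hc _ _ _ hf n) m
  unfold gp at h ⊢
  rw [h]
  refine Finset.sum_congr rfl fun i _ => ?_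
  rw [altDim_eq_gp, altDim_eq_gp]
  rfl

end block

end Crest.Agent.R059.ThinA
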