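/-
Row 59, TEAM THIN, leaves T2/T6 (helper971): VALUES.  Additive conditions on the coefficients pass
from `dpr * t` to `t`; hence the coefficients of the reduced top part `t` have small growth at every
refinement, and lie in every submodule containing the coefficients of the top part.
-/
import Crest.Agent.R059.ThinDiv_971

set_option autoImplicit false
set_option linter.unusedSectionVars false

namespace Crest.Agent.R059.ThinVal971

open MvPolynomial Finset Crest.Agent.R059.Thin613 Crest.Agent.R059.Shift359
  Crest.Agent.R059.DivT547 Crest.Agent.R059.ThinDiv971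

variable {P : Type*} [Fintype P] [DecidableEq P]
variable {F : Type*} [CommRing F]
variable {V : Type*} [AddCommGroup V] [LinearOrder V] [IsOrderedAddMonoid V]
variable {L : Type*} {L' : Type*}

/-! ### coefficientwise additive maps -/

section Cw

variable {σ A B : Type*} [CommRing A] [CommRing B]

/-- the coefficientwise additive map -/
noncomputable def cw (φ : A →+ B) (p : MvPolynomial σ A) : MvPolynomial σ B :=
  ∑ α ∈ p.support, monomial α (φ (coeff α p))

@[simp] lemma coeff_cw (φ : A →+ B) (p : MvPolynomial σ A) (α : σ →₀ ℕ) :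
    coeff α (cw φ p) = φ (coeff α p) := by
  classical
  rw [cw, coeff_sum]
  simp only [coeff_monomial]
  rw [Finset.sum_ite_eq']
  split_ifs with h
  · rfl
  · rw [notMem_support_iff.1 h, map_zero]

lemma cw_sub (φ : A →+ B) (p q : MvPolynomial σ A) : cw φ (p - q) = cw φ p - cw φ q := by
  ext α
  simp

lemma cw_X_mul (φ : A →+ B) (i : σ) (p : MvPolynomial σ A) : cw φ (X i * p) = X i * cw φ p := by
  classical
  ext α
  rw [coeff_cw, coeff_X_mul', coeff_X_mul']
  split_ifs with h
  · rw [coeff_cw]
  · rw [map_zero]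

lemma cw_diff_pow_mul (φ : A →+ B) (i j : σ) (n : ℕ) (p : MvPolynomial σ A) :
    cw φ ((X j - X i) ^ n * p) = (X j - X i) ^ n * cw φ p := by
  induction n generalizing p with
  | zero => simp
  | succ n ih =>
    rw [pow_succ, mul_assoc, ih, sub_mul, cw_sub, cw_X_mul, cw_X_mul]
    ring

lemma cw_dprod_mul (φ : A →+ B) (Q : Finset (σ × σ)) (e : σ × σ → ℕ) (p : MvPolynomial σ A) :
    cw φ (dprod A Q e * p) = dprod B Q e * cw φ p := by
  classical
  induction Q using Finset.induction_on generalizing p with
  | empty => simp [dprod]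
  | insert a Q ha ih =>
    unfold dprod at ih ⊢
    rw [Finset.prod_insert ha, Finset.prod_insert ha, mul_assoc, cw_diff_pow_mul, ih, mul_assoc]

lemma cw_eq_zero_iff (φ : A →+ B) (p : MvPolynomial σ A) :
    cw φ p = 0 ↔ ∀ α, φ (coeff α p) = 0 := by
  constructor
  · intro h α
    rw [← coeff_cw, h, coeff_zero]
  · intro h
    ext α
    rw [coeff_cw, h, coeff_zero]

end Cw

section Transfer

variable [Fintype L] [LinearOrder L] {A B : Type*} [CommRing A] [CommRing B]

/-- **TRANSFER**: an additive condition on all coefficients passes from `dpr * t` to `t`. -/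
theorem transfer (arr : P → P → ℕ) (f : P → L) (φ : A →+ B) {t : MvPolynomial L A}
    (h : ∀ α, φ (coeff α (dpr A arr f * t)) = 0) (α : L →₀ ℕ) : φ (coeff α t) = 0 := by
  have h1 : cw φ (dpr A arr f * t) = 0 := (cw_eq_zero_iff φ _).2 h
  unfold dpr at h1
  rw [cw_dprod_mul] at h1
  have h2 := dprod_mul_eq_zero _ _ (fun _ he => prs_ne he) h1
  exact (cw_eq_zero_iff φ t).1 h2 α

/-- the same for membership in a subspace (field coefficients) -/
theorem transfer_mem {K : Type*} [Field K] [Algebra K A] (arr : P → P → ℕ) (f : P → L)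
    (W : Submodule K A) {t : MvPolynomial L A}
    (h : ∀ α, coeff α (dpr A arr f * t) ∈ W) (α : L →₀ ℕ) : coeff α t ∈ W := by
  by_contra hc
  obtain ⟨φ, h1, h2⟩ := Submodule.exists_le_ker_of_notMem hc
  apply h1
  refine transfer arr f (B := K) φ.toAddMonoidHom (t := t) (fun β => ?_) α
  exact h2 (h β)

end Transfer

/-! ### values -/

section Values

variable [Fintype L] [LinearOrder L]

lemma mk_surj (arr : P → P → ℕ) (th : P → V) (f : P → L)
    (c : MvPolynomial P F ⧸ JJ F arr th f) :
    ∃ w : MvPolynomial P F, Ideal.Quotient.mk (JJ F arr th f) w = c :=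
  Ideal.Quotient.mk_surjective c

/-- growth of the coefficients of the reduced top part at a refinement -/
theorem values (arr : P → P → ℕ) (th : P → V) (f : P → L') (g : L' → L) (hf : Good th f)
    {m m' : ℤ} {x w : MvPolynomial P F} (hx' : ud F arr th f m' x)
    {t : MvPolynomial L (MvPolynomial P F ⧸ JJ F arr th (g ∘ f))}
    (ht : Deg359.top m (sh F arr th (g ∘ f) x) = dpr _ arr (g ∘ f) * t) {α : L →₀ ℕ}
    (hw : Ideal.Quotient.mk (JJ F arr th (g ∘ f)) w = coeff α t) :
    ud F arr th f (m' - m) w := by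
  intro β hβ
  by_contra hlt
  rw [not_le] at hlt
  apply hβ
  -- the additive functional: coefficient `β` of the fine shift
  let φ : (MvPolynomial P F ⧸ JJ F arr th (g ∘ f)) →+ (MvPolynomial P F ⧸ JJ F arr th f) :=
    (coeffAddMonoidHom β).comp (ThinRef971.shL arr th f g hf).toAddMonoidHom
  have hφ : ∀ y : MvPolynomial P F, φ (Ideal.Quotient.mk _ y) = coeff β (sh F arr th f y) := by
    intro y
    simp [φ]
  have key := transfer arr (g ∘ f) φ (t := t) (fun γ => ?_) α
  · rw [← hw, hφ] at key
    exact key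
  rw [← ht, Deg359.coeff_top]
  split_ifs with hγ
  · obtain ⟨y, hy⟩ := mk_surj arr th (g ∘ f) (coeff γ (sh F arr th (g ∘ f) x))
    rw [← hy, hφ]
    have h1 := ThinRef971.refine_coeff arr th f g hf hx' hy
    exact h1.coeff_eq_zero (by rw [hγ]; exact hlt)
  · rw [map_zero]

/-- **HALF 1, direction `x ↦ t`**: the top part of `x` at `f`, its divisibility and its values.
`D = m - arrS arr f` is the degree of `t`. -/
theorem top_values (arr : P → P → ℕ) (th : P → V) (f : P → L) (hf : Good th f)
    {m : ℤ} {x : MvPolynomial P F} (hx : ud F arr th f m x)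
    (hmerge : ∀ i j : L, i < j → ud F arr th (mg i j ∘ f) (m - arrL arr f i j) x) :
    ∃ t : MvPolynomial L (MvPolynomial P F ⧸ JJ F arr th f),
      Deg359.Hom (m - arrS arr f) t ∧
        Deg359.top m (sh F arr th f x) = dpr _ arr f * t ∧
        (∀ (L₂ : Type) (f₂ : P → L₂) (g : L₂ → L) (_ : Good th f₂) (_ : g ∘ f₂ = f) (m₂ : ℤ)
          (_ : ud F arr th f₂ m₂ x) (w : MvPolynomial P F) (α : L →₀ ℕ)
          (_ : Ideal.Quotient.mk (JJ F arr th f) w = coeff α t), ud F arr th f₂ (m₂ - m) w) := by
  obtain ⟨t, h1, h2⟩ := top_factor arr th f hf hx hmerge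
  refine ⟨t, h1, h2, ?_⟩
  intro L₂ f₂ g hg hgf m₂ hm₂ w α hw
  subst hgf
  exact values arr th f₂ g hg hm₂ h2 hw

end Values

end Crest.Agent.R059.ThinVal971
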