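import Crest.Agent.R059.Trans_569
import Crest.Agent.R059.Dilog_344

set_option autoImplicit false
set_option linter.unusedSectionVars false

/-!
Row 59 (S0081), block TRANS (FL4): the bend (TR3), the plain wall, and the forms (N1)-(N4) consumed
by Step 4 (b).
-/

namespace Crest.Agent.R059.Trans569

open Finset TPS

section

variable {ι : Type} [DecidableEq ι] {R : Type*} [CommRing R] {T : Tw (ι →₀ ℕ) R}
variable {s : (ι →₀ ℕ) →+ (ι →₀ ℕ) →+ ℤ} {P : Subsemiring R}

theorem KerRay.pos_of_pos {V W : Type} [AddCommGroup V] [LinearOrder V] [IsOrderedAddMonoid V]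
    [AddCommGroup W] [LinearOrder W] [IsOrderedAddMonoid W]
    {p : (ι →₀ ℕ) →+ V} {c : ι →₀ ℕ} (h : KerRay p c) {η : (ι →₀ ℕ) →+ W} (hη : 0 < η c)
    {e : ι →₀ ℕ} (he : p e = 0) (h0 : e ≠ 0) : 0 < η e := by
  obtain ⟨k, j, hk, hj, hkj⟩ := h.sgn he h0
  have h1 : k • η e = j • η c := by rw [← map_nsmul, hkj, map_nsmul]
  have h2 : 0 < k • η e := h1 ▸ nsmul_pos hη hj.ne'
  by_contra h3
  rw [not_lt] at h3
  have := nsmul_nonneg (neg_nonneg.2 h3) k
  rw [smul_neg] at this
  exact absurd h2 (not_lt.2 (neg_nonneg.1 this))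

/-- all coefficients of a positive crossing at exponents with `0 < s m c`. -/
theorem CrossPos.mem_pos (hs : ∀ a b, s a b = - s b a) {a : TPS T}
    (hcr : CrossPos s P a) {V : Type} [AddCommGroup V] [LinearOrder V] [IsOrderedAddMonoid V]
    {p : (ι →₀ ℕ) →+ V} {g : ι →₀ ℕ} (hp : KerRay p g) {m : ι →₀ ℕ} (hm : 0 < s m g)
    (e : ι →₀ ℕ) : (zer p a * Y T e * inv (zer p a)).co m ∈ P := by
  by_cases h : (zer p a * Y T e * inv (zer p a)).co m = 0
  · rw [h]; exact P.zero_mem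
  · obtain ⟨r, hr, hmr⟩ := co_sandwich_zero (in1_zer p a)
      ((in1_zer p a).inv (closed_zero p)) h
    have he : 0 < s e g := by
      rw [hmr, map_add, AddMonoidHom.add_apply, hp.s_self hs hr, add_zero] at hm
      exact hm
    obtain ⟨U, hU, hUe⟩ := (hcr p g hp e).1 he
    have : zer p a * Y T e * inv (zer p a) = U := by
      rw [hUe, mul_assoc, mul_inv (zer_co_zero p a), mul_one]
    rw [this]
    exact hU m

/-- **(TR3)**: one bend, general form. -/
theorem bend (hs : ∀ a b, s a b = - s b a) {a : TPS T} (ha : a.co 0 = 1)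
    (hcr : CrossPos s P a) (F : TPS T) (C : AddSubmonoid R)
    (hPC : ∀ p ∈ P, ∀ c ∈ C, p * c ∈ C)
    {V W U : Type} [AddCommGroup V] [LinearOrder V] [IsOrderedAddMonoid V]
    [AddCommGroup W] [LinearOrder W] [IsOrderedAddMonoid W]
    [AddCommGroup U] [LinearOrder U] [IsOrderedAddMonoid U]
    (p : (ι →₀ ℕ) →+ V) (g : ι →₀ ℕ) (hp : KerRay p g) (η : (ι →₀ ℕ) →+ W)
    (hη : 0 < η g) (m' : ι →₀ ℕ) (hm' : 0 < s m' g) (xp xm : (ι →₀ ℕ) →+ U)
    (hxp : ∀ e ≤ m', (0 < xp e ↔ 0 < p e ∨ (p e = 0 ∧ 0 < η e)))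
    (hxm : ∀ e ≤ m', (0 < xm e ↔ 0 < p e ∨ (p e = 0 ∧ η e < 0)))
    (hC : ∀ e ≤ m', (conj xp a F).co e ∈ C) (m : ι →₀ ℕ) (hm : m ≤ m') :
    (conj xm a F).co m' - (zer p a * Y T m * inv (zer p a)).co m' * (conj xp a F).co m ∈ C := by
  have hy : ∀ e ≤ m', e ≠ 0 → (zer p a).co e ≠ 0 → 0 < η e := by
    intro e _ h0 he
    rcases (in1_zer p a).eq_zero_or he with h | h
    · exact absurd h h0
    · exact hp.pos_of_pos hη h h0
  have key : ∀ d ≤ m', (conj xp a F).co d = (cj (zer p a) (conj p a F)).co d ∧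
      (conj xm a F).co d = (conj p a F).co d := fun d hd =>
    conj_cross p η xp xm ha F d (fun e he => hxp e (he.trans hd)) (fun e he => hxm e (he.trans hd))
      (fun e he => hy e (he.trans hd))
  have h2 : conj p a F = zer p a * cj (zer p a) (conj p a F) * inv (zer p a) := by
    have h3 := cj_inv_cj (zer_co_zero p a) (conj p a F)
    conv_lhs => rw [← h3]
    rw [cj, TPS.inv_inv (zer_co_zero p a)]
  have h1 : (conj xm a F).co m' = ∑ e ∈ Finset.Iic m',
      (zer p a * Y T e * inv (zer p a)).co m' * (conj xp a F).co e := by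
    rw [(key m' le_rfl).2, h2, co_sandwich]
    refine Finset.sum_congr rfl (fun e he => ?_)
    rw [(key e (Finset.mem_Iic.1 he)).1, mul_comm]
  rw [h1, ← Finset.sum_erase_add _ _ (Finset.mem_Iic.2 hm), add_sub_cancel_right]
  refine C.sum_mem (fun e he => ?_)
  exact hPC _ (hcr.mem_pos hs hp hm' e) _ (hC e (Finset.mem_Iic.1 (Finset.mem_of_mem_erase he)))

/-- **(TR3)**, real form: `x₀ ± ε η`. -/
theorem bend_real (hs : ∀ a b, s a b = - s b a) {a : TPS T} (ha : a.co 0 = 1)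
    (hcr : CrossPos s P a) (F : TPS T) (C : AddSubmonoid R)
    (hPC : ∀ p ∈ P, ∀ c ∈ C, p * c ∈ C)
    (p : (ι →₀ ℕ) →+ ℝ) (g : ι →₀ ℕ) (hp : KerRay p g) (η : (ι →₀ ℕ) →+ ℝ)
    (hη : 0 < η g) (m' : ι →₀ ℕ) (hm' : 0 < s m' g) :
    ∃ d : ℝ, 0 < d ∧ ∀ ε, 0 < ε → ε < d →
      (∀ e ≤ m', (conj (pert p η ε) a F).co e ∈ C) → ∀ m ≤ m',
      (conj (pert p (-η) ε) a F).co m' -
        (zer p a * Y T m * inv (zer p a)).co m' * (conj (pert p η ε) a F).co m ∈ C := by
  obtain ⟨d1, hd1, h1⟩ := exists_pert p η (Finset.Iic m')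
  obtain ⟨d2, hd2, h2⟩ := exists_pert p (-η) (Finset.Iic m')
  refine ⟨min d1 d2, lt_min hd1 hd2, fun ε h0 hε hC m hm => ?_⟩
  refine bend hs ha hcr F C hPC p g hp η hη m' hm' _ _ (fun e he => ?_) (fun e he => ?_) hC m hm
  · exact (h1 ε h0 (hε.trans_le (min_le_left _ _)) e (Finset.mem_Iic.2 he)).1
  · have := (h2 ε h0 (hε.trans_le (min_le_right _ _)) e (Finset.mem_Iic.2 he)).1
    rw [this]
    simp

/-- the wall of a simple class: exponents below `k • single j 1` are multiples of it. -/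
theorem zer_eq_ev_of_simple {a : TPS T} (ha : a.co 0 = 1) (j : ι) (f : PowerSeries R)
    (hf : ∀ k : ℕ, a.co (k • Finsupp.single j 1) = (ev T (Finsupp.single j 1) f).co
      (k • Finsupp.single j 1))
    {V : Type} [AddCommGroup V] [LinearOrder V] [IsOrderedAddMonoid V]
    {p : (ι →₀ ℕ) →+ V} (hp : KerRay p (Finsupp.single j 1)) :
    zer p a = ev T (Finsupp.single j 1) f := by
  classical
  set c : ι →₀ ℕ := Finsupp.single j 1 with hc
  have hmul : ∀ (e : ι →₀ ℕ), (∃ k : ℕ, e ≤ k • c) → ∃ k : ℕ, e = k • c := by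
    rintro e ⟨k, he⟩
    refine ⟨e j, ?_⟩
    ext i
    have h1 := he i
    simp only [hc, Finsupp.smul_single, smul_eq_mul, mul_one, Finsupp.single_apply] at h1 ⊢
    by_cases hi : j = i
    · subst hi; simp
    · rw [if_neg hi] at h1 ⊢
      omega
  have hpk : ∀ k : ℕ, p (k • c) = 0 := fun k => by rw [map_nsmul, hp.2.1, smul_zero]
  -- the factorisation of `a` on the multiples of `c`
  have hz : ∀ k : ℕ, (zer p a).co (k • c) = a.co (k • c) := by
    intro k
    have h1 := pos_mul_zer_mul_neg p ha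
    have h2 : a.co (k • c) = ((1 : TPS T) * zer p a * 1).co (k • c) := by
      conv_lhs => rw [← h1]
      have hp1 : ∀ e ≤ k • c, (pos p a).co e = (1 : TPS T).co e := by
        intro e he
        obtain ⟨i, rfl⟩ := hmul e ⟨k, he⟩
        by_cases h0 : i • c = 0
        · rw [h0, pos_co_zero, co_one_zero]
        · rw [co_one_ne h0]
          exact (in1_pos p a).supp _ h0 (by rw [hpk]; exact lt_irrefl _)
      have hn1 : ∀ e ≤ k • c, (neg p a).co e = (1 : TPS T).co e := by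
        intro e he
        obtain ⟨i, rfl⟩ := hmul e ⟨k, he⟩
        by_cases h0 : i • c = 0
        · rw [h0, neg_co_zero, co_one_zero]
        · rw [co_one_ne h0]
          exact (in1_neg p a).supp _ h0 (by rw [hpk]; exact lt_irrefl _)
      refine co_mul_congr_le _ (fun e he => ?_) (fun e he => hn1 e he)
      exact co_mul_congr_le _ (fun b hb => hp1 b (hb.trans he)) (fun _ _ => rfl)
    rw [h2, one_mul, mul_one]
  ext d
  by_cases hd : ∃ k : ℕ, d = k • c
  · obtain ⟨k, rfl⟩ := hd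
    rw [hz, hf]
  · push Not at hd
    rw [co_ev_of_not _ hd]
    have h0 : d ≠ 0 := fun h => hd 0 (by rw [h, zero_smul])
    refine (in1_zer p a).supp d h0 (fun h => ?_)
    obtain ⟨k, i, hk, hi, hki⟩ := hp.sgn h h0
    obtain ⟨l, hl⟩ := hmul d ⟨i, by
      rw [← hki]
      calc d = 1 • d := (one_smul _ _).symm
        _ ≤ k • d := by
          obtain ⟨r, rfl⟩ := Nat.exists_eq_add_of_le hk
          rw [add_smul]
          exact le_self_add⟩
    exact hd l hl

/-- the full bend at the plain wall is a power of `v`. -/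
theorem full_bend {c : ι →₀ ℕ} (hc0 : c ≠ 0) (hq : Dilog344.QReg ((T.v : R) ^ 2))
    {m : ι →₀ ℕ} {K : ℕ} (hK : T.β m c - T.β c m = 2 * K) :
    ∃ u : Rˣ, (plain T c * Y T m * inv (plain T c)).co (m + K • c) = (u : R) := by
  classical
  have hc := nsmul_inj hc0
  have h1 : inv (plain T c) = dili T c true 1 := by
    rw [plain_eq_dil hq]
    exact inv_eq_of_mul (co_dil_zero hc _ _) (dil_mul_dili hc hq _ _)
  rw [h1, plain_eq_dil hq]
  have h2 : ∀ d, (Y T m).co d ≠ 0 → T.β d c - T.β c d = 2 * K := by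
    intro d hd
    by_cases h : d = m
    · rw [h]; exact hK
    · exact absurd (co_mono_ne h 1) hd
  rw [dil_mul_mul_dili hc hq true 1 h2]
  obtain ⟨b, hb⟩ := Dilog344.coeff_XF_top (v := T.v) 1 K
  have h3 : (Y T m * ev T c (Dilog344.XF T.v true 1 K)).co (m + K • c) =
      wt T m (K • c) * (ev T c (Dilog344.XF T.v true 1 K)).co (K • c) := by
    rw [co_mul, Finset.sum_eq_single (m, K • c)]
    · rw [Y, co_mono_self, one_mul]
    · rintro ⟨a, b⟩ hp hne
      rw [HasAntidiagonal.mem_antidiagonal] at hp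
      simp only at hp ⊢
      by_cases ha : a = m
      · exfalso
        apply hne
        subst ha
        rw [add_left_cancel hp]
      · rw [Y, co_mono_ne ha]; ring
    · intro h; exact absurd (by simp [HasAntidiagonal.mem_antidiagonal]) h
  have hpw : ∀ k : ℕ, ∃ w : Rˣ, pw T c k = (w : R) := by
    intro k
    induction k with
    | zero => exact ⟨1, by simp [pw]⟩
    | succ k ih =>
      obtain ⟨w, hw⟩ := ih
      exact ⟨w * T.v ^ (T.β (k • c) c), by rw [pw, hw, wt, Units.val_mul]⟩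
  obtain ⟨w, hw⟩ := hpw K
  rw [h3, co_ev_nsmul hc, hb, hw]
  exact ⟨T.v ^ (T.β m (K • c)) * (T.v ^ b * w), by rw [wt, Units.val_mul, Units.val_mul]⟩

/-- `lex (p, η)` is injective if the kernel of `p` is the ray of `c` and `η c > 0`. -/
theorem KerRay.lexF_injective {V W : Type} [AddCommGroup V] [LinearOrder V] [IsOrderedAddMonoid V]
    [AddCommGroup W] [LinearOrder W] [IsOrderedAddMonoid W]
    {p : (ι →₀ ℕ) →+ V} {c : ι →₀ ℕ} (h : KerRay p c) {η : (ι →₀ ℕ) →+ W} (hη : 0 < η c) :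
    Function.Injective (lexF p η) := by
  intro a b hab
  rw [lexF_inj] at hab
  obtain ⟨k, i, j, hk, hij⟩ := h.2.2 a b hab.1
  have h1 : k • η a + i • η c = k • η b + j • η c := by
    rw [← map_nsmul, ← map_nsmul, ← map_nsmul, ← map_nsmul, ← map_add, ← map_add, hij]
  rw [hab.2] at h1
  have h2 : i • η c = j • η c := add_left_cancel h1
  have h3 : i = j := (nsmul_left_strictMono hη).injective h2
  subst h3
  have h4 : k • a = k • b := add_right_cancel hij
  ext t
  have h5 := DFunLike.congr_fun h4 t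
  simp only [Finsupp.smul_apply, smul_eq_mul] at h5
  exact Nat.eq_of_mul_eq_mul_left hk h5

/-- the hypotheses of the transport block. -/
structure TransHyp (s : (ι →₀ ℕ) →+ (ι →₀ ℕ) →+ ℤ) (P : Subsemiring R) (C : AddSubmonoid R)
    (a F : TPS T) : Prop where
  skew : ∀ a b, s a b = - s b a
  sym : ∀ d e, s d e = 0 → T.β d e = T.β e d
  one : a.co 0 = 1
  cross : CrossPos s P a
  mul : ∀ p ∈ P, ∀ c ∈ C, p * c ∈ C
  term : ∀ g, (conj (s g) a F).co g ∈ C

/-- `C` is salient. -/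
def Salient (C : AddSubmonoid R) : Prop := ∀ c ∈ C, ∀ d ∈ C, c + d = 0 → c = 0

variable {C : AddSubmonoid R} {a F : TPS T}

theorem TransHyp.pos (H : TransHyp s P C a F) {V : Type} [AddCommGroup V] [LinearOrder V]
    [IsOrderedAddMonoid V] {x : (ι →₀ ℕ) →+ V} (hx : Function.Injective x) (m : ι →₀ ℕ) :
    (conj x a F).co m ∈ C :=
  (trans_pos H.skew H.sym H.one H.cross F C H.mul m (fun g _ => H.term g) x hx).1

theorem TransHyp.sub_term (H : TransHyp s P C a F) {V : Type} [AddCommGroup V] [LinearOrder V]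
    [IsOrderedAddMonoid V] {x : (ι →₀ ℕ) →+ V} (hx : Function.Injective x) (m : ι →₀ ℕ) :
    (conj x a F).co m - (conj (s m) a F).co m ∈ C :=
  (trans_pos H.skew H.sym H.one H.cross F C H.mul m (fun g _ => H.term g) x hx).2

/-- **(N1)** -/
theorem TransHyp.n1 (H : TransHyp s P C a F) (hsal : Salient C) {g : ι →₀ ℕ}
    (hg : (conj (s g) a F).co g ≠ 0) {V : Type} [AddCommGroup V] [LinearOrder V]
    [IsOrderedAddMonoid V] {x : (ι →₀ ℕ) →+ V} (hx : Function.Injective x) :
    (conj x a F).co g ≠ 0 := by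
  intro h
  have h1 := H.sub_term hx g
  rw [h] at h1
  exact hg (hsal _ (H.term g) _ h1 (by ring))

/-- **(N2)**: monotonicity along the flow line of `m`, real functionals. -/
theorem TransHyp.mono_line (H : TransHyp s P C a F) (m : ι →₀ ℕ) {x y : (ι →₀ ℕ) →+ ℝ}
    (hx : Function.Injective x) {t : ℝ} (ht : 0 ≤ t)
    (hxy : ∀ e, y e = x e + t * (s m e : ℝ)) (hy : ∀ e ≤ m, y e = 0 → e = 0) :
    (conj x a F).co m - (conj y a F).co m ∈ C := by
  classical
  have habs : ∀ e, ((s m e).natAbs : ℝ) = |(s m e : ℝ)| := by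
    intro e
    rw [← Int.cast_abs, Int.abs_eq_natAbs]
    simp
  refine (tdata H.skew H.one H.cross F).mono C H.mul m (fun e _ V _ _ _ x hx => H.pos hx e) y
    ((Finset.Iic m).filter (fun e => Opp x (s m) e ∧ |x e| < t * |(s m e : ℝ)|)).card x
    ((Finset.Iic m).filter (fun e => Opp x (s m) e ∧ |x e| < t * |(s m e : ℝ)|)) rfl hx
    ?_ ?_ ?_ ?_
  · intro e he
    rw [Finset.mem_filter, Finset.mem_Iic] at he
    exact ⟨he.1, he.2.1⟩
  · intro a ha b hb hbo hble
    rw [Finset.mem_filter, Finset.mem_Iic] at ha ⊢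
    refine ⟨hb, hbo, ?_⟩
    unfold Le at hble
    rw [nsmul_eq_mul, nsmul_eq_mul, habs, habs] at hble
    have h1 : 0 < |(s m a : ℝ)| := abs_pos.2 (by exact_mod_cast ha.2.1.ne_zero)
    have h2 : 0 < |(s m b : ℝ)| := abs_pos.2 (by exact_mod_cast hbo.ne_zero)
    have h3 := ha.2.2
    have h4 : |(s m a : ℝ)| * |x b| < |(s m a : ℝ)| * (t * |(s m b : ℝ)|) := by
      calc |(s m a : ℝ)| * |x b| ≤ |(s m b : ℝ)| * |x a| := hble
        _ < |(s m b : ℝ)| * (t * |(s m a : ℝ)|) := mul_lt_mul_of_pos_left h3 h2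
        _ = _ := by ring
    exact lt_of_mul_lt_mul_left h4 h1.le
  · intro e he heE
    by_cases he0 : e = 0
    · subst he0; simp [SameSign]
    have hx0 : x e ≠ 0 := fun h => he0 (hx (by rw [h, map_zero]))
    have hy0 : y e ≠ 0 := fun h => he0 (hy e he h)
    have hnE : Opp x (s m) e → t * |(s m e : ℝ)| ≤ |x e| := by
      intro ho
      by_contra hc
      exact heE (by rw [Finset.mem_filter, Finset.mem_Iic]; exact ⟨he, ho, not_le.1 hc⟩)
    have hye := hxy e
    rcases lt_or_gt_of_ne hx0 with h | h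
    · have h2 : y e ≤ 0 := by
        rcases le_or_gt (s m e) 0 with h1 | h1
        · have : t * (s m e : ℝ) ≤ 0 :=
            mul_nonpos_of_nonneg_of_nonpos ht (by exact_mod_cast h1)
          linarith
        · have h3 := hnE (Or.inr ⟨h, h1⟩)
          have h1' : (0 : ℝ) < (s m e : ℝ) := by exact_mod_cast h1
          rw [abs_of_pos h1', abs_of_neg h] at h3
          linarith
      have h4 : y e < 0 := lt_of_le_of_ne h2 hy0
      exact ⟨⟨fun h' => absurd h' (not_lt.2 h.le), fun h' => absurd h' (not_lt.2 h4.le)⟩,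
        ⟨fun _ => h4, fun _ => h⟩⟩
    · have h2 : 0 ≤ y e := by
        rcases le_or_gt 0 (s m e) with h1 | h1
        · have : 0 ≤ t * (s m e : ℝ) := mul_nonneg ht (by exact_mod_cast h1)
          linarith
        · have h3 := hnE (Or.inl ⟨h, h1⟩)
          have h1' : (s m e : ℝ) < 0 := by exact_mod_cast h1
          rw [abs_of_neg h1', abs_of_pos h] at h3
          linarith
      have h4 : 0 < y e := lt_of_le_of_ne h2 hy0.symm
      exact ⟨⟨fun _ => h4, fun _ => h⟩,
        ⟨fun h' => absurd h' (not_lt.2 h.le), fun h' => absurd h' (not_lt.2 h4.le)⟩⟩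
  · intro e he
    rw [Finset.mem_filter, Finset.mem_Iic] at he
    obtain ⟨_, ho, h3⟩ := he
    have hye := hxy e
    rcases ho with ⟨h1, h2⟩ | ⟨h1, h2⟩
    · have h1' : (s m e : ℝ) < 0 := by exact_mod_cast h2
      rw [abs_of_neg h1', abs_of_pos h1] at h3
      have h4 : y e < 0 := by linarith
      exact ⟨⟨fun h => absurd h (not_lt.2 h4.le), fun h => absurd h (not_lt.2 h1.le)⟩,
        ⟨fun _ => h1, fun _ => h4⟩⟩
    · have h1' : (0 : ℝ) < (s m e : ℝ) := by exact_mod_cast h2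
      rw [abs_of_pos h1', abs_of_neg h1] at h3
      have h4 : 0 < y e := by linarith
      exact ⟨⟨fun _ => h1, fun _ => h4⟩,
        ⟨fun h => absurd h (not_lt.2 h4.le), fun h => absurd h (not_lt.2 h1.le)⟩⟩

theorem TransHyp.n2 (H : TransHyp s P C a F) (hsal : Salient C) (m : ι →₀ ℕ)
    {x y : (ι →₀ ℕ) →+ ℝ} (hx : Function.Injective x) (hy : Function.Injective y) {t : ℝ}
    (ht : 0 ≤ t) (hxy : ∀ e, y e = x e + t * (s m e : ℝ)) (h : (conj y a F).co m ≠ 0) :
    (conj x a F).co m ≠ 0 := by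
  intro h0
  have h1 := H.mono_line m hx ht hxy (fun e _ he => hy (by rw [he, map_zero]))
  rw [h0] at h1
  exact h (hsal _ (H.pos hy m) _ h1 (by ring))

/-- **(N3)**: crossing of a wall with full bend. -/
theorem TransHyp.n3 (H : TransHyp s P C a F) (hsal : Salient C)
    {p : (ι →₀ ℕ) →+ ℝ} {c : ι →₀ ℕ} (hp : KerRay p c) {η : (ι →₀ ℕ) →+ ℝ}
    (hη : 0 < η c) (m : ι →₀ ℕ) (k : ℕ) (hm : 0 < s m c)
    (hu : ∃ u : Rˣ, (zer p a * Y T m * inv (zer p a)).co (m + k • c) = (u : R)) :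
    ∃ d : ℝ, 0 < d ∧ ∀ ε, 0 < ε → ε < d → (conj (pert p η ε) a F).co m ≠ 0 →
      (conj (pert p (-η) ε) a F).co (m + k • c) ≠ 0 := by
  have hcc : s c c = 0 := by have := H.skew c c; omega
  have hm' : 0 < s (m + k • c) c := by
    rw [map_add, AddMonoidHom.add_apply, map_nsmul, AddMonoidHom.nsmul_apply, hcc, smul_zero,
      add_zero]
    exact hm
  obtain ⟨d1, hd1, h1⟩ := exists_pert p η (Finset.Iic (m + k • c))
  obtain ⟨d2, hd2, h2⟩ := exists_pert p (-η) (Finset.Iic (m + k • c))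
  refine ⟨min d1 d2, lt_min hd1 hd2, fun ε h0 hε hne hcon => ?_⟩
  have hinj := hp.lexF_injective hη
  have hle : m ≤ m + k • c := le_self_add
  have e1 : ∀ e ≤ m + k • c, (conj (lexF p η) a F).co e = (conj (pert p η ε) a F).co e := by
    intro e he
    refine conj_congr _ _ H.one F e (fun b hb => ?_)
    rw [lexF_pos, (h1 ε h0 (hε.trans_le (min_le_left _ _)) b
      (Finset.mem_Iic.2 (hb.trans he))).1]
  have e2 : (conj (lexF p (-η)) a F).co (m + k • c) =
      (conj (pert p (-η) ε) a F).co (m + k • c) := by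
    refine conj_congr _ _ H.one F _ (fun b hb => ?_)
    rw [lexF_pos, (h2 ε h0 (hε.trans_le (min_le_right _ _)) b (Finset.mem_Iic.2 hb)).1]
  have h3 := bend H.skew H.one H.cross F C H.mul p c hp η hη (m + k • c) hm'
    (lexF p η) (lexF p (-η)) (fun e _ => lexF_pos) (fun e _ => by rw [lexF_pos]; simp)
    (fun e _ => H.pos hinj e) m hle
  rw [e1 m hle, e2, hcon, zero_sub] at h3
  have h4 : (zer p a * Y T m * inv (zer p a)).co (m + k • c) *
      (conj (pert p η ε) a F).co m ∈ C := by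
    refine H.mul _ (CrossPos.mem_pos H.skew H.cross hp hm' m) _ ?_
    rw [← e1 m hle]
    exact H.pos hinj m
  have h5 := hsal _ h4 _ h3 (by ring)
  obtain ⟨u, hu⟩ := hu
  rw [hu] at h5
  exact hne (by simpa using h5)

/-- **(N3)** at a plain simple wall, `k = s m c`. -/
theorem TransHyp.n3_plain (H : TransHyp s P C a F) (hsal : Salient C)
    (hq : Dilog344.QReg ((T.v : R) ^ 2)) (j : ι)
    (hpl : ∀ k : ℕ, a.co (k • Finsupp.single j 1) =
      (plain T (Finsupp.single j 1)).co (k • Finsupp.single j 1))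
    {p : (ι →₀ ℕ) →+ ℝ} (hp : KerRay p (Finsupp.single j 1)) {η : (ι →₀ ℕ) →+ ℝ}
    (hη : 0 < η (Finsupp.single j 1)) (m : ι →₀ ℕ) (k : ℕ)
    (hk : T.β m (Finsupp.single j 1) - T.β (Finsupp.single j 1) m = 2 * k)
    (hm : 0 < s m (Finsupp.single j 1)) :
    ∃ d : ℝ, 0 < d ∧ ∀ ε, 0 < ε → ε < d → (conj (pert p η ε) a F).co m ≠ 0 →
      (conj (pert p (-η) ε) a F).co (m + k • Finsupp.single j 1) ≠ 0 := by
  refine H.n3 hsal hp hη m k hm ?_
  rw [zer_eq_ev_of_simple H.one j _ hpl hp]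
  exact full_bend hp.1 hq hk

/-- **(N4)** -/
theorem conj_eq_self {V : Type} [AddCommGroup V] [LinearOrder V] [IsOrderedAddMonoid V]
    {x : (ι →₀ ℕ) →+ V} {a : TPS T} (h : In1 (fun d => x d ≤ 0) a) (F : TPS T) :
    conj x a F = F := by
  rw [conj, pos_of_nonpos x h, cj_one]

end

end Crest.Agent.R059.Trans569
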