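import Crest.Agent.R059.PL1_547
import Crest.Agent.R059.Thin4c_613
import Crest.Agent.R059.ThinEq_494
import Crest.Agent.R059.ThinVal_971
import Crest.Agent.R059.ThinB1_359

/-!
# Values of the top part (row 59, Theorem B, HALF 2, leaf (P7) = (S1))

`b : P → L` good labelling.  If the growth of `x` at all good labellings `g'` is `≤ NF g' + g`
(strictly at the proper refinements of `b`) then `top (NF b + g) (sh b x) = DP b * t` with `t`
homogeneous of degree `g` and all the lifts of the coefficients of `t` in `V_b`.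
-/

set_option autoImplicit false
set_option linter.unusedSectionVars false

open MvPolynomial Finset

namespace Crest.Agent.R059.Val944

open Crest.Agent.R059.Thin613 Crest.Agent.R059.ThinEq494

section A

variable {P : Type} [Fintype P] [DecidableEq P] {F : Type*} [CommRing F]
variable {V : Type*} [AddCommGroup V] [LinearOrder V] [IsOrderedAddMonoid V]
variable {L : Type} [Fintype L] [LinearOrder L]

theorem prod_pairs {M : Type*} [CommMonoid M] (b : P → L) (u : L → L → M) (arr : P → P → ℕ) :
    ∏ x ∈ (univ : Finset (P × P)).filter (fun x => b x.1 < b x.2), (u (b x.1) (b x.2)) ^ arr x.1 x.2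
      = ∏ e ∈ ThinDiv971.prs L, (u e.1 e.2) ^ ThinDiv971.arrL arr b e.1 e.2 := by
  classical
  rw [← Finset.prod_fiberwise_of_maps_to (t := ThinDiv971.prs L) (g := fun x => (b x.1, b x.2))]
  · refine Finset.prod_congr rfl fun e he => ?_
    rw [ThinDiv971.mem_prs] at he
    have h1 : ∀ x ∈ ((univ : Finset (P × P)).filter (fun x => b x.1 < b x.2)).filter
        (fun x => (b x.1, b x.2) = e), (u (b x.1) (b x.2)) ^ arr x.1 x.2
          = (u e.1 e.2) ^ arr x.1 x.2 := by
      intro x hx
      rw [Finset.mem_filter] at hx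
      rw [← hx.2]
    rw [Finset.prod_congr rfl h1, Finset.prod_pow_eq_pow_sum]
    congr 1
    unfold ThinDiv971.arrL
    rw [← Finset.sum_product']
    refine Finset.sum_congr ?_ fun _ _ => rfl
    ext ⟨a, c⟩
    simp only [Finset.mem_filter, Finset.mem_univ, true_and, Finset.mem_product, mem_fib,
      Prod.ext_iff]
    constructor
    · rintro ⟨-, h⟩; exact h
    · rintro ⟨h2, h3⟩
      exact ⟨by rw [h2, h3]; exact he, h2, h3⟩
  · intro x hx
    rw [Finset.mem_filter] at hx
    rw [ThinDiv971.mem_prs]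
    exact hx.2

theorem DP_eq_dpr (A : Type*) [CommRing A] (arr : P → P → ℕ) (b : P → L) :
    DP A arr b = ThinDiv971.dpr A arr b := by
  unfold DP ThinDiv971.dpr DivT547.dprod
  exact prod_pairs b (fun i j => (X j - X i : MvPolynomial L A)) arr

theorem NR_eq_arrS (arr : P → P → ℕ) (b : P → L) :
    NR arr (fun x y => b x < b y) = ThinDiv971.arrS arr b := by
  classical
  have h := prod_pairs b (fun _ _ => Multiplicative.ofAdd (1 : ℕ)) arr
  simp only [← ofAdd_nsmul, smul_eq_mul, mul_one] at h
  rw [← ofAdd_sum, ← ofAdd_sum] at h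
  unfold NR ThinDiv971.arrS
  have h2 := Multiplicative.ofAdd.injective h
  convert h2 using 2
  ext x
  simp

theorem DP_mul_inj {A : Type*} [CommRing A] (arr : P → P → ℕ) (b : P → L)
    {S S' : MvPolynomial L A} (h : DP A arr b * S = DP A arr b * S') : S = S' := by
  rw [DP_eq_dpr] at h
  exact ThinDiv971.dpr_mul_inj arr b h

theorem map_DP {A B : Type*} [CommRing A] [CommRing B] (φ : A →+* B) (arr : P → P → ℕ)
    (b : P → L) : MvPolynomial.map φ (DP A arr b) = DP B arr b := by
  unfold DP
  rw [map_prod]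
  refine Finset.prod_congr rfl fun x _ => ?_
  rw [map_pow, map_sub, map_X, map_X]

/-- **(A)** the reduced top part and its values -/
theorem coeff_values {arr : P → P → ℕ} {th : P → V} (hs : Sym arr th) {b : P → L}
    (hb : Good th b) {g : ℤ} {x : MvPolynomial P F}
    (h1 : ∀ g' : P → P, Good th g' → ud F arr th g' ((NF arr g' : ℤ) + g) x)
    (h2 : ∀ g' : P → P, Good th g' → Fine g' b → ¬ Fine b g' →
      ud F arr th g' ((NF arr g' : ℤ) + g - 1) x) :
    ∃ t : MvPolynomial L (MvPolynomial P F ⧸ JJ F arr th b),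
      Deg359.Hom g t ∧
      Deg359.top ((NF arr b : ℤ) + g) (sh F arr th b x) = DP _ arr b * t ∧
      ∀ (α : L →₀ ℕ) (w : MvPolynomial P F), Ideal.Quotient.mk (JJ F arr th b) w = coeff α t →
        InV F arr th b w := by
  classical
  have h1' : ∀ {L₂ : Type} (f₂ : P → L₂), Good th f₂ →
      ud F arr th f₂ ((NF arr f₂ : ℤ) + g) x := by
    intro L₂ f₂ hf₂
    obtain ⟨g', hg'⟩ := exists_same_P f₂
    rw [ud_congr arr th hg', NF_congr arr hg']
    exact h1 g' (hf₂.congr hg')
  obtain ⟨t, ht1, ht2, ht3⟩ := ThinVal971.top_values arr th b hb (m := (NF arr b : ℤ) + g) (x := x)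
    (h1' b hb) (by
      intro i j hij
      have hgood : Good th (ThinDiv971.mg i j ∘ b) := ThinB359.Good_comp _ hb
      have h3 := h1' (ThinDiv971.mg i j ∘ b) hgood
      have h4 := ThinDiv971.N2_merge arr th hs b hb hij.ne
      have h5 := two_mul_NF arr hs hgood
      have h6 := two_mul_NF arr hs hb
      refine ud_mono arr th _ ?_ h3
      unfold ThinDiv971.arrL
      omega)
  refine ⟨t, ?_, ?_, ?_⟩
  · have h3 : ((NF arr b : ℤ) + g) - ThinDiv971.arrS arr b = g := by
      rw [NF_eq arr hs hb, NR_eq_arrS]; ring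
    rwa [h3] at ht1
  · rw [ht2, DP_eq_dpr]
  · intro α w hw g' hg' hfine
    obtain ⟨i, hi⟩ : ∃ i : P → L, i ∘ g' = b := by
      rcases isEmpty_or_nonempty P with hP | hP
      · exact ⟨fun p => hP.elim p, funext fun p => hP.elim p⟩
      · have : Nonempty L := ⟨b (Classical.arbitrary P)⟩
        obtain ⟨i, hi⟩ := hfine.factor
        exact ⟨i, hi.symm⟩
    constructor
    · have h3 := ht3 P g' i hg' hi ((NF arr g' : ℤ) + g) (h1 g' hg') w α hw
      refine ud_mono arr th g' ?_ h3
      omega
    · intro hne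
      have h3 := ht3 P g' i hg' hi ((NF arr g' : ℤ) + g - 1) (h2 g' hg' hfine hne) w α hw
      refine ud_mono arr th g' ?_ h3
      omega

/-- the coefficients of `t` are eigenvectors -/
theorem coeff_eigen {arr : P → P → ℕ} {th : P → V} {b : P → L} {m : ℤ} {x : MvPolynomial P F}
    {t : MvPolynomial L (MvPolynomial P F ⧸ JJ F arr th b)}
    (ht : Deg359.top m (sh F arr th b x) = DP _ arr b * t)
    (σ : Equiv.Perm P) (harr : ∀ a c, arr a c = arr (σ a) (σ c)) (hth : ∀ a, th a = th (σ a))
    (hσ : ∀ a, b (σ a) = b a) {c : F} (hx : rename σ x = C c * x) (α : L →₀ ℕ)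
    (w : MvPolynomial P F) (hw : Ideal.Quotient.mk (JJ F arr th b) w = coeff α t) :
    rename σ w - C c * w ∈ JJ F arr th b := by
  have hM : Mor arr th b arr th b σ id := mor_perm σ harr hth b hσ
  have h1 := quot_coeff_div σ hM hx (D := DP _ arr b) (t := t) (m := m) (map_DP _ arr b)
    (fun y hy => DP_mul_inj arr b (by rw [hy, mul_zero])) ht α
  rw [← hw, Mor.quot_mk, ← map_mul] at h1
  rw [← Ideal.Quotient.eq_zero_iff_mem, map_sub, h1, sub_self]

end A

end Crest.Agent.R059.Val944
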