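import Crest.Agent.R059.Wall2_999
import Crest.Agent.R059.JDefs_853

/-!
# Row 59, WALL: the two dimensional input (853/269) bound to the flow theorem (helper999)
-/

set_option autoImplicit false
set_option linter.unusedSectionVars false

open Finset

namespace Crest.Agent.R059.Wall999

open TPS FlowV999

section joint

variable {ι : Type} [DecidableEq ι] {R : Type*} [CommRing R] {T : Tw (ι →₀ ℕ) R}
variable {V : Type} [AddCommGroup V] [LinearOrder V] [IsOrderedAddMonoid V]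

/-- total degree -/
noncomputable def dg : (ι →₀ ℕ) →+ ℕ := Finsupp.degree

omit [DecidableEq ι] in
theorem dg_eq_zero (a : ι →₀ ℕ) (h : dg a = 0) : a = 0 := (Finsupp.degree_eq_zero_iff a).1 h

/-- joints: rank two identity for a submonoid -/
def Plane (s : (ι →₀ ℕ) →+ (ι →₀ ℕ) →+ ℤ) (L : AddSubmonoid (ι →₀ ℕ)) : Prop :=
  (∀ u ∈ L, ∀ v ∈ L, ∀ w ∈ L, ∀ i, s u w * (v i : ℤ) = s u v * (w i : ℤ) + s v w * (u i : ℤ)) ∧
  (∀ k ∈ L, k ≠ 0 → ∀ c ∈ L, c ≠ 0 → s k c = 0 → OnRay c k)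

theorem plane_of_joint {x : (ι →₀ ℕ) →+ V} {d : ι →₀ ℕ}
    (hJ : JointAt T x d) (hd : x d = 0) : Plane T.β (AddMonoidHom.mker x) := by
  refine ⟨fun u hu v hv w hw i => ?_, fun k hk hk0 c hc hc0 h => ?_⟩
  · have h1 := hJ.1 (cz u) (cz v) (cz w) (by rw [ext_cz]; exact hu) (by rw [ext_cz]; exact hv)
      (by rw [ext_cz]; exact hw)
    have h2 := DFunLike.congr_fun h1 i
    simp only [ext2_cz, Finsupp.coe_smul, Finsupp.coe_add, Pi.add_apply, Pi.smul_apply,
      smul_eq_mul, cz_apply] at h2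
    exact h2
  · obtain ⟨a, b, ha, hab⟩ := IsJoint.par hJ (by rw [ext_cz]; exact hd)
      (k := cz k) (v := cz c) (by rw [ext_cz]; exact hk)
      (fun h0 => hk0 (cz_injective (by rw [h0, map_zero]))) (by rw [ext_cz]; exact hc)
      (by rw [ext2_cz]; exact h)
    wlog ha0 : 0 < a generalizing a b
    · exact this (-a) (-b) (neg_ne_zero.2 ha) (by rw [neg_smul, neg_smul, hab]) (by omega)
    have hb0 : 0 < b := by
      by_contra hb
      apply hc0
      ext t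
      have h4 := DFunLike.congr_fun hab t
      simp only [Finsupp.coe_smul, Pi.smul_apply, cz_apply, smul_eq_mul] at h4
      have h5 : b * (k t : ℤ) ≤ 0 :=
        mul_nonpos_of_nonpos_of_nonneg (not_lt.1 hb) (by positivity)
      have h6 : (c t : ℤ) ≤ 0 := by
        by_contra h7
        have : 0 < a * (c t : ℤ) := mul_pos ha0 (not_le.1 h7)
        omega
      simp only [Finsupp.coe_zero, Pi.zero_apply]
      omega
    refine ⟨a.toNat, b.toNat, by omega, by omega, ?_⟩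
    ext t
    have h4 := DFunLike.congr_fun hab t
    simp only [Finsupp.coe_smul, Pi.smul_apply, cz_apply, smul_eq_mul] at h4
    simp only [Finsupp.coe_smul, Pi.smul_apply, smul_eq_mul]
    have e1 : (a.toNat : ℤ) = a := Int.toNat_of_nonneg ha0.le
    have e2 : (b.toNat : ℤ) = b := Int.toNat_of_nonneg hb0.le
    have : ((a.toNat * c t : ℕ) : ℤ) = ((b.toNat * k t : ℕ) : ℤ) := by
      push_cast; rw [e1, e2]; exact h4
    exact_mod_cast this

omit [DecidableEq ι] in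
theorem Plane.rank2 {s : (ι →₀ ℕ) →+ (ι →₀ ℕ) →+ ℤ} (hs : ∀ a b, s a b = - s b a)
    {L : AddSubmonoid (ι →₀ ℕ)} (h : Plane s L) : JTwo269.Rank2 s dg L := by
  intro d hd e he k hk
  have h1 : ∀ i, s d k * (e i : ℤ) = s d e * (k i : ℤ) + s e k * (d i : ℤ) := h.1 d hd e he k hk
  have h2 : s d k • cz e = s d e • cz k + s e k • cz d := by
    ext i
    simpa using h1 i
  have h3 := congrArg (ext (((Nat.castAddMonoidHom ℤ).comp dg : (ι →₀ ℕ) →+ ℤ))) h2
  simp only [map_add, map_zsmul, ext_cz, smul_eq_mul, AddMonoidHom.comp_apply,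
    Nat.coe_castAddMonoidHom] at h3
  rw [hs k d]
  linarith

omit [DecidableEq ι] in
theorem Plane.par {s : (ι →₀ ℕ) →+ (ι →₀ ℕ) →+ ℤ} {L : AddSubmonoid (ι →₀ ℕ)} (h : Plane s L) :
    ∀ k ∈ L, ∀ c ∈ L, k ≠ 0 → s k c = 0 → dg c ≤ dg k → c ≤ k := by
  intro k hk c hc hk0 hkc hle
  by_cases hc0 : c = 0
  · rw [hc0]; exact zero_le
  obtain ⟨i, j, hi, hj, hij⟩ := h.2 k hk hk0 c hc hc0 hkc
  have h1 : i * dg c = j * dg k := by
    have := congrArg dg hij
    simpa only [map_nsmul, smul_eq_mul] using this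
  have hdk : 0 < dg k := Nat.pos_of_ne_zero fun h0 => hk0 (dg_eq_zero k h0)
  have hji : j ≤ i := by
    by_contra hcon
    have h2 : i * dg k < j * dg k := Nat.mul_lt_mul_of_pos_right (not_le.1 hcon) hdk
    have h3 : i * dg c ≤ i * dg k := Nat.mul_le_mul_left i hle
    omega
  intro t
  have h4 := DFunLike.congr_fun hij t
  simp only [Finsupp.coe_smul, Pi.smul_apply, smul_eq_mul] at h4
  have h5 : i * c t ≤ i * k t := by rw [h4]; exact Nat.mul_le_mul_right _ hji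
  exact Nat.le_of_mul_le_mul_left h5 hi

end joint

section bind

variable {ι : Type} [DecidableEq ι] {R : Type*} [CommRing R] [TopologicalSpace R]
  {T : Tw (ι →₀ ℕ) R}
variable {V : Type} [AddCommGroup V] [LinearOrder V] [IsOrderedAddMonoid V]

/-- at a joint the positive sets of 853 are those of the ray. -/
theorem DT_eq_DTr (hs : ∀ a b, T.β a b = - T.β b a) (Q : (ι →₀ ℕ) → ZMod 2)
    {x : (ι →₀ ℕ) →+ V} (hP : Plane T.β (AddMonoidHom.mker x)) {k : ι →₀ ℕ} (hk : x k = 0)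
    (hk0 : k ≠ 0) : DT T Q (AddMonoidHom.mker x) T.β k = DTr (QDil T Q) k := by
  have : RayGen T Q (AddMonoidHom.mker x) T.β k = RGen (QDil T Q) k := by
    ext f
    constructor
    · rintro ⟨c, a, hc, hc0, hkc, rfl⟩
      exact ⟨c, a, hP.2 k hk hk0 c hc hc0 hkc, rfl⟩
    · rintro ⟨c, a, hc, rfl⟩
      refine ⟨c, a, hc.apply_eq_zero hk, hc.ne_zero hk0, ?_, rfl⟩
      have h1 : T.β k k = 0 := by have := hs k k; omega
      exact hc.apply_eq_zero (x := T.β k) h1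
  rw [DT, DTr, this]

variable [IsTopologicalRing R] [T1Space R]

/-- the two dimensional positivity in the form consumed by `wall`. -/
theorem h2D_of_jmain (hs : ∀ a b, T.β a b = - T.β b a) (Q : (ι →₀ ℕ) → ZMod 2)
    (hJ : ∀ L : AddSubmonoid (ι →₀ ℕ), Plane T.β L → JMAIN T L T.β (QDil T Q) (DT T Q L T.β))
    (A : TPS T)
    (V : Type) [AddCommGroup V] [LinearOrder V] [IsOrderedAddMonoid V]
    (x : (ι →₀ ℕ) →+ V) (d : ι →₀ ℕ) (hd0 : d ≠ 0) (hJt : JointAt T x d) (hd : x d = 0)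
    (H : ∀ k ≤ d, k ≠ 0 → x k = 0 → PosBox (QDil T Q) k (zer (T.β k) (zer x A))) :
    PosBox (QDil T Q) d (zer (- T.β d) (zer x A)) := by
  have hP := plane_of_joint hJt hd
  obtain ⟨f, hf, hfa⟩ := JTwo269.jtwod_DT (L := AddMonoidHom.mker x) (ht := dg) (T := T)
    (s := T.β) dg_eq_zero (fun a _ b _ => hs a b) (hP.rank2 hs) hP.par (hJ _ hP) (a := zer x A)
    ((in1_zer x A).mono fun _ _ h => h) (d := d) hd hd0 (fun k hk hk0 hkd => by
      obtain ⟨f, hf, hfa⟩ := H k hkd hk0 hk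
      rw [← DT_eq_DTr hs Q hP hk hk0] at hf
      exact ⟨f, hf, fun c hc => (hfa c hc).symm⟩)
  rw [DT_eq_DTr hs Q hP hd hd0] at hf
  exact ⟨f, hf, fun c hc => (hfa c hc).symm⟩

theorem in1_QDil' (Q : (ι →₀ ℕ) → ZMod 2) (c : ι →₀ ℕ) (a : ℤ) (hc : c ≠ 0) :
    In1 (fun e => OnRay e c) (QDil T Q c a) := by
  refine ⟨co_dil_zero (nsmul_inj hc) _ _, fun d hd hP => ?_⟩
  by_contra hne
  obtain ⟨k, hk⟩ := exists_of_co_ev_ne hne
  apply hP
  rw [hk]
  exact onRay_nsmul (Nat.pos_of_ne_zero fun h => hd (by rw [hk, h, zero_smul])) c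

/-- **WALLS** in the frozen language. -/
theorem wall_of_jmain [IsDomain R] (hs : ∀ a b, T.β a b = - T.β b a) (h : (ι →₀ ℕ) →+ R)
    (hreg : ∀ d, d ≠ 0 → h d ≠ 0) (Q : (ι →₀ ℕ) → ZMod 2)
    (hJ : ∀ L : AddSubmonoid (ι →₀ ℕ), Plane T.β L → JMAIN T L T.β (QDil T Q) (DT T Q L T.β))
    (nd : ι → TPS T) (hnd : ∀ i, nd i ∈ DTr (QDil T Q) (Finsupp.single i 1))
    {A : TPS T} (hA : PlainData h nd A)
    (V : Type) [AddCommGroup V] [LinearOrder V] [IsOrderedAddMonoid V]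
    (x : (ι →₀ ℕ) →+ V) (c : ι →₀ ℕ) (hc : Trans569.KerRay x c) :
    zer x A ∈ DTr (QDil T Q) c :=
  wall hs h hreg (QDil T Q) (fun c a hc => in1_QDil' Q c a hc) nd hnd hA
    (fun V _ _ _ x d hd0 hJt hd H => h2D_of_jmain hs Q hJ A V x d hd0 hJt hd H) V x c hc

end bind

end Crest.Agent.R059.Wall999
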